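import Crest.Agent.R109.AtomsAux2

/-! Row 109, task D3: from an intertwiner to a normalising partial isometry. -/

set_option autoImplicit false
set_option linter.unusedSectionVars false

noncomputable section

namespace Crest.Agent.R109.AtomsAux

open Filter Topology MeasureTheory
open scoped ComplexOrder ComplexConjugate Classical

universe u

variable {𝓜 : Type u} [CStarAlgebra 𝓜] [PartialOrder 𝓜] [StarOrderedRing 𝓜]

variable {R : Reg 𝓜} {Ω : Type*} [TopologicalSpace Ω] [CompactSpace Ω] [MeasurableSpace Ω]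
  [BorelSpace Ω] {ev : 𝓜 → Ω → ℂ} {μ : Measure Ω}

theorem conj_mem_of_intertwine (W : WS 𝓜) {y : 𝓜}
    (h : ∀ b ∈ W.A, IsStarProjection b → ∃ s ∈ W.A, IsStarProjection s ∧ b * y = y * s)
    {a : 𝓜} (ha : a ∈ W.A) : y * a * star y ∈ W.A := by
  refine W.mem_of_commute_proj fun b hb hp => ?_
  obtain ⟨s, hs, hq, hby⟩ := h b hb hp
  have h1 : star y * b = s * star y := by
    have := congrArg star hby
    rwa [star_mul, star_mul, hp.isSelfAdjoint.star_eq, hq.isSelfAdjoint.star_eq] at this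
  calc b * (y * a * star y) = b * y * a * star y := by noncomm_ring
    _ = y * (s * a) * star y := by rw [hby]; noncomm_ring
    _ = y * a * (s * star y) := by rw [W.comm s hs a ha]; noncomm_ring
    _ = y * a * star y * b := by rw [← h1]; noncomm_ring

theorem conj_nonneg' {y b : 𝓜} (hp : IsStarProjection b) : 0 ≤ y * b * star y :=
  star_right_conjugate_nonneg hp.nonneg y

theorem mul_star_eq {a y p : 𝓜} (hp : IsStarProjection p) :
    a * y * p * star (a * y * p) = a * (y * p * star y) * star a := by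
  rw [star_mul, star_mul, hp.isSelfAdjoint.star_eq]
  calc a * y * p * (p * (star y * star a)) = a * y * (p * p) * (star y * star a) := by
        noncomm_ring
    _ = a * (y * p * star y) * star a := by rw [hp.isIdempotentElem.eq]; noncomm_ring

theorem eq_zero_of_ev (hG : IsGel R ev μ) {y a p : 𝓜} (ha : a ∈ R.A) (hp : IsStarProjection p)
    (hk : y * p * star y ∈ R.A)
    (h : ∀ χ, ev a χ = 0 ∨ (ev (y * p * star y) χ).re = 0) : a * y * p = 0 := by
  rw [← CStarRing.mul_star_self_eq_zero_iff, mul_star_eq hp]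
  have ha' : star a ∈ R.A := star_mem ha
  refine hG.eq_of_ev (R.A.mul_mem (R.A.mul_mem ha hk) ha') R.A.zero_mem fun χ => ?_
  rw [hG.ev_zero, hG.ev_mul_right ha', hG.ev_mul_left ha]
  rcases h χ with h | h
  · rw [h]; simp
  · rw [ev_sa hG (conj_nonneg' hp).isSelfAdjoint, h]; simp

/-- The spectral gap of `y b y⋆`. -/
theorem gap (hG : IsGel R ev μ) {y : 𝓜} {θ : 𝓜 → 𝓜} {η : ℝ}
    (hθ : ∀ b ∈ R.A, IsStarProjection b → θ b ∈ R.A ∧ IsStarProjection (θ b) ∧
      b * y = y * θ b ∧ ∀ χ, ev (θ b) χ = 1 → η ≤ (ev (star y * y) χ).re)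
    {b : 𝓜} (hb : b ∈ R.A) (hp : IsStarProjection b) (χ : Ω) :
    (ev (y * b * star y) χ).re = 0 ∨ η ≤ (ev (y * b * star y) χ).re := by
  have hkA : y * b * star y ∈ R.A := conj_mem_of_intertwine R.toWS
    (fun b hb hp => ⟨θ b, (hθ b hb hp).1, (hθ b hb hp).2.1, (hθ b hb hp).2.2.1⟩) hb
  have hk0 : 0 ≤ y * b * star y := conj_nonneg' hp
  by_contra hcon
  push Not at hcon
  obtain ⟨hne, hlt⟩ := hcon
  obtain ⟨κ, hκ1, hκ2⟩ := exists_between hlt
  have hκ0 : 0 ≤ κ := (re_nonneg hG hk0 χ).trans hκ1.le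
  obtain ⟨s, hsA, hsp, hs⟩ := exists_proj_f hG
    (f := fun χ => κ - (ev (y * b * star y) χ).re) (continuous_const.sub (re_cont hG _))
  have hs1 : ev s χ = 1 := by
    rcases hs χ with ⟨h1, -⟩ | ⟨-, h1⟩
    · exact h1
    · linarith
  obtain ⟨t1, t2, t3, t4⟩ := hθ s hsA hsp
  have huu : s * y * b * star (s * y * b) ≤ κ • (1 : 𝓜) := by
    refine le_of_re hG ?_ (real_smul_mem _ _ R.A.one_mem) (IsSelfAdjoint.mul_star_self _)
      (sa_smul _ (IsSelfAdjoint.one 𝓜)) fun χ' => ?_
    · rw [mul_star_eq hp, hsp.isSelfAdjoint.star_eq]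
      exact R.A.mul_mem (R.A.mul_mem hsA hkA) hsA
    · rw [mul_star_eq hp, hsp.isSelfAdjoint.star_eq, re_mul' hG hsA hsp.isSelfAdjoint,
        re_mul hG hsA hsp.isSelfAdjoint, re_smul hG, hG.ev_one]
      rcases hs χ' with ⟨h1, h2⟩ | ⟨h1, -⟩
      · rw [h1]; simp only [Complex.one_re, mul_one, one_mul]; linarith
      · rw [h1]; simpa using hκ0
  have hn : ‖s * y * b‖ ^ 2 ≤ κ := by
    rw [sq, ← CStarRing.norm_self_mul_star]
    refine norm_le_of_le_of_neg_le (IsSelfAdjoint.mul_star_self _) hκ0 huu ?_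
    exact (neg_nonpos.2 (mul_star_self_nonneg _)).trans (smul_nonneg hκ0 zero_le_one)
  have hθb : θ s * b = 0 := by
    by_contra hne'
    obtain ⟨χ1, hχ1⟩ := exists_one hG (R.A.mul_mem t1 hb) (R.proj_mul t1 hb t2 hp) hne'
    have hθ1 : ev (θ s) χ1 = 1 := by
      refine (hG.ev_proj t1 t2 χ1).resolve_left fun h0 => ?_
      rw [hG.ev_mul _ t1 _ hb, h0, zero_mul] at hχ1
      exact zero_ne_one hχ1
    have a1 := t4 χ1 hθ1
    have a2 := re_le_norm hG (IsSelfAdjoint.star_mul_self (s * y * b)) χ1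
    rw [CStarRing.norm_star_mul_self, ← sq] at a2
    have a3 : star (s * y * b) * (s * y * b) = θ s * b * (star y * y) * (θ s * b) := by
      rw [t3, mul_assoc y, star_mul, (R.proj_mul t1 hb t2 hp).isSelfAdjoint.star_eq]
      noncomm_ring
    rw [a3, hG.ev_mul_right (R.A.mul_mem t1 hb), hG.ev_mul_left (R.A.mul_mem t1 hb), hχ1,
      one_mul, mul_one] at a2
    linarith
  have hu0 : s * (y * b * star y) = 0 := by
    calc s * (y * b * star y) = s * y * b * star y := by noncomm_ring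
      _ = y * (θ s * b) * star y := by rw [t3]; noncomm_ring
      _ = 0 := by rw [hθb]; simp
  have := re_mul hG hsA hsp.isSelfAdjoint (y * b * star y) χ
  rw [hu0, hG.ev_zero, hs1] at this
  simp at this
  exact hne this.symm

theorem exists_norm (hG : IsGel R ev μ) {y : 𝓜} (hy : y ≠ 0) {θ : 𝓜 → 𝓜} {η : ℝ} (hη : 0 < η)
    (hθ : ∀ b ∈ R.A, IsStarProjection b → θ b ∈ R.A ∧ IsStarProjection (θ b) ∧
      b * y = y * θ b ∧ ∀ χ, ev (θ b) χ = 1 → η ≤ (ev (star y * y) χ).re) :
    ∃ v z e a : 𝓜, R.Norm v ∧ z ∈ R.A ∧ IsStarProjection z ∧ e ∈ R.A ∧ IsStarProjection e ∧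
      a ∈ R.A ∧ z * y * e ≠ 0 ∧ z * y * e = v * a := by
  have hkA : ∀ a ∈ R.A, y * a * star y ∈ R.A := fun a ha => conj_mem_of_intertwine R.toWS
    (fun b hb hp => ⟨θ b, (hθ b hb hp).1, (hθ b hb hp).2.1, (hθ b hb hp).2.2.1⟩) ha
  have hωy : 0 < (R.ω (y * star y)).re := by
    by_contra hcon
    have := R.faithful _ (mul_star_self_nonneg y)
      (pos_eq_zero_of_re R.ω (mul_star_self_nonneg y) (not_lt.1 hcon))
    exact hy (CStarRing.mul_star_self_eq_zero_iff y |>.1 this)
  obtain ⟨η', hη', hnm⟩ := near_min hG (T := fun b => y * b * star y) (fun b hb _ => hkA b hb)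
    (fun b _ hp => conj_nonneg' hp) (fun a _ b _ => by noncomm_ring)
    (γ := η * (R.ω (y * star y)).re) (mul_pos hη hωy) (fun P => by
      have h1 : y * star y = ∑ b ∈ P.cells, y * b * star y := by
        rw [← Finset.sum_mul, ← Finset.mul_sum, P.sum_cells, mul_one]
      rw [h1, map_sum, Complex.re_sum, Finset.mul_sum]
      refine Finset.sum_le_sum fun b hb => ?_
      have hA := hkA b (P.mem hb)
      have hsa := (conj_nonneg' (y := y) (P.proj hb)).isSelfAdjoint
      have hle : η • (y * b * star y) ≤ y * b * star y * (y * b * star y) := by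
        refine le_of_re hG (real_smul_mem _ _ hA) (R.A.mul_mem hA hA) (sa_smul _ hsa)
          (sa_mul R.toWS hA hA hsa hsa) fun χ => ?_
        rw [re_smul hG, re_mul hG hA hsa]
        rcases gap hG hθ (P.mem hb) (P.proj hb) χ with h | h
        · rw [h]; simp
        · exact mul_le_mul_of_nonneg_right h (hη.le.trans h)
      have := pos_re_mono R.ω hle
      rwa [pos_real_smul, Complex.re_ofReal_mul] at this)
  obtain ⟨e, heA, z, hzA, hep, hzp, hzne, h1, h2⟩ := hnm (η ^ 2 / 2) (by positivity)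
  have hbe : ∀ b ∈ R.A, IsStarProjection b → e * b ∈ R.A ∧ IsStarProjection (e * b) ∧
      e - e * b ∈ R.A ∧ IsStarProjection (e - e * b) := fun b hb hp =>
    ⟨R.A.mul_mem heA hb, R.proj_mul heA hb hep hp,
      R.A.sub_mem heA (R.A.mul_mem heA hb), proj_sub R.toWS heA hb hep hp⟩
  have hz1 : ∀ χ, ev z χ = 1 → η' ≤ (ev (y * e * star y) χ).re := fun χ hχ => by
    have := re_mono hG h1 χ
    rwa [re_smul hG, re_mul' hG hzA hzp.isSelfAdjoint, hχ, Complex.one_re, mul_one,
      mul_one] at this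
  have hz2 : ∀ b ∈ R.A, IsStarProjection b → ∀ χ, ev z χ = 1 →
      (ev (y * (e * b) * star y) χ).re = 0 ∨ (ev (y * (e - e * b) * star y) χ).re = 0 := by
    intro b hb hp χ hχ
    obtain ⟨a1, a2, a3, a4⟩ := hbe b hb hp
    have := re_mono hG (h2 (e * b) a1 a2 (by
      rw [mul_assoc, R.comm b hb e heA, ← mul_assoc, hep.isIdempotentElem.eq])) χ
    rw [re_smul hG, re_mul' hG hzA hzp.isSelfAdjoint, hχ, Complex.one_re, mul_one, mul_one,
      re_mul hG (hkA _ a1) (conj_nonneg' a2).isSelfAdjoint] at this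
    rcases gap hG hθ a1 a2 χ with g1 | g1
    · exact Or.inl g1
    rcases gap hG hθ a3 a4 χ with g2 | g2
    · exact Or.inr g2
    nlinarith [mul_le_mul g1 g2 hη.le (hη.le.trans g1)]
  set y' := z * y * e with hy'
  -- the reverse intertwining
  have hrev : ∀ b ∈ R.A, IsStarProjection b →
      ∃ s ∈ R.A, IsStarProjection s ∧ b * star y' = star y' * s := by
    intro b hb hp
    obtain ⟨a1, a2, a3, a4⟩ := hbe b hb hp
    obtain ⟨s, hsA, hsp, hs⟩ := exists_proj_f hG
      (f := fun χ => (ev (y * (e * b) * star y) χ).re - η / 2)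
      ((re_cont hG _).sub continuous_const)
    refine ⟨s, hsA, hsp, ?_⟩
    have u1 : (1 - s) * z * y * (e * b) = 0 := by
      refine eq_zero_of_ev hG (R.A.mul_mem (R.A.sub_mem R.A.one_mem hsA) hzA) a2 (hkA _ a1)
        fun χ => ?_
      rw [hG.ev_mul_right hzA, hG.ev_sub, hG.ev_one]
      rcases hs χ with ⟨c1, -⟩ | ⟨-, c2⟩
      · left; rw [c1]; simp
      · right
        rcases gap hG hθ a1 a2 χ with g | g
        · exact g
        · linarith
    have u2 : s * z * y * (e - e * b) = 0 := by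
      refine eq_zero_of_ev hG (R.A.mul_mem hsA hzA) a4 (hkA _ a3) fun χ => ?_
      rw [hG.ev_mul_right hzA]
      rcases hG.ev_proj hzA hzp χ with c0 | c0
      · left; rw [c0, mul_zero]
      rcases hs χ with ⟨-, c2⟩ | ⟨c1, -⟩
      · right
        rcases hz2 b hb hp χ c0 with g | g
        · linarith
        · exact g
      · left; rw [c1, zero_mul]
    have u3 : y' * b = s * y' := by
      rw [← sub_eq_zero]
      calc y' * b - s * y' = (1 - s) * z * y * (e * b) - s * z * y * (e - e * b) := by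
            rw [hy']; noncomm_ring
        _ = 0 := by rw [u1, u2, sub_zero]
    have := congrArg star u3
    rwa [star_mul y' b, star_mul s y', hp.isSelfAdjoint.star_eq,
      hsp.isSelfAdjoint.star_eq] at this
  have hconj1 : ∀ a ∈ R.A, star y' * a * y' ∈ R.A := fun a ha => by
    have := conj_mem_of_intertwine R.toWS hrev ha
    rwa [star_star] at this
  have hconj2 : ∀ a ∈ R.A, y' * a * star y' ∈ R.A := fun a ha => by
    have : y' * a * star y' = z * (y * (e * a * e) * star y) * z := by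
      rw [hy', star_mul, star_mul, hep.isSelfAdjoint.star_eq, hzp.isSelfAdjoint.star_eq]
      noncomm_ring
    rw [this]
    exact R.A.mul_mem (R.A.mul_mem hzA (hkA _ (R.A.mul_mem (R.A.mul_mem heA ha) heA))) hzA
  have hm : y' * star y' = z * (y * e * star y) * z := by
    rw [hy', mul_star_eq hep, hzp.isSelfAdjoint.star_eq]
  obtain ⟨d, hdA, hd⟩ := hG.surj
    (fun χ => (((Real.sqrt (max (ev (y * e * star y) χ).re η'))⁻¹ : ℝ) : ℂ))
    (Complex.continuous_ofReal.comp (Continuous.inv₀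
      (((re_cont hG _).max continuous_const).sqrt)
      fun χ => (Real.sqrt_pos.2 (hη'.trans_le (le_max_right _ _))).ne'))
  have hdsa : star d = d := by
    refine hG.eq_of_ev (star_mem hdA) hdA fun χ => ?_
    rw [hG.ev_star, hd, Complex.conj_ofReal]
  have hvv : d * y' * star (d * y') = z := by
    have : d * y' * star (d * y') = d * (z * (y * e * star y) * z) * d := by
      rw [star_mul, hdsa, ← hm]; noncomm_ring
    rw [this]
    refine hG.eq_of_ev (R.A.mul_mem (R.A.mul_mem hdA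
      (R.A.mul_mem (R.A.mul_mem hzA (hkA _ heA)) hzA)) hdA) hzA fun χ => ?_
    rw [hG.ev_mul_right hdA, hG.ev_mul_left hdA, hG.ev_mul_right hzA, hG.ev_mul_left hzA]
    rcases hG.ev_proj hzA hzp χ with c0 | c0
    · rw [c0]; simp
    · have c1 := hz1 χ c0
      rw [c0, hd, ev_sa hG (conj_nonneg' hep).isSelfAdjoint]
      simp only [max_eq_left c1, one_mul, mul_one]
      have c2 : 0 < (ev (y * e * star y) χ).re := hη'.trans_le c1
      have c3 := Real.sqrt_pos.2 c2
      have c4 := Real.mul_self_sqrt c2.le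
      norm_cast
      field_simp
      linarith
  have hzy : z * y' = y' := by
    rw [hy', ← mul_assoc, ← mul_assoc, hzp.isIdempotentElem.eq]
  refine ⟨d * y', z, e, star (d * y') * y', ⟨?_, fun a ha => ⟨?_, ?_⟩⟩, hzA, hzp, heA, hep, ?_,
    ?_, ?_⟩
  · rw [hvv, ← mul_assoc, R.comm z hzA d hdA, mul_assoc, hzy]
  · have : star (d * y') * a * (d * y') = star y' * (d * a * d) * y' := by
      rw [star_mul, hdsa]; noncomm_ring
    rw [this]
    exact hconj1 _ (R.A.mul_mem (R.A.mul_mem hdA ha) hdA)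
  · have : d * y' * a * star (d * y') = d * (y' * a * star y') * d := by
      rw [star_mul, hdsa]; noncomm_ring
    rw [this]
    exact R.A.mul_mem (R.A.mul_mem hdA (hconj2 a ha)) hdA
  · rw [star_mul, hdsa]
    exact hconj1 d hdA
  · intro h0
    rw [← hy'] at h0
    rw [h0] at hvv
    simp at hvv
    exact hzne hvv.symm
  · rw [← hy', ← mul_assoc, hvv, hzy]

theorem atoms (hG : IsGel R ev μ) {w : 𝓜} (hw : IsSelfAdjoint w) (hp : R.Perp w) {γ : ℝ}
    (hγ : 0 < γ) :
    ∃ P : Part R.A, ∑ e ∈ P.cells, (R.ω (R.E (w * e * w) * R.E (w * e * w))).re ≤ γ := by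
  by_contra hcon
  push Not at hcon
  obtain ⟨η, hη, hnm⟩ := near_min hG (T := fun b => R.E (w * b * w)) (fun b _ _ => R.E_mem _)
    (fun b _ hp => R.E_nonneg (by
      have := star_left_conjugate_nonneg hp.nonneg w
      rwa [hw.star_eq] at this))
    (fun a _ b _ => by rw [mul_add, add_mul, R.E_add]) hγ (fun P => (hcon P).le)
  obtain ⟨e, heA, z, hzA, hep, hzp, hzne, h1, h2⟩ := hnm (η ^ 2 / 16) (by positivity)
  obtain ⟨y, θ, hθ, hg⟩ := exists_intertwiner hG hw heA hep hzA hzp hη h1 h2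
  have hyy : ∀ χ, ev z χ = 1 → (η / 2) ^ 2 / (‖w‖ ^ 2 + 1) ≤ (ev (star y * y) χ).re := by
    intro χ hχ
    have a1 := re_mono hG (R.E_cauchy w y) χ
    rw [hw.star_eq, hG.ev_mul_right (R.E_mem _), hG.ev_star, re_smul hG, hG.ev_E, hG.ev_E,
      Complex.conj_mul', ← Complex.ofReal_pow, Complex.ofReal_re] at a1
    have a2 := (hg χ hχ).trans (Complex.re_le_norm _)
    have a3 : (η / 2) ^ 2 ≤ ‖ev (w * y) χ‖ ^ 2 := by gcongr
    have a4 := re_nonneg hG (star_mul_self_nonneg y) χ
    rw [div_le_iff₀ (by positivity)]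
    nlinarith
  have hy : y ≠ 0 := by
    rintro rfl
    obtain ⟨χ, hχ⟩ := exists_one hG hzA hzp hzne
    have := hg χ hχ
    rw [mul_zero, hG.ev_zero, Complex.zero_re] at this
    linarith
  obtain ⟨v, z', e', a, hv, hz'A, hz'p, he'A, he'p, haA, hne, heq⟩ := exists_norm hG hy (θ := θ)
    (η := (η / 2) ^ 2 / (‖w‖ ^ 2 + 1)) (by positivity) fun b hb hp =>
      ⟨(hθ b hb hp).1, (hθ b hb hp).2.1, (hθ b hb hp).2.2.1,
        fun χ hχ => hyy χ ((hθ b hb hp).2.2.2 χ hχ)⟩
  obtain ⟨t1, t2, t3, t4⟩ := hθ z' hz'A hz'p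
  have hc : R.E (w * v) ≠ 0 := by
    intro h0
    have b1 : R.E (w * (z' * y * e')) = 0 := by
      rw [heq, ← mul_assoc, R.E_mul_right haA, h0, zero_mul]
    have b2 : θ z' * e' ≠ 0 := fun h => hne (by rw [t3, mul_assoc, h, mul_zero])
    obtain ⟨χ, hχ⟩ := exists_one hG (R.A.mul_mem t1 he'A) (R.proj_mul t1 he'A t2 he'p) b2
    have hθ1 : ev (θ z') χ = 1 := by
      refine (hG.ev_proj t1 t2 χ).resolve_left fun h0 => ?_
      rw [hG.ev_mul _ t1 _ he'A, h0, zero_mul] at hχ
      exact zero_ne_one hχ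
    have b3 := hg χ (t4 χ hθ1)
    have b4 : ev (w * (z' * y * e')) χ = 0 := by rw [← hG.ev_E, b1, hG.ev_zero]
    rw [t3, mul_assoc y, ← mul_assoc, hG.ev_mul_right (R.A.mul_mem t1 he'A), hχ, mul_one] at b4
    rw [b4, Complex.zero_re] at b3
    linarith
  obtain ⟨e'', he''A, he''p, hG'', hne''⟩ := R.exists_cut hv (R.E_mem (w * v))
    (by rw [← R.E_mul_right hv.src_mem, mul_assoc, ← mul_assoc v, hv.1]) hc
  apply hne''
  have := congrArg star (hp _ hG'')
  rwa [← R.E_star, star_mul, star_star, hw.star_eq, star_zero, ← mul_assoc,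
    R.E_mul_right he''A] at this

end Crest.Agent.R109.AtomsAux
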