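import Crest.Agent.R109.RN
import Crest.Agent.R109.AtomsAux3

/-! Row 109, task D3: atoms come from normalising partial isometries. -/

set_option autoImplicit false
set_option linter.unusedSectionVars false

noncomputable section

namespace Crest.Agent.R109

open Filter Topology
open scoped ComplexOrder ComplexConjugate Classical

universe u

variable {𝓜 : Type u} [CStarAlgebra 𝓜] [PartialOrder 𝓜] [StarOrderedRing 𝓜]

/-- Near-minimal partitions. -/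
theorem Reg.near_min (R : Reg 𝓜) (T : 𝓜 → 𝓜) (hTA : ∀ e ∈ R.A, IsStarProjection e → T e ∈ R.A)
    (hT0 : ∀ e ∈ R.A, IsStarProjection e → 0 ≤ T e)
    (hTadd : ∀ e ∈ R.A, ∀ e' ∈ R.A, T (e + e') = T e + T e') {γ : ℝ} (hγ : 0 < γ)
    (h : ∀ P : Part R.A, γ ≤ ∑ e ∈ P.cells, (R.ω (T e * T e)).re) :
    ∃ η : ℝ, 0 < η ∧ ∀ δ : ℝ, 0 < δ → ∃ e ∈ R.A, ∃ z ∈ R.A, IsStarProjection e ∧
      IsStarProjection z ∧ z ≠ 0 ∧ η • z ≤ T e * z ∧
      ∀ b ∈ R.A, IsStarProjection b → b * e = b → T b * T (e - b) * z ≤ δ • z := by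
  obtain ⟨Ω, _, _, _, _, ev, μ, hG⟩ := R.exists_gel
  exact AtomsAux.near_min hG hTA hT0 hTadd hγ h

theorem Reg.atoms (R : Reg 𝓜) {w : 𝓜} (hw : IsSelfAdjoint w) (hp : R.Perp w) {γ : ℝ}
    (hγ : 0 < γ) :
    ∃ P : Part R.A, ∑ e ∈ P.cells, (R.ω (R.E (w * e * w) * R.E (w * e * w))).re ≤ γ := by
  obtain ⟨Ω, _, _, _, _, ev, μ, hG⟩ := R.exists_gel
  exact AtomsAux.atoms hG hw hp hγ

end Crest.Agent.R109
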