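import Crest.Agent.R109.NormG

/-! Row 109, task D7a: existence of the Gelfand picture. -/

set_option autoImplicit false
set_option linter.unusedSectionVars false

noncomputable section

namespace Crest.Agent.R109

open Filter Topology MeasureTheory
open scoped ComplexOrder ComplexConjugate Classical

universe u

variable {𝓜 : Type u} [CStarAlgebra 𝓜] [PartialOrder 𝓜] [StarOrderedRing 𝓜]

namespace GelX

open WeakDual
open scoped CompactlySupported

/-- A positive functional on `C(Ω, ℂ)` is given by a finite measure. -/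
theorem exists_measure {Ω : Type u} [TopologicalSpace Ω] [CompactSpace Ω] [T2Space Ω]
    [MeasurableSpace Ω] [BorelSpace Ω] (L : C(Ω, ℂ) →ₗ[ℂ] ℂ)
    (hL : ∀ f : C(Ω, ℂ), (∀ x, 0 ≤ f x) → 0 ≤ L f) :
    ∃ μ : Measure Ω, IsFiniteMeasure μ ∧ ∀ f : C(Ω, ℂ), ∫ x, f x ∂μ = L f := by
  let c : C(Ω, ℝ) → C(Ω, ℂ) := fun f => ⟨fun x => (f x : ℂ), by fun_prop⟩
  have hreal : ∀ f : C(Ω, ℝ), (((L (c f)).re : ℝ) : ℂ) = L (c f) := by
    intro f
    have e : c f = c (f ⊔ 0) - c (-f ⊔ 0) := by
      ext x
      simp only [c, ContinuousMap.coe_mk, ContinuousMap.sub_apply, ContinuousMap.sup_apply,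
        ContinuousMap.neg_apply, ContinuousMap.zero_apply]
      rw [← Complex.ofReal_sub, max_zero_sub_max_neg_zero_eq_self]
    have h1 := hL (c (f ⊔ 0)) fun x => by simp [c]
    have h2 := hL (c (-f ⊔ 0)) fun x => by simp [c]
    rw [e, map_sub]
    apply Complex.ext
    · simp
    · simp [← (Complex.nonneg_iff.1 h1).2, ← (Complex.nonneg_iff.1 h2).2]
  let Λ : C_c(Ω, ℝ) →ₚ[ℝ] ℝ :=
    PositiveLinearMap.mk₀
      { toFun := fun g => (L (c g.toContinuousMap)).re
        map_add' := fun g g' => by
          have : c (g + g').toContinuousMap = c g.toContinuousMap + c g'.toContinuousMap := by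
            ext x; simp [c]
          rw [this, map_add, Complex.add_re]
        map_smul' := fun r g => by
          have : c (r • g).toContinuousMap = (r : ℂ) • c g.toContinuousMap := by
            ext x; simp [c]
          rw [this, map_smul]
          simp }
      fun g hg => (Complex.nonneg_iff.1 (hL _ fun x => by
        have : 0 ≤ g x := hg x
        simpa [c] using this)).1
  refine ⟨RealRMK.rieszMeasure Λ, inferInstance, fun f => ?_⟩
  have hr : ∀ g : C(Ω, ℝ), ∫ x, c g x ∂(RealRMK.rieszMeasure Λ) = L (c g) := by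
    intro g
    have := RealRMK.integral_rieszMeasure Λ ⟨g, HasCompactSupport.of_compactSpace _⟩
    rw [← hreal]
    change ∫ x, ((g x : ℝ) : ℂ) ∂(RealRMK.rieszMeasure Λ) = _
    rw [integral_complex_ofReal]
    exact congrArg _ this
  have hint : ∀ g : C(Ω, ℂ), Integrable (fun x => g x) (RealRMK.rieszMeasure Λ) := fun g =>
    g.continuous.integrable_of_hasCompactSupport (HasCompactSupport.of_compactSpace _)
  let fr : C(Ω, ℝ) := ⟨fun x => (f x).re, by fun_prop⟩
  let fi : C(Ω, ℝ) := ⟨fun x => (f x).im, by fun_prop⟩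
  have e : f = c fr + Complex.I • c fi := by
    ext x
    simp [c, fr, fi, mul_comm Complex.I]
  rw [e, map_add, map_smul, ← hr, ← hr, ← integral_smul]
  exact integral_add (hint (c fr)) (hint (Complex.I • c fi))

theorem exists_gel_of (R : Reg 𝓜) (B : Type u) [CommCStarAlgebra B] (ι : B →⋆ₐ[ℂ] 𝓜)
    (hι : Function.Injective ι) (hA : ∀ a, a ∈ R.A ↔ ∃ b, ι b = a) :
    ∃ (Ω : Type u) (_ : TopologicalSpace Ω) (_ : CompactSpace Ω) (_ : MeasurableSpace Ω)
      (_ : BorelSpace Ω) (ev : 𝓜 → Ω → ℂ) (μ : Measure Ω), IsGel R ev μ := by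
  let _ : MeasurableSpace (characterSpace ℂ B) := borel _
  have : BorelSpace (characterSpace ℂ B) := ⟨rfl⟩
  choose s hs using fun y => (hA _).1 (R.E_mem y)
  have hm : ∀ b, ι b ∈ R.A := fun b => (hA _).2 ⟨b, rfl⟩
  have hsι : ∀ b, s (ι b) = b := fun b => hι (by rw [hs, R.E_of_mem (hm b)])
  let G := gelfandStarTransform B
  have hG : ∀ (f : C(characterSpace ℂ B, ℂ)) χ, χ (G.symm f) = f χ := fun f χ =>
    DFunLike.congr_fun (G.apply_symm_apply f) χ
  have hpos : ∀ b : B, (∀ χ : characterSpace ℂ B, 0 ≤ χ b) → 0 ≤ ι b := by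
    intro b hb
    let f : C(characterSpace ℂ B, ℂ) := ⟨fun χ => ((√((G b χ).re) : ℝ) : ℂ), by fun_prop⟩
    have : b = star (G.symm f) * G.symm f := by
      apply EquivLike.injective G
      rw [map_mul, map_star, G.apply_symm_apply]
      ext χ
      have h1 := Complex.nonneg_iff.1 (hb χ)
      change χ b = conj ((√((χ b).re) : ℝ) : ℂ) * ((√((χ b).re) : ℝ) : ℂ)
      rw [Complex.conj_ofReal, ← Complex.ofReal_mul, Real.mul_self_sqrt h1.1]
      exact Complex.ext (by simp) (by simp [← h1.2])
    rw [this, map_mul, map_star]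
    exact star_mul_self_nonneg _
  obtain ⟨μ, hμ, hint⟩ := exists_measure (Ω := characterSpace ℂ B)
    { toFun := fun f => R.ω (ι (G.symm f))
      map_add' := fun f g => by simp
      map_smul' := fun c f => by simp }
    fun f hf => R.ω.map_nonneg (hpos _ fun χ => by rw [hG]; exact hf χ)
  refine ⟨characterSpace ℂ B, inferInstance, inferInstance, inferInstance, inferInstance,
    fun y χ => χ (s y), μ, hμ, fun y => (G (s y)).continuous, fun y => ?_, fun y y' χ => ?_,
    fun c y χ => ?_, fun y χ => ?_, fun χ => ?_, fun a ha b hb χ => ?_, fun y hy χ => ?_,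
    fun f hf => ?_, fun a ha h => ?_, fun χ χ' h => ?_, fun y => ?_, fun v hv => ?_⟩
  · rw [← hs, hsι]
  · rw [← map_add]
    exact congrArg χ (hι (by rw [map_add, hs, hs, hs, R.E_add]))
  · rw [← smul_eq_mul, ← map_smul]
    exact congrArg χ (hι (by rw [map_smul, hs, hs, R.E_smul]))
  · rw [← RCLike.star_def, ← map_star]
    exact congrArg χ (hι (by rw [map_star, hs, hs, R.E_star]))
  · rw [← map_one ι, hsι, map_one]
  · obtain ⟨a, rfl⟩ := (hA _).1 ha
    obtain ⟨b, rfl⟩ := (hA _).1 hb
    rw [← map_mul ι, hsι, hsι, hsι, map_mul]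
  · have h0 := R.E_nonneg hy
    obtain ⟨b, hb⟩ := (hA _).1 (R.cfc_mem_A (R.E_mem y) Real.sqrt)
    have h1 : s y = star b * b := by
      apply hι
      rw [hs, map_mul, map_star, hb, (cfc_predicate _ _ : IsSelfAdjoint _).star_eq,
        ← cfc_mul _ _ (R.E y)]
      conv_lhs => rw [← cfc_id' ℝ (R.E y)]
      exact cfc_congr fun t ht => (Real.mul_self_sqrt (spectrum_nonneg_of_nonneg h0 ht)).symm
    rw [h1, map_mul, map_star]
    exact star_mul_self_nonneg _
  · refine ⟨ι (G.symm ⟨f, hf⟩), hm _, funext fun χ => ?_⟩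
    rw [hsι, hG]
    rfl
  · obtain ⟨a, rfl⟩ := (hA _).1 ha
    exact hpos a fun χ => by simpa only [hsι] using h χ
  · exact CharacterSpace.ext fun b => by simpa only [hsι] using h (ι b) (hm b)
  · have := hint (G (s y))
    refine this.trans ?_
    change R.ω (ι (G.symm (G (s y)))) = _
    rw [G.symm_apply_apply, hs, R.ω_E]
  · have hp := hv.src_proj
    obtain ⟨p, hpι⟩ := (hA _).1 hv.src_mem
    choose t ht using fun b => (hA _).1 (hv.2 _ (hm b)).1
    have hpp : p * p = p := hι (by rw [map_mul, hpι, hp.isIdempotentElem.eq])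
    have hps : star p = p := hι (by rw [map_star, hpι, hp.isSelfAdjoint.star_eq])
    have hpt : ∀ b, p * t b = t b := fun b => hι (by
      have h1 := congrArg star hv.1
      rw [star_mul, star_mul, star_star, ← mul_assoc] at h1
      rw [map_mul, hpι, ht, ← mul_assoc, ← mul_assoc, h1])
    have htm : ∀ a b, t (a * b) = t a * t b := fun a b => hι (by
      rw [map_mul, ht, ht, ht, map_mul, hv.conj_mul (hm a)])
    let θ : B →⋆ₐ[ℂ] B :=
      { toFun := fun b => t b + (1 - p) * b
        map_one' := by
          have : t 1 = p := hι (by rw [ht, map_one, mul_one, hpι])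
          rw [this]; ring
        map_mul' := fun a b => by
          rw [htm]
          linear_combination b * hpt a + a * hpt b - a * b * hpp
        map_zero' := by
          have : t 0 = 0 := hι (by rw [ht, map_zero, mul_zero, zero_mul])
          rw [this]; ring
        map_add' := fun a b => by
          have : t (a + b) = t a + t b := hι (by
            rw [map_add, ht, ht, ht, map_add, mul_add, add_mul])
          rw [this]; ring
        commutes' := fun c => by
          have : t (algebraMap ℂ B c) = algebraMap ℂ B c * p := hι (by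
            rw [ht, map_mul, hpι, AlgHomClass.commutes, ← Algebra.commutes, mul_assoc])
          rw [this]; ring
        map_star' := fun a => by
          have : t (star a) = star (t a) := hι (by
            rw [map_star, ht, ht, map_star, star_mul, star_mul, star_star, mul_assoc])
          rw [this, star_add, star_mul', star_sub, star_one, hps] }
    refine ⟨CharacterSpace.compContinuousMap θ, map_continuous _, fun a ha χ hχ => ?_⟩
    obtain ⟨a, rfl⟩ := (hA _).1 ha
    rw [← hpι, hsι] at hχ
    have h1 : χ p = 1 := mul_left_cancel₀ hχ (by rw [← map_mul, hpp, mul_one])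
    rw [hsι, ← ht, hsι]
    change χ (t a + (1 - p) * a) = _
    rw [map_add, map_mul, map_sub, map_one, h1, sub_self, zero_mul, add_zero]

end GelX

theorem Reg.exists_gel (R : Reg 𝓜) :
    ∃ (Ω : Type u) (_ : TopologicalSpace Ω) (_ : CompactSpace Ω) (_ : MeasurableSpace Ω)
      (_ : BorelSpace Ω) (ev : 𝓜 → Ω → ℂ) (μ : Measure Ω), IsGel R ev μ := by
  have := R.isClosed_A
  let _ : CommCStarAlgebra R.A :=
    { StarSubalgebra.cstarAlgebra R.A with
      mul_comm := fun a b => Subtype.ext (R.comm _ a.2 _ b.2) }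
  exact GelX.exists_gel_of R R.A R.A.subtype Subtype.val_injective fun a =>
    ⟨fun ha => ⟨⟨a, ha⟩, rfl⟩, fun ⟨b, hb⟩ => hb ▸ b.2⟩

end Crest.Agent.R109
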