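import Crest.Agent.R109.QBasic

/-! Row 109, task A2: norm bounds and zero-free regions of `Q`. -/

set_option autoImplicit false
set_option linter.unusedSectionVars false

noncomputable section

namespace Crest.Agent.R109

open Polynomial
open scoped ComplexConjugate

variable {ι : Type*} [DecidableEq ι] {r : ℕ}

theorem Bdd.mono {S T : Finset ι} {X : ι → ι → ℂ} {R : ℝ} (h : Bdd T X R) (hS : S ⊆ T) :
    Bdd S X R := by
  intro η
  have h1 := h fun v => if v ∈ S then η v else 0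
  have h2 : S = T ∩ S := (Finset.inter_eq_right.2 hS).symm
  simp only [mul_ite, mul_zero, apply_ite norm, norm_zero, ite_pow, Finset.sum_ite_mem, ← h2,
    ne_eq, OfNat.ofNat_ne_zero, not_false_eq_true, zero_pow] at h1
  exact (Finset.sum_le_sum_of_subset_of_nonneg hS fun _ _ _ => by positivity).trans h1

theorem Bdd.congr {T : Finset ι} {X X' : ι → ι → ℂ} {R : ℝ} (h : Bdd T X R)
    (hX : ∀ u ∈ T, ∀ v ∈ T, X u v = X' u v) : Bdd T X' R := by
  intro η
  refine le_of_eq_of_le (Finset.sum_congr rfl fun u hu => ?_) (h η)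
  rw [Finset.sum_congr rfl fun v hv => by rw [← hX u hu v hv]]

theorem Bdd.of_le {T : Finset ι} {X : ι → ι → ℂ} {R R' : ℝ} (h : Bdd T X R) (hR : 0 ≤ R)
    (hR' : R ≤ R') : Bdd T X R' := fun η => (h η).trans (by gcongr)

theorem Bdd.sm {T : Finset ι} {X : ι → ι → ℂ} {R : ℝ} (h : Bdd T X R) (s : ℂ) :
    Bdd T (sm s X) (‖s‖ * R) := by
  intro η
  simp only [R109.sm, mul_assoc, ← Finset.mul_sum, norm_mul, mul_pow]
  exact mul_le_mul_of_nonneg_left (h η) (by positivity)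

theorem Bdd.mask {T : Finset ι} {X : ι → ι → ℂ} {R : ℝ} (h : Bdd T X R) (c : ι → Fin r) :
    Bdd T (mask c X) R := by
  intro η
  calc ∑ u ∈ T, ‖∑ v ∈ T, R109.mask c X u v * η v‖ ^ 2
      ≤ ∑ u ∈ T, ∑ j, ‖∑ v ∈ T, X u v * if j = c v then η v else 0‖ ^ 2 := by
        refine Finset.sum_le_sum fun u _ => le_of_eq_of_le ?_ (Finset.single_le_sum
          (f := fun j => ‖∑ v ∈ T, X u v * if j = c v then η v else 0‖ ^ 2)
          (fun _ _ => by positivity) (Finset.mem_univ (c u)))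
        simp [R109.mask]
    _ ≤ ∑ j, R ^ 2 * ∑ v ∈ T, ‖if j = c v then η v else 0‖ ^ 2 := by
        rw [Finset.sum_comm]
        exact Finset.sum_le_sum fun j _ => h _
    _ = _ := by
        rw [← Finset.mul_sum, Finset.sum_comm]
        simp [apply_ite norm]

theorem Bdd.scale {T : Finset ι} {X : ι → ι → ℂ} {R : ℝ} (h : Bdd T X R) (d d' : ι → ℂ)
    (hd : ∀ v ∈ T, ‖d v‖ ≤ 1) (hd' : ∀ v ∈ T, ‖d' v‖ ≤ 1) :
    Bdd T (fun u v => d u * X u v * d' v) R := by
  intro η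
  calc ∑ u ∈ T, ‖∑ v ∈ T, d u * X u v * d' v * η v‖ ^ 2
      ≤ ∑ u ∈ T, ‖∑ v ∈ T, X u v * (d' v * η v)‖ ^ 2 := by
        refine Finset.sum_le_sum fun u hu => ?_
        simp only [mul_assoc, ← Finset.mul_sum, norm_mul]
        gcongr
        exact mul_le_of_le_one_left (norm_nonneg _) (hd u hu)
    _ ≤ R ^ 2 * ∑ v ∈ T, ‖d' v * η v‖ ^ 2 := h _
    _ ≤ _ := by
        gcongr with v hv
        rw [norm_mul]
        exact mul_le_of_le_one_left (norm_nonneg _) (hd' v hv)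

theorem Bdd.image {ι' : Type*} [DecidableEq ι'] {T : Finset ι} {e : ι → ι'}
    (he : Set.InjOn e T) {X : ι' → ι' → ℂ} {R : ℝ} :
    Bdd (T.image e) X R ↔ Bdd T (fun u v => X (e u) (e v)) R := by
  refine ⟨fun h η => ?_, fun h η => by simpa only [Finset.sum_image he] using h fun v => η (e v)⟩
  have hinj : Function.Injective fun v : T => e v := fun a b hab => Subtype.ext (he a.2 b.2 hab)
  have key : ∀ v ∈ T, Function.extend (fun v : T => e v) (fun v => η v) 0 (e v) = η v :=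
    fun v hv => hinj.extend_apply _ _ ⟨v, hv⟩
  have h1 := h (Function.extend (fun v : T => e v) (fun v => η v) 0)
  simp only [Finset.sum_image he] at h1
  simpa +contextual only [key, Finset.sum_congr rfl] using h1

theorem Bdd.norm_entry_le {T : Finset ι} {X : ι → ι → ℂ} {R : ℝ} (h : Bdd T X R) (hR : 0 ≤ R)
    {u v : ι} (hu : u ∈ T) (hv : v ∈ T) : ‖X u v‖ ≤ R := by
  have h1 := h fun w => if w = v then 1 else 0
  simp only [mul_ite, mul_one, mul_zero, Finset.sum_ite_eq', hv, if_true, apply_ite norm, norm_one,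
    norm_zero, ite_pow, one_pow, ne_eq, OfNat.ofNat_ne_zero, not_false_eq_true, zero_pow] at h1
  exact le_of_pow_le_pow_left₀ two_ne_zero hR ((Finset.single_le_sum
    (f := fun u => ‖X u v‖ ^ 2) (fun _ _ => by positivity) hu).trans h1)

theorem QZero.norm_sum_mul_sq_le (T : Finset ι) (f g : ι → ℂ) :
    ‖∑ v ∈ T, f v * g v‖ ^ 2 ≤ (∑ v ∈ T, ‖f v‖ ^ 2) * ∑ v ∈ T, ‖g v‖ ^ 2 := by
  refine le_trans ?_ (Finset.sum_mul_sq_le_sq_mul_sq T _ _)
  gcongr
  simpa only [norm_mul] using norm_sum_le T fun v => f v * g v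

theorem Bdd.norm_form_le {T : Finset ι} {X : ι → ι → ℂ} {R : ℝ} (h : Bdd T X R) (hR : 0 ≤ R)
    (ζ : ι → ℂ) : ‖form T X ζ‖ ≤ R * nsq T ζ := by
  have h0 : 0 ≤ nsq T ζ := Finset.sum_nonneg fun _ _ => by positivity
  refine le_of_pow_le_pow_left₀ two_ne_zero (by positivity) ?_
  simp only [form, mul_assoc, ← Finset.mul_sum]
  refine (QZero.norm_sum_mul_sq_le T _ _).trans ?_
  simp only [RCLike.norm_conj]
  exact (mul_le_mul_of_nonneg_left (h ζ) h0).trans_eq (by rw [nsq]; ring)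

/-- The crude bound by the sum of the entries. -/
theorem bdd_sum_norm (T : Finset ι) (X : ι → ι → ℂ) :
    Bdd T X (∑ u ∈ T, ∑ v ∈ T, ‖X u v‖) := by
  intro η
  refine (Finset.sum_le_sum fun u _ => QZero.norm_sum_mul_sq_le T _ _).trans ?_
  rw [← Finset.sum_mul]
  gcongr
  refine le_trans (Finset.sum_le_sum fun u _ => ?_)
    (Finset.sum_sq_le_sq_sum_of_nonneg fun _ _ => by positivity)
  exact Finset.sum_sq_le_sq_sum_of_nonneg fun _ _ => by positivity

/-- A bilinear bound gives `Bdd`. -/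
theorem bdd_of_bilin {T : Finset ι} {X : ι → ι → ℂ} {R : ℝ}
    (h : ∀ ζ η : ι → ℂ, ‖∑ u ∈ T, ∑ v ∈ T, conj (ζ u) * X u v * η v‖ ^ 2 ≤
      R ^ 2 * nsq T ζ * nsq T η) : Bdd T X R := by
  intro η
  have h1 := h (fun u => ∑ v ∈ T, X u v * η v) η
  simp only [mul_assoc, ← Finset.mul_sum, Complex.conj_mul', ← Complex.ofReal_pow,
    ← Complex.ofReal_sum, Complex.norm_real, Real.norm_eq_abs, sq_abs, nsq] at h1
  rcases (Finset.sum_nonneg fun u (_ : u ∈ T) =>
    sq_nonneg ‖∑ v ∈ T, X u v * η v‖).eq_or_lt with h0 | h0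
  · rw [← h0]; positivity
  · exact le_of_mul_le_mul_left (by linarith) h0

/-- Schur test for quadratic forms. -/
theorem norm_form_le_of_schur {T : Finset ι} {K : ι → ι → ℂ} {δ : ℝ}
    (hrow : ∀ u ∈ T, ∑ v ∈ T, ‖K u v‖ ≤ δ) (hcol : ∀ v ∈ T, ∑ u ∈ T, ‖K u v‖ ≤ δ)
    (ζ : ι → ℂ) : ‖form T K ζ‖ ≤ δ * nsq T ζ := by
  have h1 : ∑ u ∈ T, ∑ v ∈ T, ‖K u v‖ * ‖ζ u‖ ^ 2 ≤ δ * nsq T ζ := by
    simp only [nsq, Finset.mul_sum, ← Finset.sum_mul]
    gcongr with u hu
    exact hrow u hu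
  have h2 : ∑ u ∈ T, ∑ v ∈ T, ‖K u v‖ * ‖ζ v‖ ^ 2 ≤ δ * nsq T ζ := by
    rw [Finset.sum_comm]
    simp only [nsq, Finset.mul_sum, ← Finset.sum_mul]
    gcongr with u hu
    exact hcol u hu
  have h3 : ‖form T K ζ‖ ≤
      ∑ u ∈ T, ∑ v ∈ T, (‖K u v‖ * ‖ζ u‖ ^ 2 + ‖K u v‖ * ‖ζ v‖ ^ 2) / 2 := by
    refine norm_sum_le_of_le _ fun u _ => norm_sum_le_of_le _ fun v _ => ?_
    rw [norm_mul, norm_mul, RCLike.norm_conj]
    nlinarith [mul_nonneg (norm_nonneg (K u v)) (sq_nonneg (‖ζ u‖ - ‖ζ v‖))]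
  simp only [← Finset.sum_div, Finset.sum_add_distrib] at h3
  linarith

theorem QZero.aux {T : Finset ι} (X : ι → ι → ℂ) (U : Set ℂ) (hU : Convex ℝ Uᶜ)
    (hdet : ∀ S ⊆ T, ∀ (c : S → Fin r) (z : ι → ℂ), (∀ v ∈ S, z v ∈ U) → (blk S X z c).det ≠ 0)
    (D : Finset ι) : ∀ S ⊆ T, ∀ p : ι → Fin r → ℝ, IsProb p →
      (∀ v ∈ S, v ∉ D → ∃ j, p v = dl ℝ j) → ∀ z : ι → ℂ, (∀ v ∈ S, z v ∈ U) →
        Q S (cp p) X z ≠ 0 := by
  induction D using Finset.induction_on with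
  | empty =>
    intro S hS p hp hD z hz
    have : ∀ v, ∃ j, v ∈ S → p v = dl ℝ j := fun v => by
      by_cases hv : v ∈ S
      · exact (hD v hv (by simp)).imp fun j hj _ => hj
      · obtain ⟨j, -⟩ := Finset.nonempty_of_sum_ne_zero ((hp.2 v).trans_ne one_ne_zero)
        exact ⟨j, fun h => absurd h hv⟩
    choose c hc using this
    rw [Q_congr (p' := fun v => dl ℂ (c v)) (fun v hv => ?_) (fun _ _ _ _ => rfl) fun _ _ => rfl,
      Q_dl]
    · exact hdet S hS _ z hz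
    · funext j
      simp only [cp, hc v hv, dl]
      split_ifs <;> simp
  | insert u D _ ih =>
    intro S hS p hp hD z hz
    by_cases hu : u ∈ S
    swap
    · exact ih S hS p hp (fun v hv hv' => hD v hv (by
        rw [Finset.mem_insert, not_or]; exact ⟨fun e => hu (e ▸ hv), hv'⟩)) z hz
    obtain ⟨S₀, hu₀, rfl⟩ : ∃ S₀, u ∉ S₀ ∧ S = insert u S₀ :=
      ⟨S.erase u, by simp, (Finset.insert_erase hu).symm⟩
    have hne : ∀ v ∈ S₀, v ≠ u := fun v hv e => hu₀ (e ▸ hv)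
    have ha : Q S₀ (cp p) X z ≠ 0 := ih S₀ ((Finset.subset_insert _ _).trans hS) p hp
      (fun v hv hv' => hD v (Finset.mem_insert_of_mem hv) (by
        rw [Finset.mem_insert, not_or]; exact ⟨hne v hv, hv'⟩)) z
      fun v hv => hz v (Finset.mem_insert_of_mem hv)
    have hb : ∀ j, Bq S₀ u j (cp p) X z / Q S₀ (cp p) X z ∈ Uᶜ := fun j hj => by
      refine ih _ hS _ (hp.update u j) (fun v hv hv' => ?_)
        (Function.update z u (Bq S₀ u j (cp p) X z / Q S₀ (cp p) X z)) (fun v hv => ?_) ?_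
      · rcases eq_or_ne v u with rfl | hvu
        · exact ⟨j, by simp⟩
        · rw [Function.update_of_ne hvu]
          exact hD v hv (by simp [hvu, hv'])
      · rcases eq_or_ne v u with rfl | hvu
        · simpa using hj
        · rw [Function.update_of_ne hvu]
          exact hz v hv
      · rw [Q_insert hu₀, cp_update, Q_congr (p' := cp p) (X' := X) (z := Function.update z u _)
          (z' := z) (fun v hv => Function.update_of_ne (hne v hv) _ _) (fun _ _ _ _ => rfl)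
          fun v hv => Function.update_of_ne (hne v hv) _ _]
        simp only [Function.update_self, dl, ite_mul, one_mul, zero_mul, Finset.sum_ite_eq',
          Finset.mem_univ, if_true]
        rw [div_mul_cancel₀ _ ha, Bq, Bq, Function.update_idem, Function.update_idem, sub_self]
    have hc := hU.sum_mem (t := Finset.univ) (fun j _ => hp.1 u j) (hp.2 u) fun j _ => hb j
    intro h0
    refine hc ?_
    convert hz u (Finset.mem_insert_self _ _) using 1
    have h1 : ∑ j, (p u j : ℂ) = 1 := by exact_mod_cast hp.2 u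
    rw [Q_insert hu₀] at h0
    simp only [mul_sub, Finset.sum_sub_distrib, ← Finset.sum_mul, sub_eq_zero] at h0
    simp only [Complex.real_smul, ← mul_div_assoc, ← Finset.sum_div]
    rw [div_eq_iff ha, ← one_mul (_ * _), ← h1]
    exact h0.symm

/-- General zero-freeness: regions with convex complement. -/
theorem Q_ne_zero_of_det {T : Finset ι} {p : ι → Fin r → ℝ} (hp : IsProb p) (X : ι → ι → ℂ)
    (U : Set ℂ) (hU : Convex ℝ Uᶜ)
    (hdet : ∀ S ⊆ T, ∀ (c : S → Fin r) (z : ι → ℂ), (∀ v ∈ S, z v ∈ U) → (blk S X z c).det ≠ 0)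
    (z : ι → ℂ) (hz : ∀ v ∈ T, z v ∈ U) : Q T (cp p) X z ≠ 0 :=
  QZero.aux X U hU hdet T T subset_rfl p hp (fun _ h h' => absurd h h') z hz

theorem QZero.det_ne_zero {S : Finset ι} {X : ι → ι → ℂ} {z : ι → ℂ}
    (h : ∀ (c : ι → Fin r) (η : ι → ℂ), (∀ u ∈ S, z u * η u = ∑ v ∈ S, mask c X u v * η v) →
      ∀ u ∈ S, η u = 0) (c : S → Fin r) : (blk S X z c).det ≠ 0 := by
  intro h0
  obtain ⟨ζ, hζ, h1⟩ := Matrix.exists_mulVec_eq_zero_iff.2 h0
  obtain ⟨u₀, hu₀⟩ := Function.ne_iff.1 hζ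
  refine hu₀ ?_
  have := h (fun v => if hv : v ∈ S then c ⟨v, hv⟩ else c u₀)
    (fun v => if hv : v ∈ S then ζ ⟨v, hv⟩ else 0) (fun u hu => ?_) u₀ u₀.2
  · simpa using this
  · have h2 := congrFun h1 ⟨u, hu⟩
    rw [← Finset.sum_coe_sort]
    simpa [Matrix.mulVec, dotProduct, blk, sub_mul, sub_eq_zero, mask, hu] using h2

theorem Q_ne_zero_upper {T : Finset ι} {p : ι → Fin r → ℝ} (hp : IsProb p) {X : ι → ι → ℂ}
    (hX : Herm T X) (z : ι → ℂ) (hz : ∀ v ∈ T, 0 < (z v).im) : Q T (cp p) X z ≠ 0 := by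
  refine Q_ne_zero_of_det hp X {w | 0 < w.im} ?_
    (fun S hS c z hz => QZero.det_ne_zero (fun c η hη u hu => ?_) c) z hz
  · simpa [Set.compl_ofPred] using convex_halfSpace_im_le 0
  have h1 : form S (mask c X) η = ∑ u ∈ S, z u * (‖η u‖ ^ 2 : ℝ) := by
    refine Finset.sum_congr rfl fun u hu => ?_
    simp only [mul_assoc, ← Finset.mul_sum, ← hη u hu]
    rw [mul_left_comm, Complex.conj_mul', Complex.ofReal_pow]
  have h2 : conj (form S (mask c X) η) = form S (mask c X) η := by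
    rw [form, map_sum, Finset.sum_comm]
    refine Finset.sum_congr rfl fun u hu => ?_
    rw [map_sum]
    refine Finset.sum_congr rfl fun v hv => ?_
    simp only [mask, eq_comm (a := c v), hX u (hS hu) v (hS hv)]
    split_ifs <;> simp [mul_comm, mul_left_comm]
  have h3 := Complex.conj_eq_iff_im.1 h2
  simp only [h1, Complex.im_sum, Complex.mul_im, Complex.ofReal_re, Complex.ofReal_im, mul_zero,
    zero_add] at h3
  have h4 := (Finset.sum_eq_zero_iff_of_nonneg fun v hv =>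
    mul_nonneg (le_of_lt (hz v hv)) (sq_nonneg ‖η v‖)).1 h3 u hu
  simpa [(show 0 < (z u).im from hz u hu).ne'] using h4

theorem Q_ne_zero_lower {T : Finset ι} {p : ι → Fin r → ℝ} (hp : IsProb p) {X : ι → ι → ℂ}
    (hX : Herm T X) (z : ι → ℂ) (hz : ∀ v ∈ T, (z v).im < 0) : Q T (cp p) X z ≠ 0 := fun h =>
  Q_ne_zero_upper hp hX (fun v => conj (z v)) (fun v hv => by simpa using hz v hv)
    (by rw [← conj_Q hX, h, map_zero])

theorem Q_ne_zero_norm {T : Finset ι} {p : ι → Fin r → ℝ} (hp : IsProb p) {X : ι → ι → ℂ}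
    {R : ℝ} (hR : 0 ≤ R) (hX : Bdd T X R) (z : ι → ℂ) (hz : ∀ v ∈ T, R < ‖z v‖) :
    Q T (cp p) X z ≠ 0 := by
  refine Q_ne_zero_of_det hp X {w | R < ‖w‖} ?_
    (fun S hS c z hz => QZero.det_ne_zero (fun c η hη u hu => ?_) c) z hz
  · simpa [Set.compl_ofPred, Metric.closedBall] using convex_closedBall (0 : ℂ) R
  by_contra hne
  refine ((hX.mono hS).mask c η).not_gt ?_
  rw [Finset.mul_sum]
  refine Finset.sum_lt_sum (fun v hv => ?_) ⟨u, hu, ?_⟩
  · rw [← hη v hv, norm_mul, mul_pow]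
    gcongr
    exact le_of_lt (hz v hv)
  · rw [← hη u hu, norm_mul, mul_pow]
    gcongr
    exact hz u hu

/-- Every root of `Qp` is within `R` of some `h v`. -/
theorem root_Qp_near {T : Finset ι} {p : ι → Fin r → ℝ} (hp : IsProb p) {X : ι → ι → ℂ}
    {R : ℝ} (hR : 0 ≤ R) (hX : Bdd T X R) (h : ι → ℝ) {ρ : ℂ} (hρ : ρ ∈ (Qp T p X h).roots) :
    ∃ v ∈ T, ‖ρ - h v‖ ≤ R := by
  by_contra! hc
  exact Q_ne_zero_norm hp hR hX _ hc ((eval_Qp T p X h ρ).symm.trans (isRoot_of_mem_roots hρ))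

end Crest.Agent.R109
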