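import Crest.Agent.R109.NDefs
import Crest.Agent.R109.QZero

/-! Row 109, task B1: combinatorics of a network. -/

set_option autoImplicit false

noncomputable section

namespace Crest.Agent.R109

open MeasureTheory
open scoped ComplexConjugate

theorem mem_words {G : Type*} [Finite G] {n : ℕ} {w : List G} : w ∈ words G n ↔ w.length ≤ n := by
  simp [words]

theorem card_words_le (G : Type*) [Fintype G] (n : ℕ) :
    (words G n).card ≤ (Fintype.card G + 1) ^ n := by
  classical
  induction n with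
  | zero =>
    refine Finset.card_le_one.2 fun a ha b hb => ?_
    rw [List.length_eq_zero_iff.1 (Nat.le_zero.1 (mem_words.1 ha)),
      List.length_eq_zero_iff.1 (Nat.le_zero.1 (mem_words.1 hb))]
  | succ n ih =>
    have h1 : words G (n + 1) ⊆
        insert [] ((Finset.univ ×ˢ words G n).image fun p : G × List G => p.1 :: p.2) := by
      intro w hw
      cases w with
      | nil => exact Finset.mem_insert_self _ _
      | cons g w =>
        refine Finset.mem_insert_of_mem (Finset.mem_image.2 ⟨(g, w), ?_, rfl⟩)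
        have := mem_words.1 hw
        rw [List.length_cons] at this
        exact Finset.mem_product.2 ⟨Finset.mem_univ _, mem_words.2 (Nat.le_of_succ_le_succ this)⟩
    have h2 := (Finset.card_le_card h1).trans (Finset.card_insert_le _ _)
    have h3 := Finset.card_image_le (s := Finset.univ ×ˢ words G n)
      (f := fun p : G × List G => p.1 :: p.2)
    rw [Finset.card_product, Finset.card_univ] at h3
    have h4 : Fintype.card G * (words G n).card ≤ Fintype.card G * (Fintype.card G + 1) ^ n :=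
      Nat.mul_le_mul_left _ ih
    have h5 : 1 ≤ (Fintype.card G + 1) ^ n := Nat.one_le_pow _ _ (Nat.succ_pos _)
    rw [pow_succ, mul_add, mul_one, mul_comm]
    omega

theorem length_winv {G : Type*} (inv : G → G) (w : List G) : (winv inv w).length = w.length := by
  simp [winv]

theorem winv_nil {G : Type*} (inv : G → G) : winv inv [] = [] := by
  simp [winv]

theorem winv_append {G : Type*} (inv : G → G) (u w : List G) :
    winv inv (u ++ w) = winv inv w ++ winv inv u := by
  simp [winv]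

theorem winv_winv {G : Type*} {inv : G → G} (h : ∀ g, inv (inv g) = g) (w : List G) :
    winv inv (winv inv w) = w := by
  simp [winv, Function.comp_def, h]

/-- A function that picks a continuous function through a locally constant index is continuous. -/
theorem continuous_of_isLocallyConstant {Ω α E : Type*} [TopologicalSpace Ω] [TopologicalSpace E]
    {b : Ω → α} (hb : IsLocallyConstant b) {F : α → Ω → E} (hF : ∀ a, Continuous (F a)) :
    Continuous fun χ => F (b χ) χ := by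
  refine continuous_iff_continuousAt.2 fun χ => (hF (b χ)).continuousAt.congr ?_
  filter_upwards [hb.eventually_eq χ] with χ' h
  rw [h]

theorem integrable_of_continuous {Ω E : Type*} [TopologicalSpace Ω] [CompactSpace Ω]
    [MeasurableSpace Ω] [BorelSpace Ω] [NormedAddCommGroup E] [SecondCountableTopology E]
    (μ : Measure Ω) [IsFiniteMeasure μ] {f : Ω → E} (hf : Continuous f) : Integrable f μ := by
  refine Integrable.of_bound hf.aestronglyMeasurable (sSup (Set.range fun x => ‖f x‖))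
    (Filter.Eventually.of_forall fun x => ?_)
  exact le_csSup (isCompact_range hf.norm).bddAbove ⟨x, rfl⟩

theorem netBasic_wlt_length {G : Type*} [Finite G] {u v : List G} (h : wlt u v) :
    u.length ≤ v.length := by
  rcases h with h | h
  · exact h.le
  · exact h.1.le

theorem netBasic_wlt_trichotomy {G : Type*} [Finite G] (u v : List G) :
    wlt u v ∨ u = v ∨ wlt v u := by
  rcases lt_trichotomy u.length v.length with h | h | h
  · exact Or.inl (Or.inl h)
  · rcases lt_trichotomy (enc G u) (enc G v) with h' | h' | h'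
    · exact Or.inl (Or.inr ⟨h, h'⟩)
    · exact Or.inr (Or.inl ((exists_injective_nat (List G)).choose_spec h'))
    · exact Or.inr (Or.inr (Or.inr ⟨h.symm, h'⟩))
  · exact Or.inr (Or.inr (Or.inl h))

theorem netBasic_wlt_wf (G : Type*) [Finite G] : WellFounded (wlt (G := G)) := by
  refine Subrelation.wf (r := InvImage (Prod.Lex (· < ·) (· < ·))
    fun w : List G => (w.length, enc G w)) (fun {u v} h => ?_)
    (InvImage.wf _ (WellFounded.prod_lex wellFounded_lt wellFounded_lt))
  exact Prod.lex_def.2 h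

namespace Net

set_option linter.unusedSectionVars false

variable {Ω : Type*} [TopologicalSpace Ω] [CompactSpace Ω] [MeasurableSpace Ω] [BorelSpace Ω]
  {G : Type*} [DecidableEq G] [Fintype G] (N : Net Ω G)

theorem Γ_self {u : List G} {χ : Ω} (h : N.dom u χ) : N.Γ u u χ = 1 := by
  exact mul_right_cancel₀ h ((N.Γ_mul u u u χ h).symm.trans (one_mul _).symm)

theorem norm_Γ {u v : List G} {χ : Ω} (h : N.rel u v χ) : ‖N.Γ u v χ‖ = 1 := by
  exact (N.Γ_norm u v χ).resolve_left h

theorem rel_refl {u : List G} {χ : Ω} (h : N.dom u χ) : N.rel u u χ := h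

theorem rel_symm {u v : List G} {χ : Ω} (h : N.rel u v χ) : N.rel v u χ := by
  rw [rel, N.Γ_conj]
  exact (map_ne_zero _).2 h

theorem rel_trans {u v w : List G} {χ : Ω} (h : N.rel u v χ) (h' : N.rel v w χ) :
    N.rel u w χ := by
  rw [rel, N.Γ_mul v w u χ h']
  exact mul_ne_zero h h'

theorem rel_dom_left {u v : List G} {χ : Ω} (h : N.rel u v χ) : N.dom u χ := by
  intro h0
  have := N.Γ_mul u v u χ h
  rw [h0, zero_mul] at this
  exact h this

theorem rel_dom_right {u v : List G} {χ : Ω} (h : N.rel u v χ) : N.dom v χ := by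
  exact N.rel_dom_left (N.rel_symm h)

theorem isClopen_rel (u v : List G) : IsClopen {χ | N.rel u v χ} := by
  refine ⟨?_, isOpen_ne_fun (N.Γ_cont u v) continuous_const⟩
  have : {χ | N.rel u v χ} = {χ | ‖N.Γ u v χ‖ = 1} := by
    ext χ
    refine ⟨fun h => N.norm_Γ h, fun h h0 => ?_⟩
    have h1 : ‖N.Γ u v χ‖ = 1 := h
    rw [h0, norm_zero] at h1
    exact zero_ne_one h1
  rw [this]
  exact isClosed_eq (N.Γ_cont u v).norm continuous_const

theorem isClopen_dom (u : List G) : IsClopen {χ | N.dom u χ} := N.isClopen_rel u u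

theorem dom_nil (χ : Ω) : N.dom [] χ := by
  rw [dom, N.Γ_nil]
  exact one_ne_zero

theorem dom_append_iff {u w : List G} {χ : Ω} :
    N.dom (u ++ w) χ ↔ N.dom w χ ∧ N.dom u (N.τ w χ) := by
  refine ⟨fun h => ?_, fun h => ?_⟩
  · have hw := N.dom_append u w χ h
    refine ⟨hw, ?_⟩
    rwa [dom, ← N.Γ_append u u w χ hw]
  · rw [dom, N.Γ_append u u w χ h.1]
    exact h.2

theorem rel_append_iff {u v w : List G} {χ : Ω} (hw : N.dom w χ) :
    N.rel (u ++ w) (v ++ w) χ ↔ N.rel u v (N.τ w χ) := by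
  rw [rel, rel, N.Γ_append u v w χ hw]

theorem rel_congr {u w w' : List G} {χ : Ω} (h : N.rel w w' χ) (hu : N.dom (u ++ w) χ) :
    N.rel (u ++ w) (u ++ w') χ := by
  rw [rel, N.Γ_congr u w w' χ h hu]
  exact h

theorem X_dom_left {u w : List G} {χ : Ω} (h : ¬ N.dom u χ) : N.X u w χ = 0 := by
  rw [N.X_conj, N.X_dom u w χ (not_not.1 h), map_zero]

theorem X_dom_right {u w : List G} {χ : Ω} (h : ¬ N.dom u χ) : N.X w u χ = 0 := by
  exact N.X_dom u w χ (not_not.1 h)

theorem X_rel {u u' v v' : List G} {χ : Ω} (hu : N.rel u u' χ) (hv : N.rel v v' χ) :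
    N.X u' v' χ = conj (N.Γ u u' χ) * N.X u v χ * N.Γ v v' χ := by
  rw [N.X_mul v v' u' χ hv, N.X_conj v u', N.X_mul u u' v χ hu, map_mul, ← N.X_conj,
    mul_comm (N.X u v χ)]

theorem Γ_rel {u u' v v' : List G} {χ : Ω} (hu : N.rel u u' χ) (hv : N.rel v v' χ) :
    N.Γ u' v' χ = conj (N.Γ u u' χ) * N.Γ u v χ * N.Γ v v' χ := by
  rw [N.Γ_mul v v' u' χ hv, N.Γ_conj v u', N.Γ_mul u u' v χ hu, map_mul, ← N.Γ_conj v u,
    mul_comm (N.Γ u v χ)]

theorem rel_winv_append {w : List G} {χ : Ω} (h : N.dom w χ) :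
    N.rel (winv N.inv w ++ w) [] χ := by
  refine N.rel_symm ?_
  rw [rel, N.Γ_inv w χ h]
  exact one_ne_zero

theorem dom_winv {w : List G} {χ : Ω} (h : N.dom w χ) : N.dom (winv N.inv w) (N.τ w χ) := by
  exact (N.dom_append_iff.1 (N.rel_dom_left (N.rel_winv_append h))).2

theorem τ_winv {w : List G} {χ : Ω} (h : N.dom w χ) : N.τ (winv N.inv w) (N.τ w χ) = χ := by
  rw [← N.τ_append, N.τ_rel _ _ χ (N.rel_winv_append h), N.τ_nil]

theorem h_winv {w : List G} {χ : Ω} (h : N.dom w χ) :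
    N.h (winv N.inv w) (N.τ w χ) = - N.h w χ := by
  have := N.h_rel _ _ χ (N.rel_winv_append h)
  rw [N.h_append, N.h_nil] at this
  linarith

theorem rel_winv {w w' : List G} {χ : Ω} (h : N.rel w w' χ) :
    N.rel (winv N.inv w) (winv N.inv w') (N.τ w χ) := by
  have hw := N.rel_dom_left h
  have h1 := N.rel_winv_append (N.rel_dom_right h)
  exact (N.rel_append_iff hw).1 (N.rel_trans (N.rel_winv_append hw) (N.rel_trans (N.rel_symm h1)
    (N.rel_congr (N.rel_symm h) (N.rel_dom_left h1))))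

/-- Every vertex seen from `χ` is seen from `τ w χ`. -/
theorem rel_append_winv_append {v w : List G} {χ : Ω} (hv : N.dom v χ) (hw : N.dom w χ) :
    N.rel ((v ++ winv N.inv w) ++ w) v χ := by
  have := N.rel_congr (u := v) (N.rel_symm (N.rel_winv_append hw)) (by rwa [List.append_nil])
  rw [List.append_nil] at this
  rw [List.append_assoc]
  exact N.rel_symm this

theorem abs_h_le {w : List G} {χ : Ω} (h : N.dom w χ) : |N.h w χ| ≤ N.κ0 * w.length := by
  induction w with
  | nil => simp [N.h_nil]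
  | cons g w ih =>
    obtain ⟨h1, h2⟩ := N.dom_append_iff (u := [g]).1 h
    have h3 := N.h_append [g] w χ
    have h4 := N.h_gen g _ h2
    have h5 := ih h1
    rw [List.singleton_append] at h3
    rw [h3, List.length_cons, Nat.cast_succ, mul_add, mul_one]
    exact (abs_add_le _ _).trans (by linarith)

theorem Valid.mono {N : Net Ω G} {χ : Ω} {S T : Finset (List G)} (h : N.Valid χ T) (hS : S ⊆ T) :
    N.Valid χ S := by
  exact ⟨fun u hu => h.1 u (hS hu), fun u hu v hv => h.2 u (hS hu) v (hS hv)⟩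

theorem Valid.image {N : Net Ω G} {χ : Ω} {w : List G} {T : Finset (List G)}
    {π : List G → List G} (hw : N.dom w χ) (h : N.Valid (N.τ w χ) T)
    (hπ : ∀ u ∈ T, N.rel (u ++ w) (π u) χ) : N.Valid χ (T.image π) := by
  refine ⟨fun a ha => ?_, fun a ha b hb hab => ?_⟩
  · obtain ⟨u, hu, rfl⟩ := Finset.mem_image.1 ha
    exact N.rel_dom_right (hπ u hu)
  · obtain ⟨u, hu, rfl⟩ := Finset.mem_image.1 ha
    obtain ⟨v, hv, rfl⟩ := Finset.mem_image.1 hb
    rw [h.2 u hu v hv ((N.rel_append_iff hw).1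
      (N.rel_trans (hπ u hu) (N.rel_trans hab (N.rel_symm (hπ v hv)))))]

theorem herm_X (χ : Ω) (T : Finset (List G)) : Herm T (fun u v => N.X u v χ) := by
  exact fun u _ v _ => N.X_conj u v χ

theorem form_Γ {χ : Ω} {T : Finset (List G)} (h : N.Valid χ T) (ζ : List G → ℂ) :
    form T (fun u v => N.Γ u v χ) ζ = (nsq T ζ : ℂ) := by
  rw [form, nsq, Complex.ofReal_sum]
  refine Finset.sum_congr rfl fun u hu => ?_
  rw [Finset.sum_eq_single_of_mem u hu, N.Γ_self (h.1 u hu), mul_one, Complex.conj_mul',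
    Complex.ofReal_pow]
  intro v hv hne
  have : N.Γ u v χ = 0 := not_not.1 fun hr => hne (h.2 u hu v hv hr).symm
  rw [this, mul_zero, zero_mul]

theorem bdd_X {χ : Ω} {T : Finset (List G)} (h : N.Valid χ T) :
    Bdd T (fun u v => N.X u v χ) N.R := by
  refine bdd_of_bilin fun ζ η => ?_
  have := N.X_bilin χ T ζ η
  rwa [N.form_Γ h, N.form_Γ h, Complex.ofReal_re, Complex.ofReal_re] at this

theorem mem_B {n : ℕ} {χ : Ω} {w : List G} :
    w ∈ N.B n χ ↔ w.length ≤ n ∧ N.dom w χ ∧ ∀ w', wlt w' w → ¬ N.rel w' w χ := by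
  simp only [B, Finset.mem_filter, mem_words]

theorem valid_B (n : ℕ) (χ : Ω) : N.Valid χ (N.B n χ) := by
  refine ⟨fun u hu => (N.mem_B.1 hu).2.1, fun u hu v hv huv => ?_⟩
  rcases netBasic_wlt_trichotomy u v with h | h | h
  · exact absurd huv ((N.mem_B.1 hv).2.2 u h)
  · exact h
  · exact absurd (N.rel_symm huv) ((N.mem_B.1 hu).2.2 v h)

theorem nil_mem_B (n : ℕ) (χ : Ω) : [] ∈ N.B n χ := by
  refine N.mem_B.2 ⟨Nat.zero_le _, N.dom_nil χ, fun w' hw' => ?_⟩
  rcases hw' with h | ⟨h1, h2⟩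
  · exact absurd h (Nat.not_lt_zero _)
  · rw [List.length_eq_zero_iff.1 h1] at h2
    exact absurd h2 (lt_irrefl _)

theorem B_mono {m n : ℕ} (h : m ≤ n) (χ : Ω) : N.B m χ ⊆ N.B n χ := by
  exact fun w hw => N.mem_B.2 ⟨(N.mem_B.1 hw).1.trans h, (N.mem_B.1 hw).2⟩

theorem card_B_le (n : ℕ) (χ : Ω) : (N.B n χ).card ≤ (Fintype.card G + 1) ^ n := by
  exact (Finset.card_le_card fun w hw => mem_words.2 (N.mem_B.1 hw).1).trans (card_words_le G n)

theorem isLocallyConstant_B (n : ℕ) : IsLocallyConstant (N.B n) := by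
  have hrel : ∀ u v χ, ∀ᶠ χ' in nhds χ, (N.rel u v χ' ↔ N.rel u v χ) := fun u v χ => by
    by_cases h : N.rel u v χ
    · filter_upwards [(N.isClopen_rel u v).isOpen.mem_nhds h] with χ' h'
      exact iff_of_true h' h
    · filter_upwards [(N.isClopen_rel u v).isClosed.isOpen_compl.mem_nhds h] with χ' h'
      exact iff_of_false h' h
  refine (IsLocallyConstant.iff_eventually_eq _).2 fun χ => ?_
  have h1 : ∀ᶠ χ' in nhds χ, ∀ u ∈ words G n, ∀ v ∈ words G n, (N.rel u v χ' ↔ N.rel u v χ) :=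
    (Filter.eventually_all_finset _).2 fun u _ => (Filter.eventually_all_finset _).2
      fun v _ => hrel u v χ
  filter_upwards [h1] with χ' h
  ext w
  rw [N.mem_B, N.mem_B]
  refine and_congr_right fun hw => and_congr (h w (mem_words.2 hw) w (mem_words.2 hw))
    (forall_congr' fun w' => forall_congr' fun hw' => not_congr ?_)
  exact h w' (mem_words.2 ((netBasic_wlt_length hw').trans hw)) w (mem_words.2 hw)

theorem netBasic_exists_rep {χ : Ω} {w : List G} (h : N.dom w χ) :
    ∃ w' ∈ N.B w.length χ, N.rel w' w χ := by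
  obtain ⟨a, ha, hmin⟩ := (netBasic_wlt_wf G).has_min {w' | N.rel w' w χ} ⟨w, h⟩
  refine ⟨a, N.mem_B.2 ⟨not_lt.1 fun hl => hmin w h (Or.inl hl), N.rel_dom_left ha,
    fun w' hw' hr => hmin w' (N.rel_trans hr ha) hw'⟩, ha⟩

theorem rep_mem_B {n : ℕ} {χ : Ω} {w : List G} (h : N.dom w χ) (hn : w.length ≤ n) :
    N.rep χ w ∈ N.B n χ := by
  rw [rep, dif_pos (N.netBasic_exists_rep h)]
  exact N.B_mono hn χ (N.netBasic_exists_rep h).choose_spec.1

theorem rel_rep {χ : Ω} {w : List G} (h : N.dom w χ) : N.rel w (N.rep χ w) χ := by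
  rw [rep, dif_pos (N.netBasic_exists_rep h)]
  exact N.rel_symm (N.netBasic_exists_rep h).choose_spec.2

theorem rep_eq_of_rel {n : ℕ} {χ : Ω} {w v : List G} (hv : v ∈ N.B n χ) (h : N.rel w v χ) :
    N.rep χ w = v := by
  have hw := N.rel_dom_left h
  exact (N.valid_B (max n w.length) χ).2 _ (N.rep_mem_B hw (le_max_right _ _)) _
    (N.B_mono (le_max_left _ _) χ hv) (N.rel_trans (N.rel_symm (N.rel_rep hw)) h)

theorem near_refl {χ : Ω} {o : List G} (h : N.dom o χ) : N.near χ o 0 o := by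
  exact ⟨[], le_rfl, h⟩

theorem near_mono {χ : Ω} {o u : List G} {m n : ℕ} (h : N.near χ o m u) (hmn : m ≤ n) :
    N.near χ o n u := by
  obtain ⟨w, h1, h2⟩ := h
  exact ⟨w, h1.trans hmn, h2⟩

theorem near_symm {χ : Ω} {o u : List G} {m : ℕ} (h : N.near χ o m u) : N.near χ u m o := by
  obtain ⟨w, h1, h2⟩ := h
  obtain ⟨h3, h4⟩ := N.dom_append_iff.1 (N.rel_dom_left h2)
  have h5 := (N.rel_append_iff h3).2 (N.rel_winv_append h4)
  rw [List.append_assoc, List.nil_append] at h5
  exact ⟨winv N.inv w, by rwa [length_winv],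
    N.rel_trans (N.rel_symm (N.rel_congr h2 (N.rel_dom_left h5))) h5⟩

theorem near_trans {χ : Ω} {o u v : List G} {m n : ℕ} (h : N.near χ o m u)
    (h' : N.near χ u n v) : N.near χ o (m + n) v := by
  obtain ⟨w, h1, h2⟩ := h
  obtain ⟨w', h3, h4⟩ := h'
  refine ⟨w' ++ w, by rw [List.length_append]; omega, ?_⟩
  rw [List.append_assoc]
  exact N.rel_trans (N.rel_symm (N.rel_congr (N.rel_symm h2) (N.rel_dom_left h4))) h4

theorem near_rel {χ : Ω} {o o' u u' : List G} {m : ℕ} (h : N.near χ o m u) (ho : N.rel o o' χ)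
    (hu : N.rel u u' χ) : N.near χ o' m u' := by
  obtain ⟨w, h1, h2⟩ := h
  exact ⟨w, h1, N.rel_trans (N.rel_symm (N.rel_congr ho (N.rel_dom_left h2)))
    (N.rel_trans h2 hu)⟩

theorem near_append_iff {χ : Ω} {o u w : List G} {m : ℕ} (hw : N.dom w χ) :
    N.near χ (o ++ w) m (u ++ w) ↔ N.near (N.τ w χ) o m u := by
  refine exists_congr fun x => and_congr_right fun _ => ?_
  rw [← List.append_assoc, N.rel_append_iff hw]

theorem near_nil_of_mem_B {n : ℕ} {χ : Ω} {w : List G} (h : w ∈ N.B n χ) :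
    N.near χ [] n w := by
  refine ⟨w, (N.mem_B.1 h).1, ?_⟩
  rw [List.append_nil]
  exact (N.mem_B.1 h).2.1

theorem mem_B_of_near_nil {m n : ℕ} {χ : Ω} {w : List G} (h : w ∈ N.B n χ)
    (hm : N.near χ [] m w) : w ∈ N.B m χ := by
  obtain ⟨x, h1, h2⟩ := hm
  rw [List.append_nil] at h2
  refine N.mem_B.2 ⟨le_trans (not_lt.1 fun hl => ?_) h1, (N.mem_B.1 h).2⟩
  exact (N.mem_B.1 h).2.2 x (Or.inl hl) h2

theorem abs_h_sub_le {χ : Ω} {o u : List G} {m : ℕ} (h : N.near χ o m u) :
    |N.h u χ - N.h o χ| ≤ N.κ0 * m := by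
  obtain ⟨w, h1, h2⟩ := h
  rw [← N.h_rel _ _ χ h2, N.h_append, add_sub_cancel_right]
  refine (N.abs_h_le (N.dom_append_iff.1 (N.rel_dom_left h2)).2).trans ?_
  exact mul_le_mul_of_nonneg_left (Nat.cast_le.2 h1) N.κ0_nonneg

theorem layered_near (χ : Ω) (o : List G) (T : Finset (List G)) {Y : List G → List G → ℂ}
    (hY : ∀ u v, Y u v ≠ 0 → N.X u v χ ≠ 0) : Layered T Y (N.near χ o) := by
  refine ⟨fun m a h => N.near_mono h (Nat.le_succ m), fun m a _ b _ h hab => ?_⟩
  have h1 : N.X b a χ ≠ 0 := by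
    rcases hab with hab | hab
    · rw [N.X_conj]
      exact (map_ne_zero _).2 (hY _ _ hab)
    · exact hY _ _ hab
  obtain ⟨g, hg⟩ := N.X_range b a χ h1
  exact N.near_trans h ⟨[g], le_rfl, N.rel_symm hg⟩

theorem ncard_near_le {χ : Ω} {T : Finset (List G)} (h : N.Valid χ T) (o : List G) (m : ℕ) :
    {u | u ∈ T ∧ N.near χ o m u}.ncard ≤ (Fintype.card G + 1) ^ m := by
  have h1 : ∀ u : List G, ∃ w : List G, N.near χ o m u → w.length ≤ m ∧ N.rel (w ++ o) u χ :=
    fun u => by
      by_cases hu : N.near χ o m u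
      · obtain ⟨w, hw⟩ := hu
        exact ⟨w, fun _ => hw⟩
      · exact ⟨[], fun h => absurd h hu⟩
  choose f hf using h1
  refine le_trans ?_ (card_words_le G m)
  rw [← Set.ncard_coe_finset]
  refine Set.ncard_le_ncard_of_injOn f (fun u hu => mem_words.2 (hf u hu.2).1)
    (fun u hu v hv huv => h.2 u hu.1 v hv.1 ?_) (Finset.finite_toSet _)
  exact N.rel_trans (N.rel_symm (hf u hu.2).2) (huv ▸ (hf v hv.2).2)

/-- An isolated vertex has no edge, seen from any root. -/
theorem X_eq_zero_of_iso {χ : Ω} {o : List G} (ho : N.dom o χ) (h : N.Iso (N.τ o χ))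
    (a : List G) : N.X a o χ = 0 ∧ N.X o a χ = 0 := by
  have h1 : N.X a o χ = 0 := by
    by_cases ha : N.dom a χ
    · have h2 := N.X_append (a ++ winv N.inv o) [] o χ ho
      rw [h, List.nil_append] at h2
      rw [N.X_rel (N.rel_append_winv_append ha ho) (N.rel_refl ho), h2, mul_zero, zero_mul]
    · exact N.X_dom_left ha
  exact ⟨h1, by rw [N.X_conj, h1, map_zero]⟩

/-- Re-rooting a valid set. -/
theorem reroot_injOn {χ : Ω} {w : List G} (hw : N.dom w χ) {T : Finset (List G)}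
    (hT : N.Valid (N.τ w χ) T) : Set.InjOn (fun u => N.rep χ (u ++ w)) T := by
  intro u hu v hv huv
  have h1 := N.rel_rep (N.dom_append_iff.2 ⟨hw, hT.1 u hu⟩)
  have h2 := N.rel_rep (N.dom_append_iff.2 ⟨hw, hT.1 v hv⟩)
  have h3 : N.rep χ (u ++ w) = N.rep χ (v ++ w) := huv
  rw [h3] at h1
  exact hT.2 u hu v hv ((N.rel_append_iff hw).1 (N.rel_trans h1 (N.rel_symm h2)))

theorem reroot_rel {χ : Ω} {w : List G} (hw : N.dom w χ) {T : Finset (List G)}
    (hT : N.Valid (N.τ w χ) T) : ∀ u ∈ T, N.rel (u ++ w) (N.rep χ (u ++ w)) χ := by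
  exact fun u hu => N.rel_rep (N.dom_append_iff.2 ⟨hw, hT.1 u hu⟩)

/-- The ball of radius `m` around `w`, seen from `χ`. -/
theorem mem_image_reroot_B {χ : Ω} {w v : List G} {m n : ℕ} (hw : N.dom w χ)
    (hv : v ∈ N.B n χ) :
    v ∈ (N.B m (N.τ w χ)).image (fun u => N.rep χ (u ++ w)) ↔ N.near χ w m v := by
  rw [Finset.mem_image]
  refine ⟨?_, ?_⟩
  · rintro ⟨u, hu, rfl⟩
    exact ⟨u, (N.mem_B.1 hu).1, N.reroot_rel hw (N.valid_B m _) u hu⟩
  · rintro ⟨x, h1, h2⟩
    have hx := (N.dom_append_iff.1 (N.rel_dom_left h2)).2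
    exact ⟨N.rep (N.τ w χ) x, N.rep_mem_B hx h1, N.rep_eq_of_rel hv
      (N.rel_trans (N.rel_symm ((N.rel_append_iff hw).2 (N.rel_rep hx))) h2)⟩

theorem image_reroot_B_subset {χ : Ω} {w : List G} {m : ℕ} (hw : N.dom w χ) :
    (N.B m (N.τ w χ)).image (fun u => N.rep χ (u ++ w)) ⊆ N.B (m + w.length) χ := by
  intro v hv
  obtain ⟨u, hu, rfl⟩ := Finset.mem_image.1 hv
  refine N.rep_mem_B (N.dom_append_iff.2 ⟨hw, (N.mem_B.1 hu).2.1⟩) ?_
  rw [List.length_append]
  exact Nat.add_le_add_right (N.mem_B.1 hu).1 _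

end Net

end Crest.Agent.R109
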