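import Crest.Agent.R109.NormG
import Crest.Agent.R109.NetBasic

/-! Row 109, task D7b: consequences of the Gelfand picture. -/

set_option autoImplicit false
set_option linter.unusedSectionVars false

noncomputable section

namespace Crest.Agent.R109

open Filter Topology MeasureTheory
open scoped ComplexOrder ComplexConjugate Classical

universe u

variable {𝓜 : Type u} [CStarAlgebra 𝓜] [PartialOrder 𝓜] [StarOrderedRing 𝓜]

variable {R : Reg 𝓜} {Ω : Type*} [TopologicalSpace Ω] [CompactSpace Ω] [MeasurableSpace Ω]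
  [BorelSpace Ω] {ev : 𝓜 → Ω → ℂ} {μ : Measure Ω}

namespace IsGel

variable (hG : IsGel R ev μ)
include hG

theorem ev_zero (χ : Ω) : ev 0 χ = 0 := by
  simpa using hG.ev_smul 0 0 χ

theorem ev_neg (y : 𝓜) (χ : Ω) : ev (-y) χ = -ev y χ := by
  simpa using hG.ev_smul (-1) y χ

theorem ev_sub (y y' : 𝓜) (χ : Ω) : ev (y - y') χ = ev y χ - ev y' χ := by
  rw [sub_eq_add_neg, hG.ev_add, hG.ev_neg, sub_eq_add_neg]

theorem ev_real_smul (c : ℝ) (y : 𝓜) (χ : Ω) : ev (c • y) χ = c * ev y χ := by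
  rw [← Complex.coe_smul, hG.ev_smul]

theorem ev_sum {α : Type*} (S : Finset α) (y : α → 𝓜) (χ : Ω) :
    ev (∑ i ∈ S, y i) χ = ∑ i ∈ S, ev (y i) χ := by
  induction S using Finset.induction_on with
  | empty => simpa using hG.ev_zero χ
  | insert a S ha ih => rw [Finset.sum_insert ha, Finset.sum_insert ha, hG.ev_add, ih]

theorem ev_mul_left {a : 𝓜} (ha : a ∈ R.A) (y : 𝓜) (χ : Ω) : ev (a * y) χ = ev a χ * ev y χ := by
  rw [← hG.ev_E (a * y), R.E_mul_left ha, hG.ev_mul a ha _ (R.E_mem y), hG.ev_E]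

theorem ev_mul_right {a : 𝓜} (ha : a ∈ R.A) (y : 𝓜) (χ : Ω) :
    ev (y * a) χ = ev y χ * ev a χ := by
  rw [← hG.ev_E (y * a), R.E_mul_right ha, hG.ev_mul _ (R.E_mem y) a ha, hG.ev_E]

theorem ev_mono {y y' : 𝓜} (h : y ≤ y') (χ : Ω) : ev y χ ≤ ev y' χ := by
  rw [← sub_nonneg, ← hG.ev_sub]
  exact hG.ev_nonneg _ (sub_nonneg.2 h) χ

theorem eq_of_ev {a b : 𝓜} (ha : a ∈ R.A) (hb : b ∈ R.A) (h : ∀ χ, ev a χ = ev b χ) : a = b := by
  have key : ∀ a ∈ R.A, ∀ b ∈ R.A, (∀ χ, ev a χ = ev b χ) → a ≤ b := fun a ha b hb h =>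
    sub_nonneg.1 (hG.nonneg_of _ (sub_mem hb ha) fun χ => by rw [hG.ev_sub, h, sub_self])
  exact le_antisymm (key a ha b hb h) (key b hb a ha fun χ => (h χ).symm)

theorem le_of_ev {a b : 𝓜} (ha : a ∈ R.A) (hb : b ∈ R.A) (h : ∀ χ, ev a χ ≤ ev b χ) : a ≤ b := by
  exact sub_nonneg.1 (hG.nonneg_of _ (sub_mem hb ha) fun χ => by
    rw [hG.ev_sub]; exact sub_nonneg.2 (h χ))

theorem norm_ev_conj_sq_le (a x b : 𝓜) (χ : Ω) :
    ‖ev (star a * x * b) χ‖ ^ 2 ≤ ‖x‖ ^ 2 * (ev (star a * a) χ).re * (ev (star b * b) χ).re := by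
  let φ : 𝓜 →ₚ[ℂ] ℂ := PositiveLinearMap.mk₀
    { toFun := fun y => ev y χ
      map_add' := fun y y' => hG.ev_add y y' χ
      map_smul' := fun c y => hG.ev_smul c y χ } fun y hy => hG.ev_nonneg y hy χ
  have h1 : ‖φ (star a * (x * b))‖ ≤ n2 φ a * (‖x‖ * n2 φ b) :=
    (cauchy_schwarz φ a (x * b)).trans
      (mul_le_mul_of_nonneg_left (n2_mul_le φ x b) (n2_nonneg φ a))
  have h2 := pow_le_pow_left₀ (norm_nonneg _) h1 2
  rw [mul_pow, mul_pow, n2_sq, n2_sq, ← mul_assoc, mul_left_comm, ← mul_assoc] at h2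
  exact h2

theorem ev_proj {e : 𝓜} (he : e ∈ R.A) (hp : IsStarProjection e) (χ : Ω) :
    ev e χ = 0 ∨ ev e χ = 1 := by
  have h := hG.ev_mul e he e he χ
  rw [hp.isIdempotentElem.eq] at h
  exact IsIdempotentElem.iff_eq_zero_or_one.1 h.symm

theorem isClopen_proj {e : 𝓜} (he : e ∈ R.A) (hp : IsStarProjection e) :
    IsClopen {χ | ev e χ = 1} := by
  refine ⟨isClosed_eq (hG.cont e) continuous_const, ?_⟩
  have : {χ | ev e χ = 1} = {χ | ev e χ ≠ 0} := by
    ext χ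
    rcases hG.ev_proj he hp χ with h | h <;> simp [h]
  rw [this]
  exact isOpen_ne_fun (hG.cont e) continuous_const

theorem isStarProjection_of_ev {a : 𝓜} (ha : a ∈ R.A) (h : ∀ χ, ev a χ = 0 ∨ ev a χ = 1) :
    IsStarProjection a := by
  refine ⟨hG.eq_of_ev (mul_mem ha ha) ha fun χ => ?_, hG.eq_of_ev (star_mem ha) ha fun χ => ?_⟩
  · rw [hG.ev_mul a ha a ha]
    rcases h χ with h | h <;> simp [h]
  · rw [hG.ev_star]
    rcases h χ with h | h <;> simp [h]

theorem exists_proj {Y : Set Ω} (hY : IsClopen Y) :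
    ∃ e ∈ R.A, IsStarProjection e ∧ ∀ χ, ev e χ = if χ ∈ Y then 1 else 0 := by
  obtain ⟨e, he, h⟩ := hG.surj (Y.indicator fun _ => 1) (hY.continuous_indicator continuous_const)
  have h' : ∀ χ, ev e χ = if χ ∈ Y then 1 else 0 := fun χ => by rw [h, Set.indicator_apply]
  refine ⟨e, he, hG.isStarProjection_of_ev he fun χ => ?_, h'⟩
  rw [h']
  split_ifs <;> simp

theorem exists_clopen {f : Ω → ℝ} (hf : Continuous f) :
    ∃ Y : Set Ω, IsClopen Y ∧ (∀ χ ∈ Y, 0 ≤ f χ) ∧ ∀ χ ∉ Y, f χ ≤ 0 := by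
  obtain ⟨a, ha, h⟩ := hG.surj (fun χ => (f χ : ℂ)) (Complex.continuous_ofReal.comp hf)
  have hsa : IsSelfAdjoint a := hG.eq_of_ev (star_mem ha) ha fun χ => by
    rw [hG.ev_star, h, Complex.conj_ofReal]
  obtain ⟨e, he⟩ : ∃ e, WS.IsSP a 0 e := by
    first
      | exact WS.exists_SP (W := R.toWS) hsa 0
      | exact WS.exists_SP hsa 0
  have heA : e ∈ R.A := he.mem_A ha
  refine ⟨_, hG.isClopen_proj heA he.1, fun χ hχ => ?_, fun χ hχ => ?_⟩
  · have := hG.ev_mono he.2.2.1 χ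
    rw [zero_smul, hG.ev_zero, hG.ev_mul a ha e heA, show ev e χ = 1 from hχ, mul_one, h] at this
    exact Complex.zero_le_real.1 this
  · have := hG.ev_mono he.2.2.2 χ
    rw [zero_smul, hG.ev_zero, hG.ev_mul_left ha, hG.ev_sub, hG.ev_one,
      (hG.ev_proj heA he.1 χ).resolve_right hχ, sub_zero, mul_one, h] at this
    exact Complex.real_le_real.1 this

theorem exists_select {α : Type*} [Fintype α] [Nonempty α] (f : α → Ω → ℝ)
    (hf : ∀ a, Continuous (f a)) :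
    ∃ s : Ω → α, IsLocallyConstant s ∧ ∀ χ a, f (s χ) χ ≤ f a χ := by
  suffices h : ∀ S : Finset α, ∃ s : Ω → α, IsLocallyConstant s ∧ ∀ χ, ∀ a ∈ S, f (s χ) χ ≤ f a χ by
    obtain ⟨s, h1, h2⟩ := h Finset.univ
    exact ⟨s, h1, fun χ a => h2 χ a (Finset.mem_univ a)⟩
  intro S
  induction S using Finset.induction_on with
  | empty => exact ⟨fun _ => Classical.arbitrary α, IsLocallyConstant.const _, by simp⟩
  | insert b S _ ih =>
    obtain ⟨s, h1, h2⟩ := ih
    obtain ⟨Y, hY, h3, h4⟩ := hG.exists_clopen (f := fun χ => f (s χ) χ - f b χ)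
      ((continuous_of_isLocallyConstant h1 hf).sub (hf b))
    refine ⟨fun χ => if χ ∈ Y then b else s χ, (IsLocallyConstant.iff_eventually_eq _).2 fun χ => ?_,
      fun χ a ha => ?_⟩
    · by_cases hχ : χ ∈ Y
      · filter_upwards [hY.isOpen.mem_nhds hχ] with χ' h
        rw [if_pos h, if_pos hχ]
      · filter_upwards [hY.compl.isOpen.mem_nhds hχ, h1.eventually_eq χ] with χ' h h'
        rw [if_neg h, if_neg hχ, h']
    · have h5 := h2 χ a
      beta_reduce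
      rcases Finset.mem_insert.1 ha with rfl | ha <;> split_ifs with hχ
      · exact le_rfl
      · exact sub_nonpos.1 (h4 χ hχ)
      · exact (sub_nonneg.1 (h3 χ hχ)).trans (h5 ha)
      · exact h5 ha

theorem integral_re (y : 𝓜) : ∫ χ, (ev y χ).re ∂μ = (R.ω y).re := by
  have := hG.fin
  rw [← hG.integral y]
  exact _root_.integral_re (𝕜 := ℂ) (integrable_of_continuous μ (hG.cont y))

theorem measure_proj {e : 𝓜} (he : e ∈ R.A) (hp : IsStarProjection e) :
    μ.real {χ | ev e χ = 1} = (R.ω e).re := by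
  rw [← hG.integral_re e, ← integral_indicator_one (hG.isClopen_proj he hp).isOpen.measurableSet]
  refine integral_congr_ae (Eventually.of_forall fun χ => ?_)
  rcases hG.ev_proj he hp χ with h | h <;> simp [h]

theorem measure_univ : μ.real Set.univ = (R.ω 1).re := by
  rw [← hG.measure_proj R.A.one_mem (IsStarProjection.one 𝓜)]
  simp [hG.ev_one]

theorem exists_paving {κ : Type*} [Fintype κ] [DecidableEq κ] {c : Ω → κ}
    (hc : IsLocallyConstant c) :
    ∃ p : κ → 𝓜, IsPaving R.A p ∧ ∀ l χ, ev (p l) χ = if c χ = l then 1 else 0 := by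
  choose p h1 h2 h3 using fun l => hG.exists_proj (hc.isClopen_fiber l)
  have h4 : ∀ l χ, ev (p l) χ = if c χ = l then 1 else 0 := fun l χ => by simp [h3]
  refine ⟨p, ⟨fun l => ⟨h1 l, h2 l⟩, fun i j hij => hG.eq_of_ev (mul_mem (h1 i) (h1 j))
    (zero_mem _) fun χ => ?_, hG.eq_of_ev (sum_mem fun l _ => h1 l) (one_mem _) fun χ => ?_⟩, h4⟩
  · rw [hG.ev_mul _ (h1 i) _ (h1 j), hG.ev_zero, h4, h4]
    split_ifs with a b
    · exact (hij (a.symm.trans b)).elim
    all_goals simp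
  · simp [hG.ev_sum, hG.ev_one, h4]

theorem exists_index {κ : Type*} [Fintype κ] [DecidableEq κ] {p : κ → 𝓜}
    (hp : IsPaving R.A p) :
    ∃ c : Ω → κ, IsLocallyConstant c ∧ ∀ l χ, ev (p l) χ = if c χ = l then 1 else 0 := by
  have h1 : ∀ χ, ∃ l, ev (p l) χ = 1 := fun χ => by
    by_contra h
    have := hG.ev_sum Finset.univ p χ
    rw [hp.2.2, hG.ev_one, Finset.sum_eq_zero fun l _ =>
      (hG.ev_proj (hp.1 l).1 (hp.1 l).2 χ).resolve_right fun h' => h ⟨l, h'⟩] at this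
    exact one_ne_zero this
  choose c hc using h1
  have h2 : ∀ l χ, ev (p l) χ = if c χ = l then 1 else 0 := fun l χ => by
    split_ifs with h
    · rw [← h, hc]
    · have := hG.ev_mul _ (hp.1 (c χ)).1 _ (hp.1 l).1 χ
      rwa [hp.2.1 _ _ h, hG.ev_zero, hc, one_mul, eq_comm] at this
  refine ⟨c, (IsLocallyConstant.iff_eventually_eq _).2 fun χ => ?_, h2⟩
  filter_upwards [(hG.isClopen_proj (hp.1 (c χ)).1 (hp.1 (c χ)).2).isOpen.mem_nhds (hc χ)]
    with χ' h
  by_contra h'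
  rw [h2, if_neg h'] at h
  exact zero_ne_one h

end IsGel

end Crest.Agent.R109
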