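import Crest.Agent.R109.RN
import Crest.Agent.R109.Gel
import Crest.Agent.R109.GelApi

/-! Row 109, task D3: pointwise helpers and near-minimal partitions. -/

set_option autoImplicit false
set_option linter.unusedSectionVars false

noncomputable section

namespace Crest.Agent.R109.AtomsAux

open Filter Topology MeasureTheory
open scoped ComplexOrder ComplexConjugate Classical

universe u

variable {𝓜 : Type u} [CStarAlgebra 𝓜] [PartialOrder 𝓜] [StarOrderedRing 𝓜]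

section Gel

variable {R : Reg 𝓜} {Ω : Type*} [TopologicalSpace Ω] [CompactSpace Ω] [MeasurableSpace Ω]
  [BorelSpace Ω] {ev : 𝓜 → Ω → ℂ} {μ : Measure Ω}

theorem ev_sa (hG : IsGel R ev μ) {y : 𝓜} (hy : IsSelfAdjoint y) (χ : Ω) :
    ev y χ = ((ev y χ).re : ℂ) := by
  have := hG.ev_star y χ
  rw [hy.star_eq] at this
  exact (Complex.conj_eq_iff_re.1 this.symm).symm

theorem re_nonneg (hG : IsGel R ev μ) {y : 𝓜} (hy : 0 ≤ y) (χ : Ω) : 0 ≤ (ev y χ).re :=
  (Complex.nonneg_iff.1 (hG.ev_nonneg y hy χ)).1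

theorem re_mono (hG : IsGel R ev μ) {y y' : 𝓜} (h : y ≤ y') (χ : Ω) :
    (ev y χ).re ≤ (ev y' χ).re :=
  (Complex.le_def.1 (hG.ev_mono h χ)).1

theorem re_mul (hG : IsGel R ev μ) {a : 𝓜} (ha : a ∈ R.A) (hsa : IsSelfAdjoint a) (y : 𝓜)
    (χ : Ω) : (ev (a * y) χ).re = (ev a χ).re * (ev y χ).re := by
  rw [hG.ev_mul_left ha, ev_sa hG hsa]; simp

theorem re_mul' (hG : IsGel R ev μ) {a : 𝓜} (ha : a ∈ R.A) (hsa : IsSelfAdjoint a) (y : 𝓜)
    (χ : Ω) : (ev (y * a) χ).re = (ev y χ).re * (ev a χ).re := by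
  rw [hG.ev_mul_right ha, ev_sa hG hsa]; simp

theorem re_smul (hG : IsGel R ev μ) (c : ℝ) (y : 𝓜) (χ : Ω) :
    (ev (c • y) χ).re = c * (ev y χ).re := by
  rw [hG.ev_real_smul]; simp

theorem re_sum (hG : IsGel R ev μ) {α : Type*} (S : Finset α) (y : α → 𝓜) (χ : Ω) :
    (ev (∑ i ∈ S, y i) χ).re = ∑ i ∈ S, (ev (y i) χ).re := by
  rw [hG.ev_sum, Complex.re_sum]

theorem re_cont (hG : IsGel R ev μ) (y : 𝓜) : Continuous fun χ => (ev y χ).re :=
  Complex.continuous_re.comp (hG.cont y)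

theorem le_of_re (hG : IsGel R ev μ) {a b : 𝓜} (ha : a ∈ R.A) (hb : b ∈ R.A)
    (hsa : IsSelfAdjoint a) (hsb : IsSelfAdjoint b) (h : ∀ χ, (ev a χ).re ≤ (ev b χ).re) :
    a ≤ b := by
  refine hG.le_of_ev ha hb fun χ => ?_
  rw [ev_sa hG hsa, ev_sa hG hsb]
  exact_mod_cast h χ

theorem re_le_norm (hG : IsGel R ev μ) {y : 𝓜} (hy : IsSelfAdjoint y) (χ : Ω) :
    (ev y χ).re ≤ ‖y‖ := by
  have := re_mono hG (le_norm_smul_one hy) χ
  rwa [re_smul hG, hG.ev_one, Complex.one_re, mul_one] at this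

theorem exists_proj_f (hG : IsGel R ev μ) {f : Ω → ℝ} (hf : Continuous f) :
    ∃ z ∈ R.A, IsStarProjection z ∧
      ∀ χ, (ev z χ = 1 ∧ 0 ≤ f χ) ∨ (ev z χ = 0 ∧ f χ ≤ 0) := by
  obtain ⟨Y, hY, h1, h2⟩ := hG.exists_clopen hf
  obtain ⟨z, hz, hp, hev⟩ := hG.exists_proj hY
  refine ⟨z, hz, hp, fun χ => ?_⟩
  by_cases hχ : χ ∈ Y
  · exact Or.inl ⟨by rw [hev, if_pos hχ], h1 χ hχ⟩
  · exact Or.inr ⟨by rw [hev, if_neg hχ], h2 χ hχ⟩

theorem exists_one (hG : IsGel R ev μ) {z : 𝓜} (hz : z ∈ R.A) (hp : IsStarProjection z)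
    (hne : z ≠ 0) : ∃ χ, ev z χ = 1 := by
  by_contra hcon
  push Not at hcon
  refine hne (hG.eq_of_ev hz R.A.zero_mem fun χ => ?_)
  rw [hG.ev_zero]
  exact (hG.ev_proj hz hp χ).resolve_right (hcon χ)

end Gel

theorem sa_mul (W : WS 𝓜) {a b : 𝓜} (ha : a ∈ W.A) (hb : b ∈ W.A) (hsa : IsSelfAdjoint a)
    (hsb : IsSelfAdjoint b) : IsSelfAdjoint (a * b) := by
  rw [IsSelfAdjoint, star_mul, hsa.star_eq, hsb.star_eq, W.comm b hb a ha]

theorem sa_smul (c : ℝ) {a : 𝓜} (hsa : IsSelfAdjoint a) : IsSelfAdjoint (c • a) := by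
  rw [IsSelfAdjoint, star_smul, hsa.star_eq, star_trivial]

theorem real_smul_mem (A : StarSubalgebra ℂ 𝓜) (c : ℝ) {a : 𝓜} (ha : a ∈ A) : c • a ∈ A := by
  rw [← Complex.coe_smul]; exact A.smul_mem ha _

theorem proj_sub (W : WS 𝓜) {e b : 𝓜} (he : e ∈ W.A) (hb : b ∈ W.A) (hp : IsStarProjection e)
    (hq : IsStarProjection b) : IsStarProjection (e - e * b) := by
  have := W.proj_mul he (W.A.sub_mem W.A.one_mem hb) hp hq.one_sub
  rwa [mul_sub, mul_one] at this

theorem map_zero_of_add {A : StarSubalgebra ℂ 𝓜} {T : 𝓜 → 𝓜}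
    (hTadd : ∀ e ∈ A, ∀ e' ∈ A, T (e + e') = T e + T e') : T 0 = 0 := by
  have := hTadd 0 A.zero_mem 0 A.zero_mem
  rw [add_zero] at this
  exact left_eq_add.1 this

theorem map_sum_of_add {A : StarSubalgebra ℂ 𝓜} {T : 𝓜 → 𝓜}
    (hTadd : ∀ e ∈ A, ∀ e' ∈ A, T (e + e') = T e + T e') {α : Type*} (S : Finset α) (y : α → 𝓜)
    (hy : ∀ i ∈ S, y i ∈ A) : T (∑ i ∈ S, y i) = ∑ i ∈ S, T (y i) := by
  induction S using Finset.induction_on with
  | empty => simpa using map_zero_of_add hTadd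
  | insert a S ha ih =>
    rw [Finset.sum_insert ha, Finset.sum_insert ha,
      hTadd _ (hy a (Finset.mem_insert_self _ _)) _
        (A.sum_mem fun i hi => hy i (Finset.mem_insert_of_mem hi)),
      ih fun i hi => hy i (Finset.mem_insert_of_mem hi)]

section NearMin

variable {R : Reg 𝓜} {Ω : Type*} [TopologicalSpace Ω] [CompactSpace Ω] [MeasurableSpace Ω]
  [BorelSpace Ω] {ev : 𝓜 → Ω → ℂ} {μ : Measure Ω} {T : 𝓜 → 𝓜}

theorem c_mem (hTA : ∀ e ∈ R.A, IsStarProjection e → T e ∈ R.A) {ι : Type*} (S : Finset ι)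
    (p : ι → 𝓜) (hp : ∀ i ∈ S, p i ∈ R.A ∧ IsStarProjection (p i)) :
    ∑ i ∈ S, T (p i) * T (p i) ∈ R.A :=
  R.A.sum_mem fun i hi => R.A.mul_mem (hTA _ (hp i hi).1 (hp i hi).2) (hTA _ (hp i hi).1 (hp i hi).2)

theorem c_nonneg (hT0 : ∀ e ∈ R.A, IsStarProjection e → 0 ≤ T e) {ι : Type*} (S : Finset ι)
    (p : ι → 𝓜) (hp : ∀ i ∈ S, p i ∈ R.A ∧ IsStarProjection (p i)) :
    0 ≤ ∑ i ∈ S, T (p i) * T (p i) :=
  Finset.sum_nonneg fun i hi => by
    have h := (hT0 _ (hp i hi).1 (hp i hi).2).isSelfAdjoint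
    have := star_mul_self_nonneg (T (p i))
    rwa [h.star_eq] at this

theorem c_re (hG : IsGel R ev μ) (hTA : ∀ e ∈ R.A, IsStarProjection e → T e ∈ R.A)
    (hT0 : ∀ e ∈ R.A, IsStarProjection e → 0 ≤ T e) {ι : Type*} (S : Finset ι)
    (p : ι → 𝓜) (hp : ∀ i ∈ S, p i ∈ R.A ∧ IsStarProjection (p i)) (χ : Ω) :
    (ev (∑ i ∈ S, T (p i) * T (p i)) χ).re = ∑ i ∈ S, (ev (T (p i)) χ).re ^ 2 := by
  rw [re_sum hG]
  refine Finset.sum_congr rfl fun i hi => ?_
  rw [re_mul hG (hTA _ (hp i hi).1 (hp i hi).2) (hT0 _ (hp i hi).1 (hp i hi).2).isSelfAdjoint, sq]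

theorem c_le (hG : IsGel R ev μ) (hTA : ∀ e ∈ R.A, IsStarProjection e → T e ∈ R.A)
    (hT0 : ∀ e ∈ R.A, IsStarProjection e → 0 ≤ T e)
    (hTadd : ∀ e ∈ R.A, ∀ e' ∈ R.A, T (e + e') = T e + T e') {ι : Type*} (S : Finset ι)
    (p : ι → 𝓜) (hp : ∀ i ∈ S, p i ∈ R.A ∧ IsStarProjection (p i)) (hs : ∑ i ∈ S, p i = 1)
    (P : Part R.A) (hP : ∀ i ∈ S, P.Resp (p i)) :
    ∑ e ∈ P.cells, T e * T e ≤ ∑ i ∈ S, T (p i) * T (p i) := by
  have hc : ∀ e ∈ P.cells, e ∈ R.A ∧ IsStarProjection e := fun e he => ⟨P.mem he, P.proj he⟩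
  refine le_of_re hG (c_mem hTA _ (fun e => e) hc) (c_mem hTA S p hp)
    (c_nonneg hT0 _ (fun e => e) hc).isSelfAdjoint (c_nonneg hT0 S p hp).isSelfAdjoint
    fun χ => ?_
  rw [c_re hG hTA hT0 _ (fun e => e) hc, c_re hG hTA hT0 S p hp]
  calc ∑ b ∈ P.cells, (ev (T b) χ).re ^ 2
      ≤ ∑ b ∈ P.cells, ∑ i ∈ S, if b * p i = b then (ev (T b) χ).re ^ 2 else 0 := by
        refine Finset.sum_le_sum fun b hb => ?_
        by_cases hex : ∃ i ∈ S, b * p i = b
        · obtain ⟨i, hi, hbi⟩ := hex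
          have := Finset.single_le_sum
            (f := fun i => if b * p i = b then (ev (T b) χ).re ^ 2 else 0)
            (fun j _ => by split_ifs <;> positivity) hi
          simpa [hbi] using this
        · push Not at hex
          have hb0 : b = 0 := by
            calc b = b * ∑ i ∈ S, p i := by rw [hs, mul_one]
              _ = 0 := by
                rw [Finset.mul_sum]
                exact Finset.sum_eq_zero fun i hi => ((hP i hi) b hb).resolve_left (hex i hi)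
          rw [hb0, map_zero_of_add hTadd, hG.ev_zero]
          simp
    _ = ∑ i ∈ S, ∑ b ∈ P.cells with b * p i = b, (ev (T b) χ).re ^ 2 := by
        rw [Finset.sum_comm]
        simp only [Finset.sum_filter]
    _ ≤ ∑ i ∈ S, (ev (T (p i)) χ).re ^ 2 := by
        refine Finset.sum_le_sum fun i hi => ?_
        have h1 : T (p i) = ∑ b ∈ P.cells with b * p i = b, T b := by
          conv_lhs => rw [(hP i hi).eq_sum]
          exact map_sum_of_add hTadd _ (fun b => b) fun b hb => P.mem (Finset.mem_filter.1 hb).1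
        rw [h1, re_sum hG]
        exact Finset.sum_sq_le_sq_sum_of_nonneg fun b hb =>
          re_nonneg hG (hT0 b (P.mem (Finset.mem_filter.1 hb).1)
            (P.proj (Finset.mem_filter.1 hb).1)) χ

theorem near_min (hG : IsGel R ev μ) (hTA : ∀ e ∈ R.A, IsStarProjection e → T e ∈ R.A)
    (hT0 : ∀ e ∈ R.A, IsStarProjection e → 0 ≤ T e)
    (hTadd : ∀ e ∈ R.A, ∀ e' ∈ R.A, T (e + e') = T e + T e') {γ : ℝ} (hγ : 0 < γ)
    (h : ∀ P : Part R.A, γ ≤ ∑ e ∈ P.cells, (R.ω (T e * T e)).re) :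
    ∃ η : ℝ, 0 < η ∧ ∀ δ : ℝ, 0 < δ → ∃ e ∈ R.A, ∃ z ∈ R.A, IsStarProjection e ∧
      IsStarProjection z ∧ z ≠ 0 ∧ η • z ≤ T e * z ∧
      ∀ b ∈ R.A, IsStarProjection b → b * e = b → T b * T (e - b) * z ≤ δ • z := by
  set c : Part R.A → 𝓜 := fun P => ∑ e ∈ P.cells, T e * T e with hcdef
  have hc : ∀ P : Part R.A, ∀ e ∈ P.cells, e ∈ R.A ∧ IsStarProjection e :=
    fun P e he => ⟨P.mem he, P.proj he⟩
  have hcA : ∀ P, c P ∈ R.A := fun P => c_mem hTA _ (fun e => e) (hc P)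
  have hc0 : ∀ P, 0 ≤ c P := fun P => c_nonneg hT0 _ (fun e => e) (hc P)
  have hcb : ∀ P, ‖c P‖ ≤ ‖T 1 * T 1‖ := fun P => by
    have := c_le hG hTA hT0 hTadd (Finset.univ : Finset Unit) (fun _ => (1 : 𝓜))
      (fun _ _ => ⟨R.A.one_mem, IsStarProjection.one 𝓜⟩) (by simp) P
      (fun _ _ b _ => Or.inl (mul_one b))
    rw [Finset.sum_const, Finset.card_univ, Fintype.card_unit, one_smul] at this
    exact CStarAlgebra.norm_le_norm_of_nonneg_of_le (hc0 P) this
  obtain ⟨ci, hci⟩ := R.exists_wlim R.U c (Eventually.of_forall hcb)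
  have hciA : ci ∈ R.A := hci.mem_A (Eventually.of_forall hcA)
  have hci0 : 0 ≤ ci := hci.nonneg (Eventually.of_forall hc0)
  have hcile : ∀ {ι : Type u} (S : Finset ι) (p : ι → 𝓜),
      (∀ i ∈ S, p i ∈ R.A ∧ IsStarProjection (p i)) → ∑ i ∈ S, p i = 1 →
      ci ≤ ∑ i ∈ S, T (p i) * T (p i) := by
    intro ι S p hp hs
    refine hci.le_const ?_
    have : ∀ᶠ P in (R.U : Filter (Part R.A)), ∀ i ∈ S, P.Resp (p i) :=
      (Filter.eventually_all_finset S).2 fun i hi => R.U_resp (hp i hi).1 (hp i hi).2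
    filter_upwards [this] with P hP
    exact c_le hG hTA hT0 hTadd S p hp hs P hP
  have hcic : ∀ P, ci ≤ c P := fun P => hcile P.cells (fun e => e) (hc P) P.sum_cells
  have hlim : Tendsto (fun P => (R.ω (c P)).re) (R.U : Filter (Part R.A)) (𝓝 (R.ω ci).re) :=
    (Complex.continuous_re.tendsto _).comp (hci R.ω R.ω_mem)
  have hγci : γ ≤ (R.ω ci).re := by
    refine ge_of_tendsto' hlim fun P => ?_
    have := h P
    rwa [← Complex.re_sum, ← map_sum] at this
  have hcine : ci ≠ 0 := by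
    rintro rfl
    rw [map_zero, Complex.zero_re] at hγci
    linarith
  obtain ⟨z1, hz1A, hz1p, hz1ne, c0, hc0pos, hc0le⟩ := R.exists_proj_le hciA hci0 hcine
  have hT1 := hT0 1 R.A.one_mem (IsStarProjection.one 𝓜)
  set τ := ‖T 1‖ with hτ
  have hτ0 : 0 ≤ τ := norm_nonneg _
  refine ⟨c0 / (2 * (τ + 1)), by positivity, fun δ hδ => ?_⟩
  set η := c0 / (2 * (τ + 1)) with hη
  have hη0 : 0 < η := by positivity
  have hητ : η * τ < c0 := by
    rw [hη, div_mul_eq_mul_div, div_lt_iff₀ (by positivity)]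
    nlinarith
  have hωz1 : 0 < (R.ω z1).re := by
    by_contra hcon
    exact hz1ne (R.faithful z1 hz1p.nonneg (pos_eq_zero_of_re R.ω hz1p.nonneg (not_lt.1 hcon)))
  obtain ⟨P0, hP0⟩ := (hlim.eventually
    (gt_mem_nhds (show (R.ω ci).re < (R.ω ci).re + δ * (R.ω z1).re by
      have := mul_pos hδ hωz1; linarith))).exists
  have hex : ∃ χ0, ev z1 χ0 = 1 ∧ (ev (c P0) χ0).re - (ev ci χ0).re < δ := by
    by_contra hcon
    push Not at hcon
    have hle : δ • z1 ≤ c P0 - ci := by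
      refine le_of_re hG (real_smul_mem _ _ hz1A) (R.A.sub_mem (hcA P0) hciA)
        (sa_smul _ hz1p.isSelfAdjoint) (sub_nonneg.2 (hcic P0)).isSelfAdjoint fun χ => ?_
      rw [re_smul hG, hG.ev_sub, Complex.sub_re]
      rcases hG.ev_proj hz1A hz1p χ with h0 | h1
      · rw [h0, Complex.zero_re, mul_zero]
        exact sub_nonneg.2 (re_mono hG (hcic P0) χ)
      · rw [h1, Complex.one_re, mul_one]
        exact hcon χ h1
    have := pos_re_mono R.ω hle
    rw [pos_real_smul, map_sub, Complex.sub_re, Complex.re_ofReal_mul] at this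
    linarith
  obtain ⟨χ0, hχ0, hd0⟩ := hex
  have hcell : ∃ e ∈ P0.cells, η < (ev (T e) χ0).re := by
    by_contra hcon
    push Not at hcon
    have h1 : c0 ≤ (ev ci χ0).re := by
      have := re_mono hG hc0le χ0
      rwa [re_smul hG, re_mul' hG hz1A hz1p.isSelfAdjoint, hχ0, Complex.one_re, mul_one,
        mul_one] at this
    have h2 := re_mono hG (hcic P0) χ0
    have h3 : (ev (c P0) χ0).re ≤ η * τ := by
      rw [hcdef]
      simp only
      rw [c_re hG hTA hT0 _ (fun e => e) (hc P0)]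
      calc ∑ e ∈ P0.cells, (ev (T e) χ0).re ^ 2
          ≤ ∑ e ∈ P0.cells, η * (ev (T e) χ0).re := by
            refine Finset.sum_le_sum fun e he => ?_
            rw [sq]
            exact mul_le_mul_of_nonneg_right (hcon e he)
              (re_nonneg hG (hT0 e (P0.mem he) (P0.proj he)) χ0)
        _ = η * (ev (T 1) χ0).re := by
            rw [← Finset.mul_sum, ← re_sum hG,
              ← map_sum_of_add hTadd _ (fun b => b) fun b hb => P0.mem hb, P0.sum_cells]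
        _ ≤ η * τ := mul_le_mul_of_nonneg_left (re_le_norm hG hT1.isSelfAdjoint χ0) hη0.le
    linarith
  obtain ⟨e, he, heη⟩ := hcell
  have heA := P0.mem he
  have hep := P0.proj he
  obtain ⟨z, hzA, hzp, hz⟩ := exists_proj_f hG
    (f := fun χ => min ((ev (T e) χ).re - η) (δ - ((ev (c P0) χ).re - (ev ci χ).re)))
    (((re_cont hG _).sub continuous_const).min
      (continuous_const.sub ((re_cont hG _).sub (re_cont hG _))))
  refine ⟨e, heA, z, hzA, hep, hzp, ?_, ?_, ?_⟩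
  · rintro rfl
    rcases hz χ0 with ⟨h1, -⟩ | ⟨-, h1⟩
    · rw [hG.ev_zero] at h1; exact zero_ne_one h1
    · rcases min_le_iff.1 h1 with h2 | h2 <;> linarith
  · refine le_of_re hG (real_smul_mem _ _ hzA) (R.A.mul_mem (hTA e heA hep) hzA)
      (sa_smul _ hzp.isSelfAdjoint)
      (sa_mul R.toWS (hTA e heA hep) hzA (hT0 e heA hep).isSelfAdjoint hzp.isSelfAdjoint)
      fun χ => ?_
    rw [re_smul hG, re_mul' hG hzA hzp.isSelfAdjoint]
    rcases hz χ with ⟨h1, h2⟩ | ⟨h1, -⟩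
    · rw [h1, Complex.one_re, mul_one, mul_one]
      have := (le_min_iff.1 h2).1
      linarith
    · rw [h1]; simp
  · intro b hbA hbp hbe
    have heb : e * b = b := by rw [R.comm e heA b hbA, hbe]
    have hebp : IsStarProjection (e - b) := by
      have := proj_sub R.toWS heA hbA hep hbp
      rwa [heb] at this
    have hebA : e - b ∈ R.A := R.A.sub_mem heA hbA
    have hTb := hTA b hbA hbp
    have hTeb := hTA _ hebA hebp
    refine le_of_re hG (R.A.mul_mem (R.A.mul_mem hTb hTeb) hzA) (real_smul_mem _ _ hzA)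
      (sa_mul R.toWS (R.A.mul_mem hTb hTeb) hzA
        (sa_mul R.toWS hTb hTeb (hT0 b hbA hbp).isSelfAdjoint (hT0 _ hebA hebp).isSelfAdjoint)
        hzp.isSelfAdjoint) (sa_smul _ hzp.isSelfAdjoint) fun χ => ?_
    rw [re_smul hG, re_mul' hG hzA hzp.isSelfAdjoint,
      re_mul hG hTb (hT0 b hbA hbp).isSelfAdjoint]
    rcases hz χ with ⟨h1, h2⟩ | ⟨h1, -⟩
    swap
    · rw [h1]; simp
    rw [h1, Complex.one_re, mul_one, mul_one]
    have h3 := (le_min_iff.1 h2).2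
    -- the split family
    let p : 𝓜 × Bool → 𝓜 := fun x => if x.2 then x.1 * b else x.1 - x.1 * b
    have hp : ∀ x ∈ P0.cells ×ˢ (Finset.univ : Finset Bool),
        p x ∈ R.A ∧ IsStarProjection (p x) := by
      rintro ⟨e', s⟩ hx
      have he' := (Finset.mem_product.1 hx).1
      cases s
      · exact ⟨R.A.sub_mem (P0.mem he') (R.A.mul_mem (P0.mem he') hbA),
          proj_sub R.toWS (P0.mem he') hbA (P0.proj he') hbp⟩
      · exact ⟨R.A.mul_mem (P0.mem he') hbA, R.proj_mul (P0.mem he') hbA (P0.proj he') hbp⟩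
    have hs : ∑ x ∈ P0.cells ×ˢ (Finset.univ : Finset Bool), p x = 1 := by
      rw [Finset.sum_product, ← P0.sum_cells]
      refine Finset.sum_congr rfl fun e' _ => ?_
      simp [p]
    have h4 := re_mono hG (hcile _ p hp hs) χ
    rw [c_re hG hTA hT0 _ p hp, Finset.sum_product] at h4
    have h5 : (ev (c P0) χ).re = ∑ e' ∈ P0.cells, (ev (T e') χ).re ^ 2 :=
      c_re hG hTA hT0 _ (fun e => e) (hc P0) χ
    have h6 : ∀ e' ∈ P0.cells, (ev (T e') χ).re ^ 2 -
        ∑ s : Bool, (ev (T (p (e', s))) χ).re ^ 2 =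
        2 * ((ev (T (e' * b)) χ).re * (ev (T (e' - e' * b)) χ).re) := by
      intro e' he'
      have : T e' = T (e' * b) + T (e' - e' * b) := by
        rw [← hTadd _ (R.A.mul_mem (P0.mem he') hbA) _
          (R.A.sub_mem (P0.mem he') (R.A.mul_mem (P0.mem he') hbA)), add_sub_cancel]
      rw [this, hG.ev_add, Complex.add_re]
      simp [p]
      ring
    have h7 : 2 * ((ev (T (e * b)) χ).re * (ev (T (e - e * b)) χ).re) ≤
        ∑ e' ∈ P0.cells, 2 * ((ev (T (e' * b)) χ).re * (ev (T (e' - e' * b)) χ).re) := by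
      refine Finset.single_le_sum
        (f := fun e' => 2 * ((ev (T (e' * b)) χ).re * (ev (T (e' - e' * b)) χ).re))
        (fun e' he' => ?_) he
      have a1 := re_nonneg hG (hT0 _ (R.A.mul_mem (P0.mem he') hbA)
        (R.proj_mul (P0.mem he') hbA (P0.proj he') hbp)) χ
      have a2 := re_nonneg hG (hT0 _ (R.A.sub_mem (P0.mem he') (R.A.mul_mem (P0.mem he') hbA))
        (proj_sub R.toWS (P0.mem he') hbA (P0.proj he') hbp)) χ
      positivity
    rw [← Finset.sum_congr rfl h6, Finset.sum_sub_distrib, heb] at h7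
    have a1 := re_nonneg hG (hT0 b hbA hbp) χ
    have a2 := re_nonneg hG (hT0 _ hebA hebp) χ
    have a3 := mul_nonneg a1 a2
    linarith

end NearMin

end Crest.Agent.R109.AtomsAux
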