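import Crest.Agent.R109.AtomsAux

/-! Row 109, task D3: the intertwiner attached to an atom. -/

set_option autoImplicit false
set_option linter.unusedSectionVars false

noncomputable section

namespace Crest.Agent.R109.AtomsAux

open Filter Topology MeasureTheory
open scoped ComplexOrder ComplexConjugate Classical

universe u

variable {𝓜 : Type u} [CStarAlgebra 𝓜] [PartialOrder 𝓜] [StarOrderedRing 𝓜]

/-- `E` commutes with bounded weak limits along ultrafilters. -/
theorem E_wlim_comm (R : Reg 𝓜) {α : Type*} (U : Ultrafilter α) {y : α → 𝓜} {Y : 𝓜} {C : ℝ}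
    (hb : ∀ i, ‖y i‖ ≤ C) (h : R.WLim (U : Filter α) y Y) :
    R.WLim (U : Filter α) (fun i => R.E (y i)) (R.E Y) := by
  obtain ⟨G, hG⟩ := R.exists_wlim U (fun i => R.E (y i)) (R := C)
    (Eventually.of_forall fun i => (R.norm_E_le _).trans (hb i))
  have hGA : G ∈ R.A := hG.mem_A (Eventually.of_forall fun i => R.E_mem _)
  have : R.E Y = G := by
    refine R.E_eq_of hGA fun b hb => ?_
    have h1 := h.mul_left b R.ω R.ω_mem
    have h2 := hG.mul_left b R.ω R.ω_mem
    refine tendsto_nhds_unique h1 (h2.congr fun i => ?_)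
    beta_reduce
    rw [← R.E_mul_left hb, R.ω_E]
  rwa [this]

variable {R : Reg 𝓜} {Ω : Type*} [TopologicalSpace Ω] [CompactSpace Ω] [MeasurableSpace Ω]
  [BorelSpace Ω] {ev : 𝓜 → Ω → ℂ} {μ : Measure Ω}

/-- The character-like map `θ` attached to an atom. -/
theorem exists_theta (hG : IsGel R ev μ) (t : 𝓜 → Ω → ℝ) (htc : ∀ b, Continuous (t b))
    (htadd : ∀ a b χ, t (a + b) χ = t a χ + t b χ)
    (ht0 : ∀ b ∈ R.A, IsStarProjection b → ∀ χ, 0 ≤ t b χ)
    {e z : 𝓜} (heA : e ∈ R.A) (hep : IsStarProjection e) (hzA : z ∈ R.A)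
    (hzp : IsStarProjection z) {η : ℝ} (hη : 0 < η) (h1 : ∀ χ, ev z χ = 1 → η ≤ t e χ)
    (h2 : ∀ b ∈ R.A, IsStarProjection b → b * e = b → ∀ χ, ev z χ = 1 →
      t b χ * t (e - b) χ ≤ η ^ 2 / 16) :
    ∃ θ : 𝓜 → 𝓜, (∀ b ∈ R.A, IsStarProjection b → θ b ∈ R.A ∧ IsStarProjection (θ b) ∧
        ∀ χ, ev (θ b) χ = if ev z χ = 1 ∧ η / 2 ≤ t (b * e) χ then 1 else 0) ∧
      (∀ b ∈ R.A, IsStarProjection b → ∀ b' ∈ R.A, IsStarProjection b' →
        θ (b * b') = θ b * θ b') ∧ θ 0 = 0 ∧ θ 1 = z ∧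
      ∀ P : Part R.A, ∀ χ, ev z χ = 1 → ∃ b ∈ P.cells, η / 2 ≤ t (b * e) χ := by
  have htz : ∀ χ, t 0 χ = 0 := fun χ => by
    have := htadd 0 0 χ
    rw [add_zero] at this
    linarith
  have hbe : ∀ b ∈ R.A, IsStarProjection b → b * e ∈ R.A ∧ IsStarProjection (b * e) ∧
      e - b * e ∈ R.A ∧ IsStarProjection (e - b * e) := fun b hb hp => by
    refine ⟨R.A.mul_mem hb heA, R.proj_mul hb heA hp hep,
      R.A.sub_mem heA (R.A.mul_mem hb heA), ?_⟩
    rw [R.comm b hb e heA]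
    exact proj_sub R.toWS heA hb hep hp
  have hsplit : ∀ b χ, t e χ = t (b * e) χ + t (e - b * e) χ := fun b χ => by
    rw [← htadd, add_sub_cancel]
  have hgap : ∀ b ∈ R.A, IsStarProjection b → ∀ χ, ev z χ = 1 →
      t (b * e) χ ≤ η / 8 ∨ t (e - b * e) χ ≤ η / 8 := fun b hb hp χ hχ => by
    obtain ⟨a1, a2, a3, a4⟩ := hbe b hb hp
    have h3 := h2 (b * e) a1 a2 (by rw [mul_assoc, hep.isIdempotentElem.eq]) χ hχ
    have h4 := h1 χ hχ
    rw [hsplit b] at h4
    by_contra hcon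
    push Not at hcon
    rcases le_total (t (b * e) χ) (t (e - b * e) χ) with h5 | h5 <;> nlinarith [hcon.1, hcon.2]
  have hmono : ∀ b ∈ R.A, IsStarProjection b → ∀ x ∈ R.A, IsStarProjection x → ∀ χ,
      t (b * x) χ ≤ t x χ := fun b hb hp x hx hq χ => by
    have h3 : t x χ = t (b * x) χ + t (x - b * x) χ := by rw [← htadd, add_sub_cancel]
    have h4 : IsStarProjection (x - b * x) := by
      rw [R.comm b hb x hx]; exact proj_sub R.toWS hx hb hq hp
    have := ht0 _ (R.A.sub_mem hx (R.A.mul_mem hb hx)) h4 χ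
    linarith
  have hex : ∀ b : 𝓜, ∃ s : 𝓜, b ∈ R.A → IsStarProjection b → s ∈ R.A ∧ IsStarProjection s ∧
      ∀ χ, ev s χ = if ev z χ = 1 ∧ η / 2 ≤ t (b * e) χ then 1 else 0 := fun b => by
    obtain ⟨s, hsA, hsp, hs⟩ := exists_proj_f hG
      (f := fun χ => min (t (b * e) χ - η / 2) ((ev z χ).re - 1 / 2))
      (((htc _).sub continuous_const).min ((re_cont hG _).sub continuous_const))
    refine ⟨s, fun hb hp => ⟨hsA, hsp, fun χ => ?_⟩⟩
    rcases hs χ with ⟨a1, a2⟩ | ⟨a1, a2⟩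
    · obtain ⟨a3, a4⟩ := le_min_iff.1 a2
      have : ev z χ = 1 := by
        refine (hG.ev_proj hzA hzp χ).resolve_left fun h0 => ?_
        rw [h0, Complex.zero_re] at a4
        linarith
      rw [a1, if_pos ⟨this, by linarith⟩]
    · rw [a1, if_neg]
      rintro ⟨a3, a4⟩
      rcases min_le_iff.1 a2 with a5 | a5
      · have a6 := h1 χ a3
        rw [hsplit b] at a6
        rcases hgap b hb hp χ a3 with a7 | a7 <;> linarith
      · rw [a3, Complex.one_re] at a5
        linarith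
  choose θ hθ using hex
  have hθ' : ∀ b ∈ R.A, IsStarProjection b → θ b ∈ R.A ∧ IsStarProjection (θ b) ∧
      ∀ χ, ev (θ b) χ = if ev z χ = 1 ∧ η / 2 ≤ t (b * e) χ then 1 else 0 :=
    fun b hb hp => hθ b hb hp
  refine ⟨θ, hθ', fun b hb hp b' hb' hp' => ?_, ?_, ?_, fun P χ hχ => ?_⟩
  · obtain ⟨a1, -, a3⟩ := hθ' b hb hp
    obtain ⟨b1, -, b3⟩ := hθ' b' hb' hp'
    obtain ⟨c1, -, c3⟩ := hθ' (b * b') (R.A.mul_mem hb hb') (R.proj_mul hb hb' hp hp')
    refine hG.eq_of_ev c1 (R.A.mul_mem a1 b1) fun χ => ?_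
    rw [hG.ev_mul _ a1 _ b1, a3, b3, c3]
    by_cases hχ : ev z χ = 1
    swap
    · simp [hχ]
    obtain ⟨d1, d2, d3, d4⟩ := hbe b hb hp
    obtain ⟨e1, e2, e3, e4⟩ := hbe b' hb' hp'
    have m1 : t (b * b' * e) χ ≤ t (b' * e) χ := by
      rw [mul_assoc]; exact hmono b hb hp _ e1 e2 χ
    have m2 : t (b * b' * e) χ ≤ t (b * e) χ := by
      rw [R.comm b hb b' hb', mul_assoc]; exact hmono b' hb' hp' _ d1 d2 χ
    have m3 : t (b * e) χ = t (b * b' * e) χ + t (b * (e - b' * e)) χ := by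
      rw [← htadd]; congr 1; noncomm_ring
    have m4 : t (b * (e - b' * e)) χ ≤ t (e - b' * e) χ := hmono b hb hp _ e3 e4 χ
    have m5 := h1 χ hχ
    have m6 := hsplit b χ
    by_cases hb1 : η / 2 ≤ t (b * e) χ
    · by_cases hb2 : η / 2 ≤ t (b' * e) χ
      · have : η / 2 ≤ t (b * b' * e) χ := by
          rcases hgap b hb hp χ hχ with g1 | g1
          · linarith
          rcases hgap b' hb' hp' χ hχ with g2 | g2 <;> linarith
        simp [hχ, hb1, hb2, this]
      · have : ¬ η / 2 ≤ t (b * b' * e) χ := fun h => hb2 (h.trans m1)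
        simp [hb2, this]
    · have : ¬ η / 2 ≤ t (b * b' * e) χ := fun h => hb1 (h.trans m2)
      simp [hb1, this]
  · obtain ⟨a1, -, a3⟩ := hθ' 0 R.A.zero_mem (IsStarProjection.zero 𝓜)
    refine hG.eq_of_ev a1 R.A.zero_mem fun χ => ?_
    rw [a3, hG.ev_zero, zero_mul, htz, if_neg]
    rintro ⟨-, h⟩
    linarith
  · obtain ⟨a1, -, a3⟩ := hθ' 1 R.A.one_mem (IsStarProjection.one 𝓜)
    refine hG.eq_of_ev a1 hzA fun χ => ?_
    rw [a3, one_mul]
    rcases hG.ev_proj hzA hzp χ with h0 | h0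
    · simp [h0]
    · rw [if_pos ⟨h0, by linarith [h1 χ h0]⟩, h0]
  · by_contra hcon
    push Not at hcon
    have key : ∀ S : Finset 𝓜, S ⊆ P.cells → t ((∑ b ∈ S, b) * e) χ < η / 2 := by
      intro S
      induction S using Finset.induction_on with
      | empty => intro _; rw [Finset.sum_empty, zero_mul, htz]; linarith
      | insert a S ha ih =>
        intro hS
        have haP : a ∈ P.cells := hS (Finset.mem_insert_self _ _)
        have hS' : S ⊆ P.cells := (Finset.subset_insert _ _).trans hS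
        have i1 := ih hS'
        have i2 := hcon a haP
        have hSp : IsStarProjection (∑ b ∈ S, b) :=
          isStarProjection_sum S (fun b => b) (fun b hb => P.proj (hS' hb))
            fun b hb b' hb' hne => P.orth (hS' hb) (hS' hb') hne
        have hSA : ∑ b ∈ S, b ∈ R.A := R.A.sum_mem fun b hb => P.mem (hS' hb)
        have m5 := h1 χ hχ
        have m6 := hsplit a χ
        have m7 := hsplit (∑ b ∈ S, b) χ
        rw [Finset.sum_insert ha, add_mul, htadd]
        rcases hgap a (P.mem haP) (P.proj haP) χ hχ with g1 | g1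
        · rcases hgap _ hSA hSp χ hχ with g2 | g2 <;> linarith
        · linarith
    have := key P.cells subset_rfl
    rw [P.sum_cells, one_mul] at this
    linarith [h1 χ hχ]

/-- The intertwiner attached to an atom. -/
theorem exists_intertwiner (hG : IsGel R ev μ) {w : 𝓜} (hw : IsSelfAdjoint w)
    {e z : 𝓜} (heA : e ∈ R.A) (hep : IsStarProjection e) (hzA : z ∈ R.A)
    (hzp : IsStarProjection z) {η : ℝ} (hη : 0 < η) (h1 : η • z ≤ R.E (w * e * w) * z)
    (h2 : ∀ b ∈ R.A, IsStarProjection b → b * e = b →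
      R.E (w * b * w) * R.E (w * (e - b) * w) * z ≤ (η ^ 2 / 16) • z) :
    ∃ (y : 𝓜) (θ : 𝓜 → 𝓜), (∀ b ∈ R.A, IsStarProjection b → θ b ∈ R.A ∧ IsStarProjection (θ b) ∧
        b * y = y * θ b ∧ ∀ χ, ev (θ b) χ = 1 → ev z χ = 1) ∧
      ∀ χ, ev z χ = 1 → η / 2 ≤ (ev (w * y) χ).re := by
  have hT0 : ∀ b, IsStarProjection b → 0 ≤ w * b * w := fun b hp => by
    have := star_left_conjugate_nonneg hp.nonneg w
    rwa [hw.star_eq] at this
  obtain ⟨θ, hθ, hθm, hθ0, -, hθP⟩ := exists_theta hG (fun b χ => (ev (w * b * w) χ).re)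
    (fun b => re_cont hG _)
    (fun a b χ => by rw [mul_add, add_mul, hG.ev_add, Complex.add_re])
    (fun b _ hp χ => re_nonneg hG (hT0 b hp) χ) heA hep hzA hzp hη
    (fun χ hχ => by
      have := re_mono hG h1 χ
      rwa [re_smul hG, re_mul' hG hzA hzp.isSelfAdjoint, hχ, Complex.one_re, mul_one, mul_one,
        hG.ev_E] at this)
    (fun b hb hp hbe χ hχ => by
      have := re_mono hG (h2 b hb hp hbe) χ
      rwa [re_smul hG, re_mul' hG hzA hzp.isSelfAdjoint, hχ, Complex.one_re, mul_one, mul_one,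
        re_mul hG (R.E_mem _) (R.E_nonneg (hT0 b hp)).isSelfAdjoint, hG.ev_E, hG.ev_E] at this)
  set yP : Part R.A → 𝓜 := fun P => ∑ b ∈ P.cells, b * (e * w) * θ b with hyP
  have hyb : ∀ P, ‖yP P‖ ≤ ‖w‖ := fun P => by
    refine norm_sum_blocks_le P.cells (fun b => b) θ (fun _ => e * w) (fun b hb => P.proj hb)
      (fun b hb => (hθ b (P.mem hb) (P.proj hb)).2.1) (fun b hb b' hb' hne => P.orth hb hb' hne)
      (fun b hb b' hb' hne => ?_) (norm_nonneg _) fun b hb => ?_
    · rw [← hθm b (P.mem hb) (P.proj hb) b' (P.mem hb') (P.proj hb'), P.orth hb hb' hne, hθ0]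
    · have a1 := (P.proj hb).norm_le
      have a2 := hep.norm_le
      have a3 := (hθ b (P.mem hb) (P.proj hb)).2.1.norm_le
      calc ‖b * (e * w) * θ b‖ ≤ ‖b‖ * (‖e‖ * ‖w‖) * ‖θ b‖ := by
            refine (norm_mul_le _ _).trans (mul_le_mul_of_nonneg_right ?_ (norm_nonneg _))
            exact (norm_mul_le _ _).trans
              (mul_le_mul_of_nonneg_left (norm_mul_le _ _) (norm_nonneg _))
        _ ≤ 1 * (1 * ‖w‖) * 1 := by gcongr
        _ = ‖w‖ := by ring
  obtain ⟨y, hy⟩ := R.exists_wlim R.U yP (Eventually.of_forall hyb)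
  refine ⟨y, θ, fun b0 hb0 hp0 => ⟨(hθ b0 hb0 hp0).1, (hθ b0 hb0 hp0).2.1, ?_, fun χ hχ => ?_⟩,
    fun χ hχ => ?_⟩
  · refine hy.intertwine ?_
    filter_upwards [R.U_resp hb0 hp0] with P hP
    simp only [hyP, Finset.mul_sum, Finset.sum_mul]
    refine Finset.sum_congr rfl fun b hb => ?_
    have hc := R.comm b0 hb0 b (P.mem hb)
    rw [mul_assoc _ (θ b), ← hθm b (P.mem hb) (P.proj hb) b0 hb0 hp0, ← mul_assoc, ← mul_assoc,
      hc]
    rcases hP b hb with h | h
    · rw [h]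
    · rw [h, hθ0]; simp
  · rw [(hθ b0 hb0 hp0).2.2] at hχ
    by_contra hcon
    simp [hcon] at hχ
  · have hlim := E_wlim_comm R R.U (y := fun P => w * yP P) (C := ‖w‖ * ‖w‖)
      (fun P => (norm_mul_le _ _).trans (mul_le_mul_of_nonneg_left (hyb P) (norm_nonneg _)))
      (hy.mul_left w)
    have hle : (η / 2) • z ≤ R.E (w * y) := by
      refine hlim.const_le (Eventually.of_forall fun P => ?_)
      have hE : R.E (w * yP P) = ∑ b ∈ P.cells, R.E (w * (b * e) * w) * θ b := by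
        simp only [hyP, Finset.mul_sum, R.E_sum]
        refine Finset.sum_congr rfl fun b hb => ?_
        rw [← R.E_mul_right (hθ b (P.mem hb) (P.proj hb)).1]
        congr 1
        noncomm_ring
      have hterm : ∀ b ∈ P.cells, 0 ≤ R.E (w * (b * e) * w) * θ b := fun b hb =>
        R.mul_nonneg_A (R.E_mem _) (hθ b (P.mem hb) (P.proj hb)).1
          (R.E_nonneg (hT0 _ (R.proj_mul (P.mem hb) heA (P.proj hb) hep)))
          (hθ b (P.mem hb) (P.proj hb)).2.1.nonneg
      refine le_of_re hG (real_smul_mem _ _ hzA) (R.E_mem _) (sa_smul _ hzp.isSelfAdjoint)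
        (by rw [hE]; exact (Finset.sum_nonneg hterm).isSelfAdjoint) fun χ' => ?_
      rw [hE, re_smul hG]
      rcases hG.ev_proj hzA hzp χ' with h0 | h0
      · rw [h0, Complex.zero_re, mul_zero]
        exact re_nonneg hG (Finset.sum_nonneg hterm) χ'
      · obtain ⟨b, hb, hbig⟩ := hθP P χ' h0
        have a1 := re_mono hG (Finset.single_le_sum hterm hb) χ'
        obtain ⟨c1, c2, c3⟩ := hθ b (P.mem hb) (P.proj hb)
        rw [re_mul' hG c1 c2.isSelfAdjoint, c3, if_pos ⟨h0, hbig⟩, hG.ev_E, Complex.one_re,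
          mul_one] at a1
        rw [h0, Complex.one_re, mul_one]
        exact hbig.trans a1
    have := re_mono hG hle χ
    rwa [re_smul hG, hχ, Complex.one_re, mul_one, hG.ev_E] at this

end Crest.Agent.R109.AtomsAux
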