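import Crest.Agent.R109.WBasic

/-! Row 109: the unitised corner `e 𝓜 e + ℂ f` as a regular structure. -/

set_option autoImplicit false
set_option linter.unusedSectionVars false

noncomputable section

namespace Crest.Agent.R109

open Filter Topology
open scoped ComplexOrder ComplexConjugate Classical

universe u

variable {𝓜 : Type u} [CStarAlgebra 𝓜] [PartialOrder 𝓜] [StarOrderedRing 𝓜]

namespace CornerAux

/-- Elements commuting with `f` that act on `f` as scalars. -/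
def Mt (f : 𝓜) (hf : IsStarProjection f) : StarSubalgebra ℂ 𝓜 where
  carrier := {y | f * y = y * f ∧ ∃ c : ℂ, f * y = c • f}
  mul_mem' := by
    rintro a b ⟨ha, c, hc⟩ ⟨hb, d, hd⟩
    refine ⟨by rw [← mul_assoc, ha, mul_assoc, hb, mul_assoc], c * d, ?_⟩
    rw [← mul_assoc, hc, smul_mul_assoc, hd, smul_smul]
  add_mem' := by
    rintro a b ⟨ha, c, hc⟩ ⟨hb, d, hd⟩
    exact ⟨by rw [mul_add, add_mul, ha, hb], c + d, by rw [mul_add, hc, hd, add_smul]⟩
  algebraMap_mem' c :=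
    ⟨(Algebra.commutes c f).symm, c, by rw [← Algebra.commutes, Algebra.smul_def]⟩
  star_mem' := by
    rintro a ⟨ha, c, hc⟩
    have h1 : star a * f = f * star a := by
      have := congrArg star ha
      rwa [star_mul, star_mul, hf.isSelfAdjoint.star_eq] at this
    refine ⟨h1.symm, star c, ?_⟩
    have := congrArg star hc
    rw [star_mul, hf.isSelfAdjoint.star_eq, star_smul, hf.isSelfAdjoint.star_eq] at this
    rw [← h1, this]

theorem isClosed_Mt (f : 𝓜) (hf : IsStarProjection f) : IsClosed (Mt f hf : Set 𝓜) := by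
  have h1 : (Mt f hf : Set 𝓜) =
      {y | f * y = y * f} ∩ (fun y => f * y) ⁻¹' (Submodule.span ℂ {f} : Set 𝓜) := by
    ext y
    refine and_congr Iff.rfl ?_
    simp only [Set.mem_preimage, SetLike.mem_coe, Submodule.mem_span_singleton]
    exact exists_congr fun c => eq_comm
  rw [h1]
  exact (isClosed_eq (continuous_const.mul continuous_id) (continuous_id.mul continuous_const)).inter
    ((Submodule.closed_of_finiteDimensional _).preimage (continuous_const.mul continuous_id))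

instance (f : 𝓜) (hf : IsStarProjection f) : CStarAlgebra (Mt f hf) :=
  StarSubalgebra.cstarAlgebra _ (h_closed := isClosed_Mt f hf)

instance (f : 𝓜) (hf : IsStarProjection f) : StarOrderedRing (Mt f hf) := by
  refine StarOrderedRing.of_nonneg_iff' (fun {x y} h z => ?_) fun x => ⟨fun h => ?_, ?_⟩
  · exact add_le_add_right (show (x : 𝓜) ≤ y from h) (z : 𝓜)
  · have h0 : (0 : 𝓜) ≤ x := h
    have := isClosed_Mt f hf
    refine ⟨⟨cfc Real.sqrt (x : 𝓜), cfc_mem (𝕜' := ℂ) Real.sqrt x.2⟩, Subtype.ext ?_⟩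
    show (x : 𝓜) = star (cfc Real.sqrt (x : 𝓜)) * cfc Real.sqrt (x : 𝓜)
    rw [(cfc_predicate Real.sqrt (x : 𝓜)).star_eq, ← cfc_mul Real.sqrt Real.sqrt (x : 𝓜)]
    conv_lhs => rw [← cfc_id' ℝ (x : 𝓜) h0.isSelfAdjoint]
    refine cfc_congr fun t ht => ?_
    exact (Real.mul_self_sqrt (spectrum_nonneg_of_nonneg h0 ht)).symm
  · rintro ⟨s, rfl⟩
    exact star_mul_self_nonneg (s : 𝓜)

/-- The restriction of a positive functional. -/
def res {f : 𝓜} (hf : IsStarProjection f) (φ : 𝓜 →ₚ[ℂ] ℂ) : Mt f hf →ₚ[ℂ] ℂ :=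
  PositiveLinearMap.mk₀
    { toFun := fun y => φ (y : 𝓜)
      map_add' := fun a b => map_add φ (a : 𝓜) (b : 𝓜)
      map_smul' := fun c a => map_smul φ c (a : 𝓜) }
    (fun y hy => φ.map_nonneg (show (0 : 𝓜) ≤ y from hy))

theorem res_apply {f : 𝓜} (hf : IsStarProjection f) (φ : 𝓜 →ₚ[ℂ] ℂ) (y : Mt f hf) :
    res hf φ y = φ (y : 𝓜) := rfl

theorem corner_mem {f : 𝓜} (hf : IsStarProjection f) (x : 𝓜) :
    (1 - f) * x * (1 - f) ∈ Mt f hf := by
  have h1 : f * (1 - f) = 0 := hf.mul_one_sub_self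
  have h2 : (1 - f) * f = 0 := hf.one_sub_mul_self
  have h3 : f * ((1 - f) * x * (1 - f)) = 0 := by
    rw [← mul_assoc, ← mul_assoc, h1, zero_mul, zero_mul]
  exact ⟨by rw [h3, mul_assoc, h2, mul_zero], 0, by rw [h3, zero_smul]⟩

variable (W : WS 𝓜)

theorem exists_phi0 {f : 𝓜} (hf : IsStarProjection f) :
    ∃ φ ∈ W.𝓕, f = 0 ∨ φ f ≠ 0 := by
  by_cases h : f = 0
  · exact ⟨0, W.zero_mem, Or.inl h⟩
  · by_contra hcon
    push Not at hcon
    exact h (W.sep f hf.nonneg fun φ hφ => (hcon φ hφ).2)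

theorem wlim_mem {f : 𝓜} (hf : IsStarProjection f) {α : Type*} {l : Filter α} [l.NeBot]
    {y : α → 𝓜} {Y : 𝓜} (h : W.WLim l y Y) (hy : ∀ i, y i ∈ Mt f hf) : Y ∈ Mt f hf := by
  refine ⟨h.intertwine (Eventually.of_forall fun i => (hy i).1), ?_⟩
  obtain ⟨φ, hφ, h0 | h0⟩ := exists_phi0 W hf
  · exact ⟨0, by rw [h0]; simp⟩
  · refine ⟨φ (f * Y) / φ f, ?_⟩
    have h1 := h.mul_left f
    have h2 : W.WLim l (fun i => (φ (f * y i) / φ f) • f) ((φ (f * Y) / φ f) • f) :=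
      WS.WLim.of_tendsto (((h1 φ hφ).div_const _).smul_const f)
    refine h1.unique (h2.congr' (Eventually.of_forall fun i => ?_))
    obtain ⟨c, hc⟩ := (hy i).2
    show (φ (f * y i) / φ f) • f = f * y i
    rw [hc, map_smul, smul_eq_mul, mul_div_cancel_right₀ _ h0]

/-- The corner as a `WS` structure. -/
def Wt {f : 𝓜} (hfA : f ∈ W.A) (hf : IsStarProjection f) : WS (Mt f hf) where
  A := W.A.comap (Mt f hf).subtype
  comm a ha b hb := Subtype.ext (W.comm _ ha _ hb)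
  max y hy := by
    refine W.max (y : 𝓜) fun a ha => ?_
    have he : (1 - f) ∈ W.A := sub_mem (one_mem _) hfA
    have h1 := congrArg Subtype.val (hy ⟨_, corner_mem hf a⟩ (mul_mem (mul_mem he ha) he))
    have h2 : (1 - f) * a * (1 - f) = a - a * f := by
      rw [W.comm _ he a ha, mul_assoc, hf.one_sub.isIdempotentElem.eq, mul_sub, mul_one]
    have h3 : (a - a * f) * (y : 𝓜) = (y : 𝓜) * (a - a * f) := by rw [← h2]; exact h1
    obtain ⟨hc1, c, hc⟩ := y.2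
    have h4 : a * f * (y : 𝓜) = (y : 𝓜) * (a * f) := by
      rw [mul_assoc, hc, W.comm a ha f hfA, ← mul_assoc, ← hc1, hc, mul_smul_comm, smul_mul_assoc,
        W.comm a ha f hfA]
    rw [sub_mul, mul_sub, h4] at h3
    exact sub_left_injective h3
  𝓕 := {ψ | ∃ φ, W.Normal φ ∧ ∀ y, ψ y = φ (y : 𝓜)}
  zero_mem := ⟨0, W.normal_of_mem W.zero_mem, fun _ => rfl⟩
  add_mem := by
    rintro ψ ⟨φ, hφ, h⟩ ψ' ⟨φ', hφ', h'⟩
    exact ⟨φ + φ', hφ.add hφ', fun y => by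
      show ψ y + ψ' y = φ y + φ' y
      rw [h, h']⟩
  conj_mem := by
    rintro ψ ⟨φ, hφ, h⟩ z
    exact ⟨conjF φ z, hφ.conjF _, fun y => by rw [conjF_apply, conjF_apply, h]; rfl⟩
  sep y hy h := Subtype.ext (W.sep (y : 𝓜) hy fun φ hφ =>
    h (res hf φ) ⟨φ, W.normal_of_mem hφ, fun _ => rfl⟩)
  compact U R hR := by
    obtain ⟨Y, hY⟩ := W.exists_wlim U (fun y => (y : 𝓜)) (R := R) hR
    refine ⟨⟨Y, wlim_mem W hf hY fun y => y.2⟩, ?_⟩
    rintro ψ ⟨φ, hφ, h⟩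
    simp only [h]
    exact hφ.tendsto U hR hY

theorem exists_reg {f : 𝓜} (hfA : f ∈ W.A) (hf : IsStarProjection f) {ω : 𝓜 →ₚ[ℂ] ℂ}
    (hω : W.RegPart ω f) : ∃ R : Reg (Mt f hf), R.toWS = Wt W hfA hf := by
  obtain ⟨φ, hφ, h0⟩ := exists_phi0 W hf
  obtain ⟨hn, hc, hfa⟩ := hω
  let ω₁ : 𝓜 →ₚ[ℂ] ℂ := ω + conjF φ f
  have hN : 0 ≤ (ω₁ 1).re := pos_re_nonneg _ zero_le_one
  let t : ℝ := 1 / ((ω₁ 1).re + 1)
  have ht : 0 < t := by positivity
  let ω₂ : 𝓜 →ₚ[ℂ] ℂ := conjF ω₁ ((t : ℂ) • 1)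
  have h2 : ∀ y, ω₂ y = (t : ℂ) * t * (ω y + φ (f * y * f)) := by
    intro y
    have : star ((t : ℂ) • (1 : 𝓜)) * y * ((t : ℂ) • 1) = ((t : ℂ) * t) • y := by
      rw [star_smul, star_one, smul_mul_assoc, one_mul, mul_smul_comm, mul_one, smul_smul,
        Complex.star_def, Complex.conj_ofReal]
    rw [conjF_apply, this, map_smul, smul_eq_mul]
    congr 1
    show ω y + conjF φ f y = _
    rw [conjF_apply, hf.isSelfAdjoint.star_eq]
  have htt : (t : ℂ) * t ≠ 0 := by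
    have : (t : ℂ) ≠ 0 := by exact_mod_cast ht.ne'
    exact mul_ne_zero this this
  have hff : f * f = f := hf.isIdempotentElem.eq
  refine ⟨{ Wt W hfA hf with
    ω := res hf ω₂
    ω_mem := ⟨ω₂, (hn.add ((W.normal_of_mem hφ).conjF f)).conjF _, fun _ => rfl⟩
    faithful := fun y hy h => ?_
    central := fun a ha y => ?_
    one_le := ?_ }, rfl⟩
  · have hy0 : (0 : 𝓜) ≤ y := hy
    rw [res_apply, h2] at h
    have h3 := (mul_eq_zero.mp h).resolve_left htt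
    have hfy : (0 : 𝓜) ≤ f * y * f := by
      simpa [hf.isSelfAdjoint.star_eq] using star_left_conjugate_nonneg hy0 f
    have hey : (0 : 𝓜) ≤ (1 - f) * y * (1 - f) := by
      simpa [hf.isSelfAdjoint.star_eq] using star_left_conjugate_nonneg hy0 (1 - f)
    obtain ⟨h4, h5⟩ := (add_eq_zero_iff_of_nonneg (ω.map_nonneg hy0) (φ.map_nonneg hfy)).mp h3
    obtain ⟨hc1, c, hc2⟩ := y.2
    have h6 : f * y * f = c • f := by rw [hc2, smul_mul_assoc, hff]
    have h7 : f * (y : 𝓜) * f = 0 := by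
      rcases h0 with h0 | h0
      · rw [h6, h0, smul_zero]
      · rw [h6, map_smul, smul_eq_mul] at h5
        rw [h6, (mul_eq_zero.mp h5).resolve_right h0, zero_smul]
    have h8 : f * (y : 𝓜) = 0 := by rw [hc2, ← h6, h7]
    have h9 : (1 - f) * (y : 𝓜) * (1 - f) = y := by
      rw [sub_mul, one_mul, h8, sub_zero, mul_sub, mul_one, ← hc1, h8, sub_zero]
    exact Subtype.ext (hfa _ hy0 h9 h4)
  · show ω₂ ((a : 𝓜) * y) = ω₂ ((y : 𝓜) * a)
    rw [h2, h2, hc (a : 𝓜) ha]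
    obtain ⟨-, c, hc2⟩ := y.2
    obtain ⟨-, d, hd2⟩ := a.2
    congr 3
    rw [← mul_assoc, ← mul_assoc, hc2, hd2, smul_mul_assoc, smul_mul_assoc, smul_mul_assoc,
      smul_mul_assoc, hc2, hd2, smul_mul_assoc, smul_mul_assoc, smul_comm]
  · show (ω₂ 1).re ≤ 1
    have h3 : ω₂ 1 = ((t * t : ℝ) : ℂ) * ω₁ 1 := by
      rw [h2]
      push_cast
      congr 1
      show _ = ω 1 + conjF φ f 1
      rw [conjF_apply, hf.isSelfAdjoint.star_eq]
    rw [h3, Complex.re_ofReal_mul]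
    have h4 : t * ((ω₁ 1).re + 1) = 1 := by
      simp only [t]; field_simp
    nlinarith

/-- The packaged corner. -/
theorem exists_corner {f : 𝓜} (hfA : f ∈ W.A) (hf : IsStarProjection f) {ω : 𝓜 →ₚ[ℂ] ℂ}
    (hω : W.RegPart ω f) :
    ∃ (N : Type u) (_ : CStarAlgebra N) (_ : PartialOrder N) (_ : StarOrderedRing N) (R : Reg N)
      (ι : N →⋆ₐ[ℂ] 𝓜), (∀ y, ‖ι y‖ = ‖y‖) ∧ (∀ y, f * ι y = ι y * f) ∧
      (∀ a ∈ R.A, ι a ∈ W.A) ∧ (∀ x, ∃ y, ι y = (1 - f) * x * (1 - f)) ∧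
      ∀ φ ∈ W.𝓕, ∃ ψ ∈ R.𝓕, ∀ y, ψ y = φ (ι y) := by
  obtain ⟨R, hR⟩ := exists_reg W hfA hf hω
  refine ⟨Mt f hf, inferInstance, inferInstance, inferInstance, R, (Mt f hf).subtype, fun _ => rfl,
    fun y => y.2.1, fun a ha => ?_, fun x => ⟨⟨_, corner_mem hf x⟩, rfl⟩, fun φ hφ => ?_⟩
  · rw [hR] at ha; exact ha
  · refine ⟨res hf φ, ?_, fun _ => rfl⟩
    rw [hR]
    exact ⟨φ, W.normal_of_mem hφ, fun _ => rfl⟩

end CornerAux

end Crest.Agent.R109
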