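import Crest.Agent.R109.Reg144
import Crest.Agent.R109.CornerAux

/-! Row 109, task C4a: paving on the regular corner. -/

set_option autoImplicit false
set_option linter.unusedSectionVars false

noncomputable section

namespace Crest.Agent.R109

open Filter Topology MeasureTheory
open scoped ComplexOrder ComplexConjugate Classical

universe u

variable {𝓜 : Type u} [CStarAlgebra 𝓜] [PartialOrder 𝓜] [StarOrderedRing 𝓜]

namespace CornerAux

variable {N : Type u} [CStarAlgebra N] [PartialOrder N] [StarOrderedRing N]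

theorem paving_map {A : StarSubalgebra ℂ 𝓜} {B : StarSubalgebra ℂ N} (ι : N →⋆ₐ[ℂ] 𝓜)
    (hA : ∀ a ∈ B, ι a ∈ A) {κ : Type*} [Fintype κ] {p : κ → N} (hp : IsPaving B p) :
    IsPaving A (fun i => ι (p i)) :=
  ⟨fun i => ⟨hA _ (hp.1 i).1, (hp.1 i).2.map ι⟩,
    fun i j h => by rw [← map_mul, hp.2.1 i j h, map_zero], by rw [← map_sum, hp.2.2, map_one]⟩

theorem pinch_map (ι : N →⋆ₐ[ℂ] 𝓜) {κ : Type*} [Fintype κ] (p : κ → N) (y : N) :
    ι (pinch p y) = pinch (fun i => ι (p i)) (ι y) := by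
  simp only [pinch, map_sum, map_mul]

theorem conj_pinch {κ : Type*} [Fintype κ] (p : κ → 𝓜) {e : 𝓜} (h : ∀ i, p i * e = e * p i)
    (y : 𝓜) : e * pinch p y * e = pinch p (e * y * e) := by
  simp only [pinch, Finset.mul_sum, Finset.sum_mul]
  refine Finset.sum_congr rfl fun i _ => ?_
  calc e * (p i * y * p i) * e = (e * p i) * y * (p i * e) := by simp only [mul_assoc]
    _ = (p i * e) * y * (e * p i) := by rw [h i]
    _ = _ := by simp only [mul_assoc]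

theorem norm_conj_le {e : 𝓜} (he : IsStarProjection e) (y : 𝓜) : ‖e * y * e‖ ≤ ‖y‖ := by
  have h1 := he.norm_le
  calc ‖e * y * e‖ ≤ ‖e‖ * ‖y‖ * ‖e‖ := norm_mul₃_le
    _ ≤ 1 * ‖y‖ * 1 := by gcongr
    _ = ‖y‖ := by ring

theorem norm_mul_proj_le {e : 𝓜} (he : IsStarProjection e) (y : 𝓜) : ‖y * e‖ ≤ ‖y‖ := by
  have h1 := he.norm_le
  calc ‖y * e‖ ≤ ‖y‖ * ‖e‖ := norm_mul_le _ _
    _ ≤ ‖y‖ * 1 := by gcongr
    _ = ‖y‖ := mul_one _

theorem conj_sub (e a b : 𝓜) : e * (a - b) * e = e * a * e - e * b * e := by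
  rw [mul_sub, sub_mul]

theorem sa_of_map (ι : N →⋆ₐ[ℂ] 𝓜) (hι : ∀ y, ‖ι y‖ = ‖y‖) {y : N} (h : IsSelfAdjoint (ι y)) :
    IsSelfAdjoint y := by
  have h1 : ‖star y - y‖ = 0 := by rw [← hι, map_sub, map_star, h.star_eq, sub_self, norm_zero]
  exact sub_eq_zero.mp (norm_eq_zero.mp h1)

end CornerAux

open CornerAux

namespace WS

variable (W : WS 𝓜)

theorem corner143 {f : 𝓜} (hf : f ∈ W.A) (hfp : IsStarProjection f) {ω : 𝓜 →ₚ[ℂ] ℂ}
    (hω : W.RegPart ω f) {ε : ℝ} (hε : 0 < ε) (hε1 : ε < 1) {r : ℕ}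
    (hr : 400000000 / ε ^ 2 ≤ r) {x : 𝓜} (hx : IsSelfAdjoint x) {φ : 𝓜 →ₚ[ℂ] ℂ}
    (hφ : φ ∈ W.𝓕) {δ : ℝ} (hδ : 0 < δ) :
    ∃ p : Fin r → 𝓜, IsPaving W.A p ∧ ∃ a ∈ W.A, IsSelfAdjoint a ∧ ‖a‖ ≤ ‖x‖ ∧ a * f = 0 ∧
      ∃ q, IsStarProjection q ∧ q * f = 0 ∧ (φ (1 - f - q)).re < δ ∧
        ‖q * (pinch p x - a) * q‖ ≤ ε * ‖x‖ := by
  obtain ⟨N, _, _, _, R, ι, hι, hc, hA, hx', hF⟩ := exists_corner W hf hfp hω
  have he : IsStarProjection (1 - f) := hfp.one_sub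
  have hee : (1 - f) * (1 - f) = 1 - f := he.isIdempotentElem.eq
  have hef : (1 - f) * f = 0 := hfp.one_sub_mul_self
  have hce : ∀ y, ι y * (1 - f) = (1 - f) * ι y := fun y => by
    rw [mul_sub, sub_mul, mul_one, one_mul, hc]
  have hsa : ∀ y, IsSelfAdjoint y → IsSelfAdjoint (ι y * (1 - f)) := fun y hy => by
    rw [IsSelfAdjoint, star_mul, he.isSelfAdjoint.star_eq, ← map_star, hy.star_eq, hce]
  obtain ⟨y, hy⟩ := hx' x
  have hysa : IsSelfAdjoint y := sa_of_map ι hι (by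
    rw [hy]; simpa [he.isSelfAdjoint.star_eq] using hx.conjugate' (1 - f))
  have hyn : ‖y‖ ≤ ‖x‖ := by rw [← hι, hy]; exact norm_conj_le he x
  obtain ⟨ψ, hψ, hψφ⟩ := hF _ (W.conj_mem φ hφ (1 - f))
  have ha : ι (R.E y) * (1 - f) ∈ W.A :=
    mul_mem (hA _ (R.toWS.E_mem y)) (sub_mem (one_mem _) hf)
  have han : ‖ι (R.E y) * (1 - f)‖ ≤ ‖x‖ :=
    (norm_mul_proj_le he _).trans (by rw [hι]; exact (R.toWS.norm_E_le y).trans hyn)
  have haf : ∀ z : N, ι z * (1 - f) * f = 0 := fun z => by rw [mul_assoc, hef, mul_zero]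
  have hea : ∀ z : N, (1 - f) * (ι z * (1 - f)) * (1 - f) = (1 - f) * ι z * (1 - f) := fun z => by
    rw [mul_assoc, mul_assoc, hee, mul_assoc]
  obtain ⟨κ, hκ, hac⟩ := R.ac hψ (half_pos hδ)
  obtain ⟨p, hp, q, hq, hq1, hq2⟩ := R.reg143 hε hε1 hr hysa hκ
  refine ⟨fun i => ι (p i), paving_map ι hA hp, _, ha, hsa _ (R.toWS.E_sa hysa), han, haf _,
    ι q * (1 - f), (hq.map ι).mul he (hce q), haf _, ?_, ?_⟩
  · have h1 := hac (1 - q) hq.one_sub.nonneg hq.one_sub.le_one hq1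
    rw [hψφ, conjF_apply, he.isSelfAdjoint.star_eq, ← hce, mul_assoc, hee, map_sub, map_one,
      sub_mul, one_mul] at h1
    linarith
  · have h1 : (1 - f) * (pinch (fun i => ι (p i)) x - ι (R.E y) * (1 - f)) * (1 - f) =
        (1 - f) * ι (pinch p y - R.E y) * (1 - f) := by
      rw [map_sub, pinch_map, hy, conj_sub, conj_sub, hea,
        ← conj_pinch _ (fun i => hce (p i))]
      congr 1
      simp only [← mul_assoc, hee]
      simp only [mul_assoc, hee]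
    have h2 : ι q * (1 - f) * (pinch (fun i => ι (p i)) x - ι (R.E y) * (1 - f)) *
        (ι q * (1 - f)) = (1 - f) * ι (q * (pinch p y - R.E y) * q) * (1 - f) := by
      calc _ = ι q * ((1 - f) * (pinch (fun i => ι (p i)) x - ι (R.E y) * (1 - f)) * (1 - f)) *
            ι q := by rw [hce q]; simp only [← mul_assoc]; rw [← hce q]
        _ = (ι q * (1 - f)) * ι (pinch p y - R.E y) * ((1 - f) * ι q) := by
            rw [h1]; simp only [mul_assoc]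
        _ = _ := by rw [← hce q, map_mul, map_mul]; nth_rewrite 1 [hce q]; simp only [mul_assoc]
    rw [h2]
    refine (norm_conj_le he _).trans ?_
    rw [hι]
    exact hq2.trans (mul_le_mul_of_nonneg_left hyn hε.le)

theorem corner144 {f : 𝓜} (hf : f ∈ W.A) (hfp : IsStarProjection f) {ω : 𝓜 →ₚ[ℂ] ℂ}
    (hω : W.RegPart ω f) {ε : ℝ} (hε : 0 < ε) (hε1 : ε < 1) {r : ℕ}
    (hr : 400000000 / ε ^ 2 ≤ r) {x : 𝓜} (hx : IsSelfAdjoint x) {φ : 𝓜 →ₚ[ℂ] ℂ}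
    (hφ : φ ∈ W.𝓕) {δ : ℝ} (hδ : 0 < δ) :
    ∃ p : Fin r → 𝓜, IsPaving W.A p ∧ ∃ a ∈ W.A, IsSelfAdjoint a ∧ ‖a‖ ≤ ‖x‖ ∧ a * f = 0 ∧
      ∃ z, IsSelfAdjoint z ∧ z * f = 0 ∧ ‖z‖ ≤ 2 * ‖x‖ ∧ n2 φ z < δ ∧
        ‖(1 - f) * (pinch p (x - z) - a) * (1 - f)‖ ≤ 3 * ε * ‖x‖ := by
  obtain ⟨N, _, _, _, R, ι, hι, hc, hA, hx', hF⟩ := exists_corner W hf hfp hω
  have he : IsStarProjection (1 - f) := hfp.one_sub
  have hee : (1 - f) * (1 - f) = 1 - f := he.isIdempotentElem.eq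
  have hef : (1 - f) * f = 0 := hfp.one_sub_mul_self
  have hce : ∀ y, ι y * (1 - f) = (1 - f) * ι y := fun y => by
    rw [mul_sub, sub_mul, mul_one, one_mul, hc]
  have hsa : ∀ y, IsSelfAdjoint y → IsSelfAdjoint (ι y * (1 - f)) := fun y hy => by
    rw [IsSelfAdjoint, star_mul, he.isSelfAdjoint.star_eq, ← map_star, hy.star_eq, hce]
  obtain ⟨y, hy⟩ := hx' x
  have hysa : IsSelfAdjoint y := sa_of_map ι hι (by
    rw [hy]; simpa [he.isSelfAdjoint.star_eq] using hx.conjugate' (1 - f))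
  have hyn : ‖y‖ ≤ ‖x‖ := by rw [← hι, hy]; exact norm_conj_le he x
  obtain ⟨ψ, hψ, hψφ⟩ := hF _ (W.conj_mem φ hφ (1 - f))
  have ha : ι (R.E y) * (1 - f) ∈ W.A :=
    mul_mem (hA _ (R.toWS.E_mem y)) (sub_mem (one_mem _) hf)
  have han : ‖ι (R.E y) * (1 - f)‖ ≤ ‖x‖ :=
    (norm_mul_proj_le he _).trans (by rw [hι]; exact (R.toWS.norm_E_le y).trans hyn)
  have haf : ∀ z : N, ι z * (1 - f) * f = 0 := fun z => by rw [mul_assoc, hef, mul_zero]
  have hea : ∀ z : N, (1 - f) * (ι z * (1 - f)) * (1 - f) = (1 - f) * ι z * (1 - f) := fun z => by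
    rw [mul_assoc, mul_assoc, hee, mul_assoc]
  obtain ⟨κ, hκ, hac⟩ := R.ac_n2 hψ (2 * ‖y‖) (half_pos hδ)
  obtain ⟨p, hp, z, hz, hz1, hz2, hz3⟩ := R.reg144 hε hε1 hr hysa hκ
  refine ⟨fun i => ι (p i), paving_map ι hA hp, _, ha, hsa _ (R.toWS.E_sa hysa), han, haf _,
    ι z * (1 - f), hsa _ hz, haf _, ?_, ?_, ?_⟩
  · refine (norm_mul_proj_le he _).trans ?_
    rw [hι]; linarith
  · have h1 := hac z hz1 hz2
    have h2 : n2 ψ z = n2 (conjF φ (1 - f)) (ι z) := by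
      rw [n2, n2, hψφ, map_mul, map_star]
    rw [h2, n2_conjF] at h1
    linarith
  · have h0 : (1 - f) * (x - ι z * (1 - f)) * (1 - f) = (1 - f) * ι (y - z) * (1 - f) := by
      rw [map_sub, hy, conj_sub, conj_sub, hea]
      congr 1
      simp only [← mul_assoc, hee]
      simp only [mul_assoc, hee]
    have h1 : (1 - f) * (pinch (fun i => ι (p i)) (x - ι z * (1 - f)) - ι (R.E y) * (1 - f)) *
        (1 - f) = (1 - f) * ι (pinch p (y - z) - R.E y) * (1 - f) := by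
      rw [map_sub, pinch_map, conj_sub, conj_sub, hea,
        conj_pinch _ (fun i => hce (p i)), conj_pinch _ (fun i => hce (p i)), h0]
    rw [h1]
    refine (norm_conj_le he _).trans ?_
    rw [hι]
    exact hz3.trans (mul_le_mul_of_nonneg_left hyn (by positivity))

end WS

end Crest.Agent.R109
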