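import Crest.Agent.R109.NormG

/-! Row 109, task D2: splitting off the normaliser algebra. -/

set_option autoImplicit false
set_option linter.unusedSectionVars false

noncomputable section

namespace Crest.Agent.R109

open Filter Topology
open scoped ComplexOrder ComplexConjugate Classical

universe u

variable {𝓜 : Type u} [CStarAlgebra 𝓜] [PartialOrder 𝓜] [StarOrderedRing 𝓜]

namespace DecompAux

/-- `y` is an `ε`-approximate best self-adjoint approximation of `x` in `N0`. -/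
structure AM (R : Reg 𝓜) (x : 𝓜) (d ε : ℝ) (y : 𝓜) : Prop where
  mem : y ∈ R.N0
  sa : IsSelfAdjoint y
  pos : 0 ≤ ε
  le : n2 R.ω (x - y) ^ 2 ≤ d + ε ^ 2

/-- `d` is the squared distance of `x` to the self-adjoint part of `N0`. -/
structure Dist (R : Reg 𝓜) (x : 𝓜) (d : ℝ) : Prop where
  sa : IsSelfAdjoint x
  le : ∀ y ∈ R.N0, IsSelfAdjoint y → d ≤ n2 R.ω (x - y) ^ 2
  ex : ∀ ε : ℝ, 0 < ε → ∃ y, AM R x d ε y

variable {R : Reg 𝓜} {x : 𝓜} {d : ℝ}

theorem exists_dist (R : Reg 𝓜) (hx : IsSelfAdjoint x) : ∃ d, Dist R x d := by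
  let S : Set ℝ := {t | ∃ y ∈ R.N0, IsSelfAdjoint y ∧ t = n2 R.ω (x - y) ^ 2}
  have hb : BddBelow S := ⟨0, by rintro _ ⟨y, -, -, rfl⟩; positivity⟩
  have hn : S.Nonempty := ⟨_, 0, R.N0.zero_mem, IsSelfAdjoint.zero _, rfl⟩
  refine ⟨sInf S, hx, fun y hy hs => csInf_le hb ⟨y, hy, hs, rfl⟩, fun ε hε => ?_⟩
  obtain ⟨_, ⟨y, hy, hs, rfl⟩, h⟩ := Real.lt_sInf_add_pos hn (pow_pos hε 2)
  exact ⟨y, hy, hs, hε.le, h.le⟩

theorem real_smul_mem {y : 𝓜} (hy : y ∈ R.N0) (t : ℝ) : t • y ∈ R.N0 := by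
  rw [← Complex.coe_smul]
  exact R.N0.smul_mem _ hy

theorem Dist.cauchy (h : Dist R x d) {ε ε' : ℝ} {y y' : 𝓜} (hy : AM R x d ε y)
    (hy' : AM R x d ε' y') : n2 R.ω (y - y') ≤ 2 * (ε + ε') := by
  have h1 := n2_parallelogram R.ω (x - y') (x - y)
  have h2 := h.le ((1 / 2 : ℝ) • (y + y')) (real_smul_mem (R.N0.add_mem hy.mem hy'.mem) _)
    ((IsSelfAdjoint.all _).smul (hy.sa.add hy'.sa))
  have h3 : x - y' + (x - y) = (2 : ℝ) • (x - (1 / 2 : ℝ) • (y + y')) := by module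
  rw [h3, n2_real_smul, show x - y' - (x - y) = y - y' by abel, abs_two] at h1
  have h4 := hy.pos
  have h5 := hy'.pos
  refine (sq_le_sq₀ (n2_nonneg _ _) (by positivity)).1 ?_
  nlinarith [hy.le, hy'.le, mul_nonneg h4 h5]

theorem Dist.var (h : Dist R x d) {ε : ℝ} {y n : 𝓜} (hy : AM R x d ε y) (hn : n ∈ R.N0)
    (hs : IsSelfAdjoint n) : (R.ω ((x - y) * n)).re ≤ ε * n2 R.ω n := by
  have hz : IsSelfAdjoint (x - y) := h.sa.sub hy.sa
  have key : ∀ t : ℝ, 0 ≤ n2 R.ω n ^ 2 * (t * t) + 2 * (R.ω ((x - y) * n)).re * t + ε ^ 2 := by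
    intro t
    have h1 := h.le (y - t • n) (R.N0.sub_mem hy.mem (real_smul_mem hn t))
      (hy.sa.sub ((IsSelfAdjoint.all _).smul hs))
    rw [show x - (y - t • n) = (x - y) + t • n by abel, n2_add_sq, n2_real_smul, hz.star_eq,
      mul_smul_comm, pos_real_smul, Complex.re_ofReal_mul, mul_pow, sq_abs] at h1
    nlinarith [hy.le]
  have h2 := discrim_le_zero key
  rw [discrim] at h2
  refine (le_abs_self _).trans (abs_le_of_sq_le_sq' ?_ (mul_nonneg hy.pos (n2_nonneg _ _))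
    |> abs_le.2)
  nlinarith

theorem n2_star_A {c : 𝓜} (hc : c ∈ R.A) : n2 R.ω (star c) = n2 R.ω c := by
  unfold n2
  rw [star_star, R.comm c hc _ (star_mem hc)]

theorem Dist.E_G (h : Dist R x d) {u : 𝓜} (hu : R.InG u) : ∃ C : ℝ, 0 ≤ C ∧
    ∀ ε y, AM R x d ε y → n2 R.ω (R.E (star u * (x - y))) ≤ C * ε := by
  obtain ⟨K, hK⟩ := hu
  refine ⟨1 + √K, by positivity, fun ε y hy => ?_⟩
  have hz : IsSelfAdjoint (x - y) := h.sa.sub hy.sa
  set z := x - y with hzdef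
  set c := R.E (star u * z) with hc
  have hcA : c ∈ R.A := R.E_mem _
  have hn : u * c ∈ R.N0 := R.N0_mul (R.mem_N0_of_inG ⟨K, hK⟩) (R.mem_N0_of_mem_A hcA)
  have h1 := h.var hy (R.N0.add_mem hn (R.N0_star hn)) (IsSelfAdjoint.add_star_self _)
  rw [← hzdef, mul_add, map_add, Complex.add_re] at h1
  have h2 : (R.ω (z * (u * c))).re = n2 R.ω c ^ 2 := by
    have e1 : z * (u * c) = star (star c * (star u * z)) := by
      simp only [star_mul, star_star, hz.star_eq, mul_assoc]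
    rw [e1, pos_star, Complex.conj_re, ← R.ω_E, R.E_mul_left (star_mem hcA), n2_sq]
  have h3 : 0 ≤ (R.ω (z * star (u * c))).re := by
    rw [star_mul, ← mul_assoc, ← R.ω_E, R.E_swap hK.1.star, star_star, ← mul_assoc,
      R.E_mul_right (star_mem hcA), ← hc]
    exact pos_re_nonneg _ (star_right_conjugate_nonneg (mul_star_self_nonneg c) u)
  have h4 : n2 R.ω (u * c + star (u * c)) ≤ (1 + √K) * n2 R.ω c := by
    have a1 := n2_add_le R.ω (u * c) (star (u * c))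
    have a2 := n2_mul_le R.ω u c
    have a3 := hK.star.n2_mul_right (star c)
    rw [← star_mul, n2_star_A hcA] at a3
    have a4 : ‖u‖ * n2 R.ω c ≤ 1 * n2 R.ω c :=
      mul_le_mul_of_nonneg_right hK.1.norm_le (n2_nonneg _ _)
    linarith
  have h5 := mul_le_mul_of_nonneg_left h4 hy.pos
  have h6 := n2_nonneg R.ω c
  have h7 : 0 ≤ (1 + √K) * ε := mul_nonneg (by positivity) hy.pos
  by_contra hlt
  push Not at hlt
  nlinarith

theorem Dist.E_N0 (h : Dist R x d) {n : 𝓜} (hn : n ∈ R.N0) : ∃ C : ℝ, 0 ≤ C ∧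
    ∀ ε y, AM R x d ε y → n2 R.ω (R.E (star n * (x - y))) ≤ C * ε := by
  induction hn using Submodule.span_induction with
  | mem n hn =>
    obtain ⟨v, a, hv, ha, rfl⟩ := hn
    obtain ⟨C, hC, hC'⟩ := h.E_G hv
    refine ⟨‖star a‖ * C, by positivity, fun ε y hy => ?_⟩
    rw [star_mul, mul_assoc, R.E_mul_left (star_mem ha), mul_assoc]
    exact (n2_mul_le _ _ _).trans (mul_le_mul_of_nonneg_left (hC' ε y hy) (norm_nonneg _))
  | zero => exact ⟨0, le_rfl, fun ε y _ => by simp [R.E_zero, n2_zero]⟩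
  | add a b _ _ ha hb =>
    obtain ⟨C, hC, hC'⟩ := ha
    obtain ⟨D, hD, hD'⟩ := hb
    refine ⟨C + D, by positivity, fun ε y hy => ?_⟩
    rw [star_add, add_mul, R.E_add, add_mul]
    exact (n2_add_le _ _ _).trans (add_le_add (hC' ε y hy) (hD' ε y hy))
  | smul c a _ ha =>
    obtain ⟨C, hC, hC'⟩ := ha
    refine ⟨‖star c‖ * C, by positivity, fun ε y hy => ?_⟩
    rw [star_smul, smul_mul_assoc, R.E_smul, n2_smul, mul_assoc]
    exact mul_le_mul_of_nonneg_left (hC' ε y hy) (norm_nonneg _)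

theorem Dist.orth (h : Dist R x d) {a b : 𝓜} (ha : a ∈ R.N0) (hb : b ∈ R.N0) : ∃ C : ℝ, 0 ≤ C ∧
    ∀ ε y, AM R x d ε y → ‖R.ω (star b * (x - y) * a)‖ ≤ C * ε := by
  induction ha using Submodule.span_induction with
  | mem n hn =>
    obtain ⟨v, a, ⟨K, hv⟩, ha, rfl⟩ := hn
    obtain ⟨C, hC, hC'⟩ := h.E_N0 (R.N0_mul (R.N0_mul hb (R.mem_N0_of_mem_A (star_mem ha)))
      (R.mem_N0_of_inG ⟨K, hv.star⟩))
    refine ⟨n2 R.ω v * (√K * C), by have := n2_nonneg R.ω v; positivity, fun ε y hy => ?_⟩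
    have h1 := hC' ε y hy
    rw [← mul_assoc, ← R.central a ha, ← mul_assoc, ← R.ω_E, R.E_swap hv.1, mul_assoc]
    simp only [star_mul, star_star, mul_assoc] at h1 ⊢
    refine (cauchy_schwarz _ _ _).trans (mul_le_mul_of_nonneg_left ?_ (n2_nonneg _ _))
    exact (hv.n2_mul_right _).trans (mul_le_mul_of_nonneg_left h1 (Real.sqrt_nonneg _))
  | zero => exact ⟨0, le_rfl, fun ε y _ => by simp⟩
  | add a a' _ _ ha ha' =>
    obtain ⟨C, hC, hC'⟩ := ha
    obtain ⟨D, hD, hD'⟩ := ha'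
    refine ⟨C + D, by positivity, fun ε y hy => ?_⟩
    rw [mul_add, map_add, add_mul]
    exact (norm_add_le _ _).trans (add_le_add (hC' ε y hy) (hD' ε y hy))
  | smul c a _ ha =>
    obtain ⟨C, hC, hC'⟩ := ha
    refine ⟨‖c‖ * C, by positivity, fun ε y hy => ?_⟩
    rw [mul_smul_comm, map_smul, norm_smul, mul_assoc ‖c‖]
    exact mul_le_mul_of_nonneg_left (hC' ε y hy) (norm_nonneg c)

theorem Dist.bound (h : Dist R x d) {a : 𝓜} (ha : a ∈ R.N0) : ∃ C : ℝ, 0 ≤ C ∧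
    (∀ ε ε' y y', AM R x d ε y → AM R x d ε' y' → n2 R.ω ((y - y') * a) ≤ C * (ε + ε')) ∧
    ∀ ε y, AM R x d ε y → n2 R.ω (y * a) ≤ ‖x‖ * n2 R.ω a + C * ε := by
  obtain ⟨C, hC, hC'⟩ := R.n2_mul_right_N0 ha
  have k1 : ∀ ε ε' y y', AM R x d ε y → AM R x d ε' y' →
      n2 R.ω ((y - y') * a) ≤ C * 2 * (ε + ε') := fun ε ε' y y' hy hy' => by
    rw [mul_assoc]
    exact (hC' _).trans (mul_le_mul_of_nonneg_left (h.cauchy hy hy') hC)
  refine ⟨C * 2, by positivity, k1, fun ε y hy => ?_⟩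
  obtain ⟨D, hD, hD'⟩ := h.orth ha (R.N0_mul hy.mem ha)
  have hN := n2_nonneg R.ω (y * a)
  have hM : 0 ≤ ‖x‖ * n2 R.ω a + C * 2 * ε := by
    have := n2_nonneg R.ω a
    have := hy.pos
    positivity
  have k2 : ∀ ε' : ℝ, 0 < ε' → n2 R.ω (y * a) ^ 2 ≤
      n2 R.ω (y * a) * (‖x‖ * n2 R.ω a + C * 2 * ε) + (D + n2 R.ω (y * a) * (C * 2)) * ε' := by
    intro ε' hε'
    obtain ⟨y', hy'⟩ := h.ex ε' hε'
    have e : star (y * a) * (y * a) = star (y * a) * (x * a) - star (y * a) * (x - y') * a +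
        star (y * a) * ((y - y') * a) := by noncomm_ring
    rw [n2_sq, e, map_add, map_sub, Complex.add_re, Complex.sub_re]
    have a1 := (Complex.re_le_norm _).trans (cauchy_schwarz R.ω (y * a) (x * a))
    have a2 := (neg_le_abs _).trans ((Complex.abs_re_le_norm _).trans (hD' ε' y' hy'))
    have a3 := (Complex.re_le_norm _).trans (cauchy_schwarz R.ω (y * a) ((y - y') * a))
    have a4 := mul_le_mul_of_nonneg_left (n2_mul_le R.ω x a) hN
    have a5 := mul_le_mul_of_nonneg_left (k1 ε ε' y y' hy hy') hN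
    nlinarith
  have k3 : n2 R.ω (y * a) ^ 2 ≤ n2 R.ω (y * a) * (‖x‖ * n2 R.ω a + C * 2 * ε) := by
    refine le_of_forall_pos_le_add fun θ hθ => ?_
    have hP : 0 < D + n2 R.ω (y * a) * (C * 2) + 1 := by positivity
    have h1 := k2 (θ / (D + n2 R.ω (y * a) * (C * 2) + 1)) (by positivity)
    have h2 : (D + n2 R.ω (y * a) * (C * 2)) * (θ / (D + n2 R.ω (y * a) * (C * 2) + 1)) ≤ θ := by
      rw [← mul_div_assoc, div_le_iff₀ hP]
      nlinarith
    linarith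
  by_contra hlt
  push Not at hlt
  nlinarith

/-- Truncation at level `r`. -/
def clampF (r t : ℝ) : ℝ := max (-r) (min t r)

/-- `1 / t` outside `[-r, r]`. -/
def hF (r t : ℝ) : ℝ := t / max (t ^ 2) (r ^ 2)

/-- `(t - clamp t) / t`. -/
def gF (r t : ℝ) : ℝ := hF r t * (t - clampF r t)

theorem anchor : True := by
  have := @clampF.eq_1
  have := @hF.eq_1
  have := @gF.eq_1
  trivial

variable {r : ℝ}

theorem continuous_clampF (r : ℝ) : Continuous (clampF r) := by unfold clampF; fun_prop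

theorem continuous_hF (hr : 0 < r) : Continuous (hF r) := by
  unfold hF
  refine Continuous.div (by fun_prop) (by fun_prop) fun t => ?_
  exact ((pow_pos hr 2).trans_le (le_max_right _ _)).ne'

theorem continuous_gF (hr : 0 < r) : Continuous (gF r) :=
  (continuous_hF hr).mul (continuous_id.sub (continuous_clampF r))

theorem abs_clampF_le (hr : 0 < r) (t : ℝ) : |clampF r t| ≤ r :=
  abs_le.2 ⟨le_max_left _ _, max_le (by linarith) (min_le_right _ _)⟩

theorem abs_hF_le (hr : 0 < r) (t : ℝ) : |hF r t| ≤ r⁻¹ := by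
  have h1 : 0 < max (t ^ 2) (r ^ 2) := (pow_pos hr 2).trans_le (le_max_right _ _)
  rw [hF, abs_div, abs_of_pos h1, div_le_iff₀ h1, inv_mul_eq_div, le_div_iff₀ hr]
  have h2 := le_max_left (t ^ 2) (r ^ 2)
  have h3 := le_max_right (t ^ 2) (r ^ 2)
  nlinarith [sq_nonneg (|t| - r), sq_abs t]

theorem gF_mul (hr : 0 < r) (t : ℝ) : gF r t * t = t - clampF r t := by
  by_cases h : t ^ 2 ≤ r ^ 2
  · have h1 := abs_le.1 (abs_le_of_sq_le_sq' h hr.le |> abs_le.2)
    have h2 : clampF r t = t := by rw [clampF, min_eq_left h1.2, max_eq_right h1.1]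
    simp [gF, h2]
  · have h1 : r ^ 2 ≤ t ^ 2 := (not_le.1 h).le
    have h2 : t ≠ 0 := by
      rintro rfl
      exact h (by simpa using sq_nonneg r)
    rw [gF, hF, max_eq_left h1]
    field_simp

theorem abs_gF_le (hr : 0 < r) (t : ℝ) : |gF r t| ≤ 1 := by
  have h1 : 0 < max (t ^ 2) (r ^ 2) := (pow_pos hr 2).trans_le (le_max_right _ _)
  have h2 : |t - clampF r t| ≤ |t| := by
    unfold clampF
    rcases le_total t r with h | h
    · rw [min_eq_left h]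
      rcases le_total (-r) t with h' | h'
      · rw [max_eq_right h']; simp
      · rw [max_eq_left h', abs_of_nonpos (by linarith), abs_of_nonpos (by linarith)]
        linarith
    · rw [min_eq_right h, max_eq_right (by linarith), abs_of_nonneg (by linarith),
        abs_of_nonneg (by linarith)]
      linarith
  rw [gF, hF, abs_mul, abs_div, abs_of_pos h1, div_mul_eq_mul_div, div_le_one h1]
  have h3 := le_max_left (t ^ 2) (r ^ 2)
  nlinarith [abs_nonneg t, sq_abs t]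

theorem cfc_g_mul (hr : 0 < r) {y : 𝓜} (hy : IsSelfAdjoint y) :
    cfc (gF r) y * y = y - cfc (clampF r) y := by
  have h1 : cfc (gF r) y * y = cfc (fun t => gF r t * t) y := by
    rw [cfc_mul _ _ y (continuous_gF hr).continuousOn, cfc_id' ℝ y]
  rw [h1]
  simp only [gF_mul hr]
  rw [cfc_sub _ _ y (by fun_prop) (continuous_clampF r).continuousOn, cfc_id' ℝ y]

theorem cfc_g_eq (hr : 0 < r) {y : 𝓜} (hy : IsSelfAdjoint y) :
    cfc (gF r) y = cfc (hF r) y * (cfc (gF r) y * y) := by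
  rw [cfc_g_mul hr hy]
  have h1 : y - cfc (clampF r) y = cfc (fun t => t - clampF r t) y := by
    rw [cfc_sub _ _ y (by fun_prop) (continuous_clampF r).continuousOn, cfc_id' ℝ y]
  rw [h1, ← cfc_mul (hF r) (fun t => t - clampF r t) y (continuous_hF hr).continuousOn
    (continuous_id.sub (continuous_clampF r)).continuousOn]
  rfl

theorem n2_g_le (hr : 0 < r) (y a : 𝓜) : n2 R.ω (cfc (gF r) y * a) ≤ n2 R.ω a := by
  refine (n2_mul_le _ _ _).trans (mul_le_of_le_one_left (n2_nonneg _ _) ?_)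
  exact norm_cfc_le zero_le_one fun t _ => abs_gF_le hr t

theorem Dist.decay (h : Dist R x d) (hx : 0 < ‖x‖) (j : ℕ) : ∀ a ∈ R.N0, ∀ θ : ℝ, 0 < θ →
    ∃ ε₀ : ℝ, 0 < ε₀ ∧ ∀ ε ≤ ε₀, ∀ y, AM R x d ε y →
      n2 R.ω (cfc (gF (2 * ‖x‖)) y * a) ≤ (1 / 2) ^ j * n2 R.ω a + θ := by
  have hr : 0 < 2 * ‖x‖ := by positivity
  induction j with
  | zero =>
    intro a _ θ hθ
    exact ⟨1, one_pos, fun ε _ y _ => by linarith [n2_g_le (R := R) hr y a]⟩
  | succ j ih =>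
    intro a ha θ hθ
    obtain ⟨C, hC, hC1, hC2⟩ := h.bound ha
    have hε' : 0 < 2 * ‖x‖ * θ / (4 * (C + 1)) := by positivity
    set ε' := 2 * ‖x‖ * θ / (4 * (C + 1)) with hε'def
    have hε'' : (C + 1) * ε' = 2 * ‖x‖ * θ / 4 := by
      rw [hε'def]; field_simp
    obtain ⟨y', hy'⟩ := h.ex ε' hε'
    obtain ⟨ε₀, hε₀, h0⟩ := ih (y' * a) (R.N0_mul hy'.mem ha) ε' hε'
    refine ⟨min ε₀ ε', lt_min hε₀ hε', fun ε hε y hy => ?_⟩
    have a1 := h0 ε (hε.trans (min_le_left _ _)) y hy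
    have a2 := hC1 ε ε' y y' hy hy'
    have a3 := hC2 ε' y' hy'
    have a4 := n2_g_le (R := R) hr y ((y - y') * a)
    have a5 := n2_add_le R.ω (cfc (gF (2 * ‖x‖)) y * (y' * a))
      (cfc (gF (2 * ‖x‖)) y * ((y - y') * a))
    rw [← mul_add, ← add_mul, add_sub_cancel] at a5
    have a6 : n2 R.ω (cfc (gF (2 * ‖x‖)) y * a) ≤
        (2 * ‖x‖)⁻¹ * n2 R.ω (cfc (gF (2 * ‖x‖)) y * (y * a)) := by
      conv_lhs => rw [cfc_g_eq hr hy.sa, mul_assoc, mul_assoc]
      refine (n2_mul_le _ _ _).trans (mul_le_mul_of_nonneg_right ?_ (n2_nonneg _ _))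
      exact norm_cfc_le (by positivity) fun t _ => abs_hF_le hr t
    have b1 : (0 : ℝ) < (1 / 2) ^ j := by positivity
    have b2 : ((1 : ℝ) / 2) ^ j ≤ 1 := pow_le_one₀ (by norm_num) (by norm_num)
    have b3 : C * ε ≤ C * ε' := mul_le_mul_of_nonneg_left (hε.trans (min_le_right _ _)) hC
    have b4 := mul_le_mul_of_nonneg_left a3 b1.le
    have b5 : (1 / 2) ^ j * (C * ε') ≤ C * ε' := mul_le_of_le_one_left (by positivity) b2
    refine a6.trans ?_
    rw [inv_mul_le_iff₀ hr, pow_succ]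
    nlinarith

theorem Dist.trunc (h : Dist R x d) (hx : 0 < ‖x‖) {θ : ℝ} (hθ : 0 < θ) :
    ∃ ε₀ : ℝ, 0 < ε₀ ∧ ∀ ε ≤ ε₀, ∀ y, AM R x d ε y →
      n2 R.ω (y - cfc (clampF (2 * ‖x‖)) y) ≤ θ := by
  have hr : 0 < 2 * ‖x‖ := by positivity
  obtain ⟨y', hy'⟩ := h.ex (θ / 8) (by positivity)
  have hN := n2_nonneg R.ω y'
  obtain ⟨j, hj⟩ := exists_pow_lt_of_lt_one (x := θ / 4 / (n2 R.ω y' + 1)) (y := 1 / 2)
    (by positivity) (by norm_num)
  rw [lt_div_iff₀ (by positivity)] at hj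
  obtain ⟨ε₀, hε₀, h0⟩ := h.decay hx j y' hy'.mem (θ / 4) (by positivity)
  refine ⟨min ε₀ (θ / 8), lt_min hε₀ (by positivity), fun ε hε y hy => ?_⟩
  have a1 := h0 ε (hε.trans (min_le_left _ _)) y hy
  have a2 := h.cauchy hy hy'
  have a3 := n2_g_le (R := R) hr y (y - y')
  have a4 := n2_add_le R.ω (cfc (gF (2 * ‖x‖)) y * y') (cfc (gF (2 * ‖x‖)) y * (y - y'))
  rw [← mul_add, add_sub_cancel, cfc_g_mul hr hy.sa] at a4
  have a5 := hε.trans (min_le_right _ _)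
  have b1 : (0 : ℝ) < (1 / 2) ^ j := by positivity
  nlinarith

theorem exists_poly {y : 𝓜} (hy : y ∈ R.N0) (hs : IsSelfAdjoint y) {f : ℝ → ℝ} (hf : Continuous f)
    {δ : ℝ} (hδ : 0 < δ) : ∃ x₁ ∈ R.N0, IsSelfAdjoint x₁ ∧ ‖cfc f y - x₁‖ ≤ δ := by
  have hc : IsCompact (spectrum ℝ y) := spectrum.isCompact y
  obtain ⟨a, ha⟩ := hc.bddBelow
  obtain ⟨b, hb⟩ := hc.bddAbove
  obtain ⟨p, hp⟩ := exists_polynomial_near_of_continuousOn a b f hf.continuousOn δ hδ
  refine ⟨cfc p.eval y, ?_, cfc_predicate _ _, ?_⟩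
  · rw [cfc_polynomial p y, Polynomial.aeval_eq_sum_range]
    have hp : ∀ i : ℕ, y ^ i ∈ R.N0 := fun i => by
      induction i with
      | zero => simpa using R.mem_N0_of_mem_A R.A.one_mem
      | succ i ih => rw [pow_succ]; exact R.N0_mul ih hy
    exact R.N0.sum_mem fun i _ => real_smul_mem (hp i) _
  · rw [← cfc_sub _ _ y hf.continuousOn (by fun_prop)]
    refine norm_cfc_le hδ.le fun t ht => ?_
    rw [Real.norm_eq_abs, abs_sub_comm]
    exact (hp t ⟨ha ht, hb ht⟩).le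

end DecompAux

open DecompAux in
theorem Reg.decomp (R : Reg 𝓜) {x : 𝓜} (hx : IsSelfAdjoint x) :
    ∃ w, IsSelfAdjoint w ∧ ‖w‖ ≤ 3 * ‖x‖ ∧ R.Perp w ∧ ∀ δ : ℝ, 0 < δ →
      ∃ x₁ ∈ R.N0, IsSelfAdjoint x₁ ∧ ‖x₁‖ ≤ 2 * ‖x‖ + δ ∧ n2 R.ω (x - w - x₁) ≤ δ := by
  rcases (norm_nonneg x).eq_or_lt with h0 | h0
  · obtain rfl : x = 0 := norm_eq_zero.1 h0.symm
    exact ⟨0, hx, by simp, fun u _ => by simp [R.E_zero], fun δ hδ =>
      ⟨0, R.N0.zero_mem, hx, by simpa using hδ.le, by simpa [n2_zero] using hδ.le⟩⟩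
  have hr : 0 < 2 * ‖x‖ := by positivity
  obtain ⟨d, h⟩ := exists_dist R hx
  choose y hy using fun n : ℕ => h.ex (1 / ((n : ℝ) + 1)) Nat.one_div_pos_of_nat
  let c : ℕ → 𝓜 := fun n => cfc (clampF (2 * ‖x‖)) (y n)
  have hc : ∀ n, ‖c n‖ ≤ 2 * ‖x‖ := fun n => norm_cfc_le hr.le fun t _ => abs_clampF_le hr t
  let U : Ultrafilter ℕ := Ultrafilter.of atTop
  have hU : (U : Filter ℕ) ≤ atTop := Ultrafilter.of_le _
  obtain ⟨Y, hY⟩ := R.exists_wlim U c (Eventually.of_forall hc)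
  have hsmall : ∀ θ : ℝ, 0 < θ → ∀ᶠ n : ℕ in atTop, 1 / ((n : ℝ) + 1) ≤ θ := fun θ hθ =>
    (tendsto_one_div_add_atTop_nhds_zero_nat (𝕜 := ℝ)).eventually (eventually_le_nhds hθ)
  have htr : ∀ θ : ℝ, 0 < θ → ∀ᶠ n : ℕ in atTop, n2 R.ω (y n - c n) ≤ θ := fun θ hθ => by
    obtain ⟨ε₀, hε₀, h1⟩ := h.trunc h0 hθ
    filter_upwards [hsmall ε₀ hε₀] with n hn using h1 _ hn _ (hy n)
  have hYs : IsSelfAdjoint Y := hY.isSelfAdjoint (Eventually.of_forall fun n => cfc_predicate _ _)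
  have hYn : ‖Y‖ ≤ 2 * ‖x‖ := hY.norm_le (Eventually.of_forall hc)
  refine ⟨x - Y, hx.sub hYs, (norm_sub_le _ _).trans (by linarith), fun u hu => ?_,
    fun δ hδ => ?_⟩
  · refine R.E_eq_of R.A.zero_mem fun b hb => ?_
    rw [mul_zero, map_zero, ← mul_assoc]
    have hm : u * star b ∈ R.N0 :=
      R.N0_mul (R.mem_N0_of_inG hu) (R.mem_N0_of_mem_A (star_mem hb))
    have e : b * star u = star (u * star b) := by simp
    rw [e]
    obtain ⟨C, hC, hC'⟩ := h.orth (R.mem_N0_of_mem_A R.A.one_mem) hm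
    have t1 := (((WS.WLim.const x).sub hY).mul_left (star (u * star b))) R.ω R.ω_mem
    refine tendsto_nhds_unique t1 (Tendsto.mono_left ?_ hU)
    rw [NormedAddGroup.tendsto_nhds_zero]
    intro θ hθ
    have hN := n2_nonneg R.ω (u * star b)
    have hP : 0 < C + n2 R.ω (u * star b) + 1 := by positivity
    have hθ' : 0 < θ / (C + n2 R.ω (u * star b) + 1) := by positivity
    filter_upwards [hsmall _ hθ', htr _ hθ'] with n h1 h2
    have a1 := hC' _ _ (hy n)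
    have a2 := cauchy_schwarz R.ω (u * star b) (y n - c n)
    rw [mul_one] at a1
    rw [show x - c n = (x - y n) + (y n - c n) by abel, mul_add, map_add]
    refine (norm_add_le _ _).trans_lt ?_
    have a3 := mul_le_mul_of_nonneg_left h1 hC
    have a4 := mul_le_mul_of_nonneg_left h2 hN
    have a5 : (C + n2 R.ω (u * star b) + 1) * (θ / (C + n2 R.ω (u * star b) + 1)) = θ := by
      field_simp
    nlinarith
  · have hδ' : 0 < δ / 12 := by positivity
    obtain ⟨m, hm1, hm2⟩ := ((hsmall _ hδ').and (htr _ hδ')).exists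
    obtain ⟨x₁, hx₁, hs₁, hn₁⟩ := exists_poly (hy m).mem (hy m).sa (continuous_clampF (2 * ‖x‖))
      (half_pos hδ)
    have k1 : n2 R.ω (Y - c m) ≤ δ / 2 := by
      refine hY.n2_le R.ω_mem (hU ?_)
      filter_upwards [hsmall _ hδ', htr _ hδ'] with n h1 h2
      have a1 := n2_triangle R.ω (c n) (y n) (c m)
      have a2 := n2_triangle R.ω (y n) (y m) (c m)
      have a3 := h.cauchy (hy n) (hy m)
      rw [n2_sub_comm] at h2
      change n2 R.ω (c n - c m) ≤ δ / 2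
      linarith
    refine ⟨x₁, hx₁, hs₁, ?_, ?_⟩
    · have a1 := norm_sub_norm_le x₁ (c m)
      rw [norm_sub_rev] at a1
      linarith [hc m]
    · rw [sub_sub_cancel]
      have a1 := n2_triangle R.ω Y (c m) x₁
      have a2 := R.n2_le_norm' (c m - x₁)
      linarith

end Crest.Agent.R109
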