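import Crest.Agent.R109.DichAux

/-! Row 109, task C2: normal and singular parts of `φ ∘ E`. -/

set_option autoImplicit false
set_option linter.unusedSectionVars false

noncomputable section

namespace Crest.Agent.R109

open Filter Topology
open scoped ComplexOrder ComplexConjugate Classical

universe u

variable {𝓜 : Type u} [CStarAlgebra 𝓜] [PartialOrder 𝓜] [StarOrderedRing 𝓜]

namespace Dich

/-- The resolvent `(1 + c)⁻¹`. -/
def res (c : 𝓜) : 𝓜 := Ring.inverse (1 + c)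

theorem sp_one_add {c : 𝓜} (hc : 0 ≤ c) : IsStrictlyPositive (1 + c) :=
  isStrictlyPositive_one.add_nonneg hc

theorem mul_res {c : 𝓜} (hc : 0 ≤ c) : (1 + c) * res c = 1 :=
  Ring.mul_inverse_cancel _ (sp_one_add hc).isUnit

theorem res_mul {c : 𝓜} (hc : 0 ≤ c) : res c * (1 + c) = 1 :=
  Ring.inverse_mul_cancel _ (sp_one_add hc).isUnit

theorem res_nonneg {c : 𝓜} (hc : 0 ≤ c) : 0 ≤ res c := (sp_one_add hc).ringInverse.nonneg

theorem res_anti {c c' : 𝓜} (hc : 0 ≤ c) (h : c ≤ c') : res c' ≤ res c :=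
  CStarAlgebra.ringInverse_le_ringInverse (add_le_add_right h 1) (sp_one_add hc)

theorem res_zero : res (0 : 𝓜) = 1 := by simp [res]

theorem res_le_one {c : 𝓜} (hc : 0 ≤ c) : res c ≤ 1 := by
  simpa only [res_zero] using res_anti le_rfl hc

theorem one_sub_res {c : 𝓜} (hc : 0 ≤ c) : 1 - res c = c * res c := by
  have := mul_res hc
  rw [add_mul, one_mul] at this
  rw [sub_eq_iff_eq_add', this]

theorem one_sub_res' {c : 𝓜} (hc : 0 ≤ c) : 1 - res c = res c * c := by
  have := res_mul hc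
  rw [mul_add, mul_one] at this
  rw [sub_eq_iff_eq_add', this]

theorem one_sub_res_le {c : 𝓜} (hc : 0 ≤ c) : 1 - res c ≤ c := by
  have h1 : 0 ≤ c * res c * c := by
    simpa only [hc.isSelfAdjoint.star_eq] using star_left_conjugate_nonneg (res_nonneg hc) c
  have h2 : c * res c * c = c - (1 - res c) := by
    rw [← one_sub_res hc, sub_mul, one_mul, ← one_sub_res' hc]
  rwa [h2, sub_nonneg] at h1

theorem res_conj {c u : 𝓜} (hc : 0 ≤ c) (hu : star u = u) (huu : u * u = 1) :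
    res (u * c * u) = u * res c * u := by
  have hc' : 0 ≤ u * c * u := by simpa only [hu] using star_left_conjugate_nonneg hc u
  have e : 1 + u * c * u = u * (1 + c) * u := by rw [mul_add, add_mul, mul_one, huu]
  have h1 : (1 + u * c * u) * (u * res c * u) = 1 := by
    rw [e]
    calc u * (1 + c) * u * (u * res c * u) = u * ((1 + c) * (u * u) * res c) * u := by
          noncomm_ring
      _ = 1 := by rw [huu, mul_one, mul_res hc, mul_one, huu]
  calc res (u * c * u) = res (u * c * u) * ((1 + u * c * u) * (u * res c * u)) := by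
        rw [h1, mul_one]
    _ = u * res c * u := by rw [← mul_assoc, res_mul hc', one_mul]

/-- A positive contraction above all `t Y (1 + t Y)⁻¹` is a projection. -/
theorem proj_of_res_le {Y : 𝓜} (h0 : 0 ≤ Y) (h1 : Y ≤ 1)
    (h : ∀ t : ℝ, 0 < t → 1 - res (t • Y) ≤ Y) : IsStarProjection Y := by
  have hD : 0 ≤ Y - Y * Y := by
    have := Commute.mul_nonneg h0 (sub_nonneg.2 h1) ((Commute.one_right Y).sub_right (Commute.refl Y))
    rwa [mul_sub, mul_one] at this
  have key : ∀ t : ℝ, 0 < t → ‖Y - Y * Y‖ ≤ t⁻¹ := by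
    intro t ht
    have hc : 0 ≤ t • Y := smul_nonneg ht.le h0
    have e1 : (1 + t • Y) * (Y - (1 - res (t • Y))) = Y - t • (Y - Y * Y) := by
      rw [mul_sub, mul_sub, mul_res hc, mul_one, add_mul, one_mul, smul_mul_assoc, smul_sub]
      abel
    have e2 : (Y - (1 - res (t • Y))) * (1 + t • Y) = Y - t • (Y - Y * Y) := by
      rw [sub_mul, sub_mul, res_mul hc, one_mul, mul_add, mul_one, mul_smul_comm, smul_sub]
      abel
    have h2 := Commute.mul_nonneg (sp_one_add hc).nonneg (sub_nonneg.2 (h t ht)) (e1.trans e2.symm)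
    rw [e1, sub_nonneg] at h2
    have h3 : ‖t • (Y - Y * Y)‖ ≤ 1 :=
      (CStarAlgebra.norm_le_one_iff_of_nonneg _ (smul_nonneg ht.le hD)).2 (h2.trans h1)
    rw [norm_smul, Real.norm_eq_abs, abs_of_pos ht] at h3
    rw [← mul_one t⁻¹, le_inv_mul_iff₀ ht]
    exact h3
  have hz : ‖Y - Y * Y‖ ≤ 0 := by
    refine le_of_forall_pos_le_add fun ε hε => ?_
    simpa using key ε⁻¹ (inv_pos.2 hε)
  exact ⟨(sub_eq_zero.1 (norm_le_zero_iff.1 hz)).symm, h0.isSelfAdjoint⟩

/-- The null projection of a normal `A`-central functional. -/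
theorem exists_null_proj (W : WS 𝓜) {ω : 𝓜 →ₚ[ℂ] ℂ} (hn : W.Normal ω)
    (hc : ∀ a ∈ W.A, ∀ y, ω (a * y) = ω (y * a)) :
    ∃ f ∈ W.A, IsStarProjection f ∧ ω f = 0 ∧
      ∀ y, 0 ≤ y → (1 - f) * y * (1 - f) = y → ω y = 0 → y = 0 := by
  let C := {c : 𝓜 // 0 ≤ c ∧ ω c = 0}
  let s : Finset C → 𝓜 := fun I => ∑ c ∈ I, (c : 𝓜)
  have hs0 : ∀ I, 0 ≤ s I := fun I => Finset.sum_nonneg fun c _ => c.2.1
  have hsω : ∀ I, ω (s I) = 0 := fun I => by
    simp only [s, map_sum]
    exact Finset.sum_eq_zero fun c _ => c.2.2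
  have hg0 : ∀ c : 𝓜, 0 ≤ c → 0 ≤ 1 - res c := fun c h => sub_nonneg.2 (res_le_one h)
  have hg1 : ∀ c : 𝓜, 0 ≤ c → 1 - res c ≤ 1 := fun c h => sub_le_self _ (res_nonneg h)
  have hgn : ∀ I, ‖1 - res (s I)‖ ≤ 1 := fun I =>
    (CStarAlgebra.norm_le_one_iff_of_nonneg _ (hg0 _ (hs0 I))).2 (hg1 _ (hs0 I))
  obtain ⟨Y, U, -, hlim, hlub⟩ := W.exists_lub (fun I : Finset C => 1 - res (s I))
    (fun I J hIJ => sub_le_sub_left (res_anti (hs0 I)
      (Finset.sum_le_sum_of_subset_of_nonneg hIJ fun c _ _ => c.2.1)) 1) hgn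
  have hub : ∀ c : 𝓜, 0 ≤ c → ω c = 0 → 1 - res c ≤ Y := fun c h0 h1 =>
    hlub.1 ⟨{⟨c, h0, h1⟩}, by simp only [s, Finset.sum_singleton]⟩
  have hleast : ∀ Z : 𝓜, (∀ c : 𝓜, 0 ≤ c → ω c = 0 → 1 - res c ≤ Z) → Y ≤ Z := fun Z hZ =>
    hlub.2 (by rintro _ ⟨I, rfl⟩; exact hZ _ (hs0 I) (hsω I))
  have hY0 : 0 ≤ Y := (hg0 0 le_rfl).trans (hub 0 le_rfl (map_zero ω))
  have hY1 : Y ≤ 1 := hleast 1 fun c h _ => hg1 c h
  have hYω : ω Y = 0 := by
    have h1 := hn.tendsto U (Eventually.of_forall hgn) hlim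
    have h2 : (fun I : Finset C => ω (1 - res (s I))) = fun _ => 0 := by
      funext I
      refine pos_eq_zero_of_re ω (hg0 _ (hs0 I)) ?_
      have := pos_re_mono ω (one_sub_res_le (hs0 I))
      rwa [hsω I] at this
    rw [h2] at h1
    exact tendsto_nhds_unique h1 tendsto_const_nhds
  have hYA : Y ∈ W.A := by
    refine W.mem_of_commute_proj fun e he hp => ?_
    have huA : 1 - (e + e) ∈ W.A := W.A.sub_mem W.A.one_mem (W.A.add_mem he he)
    have hu := refl_star hp
    have huu := refl_sq hp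
    have h3 : (1 - (e + e)) * Y = Y * (1 - (e + e)) := by
      generalize 1 - (e + e) = u at huA hu huu
      have hinv : ∀ z : 𝓜, u * (u * z * u) * u = z := fun z => by
        rw [← mul_assoc, ← mul_assoc, huu, one_mul, mul_assoc, huu, mul_one]
      have h1 : Y ≤ u * Y * u := by
        refine hleast _ fun c h0 h1 => ?_
        have a0 : 0 ≤ u * c * u := by simpa only [hu] using star_left_conjugate_nonneg h0 u
        have a1 : ω (u * c * u) = 0 := by rw [← hc _ huA, ← mul_assoc, huu, one_mul, h1]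
        have a2 := star_left_conjugate_le_conjugate (hub _ a0 a1) u
        rwa [hu, res_conj h0 hu huu, mul_sub, sub_mul, hinv, mul_one, huu] at a2
      have h2 : u * Y * u ≤ Y := by
        have := star_left_conjugate_le_conjugate h1 u
        rwa [hu, hinv] at this
      calc u * Y = u * Y * u * u := by rw [mul_assoc (u * Y), huu, mul_one]
        _ = Y * u := by rw [le_antisymm h2 h1]
    rw [sub_mul, mul_sub, one_mul, mul_one, sub_right_inj, add_mul, mul_add, ← two_smul ℂ,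
      ← two_smul ℂ] at h3
    exact smul_right_injective 𝓜 (two_ne_zero (α := ℂ)) h3
  have hYp : IsStarProjection Y := proj_of_res_le hY0 hY1 fun t ht =>
    hub _ (smul_nonneg ht.le hY0) (by rw [pos_real_smul, hYω, mul_zero])
  refine ⟨Y, hYA, hYp, hYω, fun y hy0 hy1 hy2 => ?_⟩
  have a1 : (1 - res y) * Y = 1 - res y :=
    (hYp.mul_right_and_mul_left_of_nonneg_of_le (hg0 y hy0) (hub y hy0 hy2)).1
  have a2 : y * Y = 0 := by
    rw [← hy1, mul_assoc, hYp.one_sub_mul_self, mul_zero]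
  rw [one_sub_res' hy0, mul_assoc, a2, mul_zero] at a1
  calc y = (1 + y) * res y * y := by rw [mul_res hy0, one_mul]
    _ = 0 := by rw [mul_assoc, ← a1, mul_zero]

theorem sing_of_NLe (W : WS 𝓜) {ψ : 𝓜 →ₚ[ℂ] ℂ} (hψ : ∀ a ∈ W.A, ∀ y, ψ (a * y) = ψ (y * a))
    {f : 𝓜} (hfA : f ∈ W.A) (hf : IsStarProjection f) (h : NLe W ψ f 0) :
    ∀ φ' ∈ W.𝓕, ∀ γ : ℝ, 0 < γ → ∃ q, IsStarProjection q ∧ q * f = q ∧ (φ' (f - q)).re < γ ∧
      (ψ q).re < γ := by
  intro φ' hφ' γ hγ
  set δ : ℝ := min (γ / 4) (1 / 2) with hδ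
  have hδ0 : 0 < δ := lt_min (by positivity) (by norm_num)
  have hδ1 : δ ≤ γ / 4 := min_le_left _ _
  have hδ2 : δ ≤ 1 / 2 := min_le_right _ _
  obtain ⟨b, hb, h1, h2⟩ := h (conjF φ' f) (W.conj_mem _ hφ' f) δ hδ0
  have hfs : star f = f := hf.isSelfAdjoint.star_eq
  have hff : f * f = f := hf.isIdempotentElem.eq
  have hb' : 0 ≤ f * b * f := by simpa only [hfs] using star_left_conjugate_nonneg hb f
  have hψb : (ψ (f * b * f)).re ≤ (ψ b).re := by
    have a0 : 0 ≤ (1 - f) * b * (1 - f) := by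
      simpa only [hf.one_sub.isSelfAdjoint.star_eq] using star_left_conjugate_nonneg hb (1 - f)
    have a1 : ψ ((1 - f) * b * (1 - f)) = ψ b - ψ (f * b * f) := by
      rw [← hψ _ (W.A.sub_mem W.A.one_mem hfA), ← mul_assoc, hf.one_sub.isIdempotentElem.eq,
        ← hψ _ hfA, ← mul_assoc, hff, sub_mul, one_mul, map_sub]
    have := pos_re_nonneg ψ a0
    rw [a1, Complex.sub_re] at this
    linarith
  have hd : n2 φ' (f - f * b * f) < δ := by
    have e : f - f * b * f = f * ((f - b) * f) := by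
      rw [sub_mul, mul_sub, hff, hff, mul_assoc]
    have a1 : ‖f‖ ≤ 1 := hf.norm_le _
    rw [n2_sub_comm, n2_conjF] at h1
    calc n2 φ' (f - f * b * f) ≤ ‖f‖ * n2 φ' ((f - b) * f) := by rw [e]; exact n2_mul_le _ _ _
      _ ≤ 1 * n2 φ' ((f - b) * f) := mul_le_mul_of_nonneg_right a1 (n2_nonneg _ _)
      _ < δ := by rwa [one_mul]
  have hfb : f * (f * b * f) = f * b * f := by rw [← mul_assoc, ← mul_assoc, hff]
  have hbf : f * b * f * f = f * b * f := by rw [mul_assoc, hff]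
  generalize f * b * f = c at hb' hψb hd hfb hbf
  obtain ⟨q, hq⟩ := W.exists_SP hb'.isSelfAdjoint (1 / 2)
  have hqp : IsStarProjection q := hq.1
  have hqq : q * q = q := hqp.isIdempotentElem.eq
  have hqc : (1 / 2 : ℝ) • q ≤ c := hq.smul_le hb'
  have hfq : f * q = q * f := hq.2.1 f (hfb.trans hbf.symm)
  have hqf : q * f = q := by
    have a1 : (1 / 2 : ℝ) • ((1 - f) * q * (1 - f)) ≤ 0 := by
      have := star_left_conjugate_le_conjugate hqc (1 - f)
      rw [hf.one_sub.isSelfAdjoint.star_eq, mul_smul_comm, smul_mul_assoc] at this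
      refine this.trans (le_of_eq ?_)
      rw [sub_mul, one_mul, hfb, sub_self, zero_mul]
    have a2 : 0 ≤ (1 - f) * q * (1 - f) := by
      simpa only [hf.one_sub.isSelfAdjoint.star_eq] using
        star_left_conjugate_nonneg hqp.nonneg (1 - f)
    have a3 : (1 / 2 : ℝ) • ((1 - f) * q * (1 - f)) = 0 :=
      le_antisymm a1 (smul_nonneg (by norm_num) a2)
    have a4 := (smul_eq_zero.1 a3).resolve_left (by norm_num)
    have a5 : (1 - f) * q * (1 - f) = q - q * f := by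
      rw [sub_mul, one_mul, hfq, mul_sub, mul_one, sub_mul, mul_assoc, hff, sub_self, sub_zero]
    rw [a5, sub_eq_zero] at a4
    exact a4.symm
  have hfq' : f * q = q := hfq.trans hqf
  refine ⟨q, hqp, hqf, ?_, ?_⟩
  · have hp : IsStarProjection (f - q) := by
      refine ⟨?_, hf.isSelfAdjoint.sub hqp.isSelfAdjoint⟩
      change (f - q) * (f - q) = f - q
      rw [mul_sub, sub_mul, sub_mul, hff, hqf, hfq', hqq, sub_self, sub_zero]
    have hps : star (f - q) = f - q := hp.isSelfAdjoint.star_eq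
    have hcq : c * q = q * c := hq.commute
    have a1 : c - q * c ≤ (1 / 2 : ℝ) • (f - q) := by
      have := star_left_conjugate_le_conjugate hq.2.2.2 f
      rw [hfs, mul_smul_comm, smul_mul_assoc, ← mul_assoc, hfb, mul_sub, mul_sub, mul_one, mul_one,
        sub_mul, sub_mul, hbf, hff, hfq', hqf, mul_assoc, hqf, hcq] at this
      exact this
    have a2 : star (f - q) * (f - c) = (f - q) - (c - q * c) := by
      rw [hps, mul_sub, sub_mul, sub_mul, hff, hqf, hfb]
    have a3 := pos_re_mono φ' a1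
    rw [pos_real_smul, Complex.re_ofReal_mul] at a3
    have a4 := (Complex.re_le_norm _).trans (cauchy_schwarz φ' (f - q) (f - c))
    rw [a2, map_sub φ' (f - q), Complex.sub_re] at a4
    have a5 := n2_sq φ' (f - q)
    rw [hps, hp.isIdempotentElem.eq] at a5
    have a6 := n2_nonneg φ' (f - q)
    have a7 := n2_nonneg φ' (f - c)
    have a8 : n2 φ' (f - q) ^ 2 ≤ 2 * (n2 φ' (f - q) * δ) := by
      have := mul_le_mul_of_nonneg_left hd.le a6
      linarith
    rw [← a5]
    nlinarith [sq_nonneg (n2 φ' (f - q) - 2 * δ)]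
  · have a3 := pos_re_mono ψ hqc
    rw [pos_real_smul, Complex.re_ofReal_mul] at a3
    linarith

end Dich

theorem WS.dichotomy (W : WS 𝓜) {φ : 𝓜 →ₚ[ℂ] ℂ} (hφ : φ ∈ W.𝓕) :
    ∃ f ∈ W.A, IsStarProjection f ∧ W.Sing φ f ∧ ∃ ω : 𝓜 →ₚ[ℂ] ℂ, W.RegPart ω f := by
  have hψ : ∀ a ∈ W.A, ∀ y, (φ.comp W.Epos) (a * y) = (φ.comp W.Epos) (y * a) := by
    intro a ha y
    change φ (W.E (a * y)) = φ (W.E (y * a))
    rw [W.E_mul_left ha, W.E_mul_right ha, W.comm a ha _ (W.E_mem y)]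
  obtain ⟨ω, hω⟩ := Dich.exists_normal_part W (φ.comp W.Epos)
  have hω' : Dich.IsNP W (φ.comp W.Epos) ω := hω
  obtain ⟨f, hfA, hf, hf0, hfaith⟩ := Dich.exists_null_proj W hω'.normal (hω'.central hψ)
  refine ⟨f, hfA, hf, ?_, ω, hω'.normal, hω'.central hψ, hfaith⟩
  have h := (hω f hf.nonneg hf.le_one).1
  rw [hf0, Complex.zero_re] at h
  exact Dich.sing_of_NLe W hψ hfA hf h

end Crest.Agent.R109
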