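import Crest.Agent.R109.WExp

/-! Row 109, task C2 (auxiliary): the normal part of a positive functional. -/

set_option autoImplicit false
set_option linter.unusedSectionVars false

noncomputable section

namespace Crest.Agent.R109

open Filter Topology
open scoped ComplexOrder ComplexConjugate Classical

universe u

variable {𝓜 : Type u} [CStarAlgebra 𝓜] [PartialOrder 𝓜] [StarOrderedRing 𝓜]

namespace Dich

/-- The normal part of `ψ` at `y` is at most `r`. -/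
def NLe (W : WS 𝓜) (ψ : 𝓜 →ₚ[ℂ] ℂ) (y : 𝓜) (r : ℝ) : Prop :=
  ∀ φ' ∈ W.𝓕, ∀ γ : ℝ, 0 < γ → ∃ b, 0 ≤ b ∧ n2 φ' (b - y) < γ ∧ (ψ b).re < r + γ

variable {W : WS 𝓜} {ψ : 𝓜 →ₚ[ℂ] ℂ}

theorem NLe.self {y : 𝓜} (hy : 0 ≤ y) : NLe W ψ y (ψ y).re := fun φ' _ γ hγ =>
  ⟨y, hy, by rw [sub_self, n2_zero]; exact hγ, by linarith⟩

theorem NLe.nonneg {y : 𝓜} {r : ℝ} (h : NLe W ψ y r) : 0 ≤ r := by
  refine le_of_forall_pos_le_add fun γ hγ => ?_
  obtain ⟨b, hb, -, h2⟩ := h 0 W.zero_mem γ hγ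
  exact (pos_re_nonneg ψ hb).trans h2.le

theorem NLe.add {y y' : 𝓜} {r r' : ℝ} (h : NLe W ψ y r) (h' : NLe W ψ y' r') :
    NLe W ψ (y + y') (r + r') := by
  intro φ' hφ' γ hγ
  obtain ⟨b, hb, h1, h2⟩ := h φ' hφ' (γ / 2) (by positivity)
  obtain ⟨b', hb', h1', h2'⟩ := h' φ' hφ' (γ / 2) (by positivity)
  refine ⟨b + b', add_nonneg hb hb', ?_, ?_⟩
  · have : b + b' - (y + y') = (b - y) + (b' - y') := by abel
    rw [this]
    linarith [n2_add_le φ' (b - y) (b' - y')]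
  · rw [map_add, Complex.add_re]
    linarith

theorem exists_min (W : WS 𝓜) (ψ : 𝓜 →ₚ[ℂ] ℂ) :
    ∃ m, NLe W ψ 1 m ∧ ∀ r, NLe W ψ 1 r → m ≤ r := by
  have hne : {r | NLe W ψ 1 r}.Nonempty := ⟨_, NLe.self zero_le_one⟩
  have hbd : BddBelow {r | NLe W ψ 1 r} := ⟨0, fun r hr => NLe.nonneg hr⟩
  refine ⟨sInf {r | NLe W ψ 1 r}, fun φ' hφ' γ hγ => ?_, fun r hr => csInf_le hbd hr⟩
  obtain ⟨r, hr, hr2⟩ := exists_lt_of_csInf_lt hne
    (show sInf {r | NLe W ψ 1 r} < sInf {r | NLe W ψ 1 r} + γ / 2 by linarith)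
  obtain ⟨b, hb, h1, h2⟩ := hr φ' hφ' (γ / 2) (by positivity)
  exact ⟨b, hb, by linarith, by linarith⟩

theorem n2_mono (φ : 𝓜 →ₚ[ℂ] ℂ) {a b : 𝓜} (h : star a * a ≤ star b * b) : n2 φ a ≤ n2 φ b :=
  Real.sqrt_le_sqrt (pos_re_mono φ h)

/-- Truncation at `1`. -/
def trunc (b : 𝓜) : 𝓜 := cfc (fun t : ℝ => min t 1) b

theorem trunc_sa (b : 𝓜) : IsSelfAdjoint (trunc b) := cfc_predicate _ _

theorem trunc_nonneg {b : 𝓜} (hb : 0 ≤ b) : 0 ≤ trunc b :=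
  cfc_nonneg fun _ ht => le_min (spectrum_nonneg_of_nonneg hb ht) zero_le_one

theorem trunc_le_one (b : 𝓜) : trunc b ≤ 1 := cfc_le_one _ _ fun _ _ => min_le_right _ _

theorem norm_trunc_le {b : 𝓜} (hb : 0 ≤ b) : ‖trunc b‖ ≤ 1 :=
  (CStarAlgebra.norm_le_one_iff_of_nonneg _ (trunc_nonneg hb)).2 (trunc_le_one b)

theorem trunc_sq_le {b : 𝓜} (hb : 0 ≤ b) : trunc b * trunc b ≤ b := by
  have hsa : IsSelfAdjoint b := hb.isSelfAdjoint
  unfold trunc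
  rw [← cfc_mul ..]
  conv_rhs => rw [← cfc_id' ℝ b]
  refine cfc_mono fun t ht => ?_
  have h0 : 0 ≤ t := spectrum_nonneg_of_nonneg hb ht
  rcases le_total t 1 with h | h
  · rw [min_eq_left h]; nlinarith
  · rw [min_eq_right h]; linarith

theorem trunc_sub_sq_le {b : 𝓜} (hb : 0 ≤ b) :
    star (trunc b - 1) * (trunc b - 1) ≤ star (b - 1) * (b - 1) := by
  have hsa : IsSelfAdjoint b := hb.isSelfAdjoint
  have h1 : star (trunc b - 1) = trunc b - 1 := ((trunc_sa b).sub (IsSelfAdjoint.one 𝓜)).star_eq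
  have h2 : star (b - 1) = b - 1 := (hsa.sub (IsSelfAdjoint.one 𝓜)).star_eq
  rw [h1, h2]
  have e1 : trunc b - 1 = cfc (fun t : ℝ => min t 1 - 1) b := by
    unfold trunc
    rw [cfc_sub .., cfc_const_one ℝ b]
  have e2 : b - 1 = cfc (fun t : ℝ => t - 1) b := by
    rw [cfc_sub .., cfc_const_one ℝ b, cfc_id' ℝ b]
  rw [e1, e2, ← cfc_mul .., ← cfc_mul ..]
  refine cfc_mono fun t _ => ?_
  rcases le_total t 1 with h | h
  · rw [min_eq_left h]
  · rw [min_eq_right h]; nlinarith [sq_nonneg (t - 1)]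

theorem exists_ultra {m : ℝ} (hm : NLe W ψ 1 m) :
    ∃ V : Ultrafilter 𝓜, ∀ φ' ∈ W.𝓕, ∀ γ : ℝ, 0 < γ →
      ∀ᶠ b in (V : Filter 𝓜), 0 ≤ b ∧ n2 φ' (b - 1) < γ ∧ (ψ b).re < m + γ := by
  let ι := {p : (𝓜 →ₚ[ℂ] ℂ) × ℝ // p.1 ∈ W.𝓕 ∧ 0 < p.2}
  let S : ι → Set 𝓜 := fun p => {b | 0 ≤ b ∧ n2 p.1.1 (b - 1) < p.1.2 ∧ (ψ b).re < m + p.1.2}
  have : Nonempty ι := ⟨⟨(0, 1), W.zero_mem, one_pos⟩⟩
  have hd : Directed (· ≥ ·) (fun p => 𝓟 (S p)) := by
    rintro ⟨⟨φ₁, γ₁⟩, h₁, hγ₁⟩ ⟨⟨φ₂, γ₂⟩, h₂, hγ₂⟩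
    refine ⟨⟨(φ₁ + φ₂, min γ₁ γ₂), W.add_mem _ h₁ _ h₂, lt_min hγ₁ hγ₂⟩, ?_, ?_⟩
    · refine principal_mono.2 fun b hb => ⟨hb.1, ?_, ?_⟩
      · exact (n2_le_add_left φ₁ φ₂ _).trans_lt (hb.2.1.trans_le (min_le_left _ _))
      · exact hb.2.2.trans_le (by gcongr; exact min_le_left _ _)
    · refine principal_mono.2 fun b hb => ⟨hb.1, ?_, ?_⟩
      · exact (n2_le_add_right φ₁ φ₂ _).trans_lt (hb.2.1.trans_le (min_le_right _ _))
      · exact hb.2.2.trans_le (by gcongr; exact min_le_right _ _)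
  have : (⨅ p, 𝓟 (S p)).NeBot := iInf_neBot_of_directed' hd fun p =>
    principal_neBot_iff.2 (hm p.1.1 p.2.1 p.1.2 p.2.2)
  refine ⟨Ultrafilter.of (⨅ p, 𝓟 (S p)), fun φ' hφ' γ hγ => ?_⟩
  exact Ultrafilter.of_le _ (mem_iInf_of_mem (⟨(φ', γ), hφ', hγ⟩ : ι) (mem_principal_self _))

theorem ultra_lim {α : Type*} (V : Ultrafilter α) (g : α → ℂ) {R : ℝ}
    (h : ∀ᶠ a in (V : Filter α), ‖g a‖ ≤ R) : ∃ L, Tendsto g (V : Filter α) (𝓝 L) := by
  obtain ⟨L, -, hL⟩ := (isCompact_closedBall (0 : ℂ) R).ultrafilter_le_nhds (V.map g)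
    (by
      rw [Ultrafilter.coe_map, le_principal_iff, mem_map]
      filter_upwards [h] with a ha
      simpa using ha)
  exact ⟨L, hL⟩

/-- The normal part `ω` of `ψ`. -/
theorem exists_normal_part (W : WS 𝓜) (ψ : 𝓜 →ₚ[ℂ] ℂ) :
    ∃ ω : 𝓜 →ₚ[ℂ] ℂ, ∀ y, 0 ≤ y → y ≤ 1 →
      NLe W ψ y (ω y).re ∧ ∀ r, NLe W ψ y r → (ω y).re ≤ r := by
  obtain ⟨m, hm, hmin⟩ := exists_min W ψ
  obtain ⟨V, hV⟩ := exists_ultra hm
  have hpos : ∀ᶠ b in (V : Filter 𝓜), 0 ≤ b := (hV 0 W.zero_mem 1 one_pos).mono fun b hb => hb.1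
  have hex : ∀ y : 𝓜, ∃ L, Tendsto (fun b => ψ (trunc b * y * trunc b)) (V : Filter 𝓜) (𝓝 L) := by
    intro y
    refine ultra_lim V _ (R := ‖y‖ * (ψ 1).re) ?_
    filter_upwards [hpos] with b hb
    refine (pos_norm_le ψ _).trans (mul_le_mul_of_nonneg_right ?_ (pos_re_nonneg ψ zero_le_one))
    have := norm_trunc_le hb
    calc ‖trunc b * y * trunc b‖ ≤ ‖trunc b‖ * ‖y‖ * ‖trunc b‖ :=
          (norm_mul_le _ _).trans (by gcongr; exact norm_mul_le _ _)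
      _ ≤ 1 * ‖y‖ * 1 := by gcongr
      _ = ‖y‖ := by ring
  choose L hL using hex
  let ω : 𝓜 →ₚ[ℂ] ℂ := PositiveLinearMap.mk₀
    { toFun := L
      map_add' := fun a b => tendsto_nhds_unique (hL (a + b)) (by
        simpa only [mul_add, add_mul, map_add] using (hL a).add (hL b))
      map_smul' := fun c a => tendsto_nhds_unique (hL (c • a)) (by
        simpa only [mul_smul_comm, smul_mul_assoc, map_smul, RingHom.id_apply]
          using (hL a).const_smul c) }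
    (fun y hy => ge_of_tendsto' (hL y) fun b => ψ.map_nonneg (by
      simpa only [(trunc_sa b).star_eq] using star_left_conjugate_nonneg hy (trunc b)))
  have hω : ∀ y, Tendsto (fun b => (ψ (trunc b * y * trunc b)).re) (V : Filter 𝓜) (𝓝 (ω y).re) :=
    fun y => (Complex.continuous_re.tendsto _).comp (hL y)
  have h1 : (ω 1).re ≤ m := by
    refine le_of_forall_pos_le_add fun γ hγ => le_of_tendsto (hω 1) ?_
    filter_upwards [hV 0 W.zero_mem γ hγ] with b hb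
    rw [mul_one]
    exact (pos_re_mono ψ (trunc_sq_le hb.1)).trans hb.2.2.le
  have h2 : ∀ y, 0 ≤ y → y ≤ 1 → NLe W ψ y (ω y).re := by
    intro y hy0 hy1 φ' hφ' γ hγ
    have hyn : ‖y‖ ≤ 1 := (CStarAlgebra.norm_le_one_iff_of_nonneg _ hy0).2 hy1
    obtain ⟨b, hb, hb2⟩ := ((hV (φ' + conjF φ' y) (W.add_mem _ hφ' _ (W.conj_mem _ hφ' y)) (γ / 2)
      (by positivity)).and ((hω y).eventually (gt_mem_nhds
        (show (ω y).re < (ω y).re + γ by linarith)))).exists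
    refine ⟨trunc b * y * trunc b, by
      simpa only [(trunc_sa b).star_eq] using star_left_conjugate_nonneg hy0 (trunc b), ?_, hb2⟩
    have e : trunc b * y * trunc b - y = (trunc b * y) * (trunc b - 1) + (trunc b - 1) * y := by
      noncomm_ring
    have hn : ‖trunc b * y‖ ≤ 1 := (norm_mul_le _ _).trans (by
      have := norm_trunc_le hb.1
      calc ‖trunc b‖ * ‖y‖ ≤ 1 * 1 := by gcongr
        _ = 1 := one_mul _)
    have a1 : n2 φ' ((trunc b * y) * (trunc b - 1)) < γ / 2 := by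
      calc n2 φ' ((trunc b * y) * (trunc b - 1)) ≤ ‖trunc b * y‖ * n2 φ' (trunc b - 1) :=
            n2_mul_le _ _ _
        _ ≤ 1 * n2 φ' (trunc b - 1) := mul_le_mul_of_nonneg_right hn (n2_nonneg _ _)
        _ ≤ n2 φ' (b - 1) := by rw [one_mul]; exact n2_mono _ (trunc_sub_sq_le hb.1)
        _ ≤ n2 (φ' + conjF φ' y) (b - 1) := n2_le_add_left _ _ _
        _ < γ / 2 := hb.2.1
    have a2 : n2 φ' ((trunc b - 1) * y) < γ / 2 := by
      calc n2 φ' ((trunc b - 1) * y) = n2 (conjF φ' y) (trunc b - 1) := (n2_conjF _ _ _).symm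
        _ ≤ n2 (conjF φ' y) (b - 1) := n2_mono _ (trunc_sub_sq_le hb.1)
        _ ≤ n2 (φ' + conjF φ' y) (b - 1) := n2_le_add_right _ _ _
        _ < γ / 2 := hb.2.1
    rw [e]
    linarith [n2_add_le φ' ((trunc b * y) * (trunc b - 1)) ((trunc b - 1) * y)]
  refine ⟨ω, fun y hy0 hy1 => ⟨h2 y hy0 hy1, fun r hr => ?_⟩⟩
  have h3 := hr.add (h2 (1 - y) (sub_nonneg.2 hy1) (sub_le_self _ hy0))
  rw [add_sub_cancel] at h3
  have h4 := hmin _ h3
  rw [map_sub, Complex.sub_re] at h4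
  linarith

/-- `ω` is the normal part of `ψ`. -/
def IsNP (W : WS 𝓜) (ψ ω : 𝓜 →ₚ[ℂ] ℂ) : Prop :=
  ∀ y, 0 ≤ y → y ≤ 1 → NLe W ψ y (ω y).re ∧ ∀ r, NLe W ψ y r → (ω y).re ≤ r

variable {ω : 𝓜 →ₚ[ℂ] ℂ}

theorem IsNP.lsc (h : IsNP W ψ ω) {y : 𝓜} (hy0 : 0 ≤ y) (hy1 : y ≤ 1) {ε : ℝ} (hε : 0 < ε) :
    ∃ φ' ∈ W.𝓕, ∃ γ : ℝ, 0 < γ ∧ ∀ y', 0 ≤ y' → y' ≤ 1 → n2 φ' (y' - y) ≤ γ →
      (ω y).re - ε < (ω y').re := by
  have h1 : ¬ NLe W ψ y ((ω y).re - ε) := fun h' => by linarith [(h y hy0 hy1).2 _ h']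
  unfold NLe at h1
  push Not at h1
  obtain ⟨φ', hφ', γ, hγ, H⟩ := h1
  refine ⟨φ', hφ', γ / 2, by positivity, fun y' h0 h1 h2 => ?_⟩
  obtain ⟨b, hb, h3, h4⟩ := (h y' h0 h1).1 φ' hφ' (γ / 2) (by positivity)
  have := H b hb (by linarith [n2_triangle φ' b y' y])
  linarith

theorem IsNP.eventually_lt (h : IsNP W ψ ω) {α : Type*} {l : Filter α} {y : α → 𝓜} {Y : 𝓜}
    (hl : W.WLim l y Y) (hy : ∀ᶠ i in l, 0 ≤ y i ∧ y i ≤ 1) {ε : ℝ} (hε : 0 < ε) :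
    ∀ᶠ i in l, (ω Y).re - ε < (ω (y i)).re := by
  by_contra hcon
  rw [Filter.not_eventually] at hcon
  have hne : (l ⊓ 𝓟 {i | ¬ (ω Y).re - ε < (ω (y i)).re}).NeBot := frequently_iff_neBot.1 hcon
  set l' := l ⊓ 𝓟 {i | ¬ (ω Y).re - ε < (ω (y i)).re} with hl'
  have hle : l' ≤ l := inf_le_left
  have hl2 : W.WLim l' y Y := hl.mono hle
  have hy' : ∀ᶠ i in l', 0 ≤ y i ∧ y i ≤ 1 := hy.filter_mono hle
  have hY0 : 0 ≤ Y := hl2.nonneg (hy'.mono fun i hi => hi.1)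
  have hY1 : Y ≤ 1 := hl2.le_const (hy'.mono fun i hi => hi.2)
  obtain ⟨φ', hφ', γ, hγ, H⟩ := h.lsc hY0 hY1 hε
  have hP : ∀ᶠ i in l', (0 ≤ y i ∧ y i ≤ 1) ∧ (ω (y i)).re ≤ (ω Y).re - ε :=
    hy'.and (mem_inf_of_right (mem_principal.2 fun i hi => not_lt.1 hi))
  obtain ⟨n, i, hi, hn⟩ := hl2.banach_saks (R := 1)
    (hy'.mono fun i hi => (CStarAlgebra.norm_le_one_iff_of_nonneg _ hi.1).2 hi.2) hP hφ' hγ
  have hn0 : (0 : ℝ) < (n + 1 : ℝ) := by positivity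
  have a0 : 0 ≤ ((n + 1 : ℝ))⁻¹ • ∑ k, y (i k) :=
    smul_nonneg (by positivity) (Finset.sum_nonneg fun k _ => (hi k).1.1)
  have a1 : ((n + 1 : ℝ))⁻¹ • ∑ k, y (i k) ≤ 1 := by
    have : ∑ k, y (i k) ≤ (n + 1 : ℝ) • (1 : 𝓜) := by
      calc ∑ k, y (i k) ≤ ∑ _k : Fin (n + 1), (1 : 𝓜) := Finset.sum_le_sum fun k _ => (hi k).1.2
        _ = (n + 1 : ℝ) • (1 : 𝓜) := by
          rw [Finset.sum_const, Finset.card_univ, Fintype.card_fin, ← Nat.cast_smul_eq_nsmul ℝ]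
          push_cast; rfl
    calc ((n + 1 : ℝ))⁻¹ • ∑ k, y (i k) ≤ ((n + 1 : ℝ))⁻¹ • ((n + 1 : ℝ) • (1 : 𝓜)) :=
          smul_le_smul_of_nonneg_left this (by positivity)
      _ = 1 := by rw [smul_smul, inv_mul_cancel₀ hn0.ne', one_smul]
  have a2 := H _ a0 a1 hn
  rw [pos_real_smul, map_sum, Complex.re_ofReal_mul, Complex.re_sum] at a2
  have a3 : ∑ k, (ω (y (i k))).re ≤ (n + 1 : ℝ) * ((ω Y).re - ε) := by
    calc ∑ k, (ω (y (i k))).re ≤ ∑ _k : Fin (n + 1), ((ω Y).re - ε) :=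
          Finset.sum_le_sum fun k _ => (hi k).2
      _ = (n + 1 : ℝ) * ((ω Y).re - ε) := by
          rw [Finset.sum_const, Finset.card_univ, Fintype.card_fin, nsmul_eq_mul]
          push_cast; rfl
  have a4 : ((n + 1 : ℝ))⁻¹ * ∑ k, (ω (y (i k))).re ≤ (ω Y).re - ε := by
    rw [inv_mul_le_iff₀ hn0]; exact a3
  linarith

theorem IsNP.tendsto_unit (h : IsNP W ψ ω) {α : Type*} {l : Filter α} {y : α → 𝓜} {Y : 𝓜}
    (hl : W.WLim l y Y) (hy : ∀ᶠ i in l, 0 ≤ y i ∧ y i ≤ 1) :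
    Tendsto (fun i => (ω (y i)).re) l (𝓝 (ω Y).re) := by
  rw [Metric.tendsto_nhds]
  intro ε hε
  have h1 := h.eventually_lt hl hy hε
  have h2 := h.eventually_lt ((WS.WLim.const (W := W) (l := l) 1).sub hl)
    (hy.mono fun i hi => ⟨sub_nonneg.2 hi.2, sub_le_self _ hi.1⟩) hε
  filter_upwards [h1, h2] with i a b
  rw [map_sub, map_sub, Complex.sub_re, Complex.sub_re] at b
  rw [Real.dist_eq, abs_lt]
  constructor <;> linarith

theorem IsNP.tendsto_sa (h : IsNP W ψ ω) {α : Type*} {l : Filter α} {y : α → 𝓜} {Y : 𝓜}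
    (hl : W.WLim l y Y) {R : ℝ} (hy : ∀ᶠ i in l, IsSelfAdjoint (y i) ∧ ‖y i‖ ≤ R) :
    Tendsto (fun i => (ω (y i)).re) l (𝓝 (ω Y).re) := by
  set T : ℝ := max R 1 with hT
  have hT0 : 0 < T := lt_max_of_lt_right one_pos
  have hl' : W.WLim l (fun i => (((2 * T)⁻¹ : ℝ) : ℂ) • (y i + T • (1 : 𝓜)))
      ((((2 * T)⁻¹ : ℝ) : ℂ) • (Y + T • (1 : 𝓜))) := (hl.add (WS.WLim.const _)).smul _
  have hc : ∀ z : 𝓜, (((2 * T)⁻¹ : ℝ) : ℂ) • z = ((2 * T)⁻¹ : ℝ) • z := fun z =>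
    Complex.coe_smul _ _
  simp only [hc] at hl'
  have h1 := h.tendsto_unit hl' (by
    filter_upwards [hy] with i hi
    have hn : ‖y i‖ ≤ T := hi.2.trans (le_max_left _ _)
    have hT1 : ‖y i‖ • (1 : 𝓜) ≤ T • (1 : 𝓜) := smul_le_smul_of_nonneg_right hn zero_le_one
    have b1 : y i ≤ T • (1 : 𝓜) := (le_norm_smul_one hi.1).trans hT1
    have b2 : -y i ≤ T • (1 : 𝓜) := by
      have := le_norm_smul_one hi.1.neg
      rw [norm_neg] at this
      exact this.trans hT1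
    refine ⟨smul_nonneg (by positivity) (by rwa [neg_le_iff_add_nonneg'] at b2), ?_⟩
    calc (2 * T)⁻¹ • (y i + T • (1 : 𝓜)) ≤ (2 * T)⁻¹ • (T • (1 : 𝓜) + T • (1 : 𝓜)) :=
          smul_le_smul_of_nonneg_left (add_le_add_left b1 _) (by positivity)
      _ = 1 := by
          rw [← add_smul, smul_smul, ← two_mul, inv_mul_cancel₀ (by positivity), one_smul])
  have e : ∀ z : 𝓜, (ω z).re = (2 * T) * (ω ((2 * T)⁻¹ • (z + T • (1 : 𝓜)))).re
      - (ω (T • (1 : 𝓜))).re := by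
    intro z
    rw [pos_real_smul, Complex.re_ofReal_mul, ← mul_assoc, mul_inv_cancel₀ (by positivity), one_mul,
      map_add, Complex.add_re]
    ring
  rw [e Y]
  exact ((h1.const_mul (2 * T)).sub_const _).congr fun i => (e (y i)).symm

theorem IsNP.tendsto_re (h : IsNP W ψ ω) {α : Type*} {l : Filter α} {y : α → 𝓜} {Y : 𝓜}
    (hl : W.WLim l y Y) {R : ℝ} (hy : ∀ᶠ i in l, ‖y i‖ ≤ R) :
    Tendsto (fun i => (ω (y i)).re) l (𝓝 (ω Y).re) := by
  have h1 := h.tendsto_sa (hl.add hl.star) (R := R + R) (by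
    filter_upwards [hy] with i hi
    refine ⟨IsSelfAdjoint.add_star_self _, (norm_add_le _ _).trans ?_⟩
    rw [norm_star]; linarith)
  have e : ∀ z : 𝓜, (ω z).re = (1 / 2 : ℝ) * (ω (z + star z)).re := by
    intro z
    rw [map_add, pos_star, Complex.add_re, Complex.conj_re]; ring
  rw [e Y]
  exact (h1.const_mul _).congr fun i => (e (y i)).symm

theorem IsNP.normal (h : IsNP W ψ ω) : W.Normal ω := by
  intro U R Y hb hl
  have h1 := h.tendsto_re hl hb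
  have h2 := h.tendsto_re (hl.smul (-Complex.I)) (R := R) (by
    filter_upwards [hb] with i hi
    rwa [norm_smul, norm_neg, Complex.norm_I, one_mul])
  have e : ∀ z : 𝓜, (ω ((-Complex.I) • z)).re = (ω z).im := by
    intro z; rw [map_smul]; simp
  simp only [e] at h2
  have h3 := ((Complex.continuous_ofReal.tendsto _).comp h1).add
    (((Complex.continuous_ofReal.tendsto _).comp h2).mul_const Complex.I)
  simpa only [Function.comp_def, Complex.re_add_im] using h3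

theorem NLe.conj {y u : 𝓜} {r : ℝ} (h : NLe W ψ y r) (hu : star u = u) (huu : u * u = 1)
    (hψ : ∀ b, ψ (u * b * u) = ψ b) : NLe W ψ (u * y * u) r := by
  intro φ' hφ' γ hγ
  obtain ⟨b, hb, h1, h2⟩ := h (conjF φ' u) (W.conj_mem _ hφ' u) γ hγ
  refine ⟨u * b * u, by simpa only [hu] using star_left_conjugate_nonneg hb u, ?_, by rwa [hψ]⟩
  have e : star (u * b * u - u * y * u) * (u * b * u - u * y * u)
      = star ((b - y) * u) * ((b - y) * u) := by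
    have : u * b * u - u * y * u = u * ((b - y) * u) := by noncomm_ring
    rw [this, star_mul u, hu, mul_assoc, ← mul_assoc u u, huu, one_mul]
  rw [n2_conjF] at h1
  exact (n2_mono φ' e.le).trans_lt h1

theorem IsNP.conj (h : IsNP W ψ ω) {u : 𝓜} (hu : star u = u) (huu : u * u = 1)
    (hψ : ∀ b, ψ (u * b * u) = ψ b) (y : 𝓜) : ω (u * y * u) = ω y := by
  have key : ∀ y, 0 ≤ y → y ≤ 1 → 0 ≤ u * y * u ∧ u * y * u ≤ 1 ∧ (ω (u * y * u)).re ≤ (ω y).re := by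
    intro y h0 h1
    have a0 : 0 ≤ u * y * u := by simpa only [hu] using star_left_conjugate_nonneg h0 u
    have a1 : u * y * u ≤ 1 := by
      simpa only [hu, mul_one, huu] using star_left_conjugate_le_conjugate h1 u
    exact ⟨a0, a1, (h _ a0 a1).2 _ ((h y h0 h1).1.conj hu huu hψ)⟩
  have key2 : ∀ y, 0 ≤ y → y ≤ 1 → ω (u * y * u) = ω y := by
    intro y h0 h1
    obtain ⟨a0, a1, a2⟩ := key y h0 h1
    obtain ⟨-, -, a3⟩ := key _ a0 a1
    have e : u * (u * y * u) * u = y := by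
      rw [← mul_assoc, ← mul_assoc, huu, one_mul, mul_assoc, huu, mul_one]
    rw [e] at a3
    exact Complex.ext (le_antisymm a2 a3)
      (by rw [pos_im ω a0.isSelfAdjoint, pos_im ω h0.isSelfAdjoint])
  have hy : y ∈ Submodule.span ℂ ({x : 𝓜 | 0 ≤ x} ∩ Metric.closedBall 0 1) := by
    rw [CStarAlgebra.span_nonneg_inter_unitClosedBall]; trivial
  induction hy using Submodule.span_induction with
  | mem x hx =>
    exact key2 x hx.1 ((CStarAlgebra.norm_le_one_iff_of_nonneg _ hx.1).1 (by simpa using hx.2))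
  | zero => simp
  | add a b _ _ ha hb => rw [mul_add, add_mul, map_add, map_add, ha, hb]
  | smul c a _ ha => rw [mul_smul_comm, smul_mul_assoc, map_smul, map_smul, ha]

theorem refl_star {e : 𝓜} (he : IsStarProjection e) : star (1 - (e + e)) = 1 - (e + e) := by
  rw [star_sub, star_add, star_one, he.isSelfAdjoint.star_eq]

theorem refl_sq {e : 𝓜} (he : IsStarProjection e) : (1 - (e + e)) * (1 - (e + e)) = 1 := by
  have := he.isIdempotentElem.eq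
  have e1 : (1 - (e + e)) * (1 - (e + e)) = 1 - 4 * e + 4 * (e * e) := by noncomm_ring
  rw [e1, this]; abel

theorem IsNP.central (h : IsNP W ψ ω) (hψ : ∀ a ∈ W.A, ∀ y, ψ (a * y) = ψ (y * a)) :
    ∀ a ∈ W.A, ∀ y, ω (a * y) = ω (y * a) := by
  let S : Submodule ℂ 𝓜 :=
    { carrier := {a | ∀ y, ω (a * y) = ω (y * a)}
      add_mem' := fun {a b} ha hb y => by rw [add_mul, mul_add, map_add, map_add, ha y, hb y]
      zero_mem' := fun y => by rw [zero_mul, mul_zero]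
      smul_mem' := fun c a ha y => by
        rw [smul_mul_assoc, mul_smul_comm, map_smul, map_smul, ha y] }
  have hS : IsClosed (S : Set 𝓜) := by
    have : (S : Set 𝓜) = ⋂ y, {a | ω (a * y) = ω (y * a)} := by
      ext a; simp only [Set.mem_iInter]; rfl
    rw [this]
    have hc := pos_continuous ω
    exact isClosed_iInter fun y => isClosed_eq (by fun_prop) (by fun_prop)
  refine W.induction_proj S hS fun e he hp y => ?_
  have huA : 1 - (e + e) ∈ W.A := W.A.sub_mem W.A.one_mem (W.A.add_mem he he)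
  have h1 := h.conj (refl_star hp) (refl_sq hp) (fun b => by
    rw [← hψ _ huA, ← mul_assoc, refl_sq hp, one_mul]) ((1 - (e + e)) * y)
  rw [← mul_assoc, refl_sq hp, one_mul, mul_sub, sub_mul, mul_add, add_mul, mul_one, one_mul,
    map_sub, map_sub, map_add, map_add] at h1
  linear_combination (1 / 2 : ℂ) * h1

end Dich

end Crest.Agent.R109
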