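import Mathlib

/-!
# Row 109 (strong paving over maximal abelian subalgebras): definitions for the finite core

`Q T p X z` is the mixed determinant: colour every vertex `v ∈ T` independently with law `p v`,
keep only the entries of `X` between vertices of the same colour, and average
`det (diag z - X∘colour)`.
-/

set_option autoImplicit false

noncomputable section

namespace Crest.Agent.R109

open Polynomial
open scoped ComplexConjugate

section Ring

variable {ι : Type*} [DecidableEq ι] {r : ℕ} {R : Type*} [CommRing R]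

/-- The matrix `diag z - X ∘ 1[same colour]` on `T`. -/
def blk (T : Finset ι) (X : ι → ι → R) (z : ι → R) (c : T → Fin r) : Matrix T T R :=
  Matrix.of fun u v => (if u = v then z u else 0) - (if c u = c v then X u v else 0)

/-- The mixed determinant. -/
def Q (T : Finset ι) (p : ι → Fin r → R) (X : ι → ι → R) (z : ι → R) : R :=
  ∑ c : T → Fin r, (∏ v : T, p v (c v)) * (blk T X z c).det

/-- The point mass at the colour `j`. -/
def dl (S : Type*) [Zero S] [One S] (j : Fin r) : Fin r → S := fun i => if i = j then 1 else 0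

/-- Minus the constant term (in `z u`) of `Q (insert u T)` when `u` has colour `j`. -/
def Bq (T : Finset ι) (u : ι) (j : Fin r) (p : ι → Fin r → R) (X : ι → ι → R) (z : ι → R) : R :=
  - Q (insert u T) (Function.update p u (dl R j)) X (Function.update z u 0)

end Ring

section Cplx

variable {ι : Type*} [DecidableEq ι] {r : ℕ}

/-- Real colour laws seen as complex numbers. -/
def cp (p : ι → Fin r → ℝ) : ι → Fin r → ℂ := fun v j => (p v j : ℂ)

/-- Every `p v` is a probability vector. -/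
def IsProb (p : ι → Fin r → ℝ) : Prop := (∀ v j, 0 ≤ p v j) ∧ ∀ v, ∑ j, p v j = 1

/-- The uniform law on colours. -/
def unif (r : ℕ) : Fin r → ℝ := fun _ => 1 / (r : ℝ)

/-- `X` is Hermitian on `T`. -/
def Herm (T : Finset ι) (X : ι → ι → ℂ) : Prop := ∀ u ∈ T, ∀ v ∈ T, X v u = conj (X u v)

/-- The operator norm of `X` on `T` is at most `R`. -/
def Bdd (T : Finset ι) (X : ι → ι → ℂ) (R : ℝ) : Prop :=
  ∀ η : ι → ℂ, ∑ u ∈ T, ‖∑ v ∈ T, X u v * η v‖ ^ 2 ≤ R ^ 2 * ∑ v ∈ T, ‖η v‖ ^ 2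

/-- The quadratic form of a kernel on `T`. -/
def form (T : Finset ι) (K : ι → ι → ℂ) (ζ : ι → ℂ) : ℂ :=
  ∑ u ∈ T, ∑ v ∈ T, conj (ζ u) * K u v * ζ v

/-- The squared norm of a vector on `T`. -/
def nsq (T : Finset ι) (ζ : ι → ℂ) : ℝ := ∑ v ∈ T, ‖ζ v‖ ^ 2

/-- Scalar multiple of a kernel. -/
def sm (s : ℂ) (X : ι → ι → ℂ) : ι → ι → ℂ := fun u v => s * X u v

/-- Keep the entries between vertices of the same colour. -/
def mask (c : ι → Fin r) (X : ι → ι → ℂ) : ι → ι → ℂ := fun u v => if c u = c v then X u v else 0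

/-- Scale the row and the column of `u` by `1/16`. -/
def scale1 (u : ι) (X : ι → ι → ℂ) : ι → ι → ℂ :=
  fun a b => (if a = u then (1 / 16 : ℂ) else 1) * X a b * (if b = u then (1 / 16 : ℂ) else 1)

/-- `N 0 ⊆ N 1 ⊆ …` are neighbourhoods growing along the edges of `X` inside `T`. -/
def Layered (T : Finset ι) (X : ι → ι → ℂ) (N : ℕ → ι → Prop) : Prop :=
  (∀ m a, N m a → N (m + 1) a) ∧
    ∀ m, ∀ a ∈ T, ∀ b ∈ T, N m a → (X a b ≠ 0 ∨ X b a ≠ 0) → N (m + 1) b

/-- `Q` as a polynomial in the direction `D`: `z v = w + a v` on `D` and `z v = a v` off `D`. -/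
def QD (T D : Finset ι) (p : ι → Fin r → ℝ) (X : ι → ι → ℂ) (a : ι → ℂ) : ℂ[X] :=
  Q T (fun v j => C (p v j : ℂ)) (fun u v => C (X u v))
    (fun v => if v ∈ D then Polynomial.X + C (a v) else C (a v))

/-- The mixed characteristic polynomial of `diag h + X`. -/
def Qp (T : Finset ι) (p : ι → Fin r → ℝ) (X : ι → ι → ℂ) (h : ι → ℝ) : ℂ[X] :=
  Q T (fun v j => C (p v j : ℂ)) (fun u v => C (X u v)) (fun v => Polynomial.X - C (h v : ℂ))

/-- The exponential root potential. -/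
def Psi (T : Finset ι) (p : ι → Fin r → ℝ) (X : ι → ι → ℂ) (h : ι → ℝ) : ℂ :=
  ((Qp T p X h).roots.map Complex.exp).sum

/-- Power sums of the roots. -/
def rootPow (T : Finset ι) (p : ι → Fin r → ℝ) (X : ι → ι → ℂ) (h : ι → ℝ) (n : ℕ) : ℂ :=
  ((Qp T p X h).roots.map (fun ρ => ρ ^ n)).sum

/-- Taylor coefficient at `0`. -/
def tc (m : ℕ) (f : ℂ → ℂ) : ℂ := iteratedDeriv m f 0 / (m.factorial : ℂ)

/-- Truncated Taylor series at `0`, evaluated at `1`. -/
def trunc (L : ℕ) (f : ℂ → ℂ) : ℂ := ∑ m ∈ Finset.range (L + 1), tc m f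

/-- The local approximation of the potential. -/
def Fm (L : ℕ) (T : Finset ι) (p : ι → Fin r → ℝ) (X : ι → ι → ℂ) (h : ι → ℝ) : ℝ :=
  (trunc L (fun s => Psi T p (sm s X) h)).re

/-- The matrix `exp (diag h + s Y)` on `T`. -/
def exM (T : Finset ι) (Y : ι → ι → ℂ) (h : ι → ℝ) (s : ℂ) : Matrix T T ℂ :=
  NormedSpace.exp (Matrix.of fun u v : T => (if u = v then (h u : ℂ) else 0) + s * Y u v)

/-- Entries of `exM`, extended by `0`. -/
def exE (T : Finset ι) (Y : ι → ι → ℂ) (h : ι → ℝ) (s : ℂ) (u v : ι) : ℂ :=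
  if hu : u ∈ T then if hv : v ∈ T then exM T Y h s ⟨u, hu⟩ ⟨v, hv⟩ else 0 else 0

/-- Truncated Taylor series of the entries of the matrix exponential. -/
def kE (L : ℕ) (T : Finset ι) (Y : ι → ι → ℂ) (h : ι → ℝ) (u v : ι) : ℂ :=
  trunc L (fun s => exE T Y h s u v)

/-- The normalising Gaussian weight. -/
def gw (τ : ℝ) (a b : ℝ) : ℝ := Real.exp (-(a + b) / 2 - (a - b) ^ 2 / (4 * τ ^ 2))

/-- The normalised truncated kernel. -/
def kN (L : ℕ) (τ : ℝ) (T : Finset ι) (Y : ι → ι → ℂ) (h : ι → ℝ) (u v : ι) : ℂ :=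
  kE L T Y h u v * (gw τ (h u) (h v) : ℂ)

/-- Möbius transform on the Boolean lattice. -/
def mob (F : Finset ι → ℝ) (S : Finset ι) : ℝ :=
  ∑ S' ∈ S.powerset, (-1 : ℝ) ^ (S.card - S'.card) * F S'

end Cplx

section Poles

variable {κ : Type*} [Fintype κ]

/-- `∑ c k / (y - μ k)`. -/
def hsum (μ c : κ → ℝ) (y : ℝ) : ℝ := ∑ k, c k / (y - μ k)

/-- `∫ e^y 1[y - g < ∑ c k / (y - μ k)] dy`. -/
def Iexp (g : ℝ) (μ c : κ → ℝ) : ℝ := ∫ y in {y | y - g < hsum μ c y}, Real.exp y

end Poles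

end Crest.Agent.R109
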