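import Crest.Agent.R109.WSMain

/-! Row 109, task C5 (auxiliary): the `WS` structure of a concretely represented von Neumann
algebra. -/

set_option autoImplicit false
set_option linter.unusedSectionVars false

noncomputable section

namespace Crest.Agent.R109.Fin5

open Filter Topology
open scoped ComplexOrder InnerProductSpace Classical

universe u v

variable {H : Type v} [NormedAddCommGroup H] [InnerProductSpace ℂ H] [CompleteSpace H]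

/-- weak operator limits of bounded families along an ultrafilter -/
theorem exists_weak_lim {α : Type*} (U : Ultrafilter α) (T : α → H →L[ℂ] H) (C : ℝ)
    (hT : ∀ᶠ k in (U : Filter α), ‖T k‖ ≤ C) :
    ∃ b : H →L[ℂ] H, ∀ η ζ : H, Tendsto (fun k => ⟪η, T k ζ⟫_ℂ) U (𝓝 ⟪η, b ζ⟫_ℂ) := by
  have hb : ∀ η ζ : H, ∀ᶠ k in (U : Filter α), ‖⟪η, T k ζ⟫_ℂ‖ ≤ C * ‖η‖ * ‖ζ‖ := by
    intro η ζ
    filter_upwards [hT] with k hk
    calc ‖⟪η, T k ζ⟫_ℂ‖ ≤ ‖η‖ * ‖T k ζ‖ := norm_inner_le_norm _ _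
      _ ≤ ‖η‖ * (C * ‖ζ‖) := by
          gcongr
          exact ((T k).le_opNorm ζ).trans (mul_le_mul_of_nonneg_right hk (norm_nonneg _))
      _ = _ := by ring
  have hex : ∀ η ζ : H, ∃ z, Tendsto (fun k => ⟪η, T k ζ⟫_ℂ) U (𝓝 z) := by
    intro η ζ
    obtain ⟨z, -, hz⟩ := (isCompact_closedBall (0 : ℂ) (C * ‖η‖ * ‖ζ‖)).ultrafilter_le_nhds
      (U.map fun k => ⟪η, T k ζ⟫_ℂ) (by
        rw [le_principal_iff, Ultrafilter.coe_map, mem_map]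
        filter_upwards [hb η ζ] with k hk
        simpa using hk)
    exact ⟨z, hz⟩
  choose L hL using hex
  let B₀ : H →ₛₗ[starRingEnd ℂ] H →ₗ[ℂ] ℂ := LinearMap.mk₂'ₛₗ (starRingEnd ℂ) (RingHom.id ℂ) L
    (fun a b c => tendsto_nhds_unique (hL (a + b) c) (by
      simpa only [inner_add_left] using (hL a c).add (hL b c)))
    (fun c a b => tendsto_nhds_unique (hL (c • a) b) (by
      simpa only [inner_smul_left, smul_eq_mul] using (hL a b).const_mul (starRingEnd ℂ c)))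
    (fun a b c => tendsto_nhds_unique (hL a (b + c)) (by
      simpa only [map_add, inner_add_right] using (hL a b).add (hL a c)))
    (fun c a b => tendsto_nhds_unique (hL a (c • b)) (by
      simpa only [map_smul, inner_smul_right, smul_eq_mul, RingHom.id_apply]
        using (hL a b).const_mul c))
  have hB₀ : ∀ η ζ, ‖B₀ η ζ‖ ≤ C * ‖η‖ * ‖ζ‖ := fun η ζ =>
    le_of_tendsto (hL η ζ).norm (hb η ζ)
  let B : H →L⋆[ℂ] H →L[ℂ] ℂ := B₀.mkContinuous₂ C hB₀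
  refine ⟨ContinuousLinearMap.adjoint (InnerProductSpace.continuousLinearMapOfBilin B),
    fun η ζ => ?_⟩
  rw [ContinuousLinearMap.adjoint_inner_right, InnerProductSpace.continuousLinearMapOfBilin_apply]
  exact hL η ζ

/-- a von Neumann algebra is weakly closed -/
theorem mem_of_weak_lim {α : Type*} {l : Filter α} [l.NeBot] (M : VonNeumannAlgebra H)
    {T : α → H →L[ℂ] H} (hT : ∀ k, T k ∈ M) {b : H →L[ℂ] H}
    (h : ∀ η ζ : H, Tendsto (fun k => ⟪η, T k ζ⟫_ℂ) l (𝓝 ⟪η, b ζ⟫_ℂ)) : b ∈ M := by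
  rw [← M.commutant_commutant, VonNeumannAlgebra.mem_commutant_iff]
  intro g hg
  rw [VonNeumannAlgebra.mem_commutant_iff] at hg
  ext ζ
  refine ext_inner_left ℂ fun η => ?_
  have h1 := h (ContinuousLinearMap.adjoint g η) ζ
  simp only [ContinuousLinearMap.adjoint_inner_left] at h1
  refine tendsto_nhds_unique h1 ((h η (g ζ)).congr fun k => ?_)
  exact congrArg (fun S : H →L[ℂ] H => ⟪η, S ζ⟫_ℂ) (hg _ (hT k))

theorem isClosed_vN (M : VonNeumannAlgebra H) :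
    IsClosed (M.toStarSubalgebra : Set (H →L[ℂ] H)) := by
  rw [VonNeumannAlgebra.coe_toStarSubalgebra, ← M.centralizer_centralizer]
  exact Set.isClosed_centralizer _

variable {𝓜 : Type u} [CStarAlgebra 𝓜] [PartialOrder 𝓜] [StarOrderedRing 𝓜]
  (ι : 𝓜 →⋆ₐ[ℂ] (H →L[ℂ] H))

theorem inner_star_mul (ξ ζ : H) (a b : 𝓜) : ⟪ξ, ι (star a * b) ζ⟫_ℂ = ⟪ι a ξ, ι b ζ⟫_ℂ := by
  rw [map_mul, map_star, ContinuousLinearMap.star_eq_adjoint, mul_apply_eq_comp,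
    ContinuousLinearMap.adjoint_inner_right]

/-- the vector functional -/
def vecF (ξ : H) : 𝓜 →ₚ[ℂ] ℂ :=
  PositiveLinearMap.mk₀
    { toFun := fun y => ⟪ξ, ι y ξ⟫_ℂ
      map_add' := fun a b => by rw [map_add, add_apply, inner_add_right]
      map_smul' := fun c a => by
        rw [map_smul, smul_apply, inner_smul_right]; rfl }
    (fun y hy => by
      obtain ⟨z, rfl⟩ := CStarAlgebra.nonneg_iff_eq_star_mul_self.1 hy
      show 0 ≤ ⟪ξ, ι (star z * z) ξ⟫_ℂ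
      rw [inner_star_mul, inner_self_eq_norm_sq_to_K]
      exact pow_nonneg (Complex.zero_le_real.2 (norm_nonneg (ι z ξ))) 2)

theorem vecF_apply (ξ : H) (y : 𝓜) : vecF ι ξ y = ⟪ξ, ι y ξ⟫_ℂ := rfl

theorem vecF_star_mul_self (ξ : H) (y : 𝓜) : (vecF ι ξ (star y * y)).re = ‖ι y ξ‖ ^ 2 := by
  rw [vecF_apply, inner_star_mul, inner_self_eq_norm_sq_to_K]
  norm_cast

theorem conjF_vecF (ξ : H) (z : 𝓜) : conjF (vecF ι ξ) z = vecF ι (ι z ξ) := by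
  ext y
  rw [conjF_apply, vecF_apply, vecF_apply, mul_assoc, inner_star_mul, map_mul,
    mul_apply_eq_comp]

theorem posSum_apply {α : Type*} (S : Finset α) (φ : α → 𝓜 →ₚ[ℂ] ℂ) (y : 𝓜) :
    (∑ i ∈ S, φ i) y = ∑ i ∈ S, φ i y := by
  induction S using Finset.induction_on with
  | empty => simp
  | insert a S ha ih =>
    rw [Finset.sum_insert ha, Finset.sum_insert ha, PositiveLinearMap.add_apply, ih]

theorem norm_le_n2 {F : Finset H} {ξ : H} (hξ : ξ ∈ F) (y : 𝓜) :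
    ‖ι y ξ‖ ≤ n2 (∑ ζ ∈ F, vecF ι ζ) y := by
  refine Real.le_sqrt_of_sq_le ?_
  rw [posSum_apply, Complex.re_sum]
  simp only [vecF_star_mul_self]
  exact Finset.single_le_sum (f := fun ζ => ‖ι y ζ‖ ^ 2) (fun _ _ => sq_nonneg _) hξ

variable {ι}

theorem inj (hι : ∀ y, ‖ι y‖ = ‖y‖) : Function.Injective ι := fun a b h => by
  rw [← sub_eq_zero, ← norm_eq_zero, ← hι, map_sub, h, sub_self, norm_zero]

/-- The structure `WS` of a represented von Neumann algebra. -/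
def mkWS (hι : ∀ y, ‖ι y‖ = ‖y‖) {M : VonNeumannAlgebra H} (hM : ∀ x, x ∈ M ↔ ∃ y, ι y = x)
    {A : StarSubalgebra ℂ (H →L[ℂ] H)} (hA : ∀ a ∈ A, ∀ b ∈ A, a * b = b * a)
    (hAM : A ≤ M.toStarSubalgebra) (hAmax : ∀ y ∈ M, (∀ a ∈ A, a * y = y * a) → y ∈ A) : WS 𝓜 where
  A := A.comap ι
  comm a ha b hb := inj hι (by rw [map_mul, map_mul]; exact hA _ ha _ hb)
  max y hy := hAmax _ ((hM _).2 ⟨y, rfl⟩) fun a ha => by
    obtain ⟨a', rfl⟩ := (hM a).1 (hAM ha)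
    show ι a' * ι y = ι y * ι a'
    rw [← map_mul, ← map_mul, hy a' ha]
  𝓕 := AddSubmonoid.closure (Set.range (vecF ι))
  zero_mem := zero_mem (AddSubmonoid.closure _)
  add_mem φ hφ ψ hψ := add_mem (S := AddSubmonoid _) hφ hψ
  conj_mem φ hφ z := by
    induction hφ using AddSubmonoid.closure_induction with
    | mem x hx =>
      obtain ⟨ξ, rfl⟩ := hx
      exact AddSubmonoid.subset_closure ⟨_, (conjF_vecF ι ξ z).symm⟩
    | zero => exact zero_mem (AddSubmonoid.closure _)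
    | add x y _ _ hx hy => exact add_mem (S := AddSubmonoid _) hx hy
  sep y hy h := by
    obtain ⟨z, rfl⟩ := CStarAlgebra.nonneg_iff_eq_star_mul_self.1 hy
    have hz : z = 0 := inj hι (by
      ext ξ
      have h1 := vecF_star_mul_self ι ξ z
      rw [h _ (AddSubmonoid.subset_closure ⟨ξ, rfl⟩), Complex.zero_re] at h1
      simpa using h1.symm)
    rw [hz, mul_zero]
  compact U R hR := by
    obtain ⟨b, hb⟩ := exists_weak_lim U (fun y => ι y) R (by simpa only [hι] using hR)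
    obtain ⟨Y, rfl⟩ := (hM b).1 (mem_of_weak_lim M (fun y => (hM _).2 ⟨y, rfl⟩) hb)
    refine ⟨Y, fun φ hφ => ?_⟩
    induction hφ using AddSubmonoid.closure_induction with
    | mem x hx =>
      obtain ⟨ξ, rfl⟩ := hx
      exact hb ξ ξ
    | zero => exact tendsto_const_nhds
    | add x y _ _ hx hy => exact hx.add hy

theorem sum_vecF_mem (hι : ∀ y, ‖ι y‖ = ‖y‖) {M : VonNeumannAlgebra H}
    (hM : ∀ x, x ∈ M ↔ ∃ y, ι y = x) {A : StarSubalgebra ℂ (H →L[ℂ] H)}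
    (hA : ∀ a ∈ A, ∀ b ∈ A, a * b = b * a) (hAM : A ≤ M.toStarSubalgebra)
    (hAmax : ∀ y ∈ M, (∀ a ∈ A, a * y = y * a) → y ∈ A) (F : Finset H) :
    ∑ ζ ∈ F, vecF ι ζ ∈ (mkWS hι hM hA hAM hAmax).𝓕 :=
  sum_mem (S := AddSubmonoid.closure (Set.range (vecF ι))) fun ζ _ =>
    AddSubmonoid.subset_closure ⟨ζ, rfl⟩

theorem sa_of_map (hι : ∀ y, ‖ι y‖ = ‖y‖) {y : 𝓜} (h : IsSelfAdjoint (ι y)) : IsSelfAdjoint y :=
  inj hι (by rw [map_star, h.star_eq])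

theorem map_proj {e : 𝓜} (h : IsStarProjection e) : IsStarProjection (ι e) :=
  ⟨h.isIdempotentElem.map ι, h.isSelfAdjoint.map ι⟩

/-- transport of a paving, adding a zero cell -/
theorem paving_transport {A : StarSubalgebra ℂ (H →L[ℂ] H)} {r₁ r₂ : ℕ}
    {p : Fin r₁ ⊕ Fin r₂ → 𝓜} (hp : IsPaving (A.comap ι) p) :
    ∃ p' : Fin (r₁ + r₂ + 1) → (H →L[ℂ] H),
      (∀ i, p' i ∈ A ∧ IsStarProjection (p' i)) ∧ (∀ i j, i ≠ j → p' i * p' j = 0) ∧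
      ∑ i, p' i = 1 ∧ ∀ y, ∑ i, p' i * ι y * p' i = ι (pinch p y) := by
  obtain ⟨h1, h2, h3⟩ := hp
  refine ⟨Fin.snoc (α := fun _ => H →L[ℂ] H) (fun i => ι (p (finSumFinEquiv.symm i))) 0,
    fun i => ?_, fun i j hij => ?_, ?_, fun y => ?_⟩
  · induction i using Fin.lastCases with
    | last => rw [Fin.snoc_last]; exact ⟨zero_mem _, IsStarProjection.zero _⟩
    | cast i => rw [Fin.snoc_castSucc]; exact ⟨(h1 _).1, map_proj (h1 _).2⟩
  · induction i using Fin.lastCases with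
    | last => rw [Fin.snoc_last, zero_mul]
    | cast i =>
      induction j using Fin.lastCases with
      | last => rw [Fin.snoc_last, mul_zero]
      | cast j =>
        rw [Fin.snoc_castSucc, Fin.snoc_castSucc, ← map_mul, h2, map_zero]
        exact fun h => hij (congrArg _ (finSumFinEquiv.symm.injective h))
  · rw [Fin.sum_univ_castSucc]
    simp only [Fin.snoc_castSucc, Fin.snoc_last, add_zero]
    rw [← map_sum, finSumFinEquiv.symm.sum_comp p, h3, map_one]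
  · rw [Fin.sum_univ_castSucc]
    simp only [Fin.snoc_castSucc, Fin.snoc_last, add_zero, mul_zero, ← map_mul]
    rw [← map_sum, finSumFinEquiv.symm.sum_comp (fun i => p i * y * p i), pinch]

theorem rep143 (hι : ∀ y, ‖ι y‖ = ‖y‖) {M : VonNeumannAlgebra H}
    (hM : ∀ x, x ∈ M ↔ ∃ y, ι y = x) {A : StarSubalgebra ℂ (H →L[ℂ] H)}
    (hA : ∀ a ∈ A, ∀ b ∈ A, a * b = b * a) (hAM : A ≤ M.toStarSubalgebra)
    (hAmax : ∀ y ∈ M, (∀ a ∈ A, a * y = y * a) → y ∈ A) {ε : ℝ} (hε : 0 < ε) (hε1 : ε < 1)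
    (x : H →L[ℂ] H) (hxM : x ∈ M) (hx : IsSelfAdjoint x) (F : Finset H) (δ : ℝ) (hδ : 0 < δ) :
    ∃ p : Fin (Nat.ceil (400000000 / ε ^ 2) + Nat.ceil (4 / ε) + 1) → (H →L[ℂ] H),
      (∀ i, p i ∈ A ∧ IsStarProjection (p i)) ∧ (∀ i j, i ≠ j → p i * p j = 0) ∧
      ∑ i, p i = 1 ∧
      ∃ a ∈ A, IsSelfAdjoint a ∧ ‖a‖ ≤ ‖x‖ ∧
        ∃ q ∈ M, IsStarProjection q ∧ (∀ ξ ∈ F, ‖(1 - q) ξ‖ < δ) ∧
          ‖q * (∑ i, p i * x * p i - a) * q‖ ≤ ε * ‖x‖ := by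
  obtain ⟨x, rfl⟩ := (hM x).1 hxM
  obtain ⟨p, hp, a, haA, ha, hax, q, hq, h1, h2⟩ := (mkWS hι hM hA hAM hAmax).ws143 hε hε1
    (Nat.le_ceil _) (Nat.le_ceil _) (sa_of_map hι hx) (sum_vecF_mem hι hM hA hAM hAmax F)
    (pow_pos hδ 2)
  obtain ⟨p', h3, h4, h5, h6⟩ := paving_transport (ι := ι) (A := A) hp
  refine ⟨p', h3, h4, h5, ι a, haA, ha.map ι, by rwa [hι, hι], ι q, (hM _).2 ⟨q, rfl⟩,
    map_proj hq, fun ξ hξ => ?_, ?_⟩
  · have h7 := norm_le_n2 ι hξ (1 - q)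
    rw [map_sub, map_one, n2_proj _ hq.one_sub] at h7
    exact h7.trans_lt ((Real.sqrt_lt' hδ).2 h1)
  · rwa [h6, ← map_sub, ← map_mul, ← map_mul, hι, hι]

theorem exists_test_vector (x : H →L[ℂ] H) {ε : ℝ} (hε : 0 < ε) {δ : ℝ}
    (hδ : 0 < δ) : ∃ (ξ : H) (δ' : ℝ), 0 < δ' ∧ δ' ≤ δ ∧
      ∀ y : H →L[ℂ] H, ‖(y - x) ξ‖ < δ' → (1 - ε / 4) * ‖x‖ ≤ ‖y‖ := by
  rcases (norm_nonneg x).eq_or_lt with h0 | h0
  · exact ⟨0, δ, hδ, le_rfl, fun y _ => by rw [← h0, mul_zero]; exact norm_nonneg y⟩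
  · have h1 : 0 < ε * ‖x‖ := mul_pos hε h0
    obtain ⟨ξ, h2, h3⟩ := x.exists_lt_apply_of_lt_opNorm
      (show (1 - ε / 8) * ‖x‖ < ‖x‖ by linarith)
    refine ⟨ξ, min δ (ε * ‖x‖ / 8), lt_min hδ (by linarith), min_le_left _ _, fun y hy => ?_⟩
    have h4 := hy.trans_le (min_le_right _ _)
    have h5 : ‖y ξ‖ ≤ ‖y‖ := (y.le_opNorm ξ).trans (mul_le_of_le_one_right (norm_nonneg _) h2.le)
    have h6 : ‖x ξ‖ ≤ ‖y ξ‖ + ‖(y - x) ξ‖ := by
      have : x ξ = y ξ - (y - x) ξ := by simp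
      rw [this]
      exact norm_sub_le _ _
    linarith

theorem rep144 (hι : ∀ y, ‖ι y‖ = ‖y‖) {M : VonNeumannAlgebra H}
    (hM : ∀ x, x ∈ M ↔ ∃ y, ι y = x) {A : StarSubalgebra ℂ (H →L[ℂ] H)}
    (hA : ∀ a ∈ A, ∀ b ∈ A, a * b = b * a) (hAM : A ≤ M.toStarSubalgebra)
    (hAmax : ∀ y ∈ M, (∀ a ∈ A, a * y = y * a) → y ∈ A) {ε : ℝ} (hε : 0 < ε) (hε1 : ε < 1)
    (x : H →L[ℂ] H) (hxM : x ∈ M) (hx : IsSelfAdjoint x) (F : Finset H) (δ : ℝ) (hδ : 0 < δ) :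
    ∃ y ∈ M, IsSelfAdjoint y ∧ ‖y‖ ≤ 3 * ‖x‖ ∧ (∀ ξ ∈ F, ‖(y - x) ξ‖ < δ) ∧
      ∃ p : Fin (Nat.ceil (400000000 / (ε / 8) ^ 2) + Nat.ceil (4 / (ε / 8)) + 1) → (H →L[ℂ] H),
        (∀ i, p i ∈ A ∧ IsStarProjection (p i)) ∧ (∀ i j, i ≠ j → p i * p j = 0) ∧
        ∑ i, p i = 1 ∧
        ∃ a ∈ A, IsSelfAdjoint a ∧ ‖a‖ ≤ ‖y‖ ∧ ‖∑ i, p i * y * p i - a‖ ≤ ε * ‖y‖ := by
  obtain ⟨ξ₀, δ', hδ', hδδ, hξ₀⟩ := exists_test_vector x hε hδ
  obtain ⟨x, rfl⟩ := (hM x).1 hxM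
  obtain ⟨y, hy, hyx, h1, p, hp, a, haA, ha, hax, h2⟩ := (mkWS hι hM hA hAM hAmax).ws144
    (ε := ε / 8) (by linarith) (by linarith) (Nat.le_ceil _) (Nat.le_ceil _) (sa_of_map hι hx)
    (sum_vecF_mem hι hM hA hAM hAmax (insert ξ₀ F)) hδ'
  obtain ⟨p', h3, h4, h5, h6⟩ := paving_transport (ι := ι) (A := A) hp
  have h7 : ∀ ξ ∈ insert ξ₀ F, ‖(ι y - ι x) ξ‖ < δ' := fun ξ hξ => by
    rw [← map_sub]
    exact (norm_le_n2 ι hξ _).trans_lt h1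
  have h8 := hξ₀ _ (h7 _ (Finset.mem_insert_self _ _))
  rw [hι, hι] at h8
  have h9 : 0 ≤ 1 - ε / 4 := by linarith
  have h10 : ‖((1 - ε / 4 : ℝ) : ℂ)‖ = 1 - ε / 4 := by
    rw [Complex.norm_real, Real.norm_of_nonneg h9]
  have h11 : ‖((ε / 4 : ℝ) : ℂ)‖ = ε / 4 := by
    rw [Complex.norm_real, Real.norm_of_nonneg (by linarith)]
  refine ⟨ι y, (hM _).2 ⟨y, rfl⟩, hy.map ι, by rwa [hι, hι],
    fun ξ hξ => (h7 ξ (Finset.mem_insert_of_mem hξ)).trans_le hδδ, p', h3, h4, h5,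
    ι (((1 - ε / 4 : ℝ) : ℂ) • a), (A.comap ι).smul_mem haA _, IsSelfAdjoint.map ?_ ι, ?_, ?_⟩
  · exact IsSelfAdjoint.smul (Complex.conj_ofReal _) ha
  · rw [hι, hι, norm_smul, h10]
    exact (mul_le_mul_of_nonneg_left hax h9).trans h8
  · rw [h6, ← map_sub, hι, hι]
    have h12 : pinch p y - ((1 - ε / 4 : ℝ) : ℂ) • a = (pinch p y - a) + ((ε / 4 : ℝ) : ℂ) • a := by
      push_cast
      rw [sub_smul, one_smul]
      abel
    rw [h12]
    refine (norm_add_le _ _).trans ?_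
    rw [norm_smul, h11]
    have h13 : ε / 4 * ‖a‖ ≤ ε / 4 * ‖x‖ := mul_le_mul_of_nonneg_left hax (by linarith)
    have h14 : ε * ((1 - ε / 4) * ‖x‖) ≤ ε * ‖y‖ := mul_le_mul_of_nonneg_left h8 hε.le
    have h15 : 0 ≤ ε * ‖x‖ := mul_nonneg hε.le (norm_nonneg _)
    have h16 : ε * (ε * ‖x‖) ≤ ε * ‖x‖ := mul_le_of_le_one_left h15 hε1.le
    nlinarith

theorem count_le {ε : ℝ} (hε : 0 < ε) (hε1 : ε < 1) :
    ((Nat.ceil (400000000 / (ε / 8) ^ 2) + Nat.ceil (4 / (ε / 8)) + 1 : ℕ) : ℝ) ≤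
      30000000000 / ε ^ 6 := by
  have h1 := (Nat.ceil_lt_add_one (show 0 ≤ 400000000 / (ε / 8) ^ 2 by positivity)).le
  have h2 := (Nat.ceil_lt_add_one (show 0 ≤ 4 / (ε / 8) by positivity)).le
  have h3 : ∀ k ≤ 6, 1 / ε ^ k ≤ 1 / ε ^ 6 := fun k hk =>
    one_div_le_one_div_of_le (by positivity) (pow_le_pow_of_le_one hε.le hε1.le hk)
  have h4 := h3 2 (by norm_num)
  have h5 := h3 1 (by norm_num)
  have h6 := h3 0 (by norm_num)
  have e1 : 400000000 / (ε / 8) ^ 2 = 25600000000 * (1 / ε ^ 2) := by field_simp; norm_num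
  have e2 : 4 / (ε / 8) = 32 * (1 / ε ^ 1) := by field_simp; norm_num
  have e3 : 30000000000 / ε ^ 6 = 30000000000 * (1 / ε ^ 6) := by ring
  rw [pow_zero, div_one] at h6
  push_cast
  linarith

end Crest.Agent.R109.Fin5
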