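import Crest.Agent.R109.FDefs

/-! Row 109, task A8: Taylor coefficients of entire functions. -/

set_option autoImplicit false

noncomputable section

namespace Crest.Agent.R109

open Polynomial
open scoped ComplexConjugate

theorem tc_add (m : ℕ) {f g : ℂ → ℂ} (hf : Differentiable ℂ f) (hg : Differentiable ℂ g) :
    tc m (fun s => f s + g s) = tc m f + tc m g := by
  simp only [tc]
  rw [iteratedDeriv_fun_add hf.contDiff.contDiffAt hg.contDiff.contDiffAt, add_div]

theorem tc_sub (m : ℕ) {f g : ℂ → ℂ} (hf : Differentiable ℂ f) (hg : Differentiable ℂ g) :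
    tc m (fun s => f s - g s) = tc m f - tc m g := by
  simp only [tc]
  rw [iteratedDeriv_fun_sub hf.contDiff.contDiffAt hg.contDiff.contDiffAt, sub_div]

theorem tc_const_mul (m : ℕ) (a : ℂ) (f : ℂ → ℂ) : tc m (fun s => a * f s) = a * tc m f := by
  simp only [tc]
  rw [iteratedDeriv_const_mul_field, mul_div_assoc]

theorem tc_sum (m : ℕ) {α : Type*} (S : Finset α) {f : α → ℂ → ℂ}
    (hf : ∀ i ∈ S, Differentiable ℂ (f i)) :
    tc m (fun s => ∑ i ∈ S, f i s) = ∑ i ∈ S, tc m (f i) := by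
  simp only [tc]
  rw [iteratedDeriv_fun_sum (fun i hi => (hf i hi).contDiff.contDiffAt), Finset.sum_div]

theorem tc_zero (m : ℕ) : tc m (fun _ => 0) = 0 := by
  simp [tc]

theorem tc_eval (m : ℕ) (P : ℂ[X]) : tc m (fun s => P.eval s) = P.coeff m := by
  induction P using Polynomial.induction_on' with
  | add p q hp hq =>
    simp only [eval_add, coeff_add]
    rw [tc_add m p.differentiable q.differentiable, hp, hq]
  | monomial n a =>
    simp only [eval_monomial, coeff_monomial]
    rw [tc_const_mul, tc, iteratedDeriv_fun_pow_zero]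
    by_cases h : m = n
    · subst h
      have : (m.factorial : ℂ) ≠ 0 := by exact_mod_cast m.factorial_ne_zero
      simp [this]
    · simp [h, Ne.symm h]

theorem trunc_add (L : ℕ) {f g : ℂ → ℂ} (hf : Differentiable ℂ f) (hg : Differentiable ℂ g) :
    trunc L (fun s => f s + g s) = trunc L f + trunc L g := by
  simp only [trunc, tc_add _ hf hg, Finset.sum_add_distrib]

theorem trunc_sub (L : ℕ) {f g : ℂ → ℂ} (hf : Differentiable ℂ f) (hg : Differentiable ℂ g) :
    trunc L (fun s => f s - g s) = trunc L f - trunc L g := by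
  simp only [trunc, tc_sub _ hf hg, Finset.sum_sub_distrib]

theorem trunc_const_mul (L : ℕ) (a : ℂ) (f : ℂ → ℂ) :
    trunc L (fun s => a * f s) = a * trunc L f := by
  simp only [trunc, tc_const_mul, Finset.mul_sum]

theorem trunc_sum (L : ℕ) {α : Type*} (S : Finset α) {f : α → ℂ → ℂ}
    (hf : ∀ i ∈ S, Differentiable ℂ (f i)) :
    trunc L (fun s => ∑ i ∈ S, f i s) = ∑ i ∈ S, trunc L (f i) := by
  simp only [trunc, tc_sum _ S hf]
  exact Finset.sum_comm

theorem trunc_zero (L : ℕ) : trunc L (fun _ => 0) = 0 := by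
  simp [trunc, tc_zero]

/-- Cauchy estimate. -/
theorem norm_tc_le (m : ℕ) {f : ℂ → ℂ} (hf : Differentiable ℂ f) {S B : ℝ} (hS : 0 < S)
    (hB : ∀ s : ℂ, ‖s‖ = S → ‖f s‖ ≤ B) : ‖tc m f‖ ≤ B / S ^ m := by
  have h := Complex.norm_iteratedDeriv_le_of_forall_mem_sphere_norm_le (c := 0) m hS
    hf.diffContOnCl (fun z hz => hB z (by simpa using hz))
  have hm : (0 : ℝ) < m.factorial := by exact_mod_cast m.factorial_pos
  rw [tc, norm_div, Complex.norm_natCast, div_le_iff₀ hm]
  calc _ ≤ _ := h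
    _ = _ := by ring

theorem hasSum_tc {f : ℂ → ℂ} (hf : Differentiable ℂ f) : HasSum (fun m => tc m f) (f 1) := by
  have h := Complex.hasSum_taylorSeries_of_entire hf 0 1
  have e : (fun m => tc m f) = fun n : ℕ =>
      ((n.factorial : ℂ))⁻¹ • ((1 : ℂ) - 0) ^ n • iteratedDeriv n f 0 := by
    funext m; simp [tc, div_eq_inv_mul]
  rw [e]; exact h

theorem norm_sub_trunc_le (L : ℕ) {f : ℂ → ℂ} (hf : Differentiable ℂ f) {S B : ℝ} (hS : 1 < S)
    (hB : ∀ s : ℂ, ‖s‖ = S → ‖f s‖ ≤ B) : ‖f 1 - trunc L f‖ ≤ B / (S ^ L * (S - 1)) := by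
  have hS0 : 0 < S := by linarith
  have h1 := (hasSum_nat_add_iff' (L + 1)).2 (hasSum_tc hf)
  have hr : S⁻¹ < 1 := inv_lt_one_of_one_lt₀ hS
  have h2 := (hasSum_geometric_of_lt_one (inv_pos.2 hS0).le hr).mul_left (B / S ^ (L + 1))
  have h3 := h1.norm_le_of_bounded h2 (fun n => by
    refine (norm_tc_le _ hf hS0 hB).trans (le_of_eq ?_)
    rw [pow_add, inv_pow]; field_simp)
  refine h3.trans (le_of_eq ?_)
  have : S - 1 ≠ 0 := by linarith
  field_simp
  ring

theorem differentiable_of_series {f : ℂ → ℂ} (P : ℕ → ℂ[X])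
    (hb : ∀ ρ : ℝ, ∃ b : ℕ → ℝ, Summable b ∧ ∀ n (s : ℂ), ‖s‖ ≤ ρ → ‖(P n).eval s‖ ≤ b n)
    (hf : ∀ s, HasSum (fun n => (P n).eval s) (f s)) : Differentiable ℂ f := by
  intro s
  obtain ⟨b, hb1, hb2⟩ := hb (‖s‖ + 1)
  have h := Complex.differentiableOn_tsum_of_summable_norm (U := Metric.ball 0 (‖s‖ + 1)) hb1
    (fun n => (P n).differentiable.differentiableOn) Metric.isOpen_ball
    (fun n w hw => hb2 n w (le_of_lt (by simpa using hw)))
  have e : (fun w : ℂ => ∑' n, (P n).eval w) = f := funext fun w => (hf w).tsum_eq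
  rw [e] at h
  exact h.differentiableAt (Metric.isOpen_ball.mem_nhds (by simp))

theorem hasSum_tc_of_series {f : ℂ → ℂ} (P : ℕ → ℂ[X])
    (hb : ∀ ρ : ℝ, ∃ b : ℕ → ℝ, Summable b ∧ ∀ n (s : ℂ), ‖s‖ ≤ ρ → ‖(P n).eval s‖ ≤ b n)
    (hf : ∀ s, HasSum (fun n => (P n).eval s) (f s)) (m : ℕ) :
    HasSum (fun n => (P n).coeff m) (tc m f) := by
  have hd := differentiable_of_series P hb hf
  obtain ⟨b, hb1, hb2⟩ := hb 1
  have hc : ∀ n, ‖(P n).coeff m‖ ≤ b n := fun n => by
    have := norm_tc_le m (P n).differentiable one_pos (fun s hs => hb2 n s hs.le)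
    simpa [tc_eval] using this
  have hs : Summable fun n => (P n).coeff m := Summable.of_norm_bounded hb1 hc
  rw [hs.hasSum_iff_tendsto_nat, tendsto_iff_norm_sub_tendsto_zero]
  refine squeeze_zero (fun _ => norm_nonneg _) (fun N => ?_) (tendsto_sum_nat_add b)
  have e : ∑ n ∈ Finset.range N, (P n).coeff m - tc m f =
      tc m (fun s => (∑ n ∈ Finset.range N, P n).eval s - f s) := by
    rw [tc_sub m (Polynomial.differentiable _) hd, tc_eval, finsetSum_coeff]
  rw [e]
  have := norm_tc_le m ((∑ n ∈ Finset.range N, P n).differentiable.sub hd) one_pos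
    (B := ∑' k, b (k + N)) (fun s hs => by
      have h1 := (hasSum_nat_add_iff' N).2 (hf s)
      have h2 := h1.norm_le_of_bounded ((summable_nat_add_iff N).2 hb1).hasSum
        (fun n => hb2 _ s hs.le)
      rw [Pi.sub_apply, norm_sub_rev, eval_finsetSum]
      exact h2)
  simp only [one_pow, div_one] at this
  exact this

theorem continuous_tc {Ω : Type*} [TopologicalSpace Ω] (m : ℕ) {f : Ω → ℂ → ℂ}
    (hc : Continuous (Function.uncurry f)) (hf : ∀ χ, Differentiable ℂ (f χ)) :
    Continuous fun χ => tc m (f χ) := by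
  rw [continuous_iff_continuousAt]
  intro χ₀
  rw [Metric.continuousAt_iff']
  intro ε hε
  have h1 : ∀ᶠ χ in nhds χ₀, ∀ s ∈ Metric.sphere (0 : ℂ) 1, ‖f χ s - f χ₀ s‖ < ε / 2 := by
    refine (isCompact_sphere (0 : ℂ) 1).eventually_forall_of_forall_eventually fun s _ => ?_
    have hcont : Continuous fun z : Ω × ℂ => ‖f z.1 z.2 - f χ₀ z.2‖ :=
      (hc.sub ((hf χ₀).continuous.comp continuous_snd)).norm
    exact hcont.continuousAt.eventually_lt continuousAt_const (by simpa using hε)
  filter_upwards [h1] with χ hχ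
  rw [dist_eq_norm, ← tc_sub m (hf χ) (hf χ₀)]
  have := norm_tc_le m ((hf χ).sub (hf χ₀)) one_pos (B := ε / 2)
    (fun s hs => (hχ s (by simpa using hs)).le)
  simp only [one_pow, div_one] at this
  exact lt_of_le_of_lt this (by linarith)

theorem continuous_trunc {Ω : Type*} [TopologicalSpace Ω] (L : ℕ) {f : Ω → ℂ → ℂ}
    (hc : Continuous (Function.uncurry f)) (hf : ∀ χ, Differentiable ℂ (f χ)) :
    Continuous fun χ => trunc L (f χ) := by
  simp only [trunc]
  exact continuous_finsetSum _ fun m _ => continuous_tc m hc hf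

/-- Identity theorem: entire functions that agree on the reals agree. -/
theorem eq_of_eq_on_real {f g : ℂ → ℂ} (hf : Differentiable ℂ f) (hg : Differentiable ℂ g)
    (h : ∀ t : ℝ, f t = g t) : f = g := by
  refine AnalyticOnNhd.eq_of_frequently_eq (z₀ := 0)
    (hf.differentiableOn.analyticOnNhd isOpen_univ) (hg.differentiableOn.analyticOnNhd isOpen_univ) ?_
  have ht : Filter.Tendsto (fun t : ℝ => (t : ℂ)) (nhdsWithin 0 {0}ᶜ) (nhdsWithin 0 {0}ᶜ) := by
    refine tendsto_nhdsWithin_of_tendsto_nhds_of_eventually_within _ ?_ ?_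
    · have := Complex.continuous_ofReal.tendsto' 0 0 (by simp)
      exact this.mono_left nhdsWithin_le_nhds
    · filter_upwards [self_mem_nhdsWithin] with t ht
      simpa using ht
  exact ht.frequently (Filter.Eventually.of_forall h).frequently

end Crest.Agent.R109
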