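import Crest.Agent.R109.RootPow
import Crest.Agent.R109.QZero
import Crest.Agent.R109.Taylor

/-! Row 109, task A9b: the local approximation `Fm` of the potential. -/

set_option autoImplicit false

noncomputable section

namespace Crest.Agent.R109

open Polynomial
open scoped ComplexConjugate

variable {ι : Type*} [DecidableEq ι] {r : ℕ}

namespace FmAux

lemma hasSum_exp_multiset (M : Multiset ℂ) :
    HasSum (fun n : ℕ => (M.map fun ρ => ρ ^ n).sum / (n.factorial : ℂ))
      (M.map Complex.exp).sum := by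
  induction M using Multiset.induction_on with
  | empty => simp
  | cons a M ih =>
    have h := NormedSpace.expSeries_div_hasSum_exp a
    rw [← Complex.exp_eq_exp_ℂ] at h
    simpa only [Multiset.map_cons, Multiset.sum_cons, add_div] using h.add ih

lemma norm_sum_le {M : Multiset ℂ} {f : ℂ → ℂ} {B : ℝ} (h : ∀ ρ ∈ M, ‖f ρ‖ ≤ B) :
    ‖(M.map f).sum‖ ≤ M.card * B := by
  induction M using Multiset.induction_on with
  | empty => simp
  | cons a M ih =>
    rw [Multiset.map_cons, Multiset.sum_cons, Multiset.card_cons, Nat.cast_succ, add_mul, one_mul,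
      add_comm]
    exact (norm_add_le _ _).trans (add_le_add (ih fun ρ hρ => h ρ (Multiset.mem_cons_of_mem hρ))
      (h a (Multiset.mem_cons_self _ _)))

lemma hasSum_Psi (T : Finset ι) (p : ι → Fin r → ℝ) (X : ι → ι → ℂ) (h : ι → ℝ) :
    HasSum (fun n : ℕ => rootPow T p X h n / (n.factorial : ℂ)) (Psi T p X h) :=
  hasSum_exp_multiset _

lemma card_roots (T : Finset ι) {p : ι → Fin r → ℝ} (hp : IsProb p) (X : ι → ι → ℂ) (h : ι → ℝ) :
    (Qp T p X h).roots.card = T.card :=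
  IsAlgClosed.card_roots_eq_natDegree.trans (natDegree_Qp T hp X h)

/-- a crude bound for the roots -/
def rad (T : Finset ι) (X : ι → ι → ℂ) (h : ι → ℝ) : ℝ :=
  ∑ v ∈ T, |h v| + ∑ u ∈ T, ∑ v ∈ T, ‖X u v‖

lemma norm_term_le (T : Finset ι) {p : ι → Fin r → ℝ} (hp : IsProb p) (X : ι → ι → ℂ) (h : ι → ℝ)
    {A : ℝ} (hA : rad T X h ≤ A) (n : ℕ) :
    ‖rootPow T p X h n / (n.factorial : ℂ)‖ ≤ T.card * (A ^ n / n.factorial) := by
  rw [norm_div, Complex.norm_natCast, ← mul_div_assoc, ← card_roots T hp X h]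
  refine div_le_div_of_nonneg_right (norm_sum_le fun ρ hρ => ?_) (Nat.cast_nonneg _)
  obtain ⟨v, hv, hv'⟩ := root_Qp_near hp
    (Finset.sum_nonneg fun _ _ => Finset.sum_nonneg fun _ _ => norm_nonneg _)
    (bdd_sum_norm T X) h hρ
  rw [norm_pow]
  refine pow_le_pow_left₀ (norm_nonneg _) (le_trans ?_ hA) n
  have h1 : |h v| ≤ ∑ v ∈ T, |h v| :=
    Finset.single_le_sum (f := fun v => |h v|) (fun _ _ => abs_nonneg _) hv
  have h2 := norm_sub_norm_le ρ (h v)
  rw [Complex.norm_real, Real.norm_eq_abs] at h2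
  unfold rad
  linarith

lemma exists_bound (T : Finset ι) {p : ι → Fin r → ℝ} (hp : IsProb p) (X : ι → ι → ℂ) (h : ι → ℝ)
    (ρ : ℝ) : ∃ b : ℕ → ℝ, Summable b ∧ ∀ n (s : ℂ), ‖s‖ ≤ ρ →
      ‖rootPow T p (sm s X) h n / (n.factorial : ℂ)‖ ≤ b n := by
  refine ⟨fun n => T.card * ((∑ v ∈ T, |h v| + ρ * ∑ u ∈ T, ∑ v ∈ T, ‖X u v‖) ^ n / n.factorial),
    (Real.summable_pow_div_factorial _).mul_left _, fun n s hs => norm_term_le T hp _ h ?_ n⟩
  unfold rad sm
  simp only [norm_mul, Finset.mul_sum]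
  gcongr

lemma continuous_Psi {Ω : Type*} [TopologicalSpace Ω] (T : Finset ι)
    {p : Ω → ι → Fin r → ℝ} (hp : ∀ χ, IsProb (p χ)) (hpc : ∀ v j, Continuous fun χ => p χ v j)
    {X : Ω → ι → ι → ℂ} (hX : ∀ u v, Continuous fun χ => X χ u v) {h : Ω → ι → ℝ}
    (hh : ∀ v, Continuous fun χ => h χ v) : Continuous fun χ => Psi T (p χ) (X χ) (h χ) := by
  have hr : Continuous fun χ => rad T (X χ) (h χ) :=
    (continuous_finsetSum _ fun v _ => (hh v).abs).add
      (continuous_finsetSum _ fun u _ => continuous_finsetSum _ fun v _ => (hX u v).norm)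
  have e : (fun χ => Psi T (p χ) (X χ) (h χ)) =
      fun χ => ∑' n : ℕ, rootPow T (p χ) (X χ) (h χ) n / (n.factorial : ℂ) :=
    funext fun χ => (hasSum_Psi T _ _ _).tsum_eq.symm
  rw [e, continuous_iff_continuousAt]
  intro χ
  have hU : {χ' | rad T (X χ') (h χ') < rad T (X χ) (h χ) + 1} ∈ nhds χ :=
    (isOpen_lt hr continuous_const).mem_nhds (lt_add_one (rad T (X χ) (h χ)))
  refine ContinuousOn.continuousAt (continuousOn_tsum
    (fun n => ((continuous_rootPow T hp hpc hX hh n).div_const _).continuousOn)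
    ((Real.summable_pow_div_factorial (rad T (X χ) (h χ) + 1)).mul_left (T.card : ℝ))
    fun n χ' hχ' => norm_term_le T (hp χ') _ _ (le_of_lt hχ') n) hU

lemma Psi_image {ι' : Type*} [DecidableEq ι'] {T : Finset ι} {e : ι → ι'}
    (he : Set.InjOn e T) {p : ι → Fin r → ℝ} {p' : ι' → Fin r → ℝ}
    {X : ι → ι → ℂ} {X' : ι' → ι' → ℂ} {h : ι → ℝ} {h' : ι' → ℝ} (ϑ : ι → ℂ) (c : ℝ)
    (hϑ : ∀ v ∈ T, ‖ϑ v‖ = 1) (hpp : ∀ v ∈ T, p' (e v) = p v)
    (hXX : ∀ u ∈ T, ∀ v ∈ T, X' (e u) (e v) = conj (ϑ u) * X u v * ϑ v)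
    (hhh : ∀ v ∈ T, h' (e v) = h v + c) :
    Psi (T.image e) p' X' h' = Real.exp c * Psi T p X h := by
  have h1 : ∀ v ∈ T, conj (ϑ v) * ϑ v = 1 := fun v hv => by
    rw [Complex.conj_mul', hϑ v hv]; norm_num
  have e1 : Qp T p X h = (Qp (T.image e) p' X' h').comp (C 1 * Polynomial.X + C (c : ℂ)) := by
    refine Polynomial.funext fun w => ?_
    have e2 := Q_scale T (cp p) X (fun v => w - h v) (fun v => conj (ϑ v)) ϑ
    rw [Finset.prod_eq_one h1, one_mul] at e2
    rw [eval_comp, eval_Qp, eval_Qp, Q_image he, ← e2]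
    refine Q_congr (fun v hv => funext fun j => ?_) (fun u hu v hv => (hXX u hu v hv).symm)
      fun v hv => ?_
    · show ((p v j : ℝ) : ℂ) = ((p' (e v) j : ℝ) : ℂ)
      rw [hpp v hv]
    · rw [h1 v hv, hhh v hv]
      simp
  have e3 := map_roots_comp_C_mul_X_add_C (Qp (T.image e) p' X' h') 1 (c : ℂ) isUnit_one
  rw [← e1] at e3
  show ((Qp (T.image e) p' X' h').roots.map Complex.exp).sum =
    _ * ((Qp T p X h).roots.map Complex.exp).sum
  rw [← e3, Multiset.map_map, ← Multiset.sum_map_mul_left]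
  refine congrArg _ (Multiset.map_congr rfl fun ρ _ => ?_)
  simp [Complex.exp_add, mul_comm]

end FmAux

open FmAux

theorem differentiable_Psi (T : Finset ι) {p : ι → Fin r → ℝ} (hp : IsProb p) (X : ι → ι → ℂ)
    (h : ι → ℝ) : Differentiable ℂ (fun s => Psi T p (sm s X) h) := by
  choose P hP using exists_poly_rootPow T hp X h
  have e : ∀ n s, (P n * C ((n.factorial : ℂ)⁻¹)).eval s =
      rootPow T p (sm s X) h n / (n.factorial : ℂ) := fun n s => by
    rw [eval_mul, eval_C, hP, div_eq_mul_inv]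
  refine differentiable_of_series (fun n => P n * C ((n.factorial : ℂ)⁻¹)) (fun ρ => ?_) fun s => ?_
  · obtain ⟨b, hb, h1⟩ := exists_bound T hp X h ρ
    exact ⟨b, hb, fun n s hs => (e n s).symm ▸ h1 n s hs⟩
  · exact (funext fun n => e n s :) ▸ hasSum_Psi T p (sm s X) h

theorem Psi_congr {T : Finset ι} {p p' : ι → Fin r → ℝ} {X X' : ι → ι → ℂ} {h h' : ι → ℝ}
    (hp : ∀ v ∈ T, p v = p' v) (hX : ∀ u ∈ T, ∀ v ∈ T, X u v = X' u v)
    (hh : ∀ v ∈ T, h v = h' v) : Psi T p X h = Psi T p' X' h' := by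
  have e : Qp T p X h = Qp T p' X' h' :=
    Q_congr (fun v hv => by rw [hp v hv]) (fun u hu v hv => by rw [hX u hu v hv])
      fun v hv => by rw [hh v hv]
  exact congrArg (fun P : ℂ[X] => (P.roots.map Complex.exp).sum) e

theorem Fm_congr (L : ℕ) {T : Finset ι} {p p' : ι → Fin r → ℝ} {X X' : ι → ι → ℂ}
    {h h' : ι → ℝ} (hp : ∀ v ∈ T, p v = p' v) (hX : ∀ u ∈ T, ∀ v ∈ T, X u v = X' u v)
    (hh : ∀ v ∈ T, h v = h' v) : Fm L T p X h = Fm L T p' X' h' :=
  congrArg (fun f => (trunc L f).re) (funext fun s =>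
    Psi_congr hp (fun u hu v hv => congrArg (s * ·) (hX u hu v hv)) hh)

theorem Fm_empty (L : ℕ) (p : ι → Fin r → ℝ) (X : ι → ι → ℂ) (h : ι → ℝ) :
    Fm L ∅ p X h = 0 := by
  have e : (fun s => Psi ∅ p (sm s X) h) = fun _ => 0 := funext fun s => by
    have e1 : Qp ∅ p (sm s X) h = 1 := Q_empty _ _ _
    show ((Qp ∅ p (sm s X) h).roots.map Complex.exp).sum = 0
    rw [e1, roots_one]
    rfl
  show (trunc L fun s => Psi ∅ p (sm s X) h).re = 0
  rw [e, trunc_zero, Complex.zero_re]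

theorem abs_Fm_sub_le (L : ℕ) {T : Finset ι} {p : ι → Fin r → ℝ} (hp : IsProb p)
    {X : ι → ι → ℂ} {R : ℝ} (hR : 0 ≤ R) (hB : Bdd T X R) {h : ι → ℝ} {G : ℝ}
    (hG : ∀ v ∈ T, h v ≤ G) {S : ℝ} (hS : 1 < S) :
    |Fm L T p X h - (Psi T p X h).re| ≤ T.card * Real.exp (G + S * R) / (S ^ L * (S - 1)) := by
  have e : Psi T p X h = Psi T p (sm 1 X) h :=
    Psi_congr (fun _ _ => rfl) (fun u _ v _ => (one_mul _).symm) fun _ _ => rfl
  have k := norm_sub_trunc_le L (differentiable_Psi T hp X h) hS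
    (B := T.card * Real.exp (G + S * R)) fun s hs => by
      rw [← card_roots T hp (sm s X) h]
      refine norm_sum_le fun ρ hρ => ?_
      obtain ⟨v, hv, hv'⟩ := root_Qp_near hp (mul_nonneg (norm_nonneg s) hR) (hB.sm s) h hρ
      have h1 := Complex.re_le_norm (ρ - h v)
      rw [Complex.sub_re, Complex.ofReal_re] at h1
      rw [Complex.norm_exp, Real.exp_le_exp, ← hs]
      linarith [hG v hv]
  rw [abs_sub_comm, e]
  exact (Complex.abs_re_le_norm (Psi T p (sm 1 X) h - trunc L fun s => Psi T p (sm s X) h)).trans k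

theorem Fm_mixed (L : ℕ) {T : Finset ι} {o v : ι} (ho : o ∉ T) (hv : v ∉ T) (hov : o ≠ v)
    {p : ι → Fin r → ℝ} (hp : IsProb p) (X : ι → ι → ℂ) (h : ι → ℝ) {N : ℕ → ι → Prop}
    (hN : Layered (insert o (insert v T)) X N) (hN0 : N 0 o) (hL : ¬ N L v) :
    Fm L (insert o (insert v T)) p X h - Fm L (insert o T) p X h - Fm L (insert v T) p X h +
      Fm L T p X h = 0 := by
  choose P hP using rootPow_mixed ho hv hov hp X h hN hN0 hL
  have d := fun T => differentiable_Psi T hp X h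
  have e : ∀ n s, (Polynomial.X ^ (L + 1) * (P n * C ((n.factorial : ℂ)⁻¹))).eval s =
      rootPow (insert o (insert v T)) p (sm s X) h n / (n.factorial : ℂ) -
      rootPow (insert o T) p (sm s X) h n / (n.factorial : ℂ) -
      rootPow (insert v T) p (sm s X) h n / (n.factorial : ℂ) +
      rootPow T p (sm s X) h n / (n.factorial : ℂ) := fun n s => by
    rw [← sub_div, ← sub_div, ← add_div, hP, eval_mul, eval_mul, eval_C, eval_pow, eval_X,
      div_eq_mul_inv, mul_assoc]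
  have k : ∀ m ∈ Finset.range (L + 1), tc m (fun s => Psi (insert o (insert v T)) p (sm s X) h -
      Psi (insert o T) p (sm s X) h - Psi (insert v T) p (sm s X) h + Psi T p (sm s X) h) = 0 := by
    intro m hm
    have k := hasSum_tc_of_series (f := fun s => Psi (insert o (insert v T)) p (sm s X) h -
      Psi (insert o T) p (sm s X) h - Psi (insert v T) p (sm s X) h + Psi T p (sm s X) h)
      (fun n => Polynomial.X ^ (L + 1) * (P n * C ((n.factorial : ℂ)⁻¹))) (fun ρ => ?_)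
      (fun s => ?_) m
    · have e0 : (fun n => (Polynomial.X ^ (L + 1) * (P n * C ((n.factorial : ℂ)⁻¹))).coeff m) =
          fun _ => 0 := funext fun n => by
        rw [coeff_X_pow_mul', if_neg (not_le.2 (Finset.mem_range.1 hm))]
      rw [e0] at k
      exact k.unique hasSum_zero
    · obtain ⟨b1, s1, h1⟩ := exists_bound (insert o (insert v T)) hp X h ρ
      obtain ⟨b2, s2, h2⟩ := exists_bound (insert o T) hp X h ρ
      obtain ⟨b3, s3, h3⟩ := exists_bound (insert v T) hp X h ρ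
      obtain ⟨b4, s4, h4⟩ := exists_bound T hp X h ρ
      refine ⟨fun n => b1 n + b2 n + b3 n + b4 n, ((s1.add s2).add s3).add s4, fun n s hs => ?_⟩
      rw [e]
      exact norm_add_le_of_le (norm_sub_le_of_le (norm_sub_le_of_le (h1 n s hs) (h2 n s hs))
        (h3 n s hs)) (h4 n s hs)
    · rw [(funext fun n => e n s :)]
      exact (((hasSum_Psi _ _ _ _).sub (hasSum_Psi _ _ _ _)).sub (hasSum_Psi _ _ _ _)).add
        (hasSum_Psi _ _ _ _)
  have k2 : trunc L (fun s => Psi (insert o (insert v T)) p (sm s X) h -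
      Psi (insert o T) p (sm s X) h - Psi (insert v T) p (sm s X) h + Psi T p (sm s X) h) = 0 :=
    Finset.sum_eq_zero k
  rw [trunc_add L (((d _).fun_sub (d _)).fun_sub (d _)) (d _),
    trunc_sub L ((d _).fun_sub (d _)) (d _), trunc_sub L (d _) (d _)] at k2
  exact congrArg Complex.re k2

/-- Covariance under relabelling, phases and a shift of the heights. -/
theorem Fm_image (L : ℕ) {ι' : Type*} [DecidableEq ι'] {T : Finset ι} {e : ι → ι'}
    (he : Set.InjOn e T) {p : ι → Fin r → ℝ} (hp : IsProb p) {p' : ι' → Fin r → ℝ}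
    {X : ι → ι → ℂ} {X' : ι' → ι' → ℂ} {h : ι → ℝ} {h' : ι' → ℝ} (ϑ : ι → ℂ) (c : ℝ)
    (hϑ : ∀ v ∈ T, ‖ϑ v‖ = 1) (hpp : ∀ v ∈ T, p' (e v) = p v)
    (hXX : ∀ u ∈ T, ∀ v ∈ T, X' (e u) (e v) = conj (ϑ u) * X u v * ϑ v)
    (hhh : ∀ v ∈ T, h' (e v) = h v + c) :
    Fm L (T.image e) p' X' h' = Real.exp c * Fm L T p X h := by
  have e1 : (fun s => Psi (T.image e) p' (sm s X') h') =
      fun s => Real.exp c * Psi T p (sm s X) h := funext fun s =>
    Psi_image he ϑ c hϑ hpp (fun u hu v hv => by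
      show s * X' (e u) (e v) = conj (ϑ u) * (s * X u v) * ϑ v
      rw [hXX u hu v hv]; ring) hhh
  show (trunc L fun s => Psi (T.image e) p' (sm s X') h').re =
    _ * (trunc L fun s => Psi T p (sm s X) h).re
  rw [e1, trunc_const_mul, Complex.re_ofReal_mul]

theorem continuous_Fm (L : ℕ) {Ω : Type*} [TopologicalSpace Ω] (T : Finset ι)
    {p : Ω → ι → Fin r → ℝ} (hp : ∀ χ, IsProb (p χ)) (hpc : ∀ v j, Continuous fun χ => p χ v j)
    {X : Ω → ι → ι → ℂ} (hX : ∀ u v, Continuous fun χ => X χ u v) {h : Ω → ι → ℝ}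
    (hh : ∀ v, Continuous fun χ => h χ v) :
    Continuous fun χ => Fm L T (p χ) (X χ) (h χ) :=
  Complex.continuous_re.comp (continuous_trunc L (f := fun χ s => Psi T (p χ) (sm s (X χ)) (h χ))
    (continuous_Psi (Ω := Ω × ℂ) T (p := fun a => p a.1) (fun a => hp a.1)
      (fun v j => (hpc v j).comp continuous_fst) (X := fun a => sm a.2 (X a.1))
      (fun u v => continuous_snd.mul ((hX u v).comp continuous_fst)) (h := fun a => h a.1)
      fun v => (hh v).comp continuous_fst)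
    fun χ => differentiable_Psi T (hp χ) (X χ) (h χ))

end Crest.Agent.R109
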