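import Crest.Agent.R109.FDefs

/-! Row 109, task A11: spectral and Gaussian helper lemmas. -/

set_option autoImplicit false

noncomputable section

namespace Crest.Agent.R109.SlabAux

open Polynomial MeasureTheory Matrix
open scoped ComplexConjugate

section Spectral

variable {n : Type*} [Fintype n] [DecidableEq n]

/-- The spectral theorem together with the exponential. -/
theorem spectral {A : Matrix n n ℂ} (hA : A.IsHermitian) :
    ∃ (U : Matrix n n ℂ) (l : n → ℝ), star U * U = 1 ∧ U * star U = 1 ∧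
      A = U * diagonal (fun k => (l k : ℂ)) * star U ∧
      NormedSpace.exp A = U * diagonal (fun k => (Real.exp (l k) : ℂ)) * star U ∧
      A.charpoly.roots = Finset.univ.val.map fun k => (l k : ℂ) := by
  have h1 : star (hA.eigenvectorUnitary : Matrix n n ℂ) * hA.eigenvectorUnitary = 1 :=
    Unitary.coe_star_mul_self _
  have h2 : (hA.eigenvectorUnitary : Matrix n n ℂ) * star (hA.eigenvectorUnitary : Matrix n n ℂ)
      = 1 := Unitary.coe_mul_star_self _
  have h3 : A = hA.eigenvectorUnitary * diagonal (fun k => (hA.eigenvalues k : ℂ)) *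
      star (hA.eigenvectorUnitary : Matrix n n ℂ) := by
    conv_lhs => rw [hA.spectral_theorem, Unitary.conjStarAlgAut_apply]
    rfl
  refine ⟨hA.eigenvectorUnitary, hA.eigenvalues, h1, h2, h3, ?_, hA.roots_charpoly_eq_eigenvalues⟩
  have h4 : (hA.eigenvectorUnitary : Matrix n n ℂ)⁻¹ = star (hA.eigenvectorUnitary : Matrix n n ℂ) :=
    Matrix.inv_eq_left_inv h1
  have h5 : IsUnit (hA.eigenvectorUnitary : Matrix n n ℂ) :=
    (Matrix.isUnit_iff_isUnit_det _).2 (Matrix.isUnit_det_of_left_inverse h1)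
  conv_lhs => rw [h3]
  rw [← h4, Matrix.exp_conj _ _ h5, Matrix.exp_diagonal]
  congr 3
  funext k
  rw [Pi.coe_exp, ← Complex.exp_eq_exp_ℂ, Complex.ofReal_exp]

theorem trace_exp {A : Matrix n n ℂ} (hA : A.IsHermitian) :
    (A.charpoly.roots.map Complex.exp).sum = ∑ o, NormedSpace.exp A o o := by
  obtain ⟨U, l, h1, -, -, h4, h5⟩ := spectral hA
  have : ∑ o, NormedSpace.exp A o o = (NormedSpace.exp A).trace := rfl
  rw [this, h4, Matrix.trace_mul_comm, ← mul_assoc, h1, one_mul, trace_diagonal, h5,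
    Multiset.map_map]
  simp only [Function.comp_def, Complex.ofReal_exp]
  rfl

/-- The quadratic form of a matrix. -/
def qf (A : Matrix n n ℂ) (ξ : n → ℂ) : ℂ := ∑ u, ∑ v, conj (ξ u) * A u v * ξ v

omit [DecidableEq n] in
theorem qf_eq (A : Matrix n n ℂ) (ξ : n → ℂ) : qf A ξ = star ξ ⬝ᵥ (A *ᵥ ξ) := by
  simp [qf, dotProduct, mulVec, Finset.mul_sum, mul_assoc]

theorem qf_conj_diag (U : Matrix n n ℂ) (f : n → ℝ) (ξ : n → ℂ) :
    (qf (U * diagonal (fun k => (f k : ℂ)) * star U) ξ).re =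
      ∑ k, f k * ‖(star U *ᵥ ξ) k‖ ^ 2 := by
  rw [qf_eq, ← mulVec_mulVec, ← mulVec_mulVec, dotProduct_mulVec]
  have : star ξ ᵥ* U = star (star U *ᵥ ξ) := by
    rw [star_mulVec, star_eq_conjTranspose, conjTranspose_conjTranspose]
  rw [this, dotProduct, Complex.re_sum]
  refine Finset.sum_congr rfl fun k _ => ?_
  rw [mulVec_diagonal, Pi.star_apply, mul_left_comm, Complex.re_ofReal_mul, Complex.star_def,
    Complex.conj_mul', ← Complex.ofReal_pow, Complex.ofReal_re]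

theorem qf_exp {A : Matrix n n ℂ} (hA : A.IsHermitian) (b : ℝ) (ξ : n → ℂ) :
    0 ≤ (qf (NormedSpace.exp A) ξ).re ∧
      (qf A ξ).re ≤ b * ∑ v, ‖ξ v‖ ^ 2 + Real.exp (-b) * (qf (NormedSpace.exp A) ξ).re := by
  obtain ⟨U, l, -, h2, h3, h4, -⟩ := spectral hA
  have h6 : ∑ v, ‖ξ v‖ ^ 2 = ∑ k, ‖(star U *ᵥ ξ) k‖ ^ 2 := by
    have e1 := qf_conj_diag U (fun _ => 1) ξ
    have e2 := qf_conj_diag 1 (fun _ => 1) ξ
    simp only [Complex.ofReal_one, diagonal_one, mul_one, one_mul, star_one, one_mulVec] at e1 e2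
    rw [← e1, ← e2, h2]
  rw [h4, qf_conj_diag, h6]
  refine ⟨Finset.sum_nonneg fun k _ => by positivity, ?_⟩
  conv_lhs => rw [h3]
  rw [qf_conj_diag, Finset.mul_sum, Finset.mul_sum, ← Finset.sum_add_distrib]
  refine Finset.sum_le_sum fun k _ => ?_
  rw [← mul_assoc, ← add_mul, ← Real.exp_add]
  refine mul_le_mul_of_nonneg_right ?_ (by positivity)
  have := Real.add_one_le_exp (-b + l k)
  linarith

end Spectral

section Gauss

/-- `f` is integrable with integral `I`. -/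
def HI (f : ℝ → ℝ) (I : ℝ) : Prop := Integrable f ∧ ∫ a, f a = I

theorem HI.add {f g : ℝ → ℝ} {I J : ℝ} (hf : HI f I) (hg : HI g J) :
    HI (fun a => f a + g a) (I + J) :=
  ⟨hf.1.add hg.1, by rw [integral_add hf.1 hg.1, hf.2, hg.2]⟩

theorem HI.const_mul {f : ℝ → ℝ} {I : ℝ} (hf : HI f I) (c : ℝ) : HI (fun a => c * f a) (c * I) :=
  ⟨hf.1.const_mul c, by rw [integral_const_mul, hf.2]⟩

theorem HI.sum {α : Type*} (S : Finset α) {f : α → ℝ → ℝ} {I : α → ℝ}
    (hf : ∀ i ∈ S, HI (f i) (I i)) : HI (fun a => ∑ i ∈ S, f i a) (∑ i ∈ S, I i) :=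
  ⟨integrable_finsetSum S fun i hi => (hf i hi).1, by
    rw [integral_finsetSum S fun i hi => (hf i hi).1]
    exact Finset.sum_congr rfl fun i hi => (hf i hi).2⟩

theorem HI.mono {f g : ℝ → ℝ} {I J : ℝ} (hf : HI f I) (hg : HI g J) (h : ∀ a, f a ≤ g a) :
    I ≤ J := by
  rw [← hf.2, ← hg.2]; exact integral_mono hf.1 hg.1 h

theorem HI.congr {f g : ℝ → ℝ} {I J : ℝ} (hf : HI f I) (h : ∀ a, f a = g a) (h' : I = J) :
    HI g J := by
  rw [← funext h, ← h']; exact hf

theorem HI.shift {f : ℝ → ℝ} {I : ℝ} (hf : HI f I) (m : ℝ) : HI (fun a => f (a - m)) I :=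
  ⟨hf.1.comp_sub_right m, by rw [integral_sub_right_eq_self f m, hf.2]⟩

theorem HI_zero : HI (fun _ => 0) 0 := ⟨integrable_zero _ _ _, by simp⟩

theorem HI_gauss {b : ℝ} (hb : 0 < b) : HI (fun x => Real.exp (-b * x ^ 2)) (√(Real.pi / b)) :=
  ⟨integrable_exp_neg_mul_sq hb, integral_gaussian b⟩

theorem HI_odd {b : ℝ} (hb : 0 < b) : HI (fun x => x * Real.exp (-b * x ^ 2)) 0 := by
  refine ⟨integrable_mul_exp_neg_mul_sq hb, ?_⟩
  have := integral_neg_eq_self (fun x : ℝ => x * Real.exp (-b * x ^ 2)) volume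
  simp only [neg_mul, even_two, Even.neg_pow, integral_neg] at this ⊢
  linarith

/-- The Gaussian window. -/
def win (τ x : ℝ) : ℝ := Real.exp (-x ^ 2 / (2 * τ ^ 2))

theorem HI_win {τ : ℝ} (hτ : 0 < τ) (x y : ℝ) :
    HI (fun a => win τ (x - a) * win τ (y - a))
      (√(Real.pi / (τ ^ 2)⁻¹) * Real.exp (-(x - y) ^ 2 / (4 * τ ^ 2))) := by
  refine (((HI_gauss (b := (τ ^ 2)⁻¹) (by positivity)).shift ((x + y) / 2)).const_mul
    (Real.exp (-(x - y) ^ 2 / (4 * τ ^ 2)))).congr (fun a => ?_) (mul_comm _ _)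
  simp only [win, ← Real.exp_add]
  congr 1
  field_simp
  ring

theorem HI_exp_win {τ : ℝ} (hτ : 0 < τ) (x y : ℝ) :
    HI (fun a => Real.exp (-a) * (win τ (x - a) * win τ (y - a)))
      (√(Real.pi / (τ ^ 2)⁻¹) * (Real.exp (τ ^ 2 / 4) * gw τ x y)) := by
  refine (((HI_gauss (b := (τ ^ 2)⁻¹) (by positivity)).shift ((x + y) / 2 - τ ^ 2 / 2)).const_mul
    (Real.exp (τ ^ 2 / 4) * gw τ x y)).congr (fun a => ?_) (mul_comm _ _)
  simp only [win, gw, ← Real.exp_add]
  congr 1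
  field_simp
  ring

theorem HI_odd_win {τ : ℝ} (hτ : 0 < τ) (x : ℝ) :
    HI (fun a => (x - a) * (win τ (x - a) * win τ (x - a))) 0 := by
  refine (((HI_odd (b := (τ ^ 2)⁻¹) (by positivity)).shift x).const_mul (-1)).congr
    (fun a => ?_) (mul_zero _)
  simp only [win, ← Real.exp_add]
  rw [← mul_assoc]
  congr 1
  · ring
  · congr 1
    field_simp
    ring

end Gauss

end Crest.Agent.R109.SlabAux
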