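import Crest.Agent.R109.MatExp
import Crest.Agent.R109.FmApi
import Crest.Agent.R109.SlabAux

/-! Row 109, task A11: trace identity and the Gaussian slab inequality. -/

set_option autoImplicit false

noncomputable section

namespace Crest.Agent.R109

open Polynomial
open scoped ComplexConjugate

variable {ι : Type*} [DecidableEq ι] {r : ℕ}

namespace SlabAux

/-- The matrix `diag h + s Y` on `T`. -/
def hm (T : Finset ι) (Y : ι → ι → ℂ) (h : ι → ℝ) (s : ℂ) : Matrix T T ℂ :=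
  Matrix.of fun u v : T => (if u = v then (h u : ℂ) else 0) + s * Y u v

theorem hm_herm {T : Finset ι} {Y : ι → ι → ℂ} (hY : Herm T Y) (h : ι → ℝ) (s : ℝ) :
    (hm T Y h s).IsHermitian := by
  ext u v
  simp only [hm, Matrix.conjTranspose_apply, Matrix.of_apply, hY v v.2 u u.2, star_add, star_mul',
    Complex.star_def, Complex.conj_ofReal]
  congr 1
  by_cases huv : u = v
  · subst huv; simp
  · simp [huv, Ne.symm huv]

theorem exE_coe (T : Finset ι) (Y : ι → ι → ℂ) (h : ι → ℝ) (s : ℂ) (u v : T) :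
    exE T Y h s u v = NormedSpace.exp (hm T Y h s) u v := by
  simp only [exE, u.2, v.2, dif_pos]
  rfl

omit [DecidableEq ι] in
theorem herm_mask {T : Finset ι} (c : ι → Fin r) {X : ι → ι → ℂ} (hX : Herm T X) :
    Herm T (mask c X) := fun u hu v hv => by
  simp only [mask]
  by_cases huv : c u = c v
  · simp [huv, hX u hu v hv]
  · simp [huv, Ne.symm huv]

theorem Qp_dl (T : Finset ι) (c : ι → Fin r) (X : ι → ι → ℂ) (h : ι → ℝ) (s : ℂ) :
    Qp T (fun v => dl ℝ (c v)) (sm s X) h = (hm T (mask c X) h s).charpoly := by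
  have e : (fun v j => C ((dl ℝ (c v) j : ℝ) : ℂ)) = fun v => dl ℂ[X] (c v) := by
    funext v j
    simp only [dl]
    split_ifs <;> simp
  rw [Qp, e, Q_dl, Matrix.charpoly]
  congr 1
  ext1 u v
  simp only [blk, Matrix.of_apply, Matrix.charmatrix_apply, hm, mask, sm, Matrix.diagonal_apply]
  split_ifs <;> simp [sub_sub]

omit [DecidableEq ι] in
theorem form_eq_qf (T : Finset ι) [DecidableEq T] (K : ι → ι → ℂ) (ξ : ι → ℂ) :
    form T K ξ = qf (Matrix.of fun u v : T => K u v) fun v => ξ v := by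
  simp only [form, qf, Matrix.of_apply]
  rw [← Finset.sum_coe_sort T]
  exact Finset.sum_congr rfl fun u _ => (Finset.sum_coe_sort T _).symm

/-- The pointwise spectral inequality. -/
theorem form_exp {T : Finset ι} {Y : ι → ι → ℂ} (hY : Herm T Y) (h : ι → ℝ) (b : ℝ) (ξ : ι → ℂ) :
    0 ≤ (form T (exE T Y h 1) ξ).re ∧
      ∑ v ∈ T, h v * ‖ξ v‖ ^ 2 + (form T Y ξ).re ≤
        b * nsq T ξ + Real.exp (-b) * (form T (exE T Y h 1) ξ).re := by
  have key := qf_exp (hm_herm hY h 1) b fun v => ξ v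
  rw [Complex.ofReal_one] at key
  have e1 : form T (exE T Y h 1) ξ = qf (NormedSpace.exp (hm T Y h 1)) fun v => ξ v := by
    rw [form_eq_qf]
    congr 1
    ext u v
    exact exE_coe T Y h 1 u v
  have e2 : nsq T ξ = ∑ v : T, ‖ξ v‖ ^ 2 := (Finset.sum_coe_sort T fun v => ‖ξ v‖ ^ 2).symm
  have e3 : ∑ v ∈ T, h v * ‖ξ v‖ ^ 2 + (form T Y ξ).re = (qf (hm T Y h 1) fun v => ξ v).re := by
    rw [form_eq_qf, ← Finset.sum_coe_sort T]
    simp only [qf, hm, Matrix.of_apply, one_mul, mul_add, add_mul, Finset.sum_add_distrib, mul_ite,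
      ite_mul, mul_zero, zero_mul, Finset.sum_ite_eq, Finset.mem_univ, if_true, Complex.add_re]
    congr 1
    rw [Complex.re_sum]
    refine Finset.sum_congr rfl fun v _ => ?_
    rw [mul_comm (conj _), mul_assoc, Complex.re_ofReal_mul, Complex.conj_mul',
      ← Complex.ofReal_pow, Complex.ofReal_re]
  rw [e1, e2, e3]
  exact key

omit [DecidableEq ι] in
theorem form_re_mul (T : Finset ι) (K : ι → ι → ℂ) (ζ : ι → ℂ) (w : ι → ι → ℝ) :
    (form T (fun u v => K u v * (w u v : ℂ)) ζ).re =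
      ∑ u ∈ T, ∑ v ∈ T, (conj (ζ u) * K u v * ζ v).re * w u v := by
  simp only [form, Complex.re_sum]
  refine Finset.sum_congr rfl fun u _ => Finset.sum_congr rfl fun v _ => ?_
  rw [← Complex.re_mul_ofReal]
  congr 1
  ring

omit [DecidableEq ι] in
theorem form_re_vec (T : Finset ι) (K : ι → ι → ℂ) (ζ : ι → ℂ) (w : ι → ℝ) :
    (form T K fun v => ζ v * (w v : ℂ)).re =
      ∑ u ∈ T, ∑ v ∈ T, (conj (ζ u) * K u v * ζ v).re * (w u * w v) := by
  simp only [form, Complex.re_sum]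
  refine Finset.sum_congr rfl fun u _ => Finset.sum_congr rfl fun v _ => ?_
  rw [← Complex.re_mul_ofReal]
  congr 1
  simp only [map_mul, Complex.conj_ofReal, Complex.ofReal_mul]
  ring

omit [DecidableEq ι] in
theorem form_sub (T : Finset ι) (K K' : ι → ι → ℂ) (ζ : ι → ℂ) :
    form T (fun u v => K u v - K' u v) ζ = form T K ζ - form T K' ζ := by
  simp only [form, mul_sub, sub_mul, Finset.sum_sub_distrib]

omit [DecidableEq ι] in
theorem sum_le_of_ncard {T : Finset ι} {P : ι → Prop} {f : ι → ℝ} {B : ℝ} (hB : 0 ≤ B) {M : ℕ}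
    (hM : {u | u ∈ T ∧ P u}.ncard ≤ M) (h1 : ∀ u ∈ T, P u → f u ≤ B)
    (h2 : ∀ u ∈ T, ¬ P u → f u ≤ 0) : ∑ u ∈ T, f u ≤ M * B := by
  classical
  have e : {u | u ∈ T ∧ P u} = (T.filter P : Finset ι) := by ext; simp
  rw [e, Set.ncard_coe_finset] at hM
  rw [← Finset.sum_filter_add_sum_filter_not T P]
  have a1 : ∑ u ∈ T.filter P, f u ≤ M * B := by
    refine (Finset.sum_le_card_nsmul _ _ B fun u hu => ?_).trans ?_
    · exact h1 u (Finset.mem_filter.1 hu).1 (Finset.mem_filter.1 hu).2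
    · rw [nsmul_eq_mul]
      exact mul_le_mul_of_nonneg_right (by exact_mod_cast hM) hB
  have a2 : ∑ u ∈ T.filter (fun u => ¬ P u), f u ≤ 0 :=
    Finset.sum_nonpos fun u hu => h2 u (Finset.mem_filter.1 hu).1 (Finset.mem_filter.1 hu).2
  linarith

omit [DecidableEq ι] in
/-- Summing geometric tails over sparse layers. -/
theorem sum_tail_le {T : Finset ι} {k : ι → ℂ} {a : ℕ → ι → ℂ} {P : ℕ → ι → Prop} {C ρ : ℝ}
    (hC : 0 ≤ C) (hρ : 0 ≤ ρ) {D L : ℕ} (hq : ρ * (D + 1) ≤ 1 / 2)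
    (hk : ∀ u ∈ T, HasSum (fun m => a (m + (L + 1)) u) (k u))
    (hM : ∀ m, {u | u ∈ T ∧ P m u}.ncard ≤ (D + 1) ^ m)
    (h1 : ∀ m, ∀ u ∈ T, P m u → ‖a m u‖ ≤ C * ρ ^ m) (h2 : ∀ m, ∀ u ∈ T, ¬ P m u → a m u = 0) :
    ∑ u ∈ T, ‖k u‖ ≤ C * (ρ * (D + 1)) ^ L := by
  set q := ρ * (D + 1) with hqdef
  have hq0 : 0 ≤ q := by positivity
  have hs : ∀ u ∈ T, Summable fun m => ‖a (m + (L + 1)) u‖ := fun u hu => (hk u hu).summable.norm
  have b1 : ∑ u ∈ T, ‖k u‖ ≤ ∑ u ∈ T, ∑' m, ‖a (m + (L + 1)) u‖ :=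
    Finset.sum_le_sum fun u hu => by
      rw [← (hk u hu).tsum_eq]; exact norm_tsum_le_tsum_norm (hs u hu)
  have b2 : HasSum (fun m => ∑ u ∈ T, ‖a (m + (L + 1)) u‖) (∑ u ∈ T, ∑' m, ‖a (m + (L + 1)) u‖) :=
    hasSum_sum fun u hu => (hs u hu).hasSum
  have b3 : HasSum (fun m : ℕ => C * q ^ L * ((1 : ℝ) / 2 / 2 ^ m)) (C * q ^ L * 1) :=
    (hasSum_geometric_two' 1).mul_left _
  rw [mul_one] at b3
  refine b1.trans (hasSum_le (fun m => ?_) b2 b3)
  refine (sum_le_of_ncard (B := C * ρ ^ (m + (L + 1))) (by positivity) (hM (m + (L + 1)))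
    (h1 _) fun u hu hP => by rw [h2 _ u hu hP, norm_zero]).trans ?_
  have e : (((D + 1) ^ (m + (L + 1)) : ℕ) : ℝ) * (C * ρ ^ (m + (L + 1))) =
      C * q ^ L * q ^ (m + 1) := by
    rw [hqdef, mul_pow, mul_pow]; push_cast; ring
  rw [e]
  refine mul_le_mul_of_nonneg_left ?_ (by positivity)
  refine (pow_le_pow_left₀ hq0 hq _).trans (le_of_eq ?_)
  rw [one_div, inv_pow, pow_succ]
  field_simp

omit [DecidableEq ι] in
theorem layered_mono {T : Finset ι} {Y : ι → ι → ℂ} {N : ℕ → ι → Prop} (hN : Layered T Y N)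
    {o : ι} (h0 : N 0 o) (m : ℕ) : N m o := by
  induction m with
  | zero => exact h0
  | succ m ih => exact hN.1 m o ih

/-- The weighted Taylor coefficients decay geometrically. -/
theorem norm_tc_gw_le {T : Finset ι} {Y : ι → ι → ℂ} {R : ℝ} (hR : 0 ≤ R) (hB : Bdd T Y R)
    (h : ι → ℝ) {N : ℕ → ι → Prop} (hN : Layered T Y N) {o : ι} (ho : o ∈ T) (hN0 : N 0 o)
    {κ0 : ℝ} (hκ0 : 0 ≤ κ0) (hh : ∀ u ∈ T, ∀ m, N m u → |h u - h o| ≤ κ0 * m) {S : ℝ}
    (hS : 0 < S) (τ : ℝ) (m : ℕ) {u : ι} (hu : u ∈ T) (hm : N m u) :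
    ‖tc m (fun s => exE T Y h s u o) * (gw τ (h u) (h o) : ℂ)‖ ≤
      Real.exp (S * R) * (Real.exp (2 * κ0) / S) ^ m := by
  classical
  have hsub : T.filter (N m) ⊆ T := Finset.filter_subset _ _
  rw [tc_exE_local hsub h hN (Finset.mem_filter.2 ⟨ho, layered_mono hN hN0 m⟩) hN0
    (fun a ha hNa => Finset.mem_filter.2 ⟨ha, hNa⟩) u, norm_mul]
  have b1 := norm_tc_le m (differentiable_exE (T.filter (N m)) Y h u o) hS
    (B := Real.exp (h o + κ0 * m + S * R)) fun s hs => by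
      rw [← hs]
      exact norm_exE_le hR (hB.mono hsub)
        (fun v hv => hh v (hsub hv) m (Finset.mem_filter.1 hv).2) s u o
  have b2 : ‖(gw τ (h u) (h o) : ℂ)‖ ≤ Real.exp (-h o + κ0 * m) := by
    rw [Complex.norm_real, gw, Real.norm_eq_abs, abs_of_pos (Real.exp_pos _)]
    refine Real.exp_le_exp.2 ?_
    have c1 := (abs_le.1 (hh u hu m hm)).1
    have c2 : 0 ≤ (h u - h o) ^ 2 / (4 * τ ^ 2) := by positivity
    have c3 : 0 ≤ κ0 * m := by positivity
    linarith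
  refine (mul_le_mul b1 b2 (norm_nonneg _) (by positivity)).trans (le_of_eq ?_)
  rw [div_pow, ← Real.exp_nat_mul, div_mul_eq_mul_div, mul_div_assoc', ← Real.exp_add,
    ← Real.exp_add]
  congr 2
  ring

end SlabAux

open SlabAux

/-- For a deterministic colouring the potential is the trace of the matrix exponential. -/
theorem Fm_dl (L : ℕ) {T : Finset ι} (c : ι → Fin r) {X : ι → ι → ℂ} (hX : Herm T X)
    (h : ι → ℝ) :
    Fm L T (fun v => dl ℝ (c v)) X h = ∑ o ∈ T, (kE L T (mask c X) h o o).re := by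
  have e : (fun s => Psi T (fun v => dl ℝ (c v)) (sm s X) h) =
      fun s => ∑ o ∈ T, exE T (mask c X) h s o o := by
    refine eq_of_eq_on_real (differentiable_Psi T (isProb_dl c) X h)
      (Differentiable.fun_sum fun o _ => differentiable_exE T _ h o o) fun s => ?_
    rw [Psi, Qp_dl, trace_exp (hm_herm (herm_mask c hX) h s), ← Finset.sum_coe_sort T]
    exact Finset.sum_congr rfl fun o _ => (exE_coe T _ h s o o).symm
  rw [Fm, e, trunc_sum L T fun o _ => differentiable_exE T _ h o o, Complex.re_sum]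
  rfl

/-- The exact slab inequality and positivity. -/
theorem slab_exact {T : Finset ι} {Y : ι → ι → ℂ} (hY : Herm T Y) (h : ι → ℝ) {τ : ℝ}
    (hτ : 0 < τ) (t : ℝ) (ζ : ι → ℂ) :
    0 ≤ (form T (fun u v => exE T Y h 1 u v * (gw τ (h u) (h v) : ℂ)) ζ).re ∧
    (form T (fun u v => Y u v * (Real.exp (-(h u - h v) ^ 2 / (4 * τ ^ 2)) : ℂ)) ζ).re ≤
      t * nsq T ζ + Real.exp (τ ^ 2 / 4 - t) *
        (form T (fun u v => exE T Y h 1 u v * (gw τ (h u) (h v) : ℂ)) ζ).re := by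
  set c : ℝ := √(Real.pi / (τ ^ 2)⁻¹) with hc
  have hc0 : 0 < c := Real.sqrt_pos.2 (by have := Real.pi_pos; positivity)
  set ξ : ℝ → ι → ℂ := fun a v => ζ v * (win τ (h v - a) : ℂ) with hξ
  have hn : ∀ a v, ‖ξ a v‖ ^ 2 = ‖ζ v‖ ^ 2 * (win τ (h v - a) * win τ (h v - a)) := fun a v => by
    rw [hξ, norm_mul, Complex.norm_real, mul_pow, Real.norm_eq_abs, sq_abs, sq (win _ _)]
  have I1 : HI (fun a => Real.exp (-a) * (form T (exE T Y h 1) (ξ a)).re)
      (c * (Real.exp (τ ^ 2 / 4) *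
        (form T (fun u v => exE T Y h 1 u v * (gw τ (h u) (h v) : ℂ)) ζ).re)) := by
    refine (HI.sum T fun u _ => HI.sum T fun v _ => (HI_exp_win hτ (h u) (h v)).const_mul
      (conj (ζ u) * exE T Y h 1 u v * ζ v).re).congr (fun a => ?_) ?_
    · rw [hξ, form_re_vec]
      simp only [Finset.mul_sum]
      exact Finset.sum_congr rfl fun u _ => Finset.sum_congr rfl fun v _ => by ring
    · rw [form_re_mul]
      simp only [Finset.mul_sum]
      exact Finset.sum_congr rfl fun u _ => Finset.sum_congr rfl fun v _ => by ring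
  have I2 : HI (fun a => (form T Y (ξ a)).re)
      (c * (form T (fun u v => Y u v * (Real.exp (-(h u - h v) ^ 2 / (4 * τ ^ 2)) : ℂ)) ζ).re) := by
    refine (HI.sum T fun u _ => HI.sum T fun v _ => (HI_win hτ (h u) (h v)).const_mul
      (conj (ζ u) * Y u v * ζ v).re).congr (fun a => ?_) ?_
    · rw [hξ, form_re_vec]
    · rw [form_re_mul]
      simp only [Finset.mul_sum]
      exact Finset.sum_congr rfl fun u _ => Finset.sum_congr rfl fun v _ => by ring
  have I3 : HI (fun a => nsq T (ξ a)) (c * nsq T ζ) := by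
    refine (HI.sum T fun v _ => (HI_win hτ (h v) (h v)).const_mul (‖ζ v‖ ^ 2)).congr
      (fun a => ?_) ?_
    · simp only [nsq, hn]
    · simp only [nsq, Finset.mul_sum, sub_self]
      exact Finset.sum_congr rfl fun u _ => by simp [mul_comm, hc]
  have I4 : HI (fun a => ∑ v ∈ T, (h v - a) * ‖ξ a v‖ ^ 2) 0 := by
    refine (HI.sum T fun v _ => (HI_odd_win hτ (h v)).const_mul (‖ζ v‖ ^ 2)).congr
      (fun a => ?_) (by simp)
    exact Finset.sum_congr rfl fun u _ => by rw [hn]; ring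
  constructor
  · have := HI_zero.mono I1 fun a =>
      mul_nonneg (Real.exp_pos _).le (form_exp hY h 0 (ξ a)).1
    exact nonneg_of_mul_nonneg_right (nonneg_of_mul_nonneg_right this hc0 |> fun h' => by
      rwa [mul_comm] at h' ⊢) (Real.exp_pos (τ ^ 2 / 4))
  · have := (I4.add I2).mono ((I3.const_mul t).add (I1.const_mul (Real.exp (-t)))) fun a => by
      have k := (form_exp hY h (a + t) (ξ a)).2
      have e1 : ∑ v ∈ T, (h v - a) * ‖ξ a v‖ ^ 2 =
          ∑ v ∈ T, h v * ‖ξ a v‖ ^ 2 - a * nsq T (ξ a) := by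
        simp only [nsq, sub_mul, Finset.sum_sub_distrib, Finset.mul_sum]
      rw [neg_add, Real.exp_add] at k
      rw [e1]
      linarith
    refine le_of_mul_le_mul_left ?_ hc0
    rw [sub_eq_add_neg, Real.exp_add]
    linarith

/-- The final finite inequality. -/
theorem finite_final (L : ℕ) {T : Finset ι} {Y : ι → ι → ℂ} (hY : Herm T Y) {R : ℝ} (hR : 0 ≤ R)
    (hB : Bdd T Y R) (h : ι → ℝ) (N : ι → ℕ → ι → Prop) (hN : ∀ o ∈ T, Layered T Y (N o))
    (hN0 : ∀ o ∈ T, N o 0 o) (hsymm : ∀ o ∈ T, ∀ u ∈ T, ∀ m, N o m u → N u m o) {κ0 : ℝ}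
    (hκ0 : 0 ≤ κ0) (hh : ∀ o ∈ T, ∀ u ∈ T, ∀ m, N o m u → |h u - h o| ≤ κ0 * m) {D : ℕ}
    (hD : ∀ o ∈ T, ∀ m, {u | u ∈ T ∧ N o m u}.ncard ≤ (D + 1) ^ m) {S : ℝ}
    (hS : 2 * (Real.exp (2 * κ0) * (D + 1)) ≤ S) {τ : ℝ} (hτ : 0 < τ) (t : ℝ) (ζ : ι → ℂ) :
    0 ≤ (form T (kN L τ T Y h) ζ).re +
        Real.exp (S * R) * (Real.exp (2 * κ0) * (D + 1) / S) ^ L * nsq T ζ ∧
    (form T Y ζ).re ≤ (t + (D + 1) * R * κ0 ^ 2 / (4 * τ ^ 2)) * nsq T ζ +
      Real.exp (τ ^ 2 / 4 - t) * ((form T (kN L τ T Y h) ζ).re +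
        Real.exp (S * R) * (Real.exp (2 * κ0) * (D + 1) / S) ^ L * nsq T ζ) := by
  obtain ⟨k1, k2⟩ := slab_exact hY h hτ t ζ
  have hS0 : 0 < S := lt_of_lt_of_le (by positivity) hS
  have hq : Real.exp (2 * κ0) / S * (D + 1) ≤ 1 / 2 := by
    rw [div_mul_eq_mul_div, div_le_iff₀ hS0]; linarith
  -- the tail of the Taylor series
  have hk : ∀ u o, HasSum
      (fun m => tc (m + (L + 1)) (fun s => exE T Y h s u o) * (gw τ (h u) (h o) : ℂ))
      (exE T Y h 1 u o * (gw τ (h u) (h o) : ℂ) - kN L τ T Y h u o) := fun u o => by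
    have := ((hasSum_nat_add_iff' (L + 1)).2 (hasSum_tc (differentiable_exE T Y h u o))).mul_right
      (gw τ (h u) (h o) : ℂ)
    rwa [sub_mul] at this
  have hb : ∀ o ∈ T, ∀ m, ∀ u ∈ T, N o m u →
      ‖tc m (fun s => exE T Y h s u o) * (gw τ (h u) (h o) : ℂ)‖ ≤
        Real.exp (S * R) * (Real.exp (2 * κ0) / S) ^ m := fun o ho m u hu hm =>
    norm_tc_gw_le hR hB h (hN o ho) ho (hN0 o ho) hκ0 (hh o ho) hS0 τ m hu hm
  have hz : ∀ o ∈ T, ∀ m u, ¬ N o m u →
      tc m (fun s => exE T Y h s u o) * (gw τ (h u) (h o) : ℂ) = 0 := fun o ho m u hm => by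
    rw [tc_exE_eq_zero h (hN o ho) (hN0 o ho) hm, zero_mul]
  have t1 := norm_form_le_of_schur (T := T)
    (K := fun u o => exE T Y h 1 u o * (gw τ (h u) (h o) : ℂ) - kN L τ T Y h u o)
    (δ := Real.exp (S * R) * (Real.exp (2 * κ0) / S * (D + 1)) ^ L)
    (fun u hu => sum_tail_le (P := N u)
      (a := fun m o => tc m (fun s => exE T Y h s u o) * (gw τ (h u) (h o) : ℂ))
      (Real.exp_pos _).le (by positivity) hq (fun o _ => hk u o) (hD u hu)
      (fun m o ho hm => hb o ho m u hu (hsymm u hu o ho m hm))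
      (fun m o ho hm => hz o ho m u fun hm' => hm (hsymm o ho u hu m hm')))
    (fun o ho => sum_tail_le (P := N o)
      (a := fun m u => tc m (fun s => exE T Y h s u o) * (gw τ (h u) (h o) : ℂ))
      (Real.exp_pos _).le (by positivity) hq (fun u _ => hk u o) (hD o ho)
      (fun m u hu hm => hb o ho m u hu hm) (fun m u _ hm => hz o ho m u hm)) ζ
  have t1' := (Complex.re_le_norm _).trans t1
  rw [form_sub, Complex.sub_re, div_mul_eq_mul_div] at t1'
  -- the Gaussian damping of the off-diagonal entries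
  have hent : ∀ u ∈ T, ∀ v ∈ T, |h u - h v| ≤ κ0 →
      ‖Y u v - Y u v * (Real.exp (-(h u - h v) ^ 2 / (4 * τ ^ 2)) : ℂ)‖ ≤
        R * κ0 ^ 2 / (4 * τ ^ 2) := fun u hu v hv huv => by
    have c1 : (h u - h v) ^ 2 ≤ κ0 ^ 2 := by
      rw [← sq_abs]; exact pow_le_pow_left₀ (abs_nonneg _) huv 2
    have c2 : (h u - h v) ^ 2 / (4 * τ ^ 2) ≤ κ0 ^ 2 / (4 * τ ^ 2) := by gcongr
    have c3 := Real.add_one_le_exp (-(h u - h v) ^ 2 / (4 * τ ^ 2))
    have c4 : Real.exp (-(h u - h v) ^ 2 / (4 * τ ^ 2)) ≤ 1 := by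
      rw [Real.exp_le_one_iff, neg_div, neg_nonpos]; positivity
    rw [← mul_one_sub, norm_mul, mul_div_assoc, ← Complex.ofReal_one, ← Complex.ofReal_sub,
      Complex.norm_real, Real.norm_eq_abs, abs_of_nonneg (sub_nonneg.2 c4)]
    refine mul_le_mul (hB.norm_entry_le hR hu hv) ?_ (sub_nonneg.2 c4) hR
    rw [neg_div] at c3 ⊢
    linarith
  have t2 := norm_form_le_of_schur (T := T)
    (K := fun u v => Y u v - Y u v * (Real.exp (-(h u - h v) ^ 2 / (4 * τ ^ 2)) : ℂ))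
    (δ := (((D + 1) ^ 1 : ℕ) : ℝ) * (R * κ0 ^ 2 / (4 * τ ^ 2)))
    (fun u hu => sum_le_of_ncard (by positivity) (hD u hu 1)
      (fun v hv hm => hent u hu v hv (by
        rw [abs_sub_comm]; simpa using hh u hu v hv 1 hm))
      (fun v hv hm => by
        have : Y u v = 0 := by
          by_contra hne
          exact hm ((hN u hu).2 0 u hu v hv (hN0 u hu) (Or.inl hne))
        simp [this]))
    (fun v hv => sum_le_of_ncard (by positivity) (hD v hv 1)
      (fun u hu hm => hent u hu v hv (by simpa using hh v hv u hu 1 hm))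
      (fun u hu hm => by
        have : Y u v = 0 := by
          by_contra hne
          exact hm ((hN v hv).2 0 v hv u hu (hN0 v hv) (Or.inr hne))
        simp [this])) ζ
  have t2' := (Complex.re_le_norm _).trans t2
  rw [form_sub, Complex.sub_re] at t2'
  have e2 : (((D + 1) ^ 1 : ℕ) : ℝ) * (R * κ0 ^ 2 / (4 * τ ^ 2)) =
      (D + 1) * R * κ0 ^ 2 / (4 * τ ^ 2) := by
    push_cast; ring
  rw [e2] at t2'
  refine ⟨by linarith, ?_⟩
  have t3 := mul_le_mul_of_nonneg_left (sub_le_iff_le_add'.1 t1')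
    (Real.exp_pos (τ ^ 2 / 4 - t)).le
  have e3 : form T (fun u v => Y u v) ζ = form T Y ζ := rfl
  rw [add_mul]
  linarith

end Crest.Agent.R109
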