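import Crest.Agent.R109.NetFN
import Crest.Agent.R109.Slab

/-! Row 109, task B5: the final majorant. -/

set_option autoImplicit false

noncomputable section

namespace Crest.Agent.R109

open MeasureTheory
open scoped ComplexConjugate

namespace Net

variable {Ω : Type*} [TopologicalSpace Ω] [CompactSpace Ω] [MeasurableSpace Ω] [BorelSpace Ω]
  {G : Type*} [DecidableEq G] [Fintype G] (N : Net Ω G)

variable {r : ℕ}

namespace Final

theorem gw_add (τ a b c : ℝ) : gw τ (a + c) (b + c) * Real.exp c = gw τ a b := by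
  rw [gw, gw, ← Real.exp_add]
  congr 1
  ring

theorem continuous_Yc (M : ℝ) {c : Ω → Fin r} (hc : IsLocallyConstant c) (u v : List G) :
    Continuous fun χ => N.Yc M c χ u v :=
  continuous_of_isLocallyConstant
    (F := fun a χ => if a.1 = a.2 then ((M / 256 : ℝ) : ℂ) * N.X u v χ else 0)
    ((hc.comp_continuous (N.τ_cont u)).prodMk (hc.comp_continuous (N.τ_cont v))) fun a => by
      split_ifs
      · exact continuous_const.mul (N.X_cont u v)
      · exact continuous_const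

theorem X_ne_of_Yc {M : ℝ} {c : Ω → Fin r} {χ : Ω} (u v : List G) (h : N.Yc M c χ u v ≠ 0) :
    N.X u v χ ≠ 0 := fun h0 => h (by simp [Yc, mask, h0])

theorem herm_MX (M : ℝ) (χ : Ω) (T : Finset (List G)) :
    Herm T fun u v => ((M / 256 : ℝ) : ℂ) * N.X u v χ := fun u _ v _ => by
  simp only [map_mul, Complex.conj_ofReal, N.X_conj u v]

theorem Yc_rel (M : ℝ) (c : Ω → Fin r) {χ : Ω} {u u' v v' : List G} (hu : N.rel u u' χ)
    (hv : N.rel v v' χ) :
    N.Yc M c χ u' v' = conj (N.Γ u u' χ) * N.Yc M c χ u v * N.Γ v v' χ := by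
  simp only [Yc, mask, N.τ_rel _ _ _ hu, N.τ_rel _ _ _ hv, N.X_rel hu hv]
  split_ifs
  · ring
  · simp

theorem Yc_append (M : ℝ) (c : Ω → Fin r) {χ : Ω} {w : List G} (hw : N.dom w χ) (u v : List G) :
    N.Yc M c χ (u ++ w) (v ++ w) = N.Yc M c (N.τ w χ) u v := by
  simp only [Yc, mask, N.τ_append, N.X_append _ _ _ _ hw]

theorem h_reroot {χ : Ω} {w u a : List G} (h : N.rel (u ++ w) a χ) :
    N.h a χ = N.h u (N.τ w χ) + N.h w χ := by
  rw [← N.h_rel _ _ _ h, N.h_append]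

theorem kE_reroot (M : ℝ) (L : ℕ) (c : Ω → Fin r) {χ : Ω} {w : List G} {T : Finset (List G)}
    {π : List G → List G} (hw : N.dom w χ) (hπ : Set.InjOn π T)
    (hrel : ∀ u ∈ T, N.rel (u ++ w) (π u) χ) {u v : List G} (hu : u ∈ T) (hv : v ∈ T) :
    kE L (T.image π) (N.Yc M c χ) (fun a => N.h a χ) (π u) (π v) =
      (Real.exp (N.h w χ) : ℂ) * (conj (N.Γ (u ++ w) (π u) χ) *
        kE L T (N.Yc M c (N.τ w χ)) (fun a => N.h a (N.τ w χ)) u v * N.Γ (v ++ w) (π v) χ) :=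
  kE_image L hπ (fun a => N.Γ (a ++ w) (π a) χ) _ (fun a ha => N.norm_Γ (hrel a ha))
    (fun a ha b hb => by rw [Yc_rel N M c (hrel a ha) (hrel b hb), Yc_append N M c hw])
    (fun a ha => h_reroot N (hrel a ha)) hu hv

/-- A kernel on words that comes from a kernel on vertices. -/
structure Vert (χ : Ω) (K : List G → List G → ℂ) : Prop where
  left : ∀ u v, ¬ N.dom u χ → K u v = 0
  right : ∀ u v, ¬ N.dom v χ → K u v = 0
  rel : ∀ u u' v v', N.rel u u' χ → N.rel v v' χ →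
    K u' v' = conj (N.Γ u u' χ) * K u v * N.Γ v v' χ

theorem Γ_left {χ : Ω} {u : List G} (h : ¬ N.dom u χ) (v : List G) : N.Γ u v χ = 0 := by
  by_contra h'
  exact h (N.rel_dom_left h')

theorem Γ_right {χ : Ω} {v : List G} (h : ¬ N.dom v χ) (u : List G) : N.Γ u v χ = 0 := by
  by_contra h'
  exact h (N.rel_dom_right h')

theorem vert_Γ (χ : Ω) : Vert N χ fun u v => N.Γ u v χ :=
  ⟨fun _ v h => Γ_left N h v, fun u _ h => Γ_right N h u, fun _ _ _ _ => N.Γ_rel⟩

theorem vert_Yc (M : ℝ) (c : Ω → Fin r) (χ : Ω) : Vert N χ (N.Yc M c χ) :=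
  ⟨fun u v h => by simp [Yc, mask, N.X_dom_left h], fun u v h => by
    simp [Yc, mask, N.X_dom_right h], fun _ _ _ _ => Yc_rel N M c⟩

theorem vert_Bm (M : ℝ) (L : ℕ) (τ0 : ℝ) (c : Ω → Fin r) (χ : Ω) :
    Vert N χ (N.Bm M L τ0 c χ) := by
  refine ⟨fun u v h => ?_, fun u v h => ?_, fun u u' v v' hu hv => ?_⟩
  · simp [Bm, Γ_left N h]
  · refine Finset.sum_eq_zero fun w _ => ?_
    rw [Γ_right N fun h' => h (N.dom_append _ _ _ h'), mul_zero]
  · simp only [Bm, Finset.mul_sum, Finset.sum_mul, N.τ_rel _ _ _ hv]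
    refine Finset.sum_congr rfl fun w _ => ?_
    by_cases hd : N.dom (w ++ v) χ
    · rw [N.Γ_rel hu (N.rel_congr hv hd), N.Γ_congr _ _ _ _ hv hd]
      ring
    · rw [Γ_right N hd, Γ_right N fun h' => hd (N.rel_dom_right (N.rel_congr (N.rel_symm hv) h'))]
      ring

theorem sum_Γ {χ : Ω} {m : ℕ} {v : List G} (hv : N.dom v χ) (hm : v.length ≤ m)
    (f : List G → ℂ) :
    ∑ b ∈ N.B m χ, f b * N.Γ b v χ = f (N.rep χ v) * N.Γ (N.rep χ v) v χ := by
  refine Finset.sum_eq_single_of_mem _ (N.rep_mem_B hv hm) fun b hb hne => ?_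
  by_cases h : N.Γ b v χ = 0
  · rw [h, mul_zero]
  · exact absurd (N.rep_eq_of_rel hb (N.rel_symm h)).symm hne

theorem Vert.form_eq {N : Net Ω G} {χ : Ω} {K : List G → List G → ℂ} (hK : Vert N χ K) {m : ℕ}
    {W : Finset (List G)} (hW : ∀ v ∈ W, v.length ≤ m) (ζ : List G → ℂ) :
    form W K ζ = form (N.B m χ) K fun a => ∑ v ∈ W, N.Γ a v χ * ζ v := by
  have key : ∀ u ∈ W, ∀ v ∈ W, K u v =
      ∑ a ∈ N.B m χ, ∑ b ∈ N.B m χ, conj (N.Γ a u χ) * K a b * N.Γ b v χ := by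
    intro u hu v hv
    by_cases hu' : N.dom u χ
    · by_cases hv' : N.dom v χ
      · simp only [sum_Γ N hv' (hW v hv)]
        have h1 := congrArg conj (sum_Γ N hu' (hW u hu)
          fun a => conj (K a (N.rep χ v) * N.Γ (N.rep χ v) v χ))
        simp only [map_sum, map_mul, Complex.conj_conj] at h1
        rw [hK.rel _ _ _ _ (N.rel_symm (N.rel_rep hu')) (N.rel_symm (N.rel_rep hv')), mul_assoc,
          mul_comm, ← h1]
        exact Finset.sum_congr rfl fun a _ => by ring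
      · simp [hK.right u v hv', Γ_right N hv']
    · simp [hK.left u v hu', Γ_right N hu']
  calc form W K ζ = ∑ u ∈ W, ∑ v ∈ W, ∑ a ∈ N.B m χ, ∑ b ∈ N.B m χ,
        conj (N.Γ a u χ * ζ u) * K a b * (N.Γ b v χ * ζ v) := by
        refine Finset.sum_congr rfl fun u hu => Finset.sum_congr rfl fun v hv => ?_
        simp only [key u hu v hv, Finset.mul_sum, Finset.sum_mul, map_mul]
        exact Finset.sum_congr rfl fun a _ => Finset.sum_congr rfl fun b _ => by ring
    _ = ∑ a ∈ N.B m χ, ∑ b ∈ N.B m χ, ∑ u ∈ W, ∑ v ∈ W,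
        conj (N.Γ a u χ * ζ u) * K a b * (N.Γ b v χ * ζ v) := by
        rw [← Finset.sum_product', ← Finset.sum_product' (N.B m χ)]
        simp only [← Finset.sum_product' (N.B m χ), ← Finset.sum_product' W]
        exact Finset.sum_comm
    _ = _ := by
        simp only [form, map_sum, Finset.sum_mul, Finset.mul_sum]
        exact Finset.sum_congr rfl fun a _ => Finset.sum_congr rfl fun b _ => Finset.sum_comm

theorem Bm_eq (M : ℝ) (L : ℕ) (τ0 : ℝ) (c : Ω → Fin r) {χ : Ω} {n : ℕ} {a b : List G}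
    (ha : a ∈ N.B (L + n) χ) (hb : b ∈ N.B n χ) :
    N.Bm M L τ0 c χ a b = kN L τ0 (N.B (L + n) χ) (N.Yc M c χ) (fun w => N.h w χ) a b := by
  have hbd : N.dom b χ := (N.mem_B.1 hb).2.1
  have hT' := N.valid_B L (N.τ b χ)
  have hinj := N.reroot_injOn hbd hT'
  have hrel := N.reroot_rel hbd hT'
  have hsub : (N.B L (N.τ b χ)).image (fun u => N.rep χ (u ++ b)) ⊆ N.B (L + n) χ :=
    (N.image_reroot_B_subset hbd).trans
      (N.B_mono (Nat.add_le_add_left (N.mem_B.1 hb).1 L) χ)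
  have hlay := N.layered_near χ b (N.B (L + n) χ) (X_ne_of_Yc N (M := M) (c := c))
  have hb0 : N.rep χ ([] ++ b) = b := N.rep_eq_of_rel hb hbd
  have h1 : N.Bm M L τ0 c χ a b = ∑ w ∈ N.B L (N.τ b χ), kN L τ0 (N.B L (N.τ b χ))
      (N.Yc M c (N.τ b χ)) (fun w => N.h w (N.τ b χ)) w [] * N.Γ a (w ++ b) χ := by
    rw [Bm, ← Finset.sum_subset (s₁ := N.B L (N.τ b χ))
      (fun w hw => mem_words.2 (N.mem_B.1 hw).1) fun w _ hw => by simp [κw, hw]]
    exact Finset.sum_congr rfl fun w hw => by simp only [κw, if_pos hw]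
  have h2 : ∀ w ∈ N.B L (N.τ b χ), N.Γ a (w ++ b) χ ≠ 0 → N.rep χ (w ++ b) = a := fun w _ h =>
    N.rep_eq_of_rel ha (N.rel_symm h)
  rw [h1]
  by_cases h : a ∈ (N.B L (N.τ b χ)).image fun u => N.rep χ (u ++ b)
  · obtain ⟨w, hw, rfl⟩ := Finset.mem_image.1 h
    rw [Finset.sum_eq_single_of_mem w hw fun w' hw' hne => by
      by_cases h0 : N.Γ (N.rep χ (w ++ b)) (w' ++ b) χ = 0
      · rw [h0, mul_zero]
      · exact absurd (hinj hw' hw (h2 w' hw' h0)) hne]
    have h3 := kE_reroot N M L c hbd hinj hrel hw (N.nil_mem_B L _)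
    simp only [hb0] at h3
    have h4 := gw_add τ0 (N.h w (N.τ b χ)) (N.h [] (N.τ b χ)) (N.h b χ)
    rw [← h_reroot N (hrel w hw), N.h_nil, zero_add] at h4
    rw [kN, kN, kE_local L hsub _ hlay (Finset.mem_image.2 ⟨[], N.nil_mem_B L _, hb0⟩)
      (N.near_refl hbd) fun a ha h => (N.mem_image_reroot_B hbd ha).2 h, h3, N.h_nil, ← h4,
      List.nil_append, N.Γ_self hbd, ← N.Γ_conj]
    push_cast
    ring
  · rw [kN, kE_eq_zero L _ hlay (N.near_refl hbd) fun h' =>
      h ((N.mem_image_reroot_B hbd ha).2 h'), zero_mul]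
    refine Finset.sum_eq_zero fun w hw => ?_
    by_cases h0 : N.Γ a (w ++ b) χ = 0
    · rw [h0, mul_zero]
    · exact absurd (Finset.mem_image.2 ⟨w, hw, h2 w hw h0⟩) h

end Final

open Final

theorem continuous_κw (M : ℝ) (L : ℕ) (τ0 : ℝ) {c : Ω → Fin r} (hc : IsLocallyConstant c)
    (w : List G) : Continuous (N.κw M L τ0 c w) := by
  refine continuous_of_isLocallyConstant
    (F := fun T χ => if w ∈ T then kN L τ0 T (N.Yc M c χ) (fun w => N.h w χ) w [] else 0)
    (N.isLocallyConstant_B L) fun T => ?_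
  split_ifs
  · refine (continuous_kE L T (continuous_Yc N M hc) N.h_cont w []).mul
      (Complex.continuous_ofReal.comp ?_)
    have h1 := N.h_cont w
    have h2 := N.h_cont []
    unfold gw
    fun_prop
  · exact continuous_const

theorem Bm_nil (M : ℝ) (L : ℕ) (τ0 : ℝ) (c : Ω → Fin r) (χ : Ω) :
    N.Bm M L τ0 c χ [] [] = N.κw M L τ0 c [] χ := by
  rw [Bm_eq N M L τ0 c (n := 0) (N.nil_mem_B _ χ) (N.nil_mem_B _ χ), κw,
    if_pos (N.nil_mem_B L χ), add_zero]

theorem integral_κw_nil (hr : 0 < r) (M : ℝ) (L : ℕ) (τ0 : ℝ) {c : Ω → Fin r} (hc : IsLocallyConstant c) :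
    ∫ χ, (N.κw M L τ0 c [] χ).re ∂N.μ = N.Theta M L (fun χ => some (c χ)) := by
  rw [← N.integral_eq_Theta hr M L (σ := fun χ => some (c χ)) (hc.comp some)
    (fun χ T o => (kE L T (N.Yc M c χ) (fun w => N.h w χ) o o).re)]
  · congr 1
    funext χ
    simp [κw, N.nil_mem_B, kN, gw, N.h_nil]
  · intro χ w T π hw _ hπ hrel o ho
    have h1 : conj (N.Γ (o ++ w) (π o) χ) * N.Γ (o ++ w) (π o) χ = 1 := by
      rw [Complex.conj_mul', N.norm_Γ (hrel o ho)]
      simp
    beta_reduce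
    rw [kE_reroot N M L c hw hπ hrel ho ho, mul_right_comm, h1, one_mul, Complex.re_ofReal_mul]
  · intro χ T o v hT _ ho hv
    beta_reduce
    rw [kE_local L (Finset.subset_insert v T) _
      (N.layered_near χ o _ (X_ne_of_Yc N)) ho
      (N.near_refl (hT.1 o (Finset.mem_insert_of_mem ho))) fun a ha h =>
        (Finset.mem_insert.1 ha).resolve_left fun h' => hv (h' ▸ h)]
  · exact fun T o => Complex.continuous_re.comp
      (continuous_kE L T (continuous_Yc N M hc) N.h_cont o o)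
  · intro χ T _
    refine (Fm_dl L (fun w => c (N.τ w χ)) (herm_MX N M χ T) _).symm.trans
      (Fm_congr L (fun _ _ => rfl) (fun u _ v _ => ?_) fun _ _ => rfl)
    simp only [θst_some]
    push_cast
    ring

theorem final_form (M : ℝ) (L : ℕ) {τ0 : ℝ} (hτ0 : 0 < τ0) (c : Ω → Fin r) {S : ℝ}
    (hS : 2 * (Real.exp (2 * N.κ0) * (Fintype.card G + 1)) ≤ S) (t : ℝ) (χ : Ω)
    (W : Finset (List G)) (ζ : List G → ℂ) :
    0 ≤ (form W (N.Bm M L τ0 c χ) ζ).re +
        errK (Fintype.card G) N.κ0 N.R M S L * (form W (fun u v => N.Γ u v χ) ζ).re ∧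
    (form W (N.Yc M c χ) ζ).re ≤
      (t + (Fintype.card G + 1) * (|M| / 256 * N.R) * N.κ0 ^ 2 / (4 * τ0 ^ 2)) *
          (form W (fun u v => N.Γ u v χ) ζ).re +
        Real.exp (τ0 ^ 2 / 4 - t) * ((form W (N.Bm M L τ0 c χ) ζ).re +
          errK (Fintype.card G) N.κ0 N.R M S L * (form W (fun u v => N.Γ u v χ) ζ).re) := by
  set n := W.sup List.length
  have hn : ∀ v ∈ W, v.length ≤ n := fun v hv => Finset.le_sup hv
  have hW : ∀ v ∈ W, v.length ≤ L + n := fun v hv => (hn v hv).trans (Nat.le_add_left _ _)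
  have hT := N.valid_B (L + n) χ
  have e1 : form W (N.Bm M L τ0 c χ) ζ = form (N.B (L + n) χ)
      (kN L τ0 (N.B (L + n) χ) (N.Yc M c χ) fun w => N.h w χ)
      fun a => ∑ v ∈ W, N.Γ a v χ * ζ v := by
    rw [(vert_Bm N M L τ0 c χ).form_eq hW]
    refine Finset.sum_congr rfl fun a ha => Finset.sum_congr rfl fun b hb => ?_
    by_cases h : ∑ v ∈ W, N.Γ b v χ * ζ v = 0
    · simp only [h, mul_zero]
    · obtain ⟨v, hv, h'⟩ := Finset.exists_ne_zero_of_sum_ne_zero h
      have h1 : N.rel b v χ := left_ne_zero_of_mul h'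
      rw [Bm_eq N M L τ0 c ha
        (N.rep_eq_of_rel hb (N.rel_symm h1) ▸ N.rep_mem_B (N.rel_dom_right h1) (hn v hv))]
  have hB : Bdd (N.B (L + n) χ) (N.Yc M c χ) (|M| / 256 * N.R) := by
    have h1 := ((N.bdd_X hT).sm ((M / 256 : ℝ) : ℂ)).mask fun w => c (N.τ w χ)
    rwa [Complex.norm_real, Real.norm_eq_abs, abs_div, abs_of_pos (by norm_num : (0 : ℝ) < 256)]
      at h1
  rw [e1, (vert_Γ N χ).form_eq hW, (vert_Yc N M c χ).form_eq hW, N.form_Γ hT, Complex.ofReal_re]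
  exact finite_final L (SlabAux.herm_mask _ (herm_MX N M χ _))
    (mul_nonneg (by positivity) N.R_nonneg) hB _ (N.near χ)
    (fun o _ => N.layered_near χ o _ (X_ne_of_Yc N)) (fun o ho => N.near_refl (hT.1 o ho))
    (fun _ _ _ _ _ => N.near_symm) N.κ0_nonneg (fun _ _ _ _ _ => N.abs_h_sub_le)
    (fun o _ m => N.ncard_near_le hT o m) hS hτ0 t _

end Net

end Crest.Agent.R109
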