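import Crest.Agent.R109.NetOf
import Crest.Agent.R109.NetFinal

/-! Row 109, task D8: the final operator inequality. -/

set_option autoImplicit false
set_option linter.unusedSectionVars false

noncomputable section

namespace Crest.Agent.R109

open Filter Topology MeasureTheory
open scoped ComplexOrder ComplexConjugate Classical

universe u

variable {𝓜 : Type u} [CStarAlgebra 𝓜] [PartialOrder 𝓜] [StarOrderedRing 𝓜]

variable {R : Reg 𝓜} {Ω : Type*} [TopologicalSpace Ω] [CompactSpace Ω] [MeasurableSpace Ω]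
  [BorelSpace Ω] {ev : 𝓜 → Ω → ℂ} {μ : Measure Ω}

variable {G : Type*} [DecidableEq G] [Fintype G]

namespace FinalOp

/-- The span of the products of a word and an element of `A`. -/
def spn (R : Reg 𝓜) (v : G → 𝓜) : Submodule ℂ 𝓜 :=
  Submodule.span ℂ {y | ∃ w a, a ∈ R.A ∧ y = vw v w * a}

theorem gen_mem {v : G → 𝓜} (w : List G) {a : 𝓜} (ha : a ∈ R.A) : vw v w * a ∈ spn R v :=
  Submodule.subset_span ⟨w, a, ha, rfl⟩

theorem rep {v : G → 𝓜} {s : 𝓜} (hs : s ∈ spn R v) : ∃ (W : Finset (List G)) (a : List G → 𝓜),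
    (∀ w, a w ∈ R.A) ∧ (∀ w ∉ W, a w = 0) ∧ s = ∑ w ∈ W, vw v w * a w := by
  induction hs using Submodule.span_induction with
  | mem y hy =>
    obtain ⟨w, a, ha, rfl⟩ := hy
    refine ⟨{w}, fun u => if u = w then a else 0, fun u => ?_, fun u hu => ?_, by simp⟩
    · dsimp only
      split_ifs
      exacts [ha, zero_mem _]
    · exact if_neg (by simpa using hu)
  | zero => exact ⟨∅, fun _ => 0, fun _ => zero_mem _, fun _ _ => rfl, by simp⟩
  | add y y' _ _ h h' =>
    obtain ⟨W, a, h1, h2, rfl⟩ := h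
    obtain ⟨W', a', h1', h2', rfl⟩ := h'
    refine ⟨W ∪ W', fun w => a w + a' w, fun w => add_mem (h1 w) (h1' w), fun w hw => ?_, ?_⟩
    · rw [Finset.mem_union, not_or] at hw
      simp only [h2 w hw.1, h2' w hw.2, add_zero]
    · simp only [mul_add, Finset.sum_add_distrib]
      congr 1
      · exact Finset.sum_subset Finset.subset_union_left fun w _ hw => by rw [h2 w hw, mul_zero]
      · exact Finset.sum_subset Finset.subset_union_right fun w _ hw => by rw [h2' w hw, mul_zero]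
  | smul c y _ h =>
    obtain ⟨W, a, h1, h2, rfl⟩ := h
    refine ⟨W, fun w => c • a w, fun w => SMulMemClass.smul_mem c (h1 w), fun w hw => ?_, ?_⟩
    · simp only [h2 w hw, smul_zero]
    · simp only [Finset.smul_sum, mul_smul_comm]

variable {v : G → 𝓜} {x : 𝓜} {N : Net Ω G}

theorem mul_mem_spn (hN : IsNetOf R ev v x N) {s s' : 𝓜} (hs : s ∈ spn R v) (hs' : s' ∈ spn R v) :
    s * s' ∈ spn R v := by
  obtain ⟨W, a, h1, -, rfl⟩ := rep hs
  obtain ⟨W', a', h1', -, rfl⟩ := rep hs'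
  rw [Finset.sum_mul_sum]
  refine Submodule.sum_mem _ fun w _ => Submodule.sum_mem _ fun w' _ => ?_
  have hV := WS.Norm.vw hN.norm w'
  have : vw v w * a w * (vw v w' * a' w') =
      vw v (w ++ w') * (star (vw v w') * a w * vw v w' * a' w') := by
    rw [vw_append, mul_assoc, ← mul_assoc (a w), hV.mul_left_eq (h1 w)]
    simp only [mul_assoc]
  rw [this]
  exact gen_mem _ (mul_mem (hV.2 _ (h1 w)).1 (h1' w'))

theorem star_mem_spn (hN : IsNetOf R ev v x N) {s : 𝓜} (hs : s ∈ spn R v) :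
    star s ∈ spn R v := by
  obtain ⟨W, a, h1, -, rfl⟩ := rep hs
  rw [star_sum]
  refine Submodule.sum_mem _ fun w _ => ?_
  have hV := WS.Norm.vw hN.norm (winv N.inv w)
  rw [star_mul, ← vw_winv hN.star_inv, hV.mul_left_eq (star_mem (h1 w))]
  exact gen_mem _ (hV.2 _ (star_mem (h1 w))).1

theorem mem_of_A {a : 𝓜} (ha : a ∈ R.A) : a ∈ spn R v := by
  simpa [vw_nil] using gen_mem (v := v) [] ha

/-- The span as a ⋆-subalgebra. -/
def alg (hN : IsNetOf R ev v x N) : StarSubalgebra ℂ 𝓜 where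
  toSubalgebra := (spn R v).toSubalgebra (mem_of_A R.A.one_mem) fun _ _ => mul_mem_spn hN
  star_mem' := star_mem_spn hN

theorem ev_form (hG : IsGel R ev μ) {W : Finset (List G)} {a : List G → 𝓜} (ha : ∀ w, a w ∈ R.A)
    (y : 𝓜) (χ : Ω) :
    ev (star (∑ w ∈ W, vw v w * a w) * y * ∑ w ∈ W, vw v w * a w) χ =
      form W (fun u w => ev (star (vw v u) * y * vw v w) χ) fun w => ev (a w) χ := by
  rw [star_sum, Finset.sum_mul, Finset.sum_mul_sum, hG.ev_sum, form]
  refine Finset.sum_congr rfl fun u _ => ?_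
  rw [hG.ev_sum]
  refine Finset.sum_congr rfl fun w _ => ?_
  have : star (vw v u * a u) * y * (vw v w * a w) =
      star (a u) * (star (vw v u) * y * vw v w) * a w := by
    simp only [star_mul, mul_assoc]
  rw [this, hG.ev_mul_right (ha w), hG.ev_mul_left (star_mem (ha u)), hG.ev_star]

theorem ev_right (hG : IsGel R ev μ) (hN : IsNetOf R ev v x N) {a : 𝓜} (ha : a ∈ R.A) (y : 𝓜)
    (w : List G) (χ : Ω) :
    ev (y * a * vw v w) χ = ev (y * vw v w) χ * ev a (N.τ w χ) := by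
  have hV := WS.Norm.vw hN.norm w
  rw [mul_assoc, hV.mul_left_eq ha, ← mul_assoc, hG.ev_mul_right (hV.2 a ha).1]
  by_cases h : N.dom w χ
  · rw [hN.τ_eq a ha w χ h]
  · have h0 : ev (y * vw v w) χ = 0 := by
      have h1 : y * vw v w = y * vw v w * (star (vw v w) * vw v w) := by
        rw [mul_assoc, ← mul_assoc (vw v w), hV.1]
      rw [h1, hG.ev_mul_right hV.src_mem, ← hN.Γ_eq, not_not.1 h, mul_zero]
    rw [h0, zero_mul, zero_mul]

theorem ev_left (hG : IsGel R ev μ) (hN : IsNetOf R ev v x N) {a : 𝓜} (ha : a ∈ R.A) (y : 𝓜)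
    (u : List G) (χ : Ω) :
    ev (star (vw v u) * a * y) χ = ev a (N.τ u χ) * ev (star (vw v u) * y) χ := by
  have h1 : star (vw v u) * a * y = star (star y * star a * vw v u) := by
    simp only [star_mul, star_star, mul_assoc]
  have h2 : star (vw v u) * y = star (star y * vw v u) := by
    simp only [star_mul, star_star]
  rw [h1, h2, hG.ev_star, hG.ev_star, ev_right hG hN (star_mem ha), map_mul, hG.ev_star,
    Complex.conj_conj, mul_comm]

theorem ev_pinch (hG : IsGel R ev μ) (hN : IsNetOf R ev v x N) {r : ℕ} (M : ℝ) {c : Ω → Fin r}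
    {p : Fin r → 𝓜} (hp : IsPaving R.A p) (hpc : ∀ l χ, ev (p l) χ = if c χ = l then 1 else 0)
    (χ : Ω) (u w : List G) :
    ev (star (vw v u) * ((M / 256) • pinch p x) * vw v w) χ = N.Yc M c χ u w := by
  rw [mul_smul_comm, smul_mul_assoc, hG.ev_real_smul, pinch, Finset.mul_sum, Finset.sum_mul,
    hG.ev_sum]
  have : ∀ l, ev (star (vw v u) * (p l * x * p l) * vw v w) χ =
      (if c (N.τ u χ) = l then 1 else 0) * N.X u w χ * if c (N.τ w χ) = l then 1 else 0 := by
    intro l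
    have h1 : star (vw v u) * (p l * x * p l) * vw v w =
        star (vw v u) * p l * x * p l * vw v w := by simp only [mul_assoc]
    rw [h1, ev_right hG hN (hp.1 l).1, mul_assoc (star (vw v u) * p l), ev_left hG hN (hp.1 l).1,
      hpc, hpc, hN.X_eq, mul_assoc (star (vw v u))]
  simp only [this, Net.Yc, mask]
  rw [Finset.sum_eq_single (c (N.τ u χ)) (fun l _ hl => by rw [if_neg hl.symm]; simp) (by simp)]
  by_cases h : c (N.τ u χ) = c (N.τ w χ)
  · simp [h]
  · simp [h, Ne.symm h]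

theorem ev_b0 (hG : IsGel R ev μ) (hN : IsNetOf R ev v x N) {r : ℕ} {M : ℝ} {L : ℕ} {τ0 : ℝ}
    {c : Ω → Fin r} {k : List G → 𝓜} (hk : ∀ w, k w ∈ R.A)
    (hk' : ∀ w, ev (k w) = N.κw M L τ0 c w) (χ : Ω) (u w : List G) :
    ev (star (vw v u) * (∑ w' ∈ words G L, vw v w' * k w') * vw v w) χ =
      N.Bm M L τ0 c χ u w := by
  rw [Finset.mul_sum, Finset.sum_mul, hG.ev_sum, Net.Bm]
  refine Finset.sum_congr rfl fun w' _ => ?_
  rw [← mul_assoc, ev_right hG hN (hk w'), hk', hN.Γ_eq, vw_append, mul_assoc, mul_comm]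

end FinalOp

open FinalOp in
theorem IsNetOf.final_op (hG : IsGel R ev μ) {v : G → 𝓜} {x : 𝓜} {N : Net Ω G}
    (hN : IsNetOf R ev v x N) (hμ : N.μ = μ) (hsa : IsSelfAdjoint x) (a : G → 𝓜)
    (ha : ∀ g, a g ∈ R.A) (hx : x = ∑ g, v g * a g) {r : ℕ} (hr : 0 < r) (M : ℝ) (L : ℕ)
    {τ0 : ℝ} (hτ0 : 0 < τ0) {c : Ω → Fin r} (hc : IsLocallyConstant c) {p : Fin r → 𝓜}
    (hp : IsPaving R.A p) (hpc : ∀ l χ, ev (p l) χ = if c χ = l then 1 else 0) {S : ℝ}
    (hS : 2 * (Real.exp (2 * N.κ0) * (Fintype.card G + 1)) ≤ S) (t : ℝ) :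
    ∃ b : 𝓜, 0 ≤ b ∧
      (R.ω b).re = N.Theta M L (fun χ => some (c χ)) +
        errK (Fintype.card G) N.κ0 N.R M S L * (R.ω 1).re ∧
      (M / 256) • pinch p x ≤
        (t + (Fintype.card G + 1) * (|M| / 256 * N.R) * N.κ0 ^ 2 / (4 * τ0 ^ 2)) • (1 : 𝓜) +
          Real.exp (τ0 ^ 2 / 4 - t) • b := by
  choose k hk hk' using fun w => hG.surj _ (N.continuous_κw M L τ0 hc w)
  set b0 := ∑ w' ∈ words G L, vw v w' * k w' with hb0
  set e := errK (Fintype.card G) N.κ0 N.R M S L with he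
  set b := (1 / 2 : ℝ) • (b0 + star b0) + e • (1 : 𝓜) with hb
  have hre : ∀ y χ, (ev (star y) χ).re = (ev y χ).re := fun y χ => by
    rw [hG.ev_star, Complex.conj_re]
  have hconj : ∀ (s : 𝓜) χ, (ev (star s * b * s) χ).re =
      (ev (star s * b0 * s) χ).re + e * (ev (star s * 1 * s) χ).re := fun s χ => by
    have h1 : star s * b * s = (1 / 2 : ℝ) • (star s * b0 * s + star (star s * b0 * s)) +
        e • (star s * 1 * s) := by
      simp only [hb, mul_add, add_mul, mul_smul_comm, smul_mul_assoc, star_mul, star_star,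
        mul_assoc, smul_add]
    rw [h1, hG.ev_add, hG.ev_real_smul, hG.ev_real_smul, hG.ev_add, Complex.add_re,
      Complex.re_ofReal_mul, Complex.re_ofReal_mul, Complex.add_re, hre]
    ring
  have hb0S : b0 ∈ alg hN := Submodule.sum_mem (spn R v) fun w _ => gen_mem w (hk w)
  have hsm : ∀ (c : ℝ) y, y ∈ alg hN → c • y ∈ alg hN := fun c y hy => by
    rw [← Complex.coe_smul]
    exact SMulMemClass.smul_mem _ hy
  have hbS : b ∈ alg hN :=
    add_mem (hsm _ _ (add_mem hb0S (star_mem hb0S))) (hsm _ _ (one_mem _))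
  have hxS : x ∈ alg hN := by
    change x ∈ spn R v
    rw [hx]
    refine Submodule.sum_mem (spn R v) fun g _ => ?_
    simpa [vw_cons, vw_nil] using gen_mem (v := v) [g] (ha g)
  have hpS : pinch p x ∈ alg hN := sum_mem fun l _ =>
    mul_mem (mul_mem (mem_of_A (hp.1 l).1) hxS) (mem_of_A (hp.1 l).1)
  have hbsa : IsSelfAdjoint b :=
    ((IsSelfAdjoint.all _).smul (IsSelfAdjoint.add_star_self b0)).add
      ((IsSelfAdjoint.all _).smul (IsSelfAdjoint.one _))
  have key : ∀ s ∈ alg hN, ∀ χ, 0 ≤ (ev (star s * b * s) χ).re ∧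
      (ev (star s * ((M / 256) • pinch p x) * s) χ).re ≤
        (t + (Fintype.card G + 1) * (|M| / 256 * N.R) * N.κ0 ^ 2 / (4 * τ0 ^ 2)) *
          (ev (star s * 1 * s) χ).re +
        Real.exp (τ0 ^ 2 / 4 - t) * (ev (star s * b * s) χ).re := fun s hs χ => by
    obtain ⟨W, α, h1, -, rfl⟩ := rep hs
    rw [hconj, ev_form hG h1, ev_form hG h1, ev_form hG h1]
    simp only [ev_pinch hG hN M hp hpc, hb0, ev_b0 hG hN hk hk', mul_one, ← hN.Γ_eq]
    exact N.final_form M L hτ0 c hS t χ W _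
  refine ⟨b, R.nonneg_of_test (alg hN) hbS hbsa fun s hs => ?_, ?_, ?_⟩
  · rw [← hG.integral_re]
    exact integral_nonneg fun χ => (key s hs χ).1
  · have h1 : ∀ χ, (ev b0 χ).re = (N.κw M L τ0 c [] χ).re := fun χ => by
      rw [← N.Bm_nil, ← ev_b0 hG hN hk hk', vw_nil, star_one, one_mul, mul_one]
    rw [← N.integral_κw_nil hr M L τ0 hc, hμ, ← funext h1, hG.integral_re, hb, map_add,
      pos_real_smul, pos_real_smul, map_add, pos_star, Complex.add_re, Complex.re_ofReal_mul,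
      Complex.re_ofReal_mul, Complex.add_re, Complex.conj_re]
    ring
  · rw [← sub_nonneg]
    refine R.nonneg_of_test (alg hN)
      (sub_mem (add_mem (hsm _ _ (one_mem _)) (hsm _ _ hbS)) (hsm _ _ hpS))
      ((((IsSelfAdjoint.all _).smul (IsSelfAdjoint.one _)).add
        ((IsSelfAdjoint.all _).smul hbsa)).sub ((IsSelfAdjoint.all _).smul (hp.pinch_sa hsa)))
      fun s hs => ?_
    rw [← hG.integral_re]
    refine integral_nonneg fun χ => ?_
    have h1 := (key s hs χ).2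
    rw [mul_sub, sub_mul, mul_add, add_mul, mul_smul_comm _ _ (1 : 𝓜), mul_smul_comm _ _ b,
      smul_mul_assoc, smul_mul_assoc, hG.ev_sub, hG.ev_add, hG.ev_real_smul, hG.ev_real_smul,
      Complex.sub_re, Complex.add_re, Complex.re_ofReal_mul, Complex.re_ofReal_mul]
    exact sub_nonneg.2 h1

end Crest.Agent.R109
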