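import Crest.Agent.R109.FDefs

/-! Row 109, task A3a: partial fractions of rational Herglotz functions. -/

set_option autoImplicit false

noncomputable section

namespace Crest.Agent.R109

open Polynomial
open scoped ComplexConjugate

namespace Herg

open Filter Topology

/-- blow-up at a real pole of order `m`. -/
theorem local_im (h : ℂ → ℂ) (a : ℝ) (m : ℕ) (hc : ContinuousAt h (a : ℂ))
    (hIm : ∀ w : ℂ, 0 < w.im → (h w / (w - (a : ℂ)) ^ m).im ≤ 0) (u : ℂ) (hu : 0 < u.im) :
    (h a / u ^ m).im ≤ 0 := by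
  have h1 : Tendsto (fun ρ : ℝ => (a : ℂ) + (ρ : ℂ) * u) (𝓝[>] 0) (𝓝 (a : ℂ)) := by
    have : Continuous (fun ρ : ℝ => (a : ℂ) + (ρ : ℂ) * u) := by fun_prop
    have h2 := this.tendsto 0
    simp only [Complex.ofReal_zero, zero_mul, add_zero] at h2
    exact h2.mono_left nhdsWithin_le_nhds
  have h2 : Tendsto (fun ρ : ℝ => (h ((a : ℂ) + (ρ : ℂ) * u) / u ^ m).im) (𝓝[>] 0)
      (𝓝 (h a / u ^ m).im) :=
    (Complex.continuous_im.tendsto _).comp ((hc.tendsto.comp h1).div_const _)
  refine le_of_tendsto h2 ?_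
  filter_upwards [self_mem_nhdsWithin] with ρ hρ
  have hρ' : (0 : ℝ) < ρ := hρ
  have h3 := hIm ((a : ℂ) + (ρ : ℂ) * u) (by simp; positivity)
  have h4 : h ((a : ℂ) + (ρ : ℂ) * u) / u ^ m
      = ((ρ ^ m : ℝ) : ℂ) * (h ((a : ℂ) + (ρ : ℂ) * u) / ((a : ℂ) + (ρ : ℂ) * u - (a : ℂ)) ^ m) := by
    have hρ0 : (ρ : ℂ) ≠ 0 := by exact_mod_cast hρ'.ne'
    have hu0 : u ≠ 0 := by rintro rfl; simp at hu
    rw [add_sub_cancel_left, mul_pow]
    push_cast
    field_simp
  rw [h4, Complex.im_ofReal_mul]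
  exact mul_nonpos_of_nonneg_of_nonpos (by positivity) h3

theorem simple_pole (z : ℂ) (hz : ∀ u : ℂ, 0 < u.im → (z / u ^ 1).im ≤ 0) :
    z.im = 0 ∧ 0 ≤ z.re := by
  have key : ∀ t : ℝ, z.im * t ≤ z.re := by
    intro t
    have h := hz ⟨t, 1⟩ (by norm_num)
    rw [pow_one, Complex.div_im] at h
    have hpos : 0 < Complex.normSq (⟨t, 1⟩ : ℂ) := by
      rw [Complex.normSq_mk]; nlinarith [mul_self_nonneg t]
    rw [← sub_div, div_nonpos_iff] at h
    rcases h with ⟨_, h⟩ | ⟨h, _⟩
    · exact absurd h (not_le.mpr hpos)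
    · simpa using h
  refine ⟨?_, by simpa using key 0⟩
  by_contra hne
  have h := key ((z.re + 1) / z.im)
  rw [mul_div_cancel₀ _ hne] at h
  linarith

theorem higher_pole (z : ℂ) (m : ℕ) (hm : 2 ≤ m)
    (hz : ∀ u : ℂ, 0 < u.im → (z / u ^ m).im ≤ 0) : z = 0 := by
  have hm0 : (0 : ℝ) < m := by exact_mod_cast (by omega : 0 < m)
  have hm2 : (2 : ℝ) ≤ m := by exact_mod_cast hm
  have key : ∀ φ : ℝ, 0 < φ → φ < 2 * Real.pi → z.im * Real.cos φ ≤ z.re * Real.sin φ := by
    intro φ h0 h1
    have hu : 0 < (Complex.exp (((φ / m : ℝ) : ℂ) * Complex.I)).im := by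
      rw [Complex.exp_ofReal_mul_I_im]
      apply Real.sin_pos_of_pos_of_lt_pi (by positivity)
      rw [div_lt_iff₀ hm0]
      nlinarith [Real.pi_pos]
    have h := hz _ hu
    have e : Complex.exp (((φ / m : ℝ) : ℂ) * Complex.I) ^ m
        = Complex.exp ((φ : ℂ) * Complex.I) := by
      rw [← Complex.exp_nat_mul]
      congr 1
      have : (m : ℂ) ≠ 0 := by exact_mod_cast hm0.ne'
      push_cast
      field_simp
    rw [e, Complex.div_im, Complex.exp_ofReal_mul_I_re, Complex.exp_ofReal_mul_I_im,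
      Complex.normSq_eq_norm_sq, Complex.norm_exp_ofReal_mul_I] at h
    simp only [one_pow, div_one] at h
    linarith
  have hπ := Real.pi_pos
  have k1 := key (Real.pi / 2) (by positivity) (by linarith)
  have k2 := key (Real.pi / 2 + Real.pi) (by positivity) (by linarith)
  have k3 := key Real.pi (by positivity) (by linarith)
  have k4 := key (Real.pi / 4) (by positivity) (by linarith)
  rw [Real.cos_pi_div_two, Real.sin_pi_div_two] at k1
  rw [Real.cos_add_pi, Real.sin_add_pi, Real.cos_pi_div_two, Real.sin_pi_div_two] at k2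
  rw [Real.cos_pi, Real.sin_pi] at k3
  rw [Real.cos_pi_div_four, Real.sin_pi_div_four] at k4
  have hre : z.re = 0 := by linarith
  have h2 : 0 < Real.sqrt 2 / 2 := by positivity
  have him : z.im ≤ 0 := by
    rw [hre, zero_mul] at k4
    by_contra hc
    push Not at hc
    nlinarith
  apply Complex.ext
  · simpa using hre
  · simp only [Complex.zero_im]; linarith

theorem contAt_div {κ : Type*} (f : ℂ[X]) (α : κ → ℝ) (t : Finset κ) (a : ℝ)
    (ht : ∀ l ∈ t, α l ≠ a) :
    ContinuousAt (fun w : ℂ => f.eval w / ∏ l ∈ t, (w - (α l : ℂ))) (a : ℂ) := by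
  apply ContinuousAt.div
  · exact f.continuous.continuousAt
  · exact (continuous_finsetProd _ (fun l _ => by fun_prop)).continuousAt
  · refine Finset.prod_ne_zero_iff.mpr (fun l hl => ?_)
    rw [sub_ne_zero]
    exact_mod_cast (ht l hl).symm

theorem prod_natDegree {κ : Type*} (α : κ → ℝ) (t : Finset κ) :
    (∏ l ∈ t, (X - C (α l : ℂ))).natDegree = t.card := by
  rw [natDegree_prod_of_monic _ _ (fun l _ => monic_X_sub_C _)]
  simp

theorem generic {κ : Type*} [DecidableEq κ] (α : κ → ℝ) (s : Finset κ) (f : ℂ[X])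
    (hf : f.natDegree ≤ s.card)
    (hIm : ∀ w : ℂ, 0 < w.im → (f.eval w / ∏ l ∈ s, (w - (α l : ℂ))).im ≤ 0)
    (hne : ∀ l ∈ s, f.eval (α l : ℂ) ≠ 0) :
    ∃ c : κ → ℝ, (∀ l, 0 ≤ c l) ∧
      f = C (f.coeff s.card) * ∏ l ∈ s, (X - C (α l : ℂ)) +
        ∑ l ∈ s, C (c l : ℂ) * ∏ l' ∈ s.erase l, (X - C (α l' : ℂ)) := by
  classical
  -- injectivity
  have hinj : ∀ l ∈ s, ∀ l' ∈ s, α l' = α l → l' = l := by
    intro l hl l' hl' he
    by_contra hll
    have hm : 2 ≤ (s.filter (fun k => α k = α l)).card := by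
      have : ({l', l} : Finset κ) ⊆ s.filter (fun k => α k = α l) := by
        intro k hk
        simp only [Finset.mem_insert, Finset.mem_singleton] at hk
        rcases hk with rfl | rfl <;> simp [*]
      have h2 := Finset.card_le_card this
      rwa [Finset.card_pair hll] at h2
    have hc := contAt_div f α (s.filter (fun k => ¬ α k = α l)) (α l)
      (fun k hk => (Finset.mem_filter.mp hk).2)
    have h0 := higher_pole _ _ hm (local_im _ (α l) _ hc (fun w hw => by
      have h1 := hIm w hw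
      rw [← Finset.prod_filter_mul_prod_filter_not s (fun k => α k = α l)] at h1
      have h2 : ∏ k ∈ s.filter (fun k => α k = α l), (w - (α k : ℂ))
          = (w - (α l : ℂ)) ^ (s.filter (fun k => α k = α l)).card := by
        rw [← Finset.prod_const]
        refine Finset.prod_congr rfl (fun k hk => ?_)
        rw [(Finset.mem_filter.mp hk).2]
      rw [h2, mul_comm, ← div_div] at h1
      exact h1))
    rw [div_eq_zero_iff] at h0
    rcases h0 with h0 | h0
    · exact hne l hl h0
    · rw [Finset.prod_eq_zero_iff] at h0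
      obtain ⟨k, hk, h0⟩ := h0
      rw [sub_eq_zero] at h0
      exact (Finset.mem_filter.mp hk).2 (by exact_mod_cast h0.symm)
  have hne' : ∀ l ∈ s, ∀ k ∈ s.erase l, α k ≠ α l := fun l hl k hk he =>
    (Finset.mem_erase.mp hk).1 (hinj l hl k (Finset.mem_erase.mp hk).2 he)
  -- residues
  set z : κ → ℂ := fun l => f.eval (α l : ℂ) / ∏ k ∈ s.erase l, ((α l : ℂ) - (α k : ℂ)) with hz
  have hres : ∀ l ∈ s, (z l).im = 0 ∧ 0 ≤ (z l).re := by
    intro l hl
    have hc := contAt_div f α (s.erase l) (α l) (hne' l hl)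
    exact simple_pole _ (local_im _ (α l) 1 hc (fun w hw => by
      have h1 := hIm w hw
      rw [← Finset.mul_prod_erase s _ hl, mul_comm, ← div_div] at h1
      rwa [pow_one]))
  refine ⟨fun l => if l ∈ s then (z l).re else 0, fun l => ?_, ?_⟩
  · by_cases hl : l ∈ s
    · simp only [hl, if_true]; exact (hres l hl).2
    · simp [hl]
  · have hv : Set.InjOn (fun l => (α l : ℂ)) s := by
      intro l hl l' hl' he
      exact hinj l' hl' l hl (Complex.ofReal_injective he)
    refine Polynomial.eq_of_degree_sub_lt_of_eval_index_eq s hv ?_ ?_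
    · rw [Polynomial.degree_lt_iff_coeff_zero]
      intro m hm
      have hs : (∑ l ∈ s, C (((if l ∈ s then (z l).re else 0 : ℝ)) : ℂ) *
          ∏ l' ∈ s.erase l, (X - C (α l' : ℂ))).coeff m = 0 := by
        rw [finsetSum_coeff]
        refine Finset.sum_eq_zero (fun l hl => ?_)
        rw [coeff_C_mul, coeff_eq_zero_of_natDegree_lt, mul_zero]
        rw [prod_natDegree, Finset.card_erase_of_mem hl]
        have := Finset.card_pos.mpr ⟨l, hl⟩
        omega
      rw [coeff_sub, coeff_add, hs, add_zero, coeff_C_mul]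
      rcases eq_or_lt_of_le hm with hm | hm
      · have h1 : (∏ l ∈ s, (X - C (α l : ℂ))).coeff m = 1 := by
          have := (monic_prod_of_monic s (fun l => X - C (α l : ℂ))
            (fun l _ => monic_X_sub_C _)).coeff_natDegree
          rwa [prod_natDegree, hm] at this
        rw [h1, hm, mul_one, sub_self]
      · rw [coeff_eq_zero_of_natDegree_lt (lt_of_le_of_lt hf hm),
          coeff_eq_zero_of_natDegree_lt (p := ∏ l ∈ s, (X - C (α l : ℂ)))
            (by rw [prod_natDegree]; exact hm)]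
        simp
    · intro l hl
      simp only [eval_add, eval_mul, eval_C, eval_prod, eval_sub, eval_X, eval_finsetSum]
      rw [Finset.prod_eq_zero hl (sub_self _), mul_zero, zero_add,
        Finset.sum_eq_single l]
      · simp only [hl, if_true]
        have h1 : (((z l).re : ℝ) : ℂ) = z l := by
          apply Complex.ext <;> simp [(hres l hl).1]
        rw [h1, hz]
        have h2 : ∏ k ∈ s.erase l, ((α l : ℂ) - (α k : ℂ)) ≠ 0 := by
          refine Finset.prod_ne_zero_iff.mpr (fun k hk => ?_)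
          rw [sub_ne_zero]
          exact_mod_cast (hne' l hl k hk).symm
        simp only
        rw [div_mul_cancel₀ _ h2]
      · intro k _ hk
        rw [Finset.prod_eq_zero (Finset.mem_erase.mpr ⟨hk.symm, hl⟩) (sub_self _), mul_zero]
      · intro h; exact absurd hl h

theorem herglotz_finset {κ : Type*} [DecidableEq κ] (α : κ → ℝ) (n : ℕ) :
    ∀ (s : Finset κ) (f : ℂ[X]), s.card = n → f.natDegree ≤ s.card →
    (∀ w : ℂ, 0 < w.im → (f.eval w / ∏ l ∈ s, (w - (α l : ℂ))).im ≤ 0) →
    ∃ c : κ → ℝ, (∀ l, 0 ≤ c l) ∧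
      f = C (f.coeff s.card) * ∏ l ∈ s, (X - C (α l : ℂ)) +
        ∑ l ∈ s, C (c l : ℂ) * ∏ l' ∈ s.erase l, (X - C (α l' : ℂ)) := by
  induction n with
  | zero =>
    intro s f hs hf hIm
    refine generic α s f hf hIm (fun l hl => ?_)
    rw [Finset.card_eq_zero] at hs
    simp [hs] at hl
  | succ n ih =>
    intro s f hs hf hIm
    by_cases hne : ∀ l ∈ s, f.eval (α l : ℂ) ≠ 0
    · exact generic α s f hf hIm hne
    push Not at hne
    obtain ⟨l, hl, h0⟩ := hne
    obtain ⟨g, hg⟩ : (X - C (α l : ℂ)) ∣ f := dvd_iff_isRoot.mpr h0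
    have hcard : (s.erase l).card = n := by rw [Finset.card_erase_of_mem hl, hs]; rfl
    have hgdeg : g.natDegree ≤ (s.erase l).card := by
      by_cases hg0 : g = 0
      · simp [hg0]
      · rw [hg, (monic_X_sub_C _).natDegree_mul' hg0, natDegree_X_sub_C, hs] at hf
        omega
    obtain ⟨c, hc0, hc⟩ := ih (s.erase l) g hcard hgdeg (fun w hw => by
      have h1 := hIm w hw
      have hw0 : w - (α l : ℂ) ≠ 0 := by
        intro h
        rw [sub_eq_zero] at h
        rw [h] at hw
        simp at hw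
      rw [← Finset.mul_prod_erase s _ hl, hg, eval_mul, eval_sub, eval_X, eval_C,
        mul_div_mul_left _ _ hw0] at h1
      exact h1)
    refine ⟨Function.update c l 0, fun k => ?_, ?_⟩
    · by_cases hk : k = l
      · simp [hk]
      · simp [Function.update_of_ne hk, hc0]
    · have hco : f.coeff s.card = g.coeff (s.erase l).card := by
        rw [hg, hs, coeff_X_sub_C_mul, hcard,
          coeff_eq_zero_of_natDegree_lt (p := g) (n := n + 1) (by omega)]
        simp
      rw [hco, ← Finset.add_sum_erase s _ hl, ← Finset.mul_prod_erase s _ hl]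
      simp only [Function.update_self, Complex.ofReal_zero, map_zero, zero_mul, zero_add]
      conv_lhs => rw [hg, hc]
      rw [mul_add, Finset.mul_sum]
      congr 1
      · ring
      · refine Finset.sum_congr rfl (fun k hk => ?_)
        have hkl : k ≠ l := (Finset.mem_erase.mp hk).1
        rw [Function.update_of_ne hkl, Finset.erase_right_comm,
          ← Finset.mul_prod_erase (s.erase k) _ (Finset.mem_erase.mpr ⟨hkl.symm, hl⟩)]
        ring

end Herg

theorem herglotz {κ : Type*} [Fintype κ] [DecidableEq κ] (f : ℂ[X]) (α : κ → ℝ)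
    (hf : f.natDegree ≤ Fintype.card κ)
    (hIm : ∀ w : ℂ, 0 < w.im → (f.eval w / ∏ l, (w - (α l : ℂ))).im ≤ 0) :
    ∃ c : κ → ℝ, (∀ l, 0 ≤ c l) ∧
      f = C (f.coeff (Fintype.card κ)) * ∏ l, (X - C (α l : ℂ)) +
        ∑ l, C (c l : ℂ) * ∏ l' ∈ Finset.univ.erase l, (X - C (α l' : ℂ)) :=
  Herg.herglotz_finset α _ Finset.univ f rfl hf hIm

end Crest.Agent.R109
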