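import Crest.Agent.R109.InitAux

/-! Row 109, task A7: the barrier bound for uniform colourings. -/

set_option autoImplicit false

noncomputable section

namespace Crest.Agent.R109

open Polynomial
open scoped ComplexConjugate

namespace Init

open Finset

variable {ι : Type*} [DecidableEq ι] {r : ℕ}

omit [DecidableEq ι] in
theorem bdd_mask_of_fibers {S : Finset ι} {X : ι → ι → ℂ} {R : ℝ} (c : ι → Fin r)
    (h : ∀ j, Bdd (S.filter fun v => c v = j) X R) : Bdd S (mask c X) R := by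
  intro η
  rw [← sum_fiberwise S c fun v => ‖η v‖ ^ 2, ← sum_fiberwise S c, mul_sum]
  refine sum_le_sum fun j _ => le_trans (le_of_eq ?_) (h j η)
  refine sum_congr rfl fun u hu => ?_
  rw [sum_filter]
  congr 2
  refine sum_congr rfl fun v _ => ?_
  rw [mask, (mem_filter.1 hu).2]
  by_cases hv : c v = j
  · rw [if_pos hv, if_pos hv.symm]
  · rw [if_neg hv, if_neg fun h => hv h.symm, zero_mul]

/-- a zero-free region adapted to a vanishing diagonal entry -/
theorem det_ne_zero {S : Finset ι} {X : ι → ι → ℂ} {R b : ℝ} (c : ι → Fin r)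
    (hB : Bdd S (mask c X) R) {y : ι} (hy : y ∈ S) (hyy : X y y = 0) (hR : 0 ≤ R) (hb : R < b)
    {z : ι → ℝ} (hz : ∀ v ∈ S, v ≠ y → z v = b) (hzy : R ^ 2 < z y * b) :
    (blk S X (fun v => (z v : ℂ)) fun v => c v).det ≠ 0 := by
  intro hdet
  obtain ⟨ζ, hζ, hζ0⟩ := Matrix.exists_mulVec_eq_zero_iff.2 hdet
  set η : ι → ℂ := fun v => if h : v ∈ S then ζ ⟨v, h⟩ else 0 with hη
  have hηζ : ∀ v : S, η v = ζ v := fun v => by simp [hη]
  have heq : ∀ u ∈ S, ∑ v ∈ S, mask c X u v * η v = z u * η u := by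
    intro u hu
    have h1 := congrFun hζ0 ⟨u, hu⟩
    simp only [Matrix.mulVec, dotProduct, blk, Matrix.of_apply, sub_mul, sum_sub_distrib, ite_mul,
      zero_mul, sum_ite_eq, mem_univ, if_true, Pi.zero_apply] at h1
    rw [← sum_coe_sort S fun v => mask c X u v * η v, hηζ ⟨u, hu⟩, sub_eq_zero.1 h1]
    refine sum_congr rfl fun v _ => ?_
    simp only [mask, hηζ, ite_mul, zero_mul]
  set N := ∑ v ∈ S.erase y, ‖η v‖ ^ 2 with hN
  have hN0 : 0 ≤ N := sum_nonneg fun _ _ => sq_nonneg _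
  have hA : z y ^ 2 * ‖η y‖ ^ 2 + b ^ 2 * N ≤ R ^ 2 * (‖η y‖ ^ 2 + N) := by
    have h1 := hB η
    rw [sum_congr rfl fun u hu => by rw [heq u hu], ← add_sum_erase S _ hy,
      ← add_sum_erase S (fun v => ‖η v‖ ^ 2) hy] at h1
    refine le_trans (le_of_eq ?_) h1
    rw [hN, mul_sum, norm_mul, mul_pow, Complex.norm_real, Real.norm_eq_abs, sq_abs]
    congr 1
    refine sum_congr rfl fun v hv => ?_
    rw [norm_mul, mul_pow, Complex.norm_real, Real.norm_eq_abs, sq_abs,
      hz v (mem_of_mem_erase hv) (ne_of_mem_erase hv)]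
  have hB' : z y ^ 2 * ‖η y‖ ^ 2 ≤ R ^ 2 * N := by
    have h1 := hB (Function.update η y 0)
    have h2 : ∑ v ∈ S, ‖Function.update η y 0 v‖ ^ 2 = N := by
      rw [← add_sum_erase S _ hy, Function.update_self, norm_zero, hN]
      simp only [ne_eq, OfNat.ofNat_ne_zero, not_false_eq_true, zero_pow, zero_add]
      exact sum_congr rfl fun v hv => by rw [Function.update_of_ne (ne_of_mem_erase hv)]
    have h3 : ∑ v ∈ S, mask c X y v * Function.update η y 0 v = z y * η y := by
      rw [← heq y hy]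
      refine sum_congr rfl fun v _ => ?_
      rcases eq_or_ne v y with rfl | hv
      · simp [mask, hyy]
      · rw [Function.update_of_ne hv]
    rw [h2] at h1
    refine le_trans ?_ h1
    refine le_trans (le_of_eq ?_) (single_le_sum
      (f := fun u => ‖∑ v ∈ S, mask c X u v * Function.update η y 0 v‖ ^ 2)
      (fun _ _ => sq_nonneg _) hy)
    simp only [h3]
    rw [norm_mul, mul_pow, Complex.norm_real, Real.norm_eq_abs, sq_abs]
  have hb2 : 0 < b ^ 2 - R ^ 2 := by nlinarith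
  have hm : ‖η y‖ ^ 2 = 0 := by
    refine le_antisymm ?_ (sq_nonneg _)
    have h1 : (R ^ 2) ^ 2 < (z y * b) ^ 2 := by gcongr
    have h2 := mul_le_mul_of_nonneg_left hB' hb2.le
    have h3 := mul_le_mul_of_nonneg_left hA (sq_nonneg R)
    have h4 : ((z y * b) ^ 2 - (R ^ 2) ^ 2) * ‖η y‖ ^ 2 ≤ 0 := by nlinarith
    exact nonpos_of_mul_nonpos_right h4 (sub_pos.2 h1)
  have hN' : N = 0 := by
    refine le_antisymm ?_ hN0
    rw [hm] at hA
    nlinarith
  refine hζ (funext fun v => ?_)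
  rw [← hηζ, Pi.zero_apply]
  rcases eq_or_ne (v : ι) y with h | h
  · rw [h]
    simpa using hm
  · simpa using (sum_eq_zero_iff_of_nonneg fun _ _ => sq_nonneg _).1 hN' v (mem_erase.2 ⟨h, v.2⟩)

/-- colour laws on the extended vertex set -/
def pp (ι : Type*) (r : ℕ) (y : ι × Option (Fin r)) : Fin r → ℝ := y.2.elim (unif r) (dl ℝ)

/-- the kernel on the extended vertex set -/
def XX (r : ℕ) (X : ι → ι → ℂ) (y y' : ι × Option (Fin r)) : ℂ := X y.1 y'.1

/-- the barrier point -/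
def zz (ι : Type*) (r : ℕ) (t b : ℝ) (y : ι × Option (Fin r)) : ℝ := y.2.elim t fun _ => b

/-- the vertices present after processing `V` -/
def InW (T V : Finset ι) (y : ι × Option (Fin r)) : Prop := y.1 ∈ T ∧ (y.2 = none ↔ y.1 ∈ V)

theorem isProb_pp (hr : 0 < r) : IsProb (pp ι r) := by
  have h1 := isProb_unif (ι := ι) hr
  refine ⟨fun ⟨v, o⟩ j => ?_, fun ⟨v, o⟩ => ?_⟩
  · cases o with
    | none => exact h1.1 v j
    | some i => exact (isProb_dl fun _ : ι => i).1 v j
  · cases o with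
    | none => exact h1.2 v
    | some i => exact (isProb_dl fun _ : ι => i).2 v

omit [DecidableEq ι] in
theorem herm_XX {T : Finset ι} {X : ι → ι → ℂ} (hX : Herm T X) {S : Finset (ι × Option (Fin r))}
    (hS : ∀ y ∈ S, y.1 ∈ T) : Herm S (XX r X) := fun u hu v hv => hX _ (hS u hu) _ (hS v hv)

/-- the invariant of the barrier argument -/
def Inv (r : ℕ) (T : Finset ι) (X : ι → ι → ℂ) (t b κ : ℝ) (V : Finset ι) : Prop :=
  ∀ S : Finset (ι × Option (Fin r)), (∀ y ∈ S, InW T V y) →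
    0 < qr (pp ι r) (XX r X) S (zz ι r t b) ∧ ∀ y ∈ S, y.2 ≠ none →
      κ * qr (pp ι r) (XX r X) (S.erase y) (zz ι r t b) ≤ qr (pp ι r) (XX r X) S (zz ι r t b)

variable {T : Finset ι} {X : ι → ι → ℂ} {R t b : ℝ}

theorem base_ratio (hr : 0 < r) (hX : Herm T X) (hdiag : ∀ v ∈ T, X v v = 0) (hR : 0 ≤ R)
    (hB : Bdd T X R) (hb : R < b) {S : Finset (ι × Option (Fin r))} {y : ι × Option (Fin r)}
    (hy : y ∉ S) (hS : ∀ y' ∈ insert y S, InW T ∅ y')
    (ha : 0 < qr (pp ι r) (XX r X) S (zz ι r t b)) :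
    (b - R ^ 2 / b) * qr (pp ι r) (XX r X) S (zz ι r t b) ≤
      qr (pp ι r) (XX r X) (insert y S) (zz ι r t b) := by
  have hb0 : 0 < b := hR.trans_lt hb
  set c : ι × Option (Fin r) → Fin r := fun y => y.2.getD ⟨0, hr⟩ with hc
  have hsome : ∀ y' ∈ insert y S, y'.2 = some (c y') := fun ⟨v, o⟩ hy' => by
    cases o with
    | none => exact absurd ((hS _ hy').2.1 rfl) (notMem_empty _)
    | some j => rfl
  have hzb : ∀ y' ∈ insert y S, zz ι r t b y' = b := fun y' hy' => by
    rw [zz, hsome y' hy']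
    rfl
  have hBm : Bdd (insert y S) (mask c (XX r X)) R := by
    refine bdd_mask_of_fibers c fun j => ?_
    refine (Bdd.image (e := Prod.fst) (X := X) ?_).1 (hB.mono fun v hv => ?_)
    · intro u hu v hv h
      obtain ⟨hu1, hu2⟩ := mem_filter.1 hu
      obtain ⟨hv1, hv2⟩ := mem_filter.1 hv
      exact Prod.ext h (by rw [hsome u hu1, hsome v hv1, hu2, hv2])
    · obtain ⟨u, hu, rfl⟩ := mem_image.1 hv
      exact (hS u (mem_filter.1 hu).1).1
  set a := qr (pp ι r) (XX r X) S (zz ι r t b) with ha_def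
  set a₁ := qr (pp ι r) (XX r X) (insert y S) (zz ι r t b) with ha₁
  by_contra hlt
  rw [not_le] at hlt
  set z' := Function.update (zz ι r t b) y (b - a₁ / a) with hz'
  have hzS : ∀ v ∈ S, z' v = zz ι r t b v := fun v hv =>
    Function.update_of_ne (ne_of_mem_of_not_mem hv hy) _ _
  have h0 : qr (pp ι r) (XX r X) (insert y S) z' = 0 := by
    rw [qr_insert (isProb_pp hr) hy hzS, qr_congr hzS, hz', Function.update_self,
      hzb y (mem_insert_self _ _), ← ha_def, ← ha₁]
    field_simp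
    ring
  refine det_ne_zero c hBm (mem_insert_self y S) (hdiag _ (hS y (mem_insert_self _ _)).1) hR hb
    (z := z') (fun v hv hvy => by rw [hz', Function.update_of_ne hvy, hzb v hv]) ?_ ?_
  · rw [hz', Function.update_self, ← div_lt_iff₀ hb0, lt_sub_comm, div_lt_iff₀ ha]
    exact hlt
  · rw [← Q_dl, ← Complex.ofReal_zero, ← h0, ← Q_eq_qr (herm_XX hX fun y' hy' => (hS y' hy').1)]
    refine Q_congr (fun v hv => ?_) (fun _ _ _ _ => rfl) fun _ _ => rfl
    funext j
    simp only [cp, pp, hsome v hv, Option.elim, dl]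
    split_ifs <;> simp

theorem inv_empty (hr : 0 < r) (hX : Herm T X) (hdiag : ∀ v ∈ T, X v v = 0) (hR : 0 ≤ R)
    (hB : Bdd T X R) (hb : R < b) : Inv r T X t b (b - R ^ 2 / b) ∅ := by
  have hb0 : 0 < b := hR.trans_lt hb
  have hκ : 0 < b - R ^ 2 / b := by
    rw [sub_pos, div_lt_iff₀ hb0]
    nlinarith
  have hpos : ∀ S : Finset (ι × Option (Fin r)), (∀ y ∈ S, InW T ∅ y) →
      0 < qr (pp ι r) (XX r X) S (zz ι r t b) := by
    intro S
    induction S using Finset.induction_on with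
    | empty => intro _; rw [qr_empty]; exact one_pos
    | insert y S hy ih =>
      intro hS
      have ha := ih fun y' hy' => hS y' (mem_insert_of_mem hy')
      exact (mul_pos hκ ha).trans_le (base_ratio hr hX hdiag hR hB hb hy hS ha)
  refine fun S hS => ⟨hpos S hS, fun y hy _ => ?_⟩
  have := base_ratio (t := t) hr hX hdiag hR hB hb (notMem_erase y S) (by rwa [insert_erase hy])
    (hpos _ fun y' hy' => hS y' (mem_of_mem_erase hy'))
  rwa [insert_erase hy] at this

/-- the copies of a vertex -/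
def cop (r : ℕ) (v : ι) : Finset (ι × Option (Fin r)) := univ.image fun j => (v, some j)

theorem mem_cop {v : ι} {y : ι × Option (Fin r)} : y ∈ cop r v ↔ y.1 = v ∧ y.2 ≠ none := by
  obtain ⟨u, o⟩ := y
  cases o <;> simp [cop, eq_comm]

omit [DecidableEq ι] in
theorem cop_inj (v : ι) : Function.Injective fun j : Fin r => (v, some j) := fun _ _ h =>
  Option.some_injective _ (congrArg Prod.snd h)

theorem card_cop (v : ι) : (cop r v).card = r := by
  rw [cop, card_image_of_injective _ (cop_inj v), card_univ, Fintype.card_fin]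

/-- averaging over the colour of `v` -/
theorem qr_none (hr : 0 < r) {v : ι} {S : Finset (ι × Option (Fin r))} (hS : ∀ y ∈ S, y.1 ≠ v) :
    qr (pp ι r) (XX r X) (insert (v, none) S) (zz ι r t b) =
      t * qr (pp ι r) (XX r X) S (zz ι r t b) + (∑ d ∈ cop r v,
        qr (pp ι r) (XX r X) (insert d S) (zD (cop r v) (zz ι r t b) 0)) / (cop r v).card := by
  have hn : ∀ o : Option (Fin r), (v, o) ∉ S := fun o h => hS _ h rfl
  have h1 : ∀ j : Fin r, Q (insert (v, some j) S) (cp (pp ι r)) (XX r X)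
      (fun y => (zD (cop r v) (zz ι r t b) 0 y : ℂ)) =
      -Bq S (v, none) j (cp (pp ι r)) (XX r X) fun y => (zz ι r t b y : ℂ) := by
    intro j
    have h2 : zD (cop r v) (zz ι r t b) 0 (v, some j) = 0 := if_pos (mem_cop.2 ⟨rfl, by simp⟩)
    rw [Q_insert' (isProb_pp hr) (hn _), h2, Complex.ofReal_zero, zero_mul, zero_sub,
      sum_eq_single j (fun i _ hi => by simp [cp, pp, dl, hi]) (by simp),
      Bq_congr (hn (some j)) (hn none) j _ _ (fun _ _ => ⟨rfl, rfl⟩) rfl,
      Bq_congr_z (z' := fun y => (zz ι r t b y : ℂ)) _ _ _ fun y hy => by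
        rw [zD, if_neg fun h => hS y hy (mem_cop.1 h).1]]
    simp [cp, pp, dl]
  rw [card_cop, cop, sum_image fun _ _ _ _ h => cop_inj v h, ← cop]
  unfold qr
  simp only [h1]
  rw [Q_insert' (isProb_pp hr) (hn _), Complex.sub_re, Complex.re_ofReal_mul, Complex.re_sum,
    sum_div, sub_eq_add_neg, ← sum_neg_distrib]
  congr 1
  refine sum_congr rfl fun j _ => ?_
  simp only [cp, pp, Option.elim, unif, Complex.re_ofReal_mul, Complex.neg_re]
  ring

theorem inv_insert (hr : 0 < r) (hX : Herm T X) (hdiag : ∀ v ∈ T, X v v = 0) {κ : ℝ} (hb : 0 < b)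
    (hκ : 0 < κ) (ht : b / r + (b - κ) ≤ t) {V : Finset ι} {v : ι} (hv : v ∉ V)
    (h : Inv r T X t b κ V) : Inv r T X t b κ (insert v V) := by
  intro S hS
  have hW : ∀ y, InW (r := r) T (insert v V) y → y ≠ (v, none) → y.1 ≠ v ∧ InW T V y := by
    intro y hy hne
    have h1 : y.1 ≠ v := fun h1 => hne (Prod.ext h1 (hy.2.2 (h1 ▸ mem_insert_self _ _)))
    exact ⟨h1, hy.1, hy.2.trans (by simp [h1])⟩
  by_cases hvS : (v, none) ∈ S
  swap
  · exact h S fun y hy => (hW y (hS y hy) fun e => hvS (e ▸ hy)).2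
  obtain ⟨S₀, hS₀, rfl⟩ : ∃ S₀, (v, none) ∉ S₀ ∧ S = insert (v, none) S₀ :=
    ⟨S.erase _, notMem_erase _ _, (insert_erase hvS).symm⟩
  have hvT : v ∈ T := (hS _ hvS).1
  have h0 : ∀ y ∈ S₀, y.1 ≠ v ∧ InW T V y := fun y hy =>
    hW y (hS y (mem_insert_of_mem hy)) fun e => hS₀ (e ▸ hy)
  have hD : ∀ d ∈ cop r v, InW T V d := fun d hd => by
    obtain ⟨h1, h2⟩ := mem_cop.1 hd
    exact ⟨h1 ▸ hvT, by simp [h1, h2, hv]⟩
  have hU : ∀ y ∈ S₀ ∪ cop r v, InW T V y := fun y hy =>
    (mem_union.1 hy).elim (fun h => (h0 y h).2) (hD y)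
  have hdisj : Disjoint S₀ (cop r v) :=
    disjoint_left.2 fun y hy hy' => (h0 y hy).1 (mem_cop.1 hy').1
  have hzD : ∀ d ∈ cop r v, zz ι r t b d = b := fun ⟨u, o⟩ hd => by
    cases o with
    | none => exact absurd rfl (mem_cop.1 hd).2
    | some j => rfl
  have ha := (h S₀ fun y hy => (h0 y hy).2).1
  have hr' : (0 : ℝ) < r := by exact_mod_cast hr
  have hlow : b / (cop r v).card * qr (pp ι r) (XX r X) S₀ (zz ι r t b) ≤
      t * qr (pp ι r) (XX r X) S₀ (zz ι r t b) + (∑ d ∈ cop r v,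
        qr (pp ι r) (XX r X) (insert d S₀) (zD (cop r v) (zz ι r t b) 0)) / (cop r v).card := by
    have h1 : ∀ d ∈ cop r v, (κ - b) * qr (pp ι r) (XX r X) S₀ (zz ι r t b) ≤
        qr (pp ι r) (XX r X) (insert d S₀) (zD (cop r v) (zz ι r t b) 0) := by
      intro d hd
      have hd0 : d ∉ S₀ := disjoint_right.1 hdisj hd
      have h2 := (h (insert d S₀) fun y hy => (mem_insert.1 hy).elim (fun e => e ▸ hD d hd)
        fun hy => (h0 y hy).2).2 d (mem_insert_self _ _) (mem_cop.1 hd).2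
      rw [erase_insert hd0, qr_insert (isProb_pp hr) hd0 (z' := zD (cop r v) (zz ι r t b) 0)
        (fun y hy => (if_neg (disjoint_left.1 hdisj hy)).symm), hzD d hd, zD, if_pos hd] at h2
      linarith
    have h2 := card_nsmul_le_sum _ _ _ h1
    rw [card_cop, nsmul_eq_mul, mul_comm, ← le_div_iff₀ hr'] at h2
    rw [card_cop]
    nlinarith [mul_le_mul_of_nonneg_right ht ha.le]
  refine ⟨?_, fun y hy hy2 => ?_⟩
  · rw [qr_none hr fun y hy => (h0 y hy).1]
    refine lt_of_lt_of_le ?_ hlow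
    rw [card_cop]
    positivity
  have hyv : y ≠ (v, none) := fun e => hy2 (by rw [e])
  have hy0 : y ∈ S₀ := (mem_insert.1 hy).resolve_left hyv
  obtain ⟨S₁, hS₁, rfl⟩ : ∃ S₁, y ∉ S₁ ∧ S₀ = insert y S₁ :=
    ⟨S₀.erase _, notMem_erase _ _, (insert_erase hy0).symm⟩
  obtain ⟨hyD, hdisj'⟩ := disjoint_insert_left.1 hdisj
  rw [erase_insert_of_ne hyv.symm, erase_insert hS₁, qr_none hr fun y hy => (h0 y hy).1,
    qr_none hr fun y hy => (h0 y (mem_insert_of_mem hy)).1]
  refine step_ratio (isProb_pp hr) hdisj' (card_pos.1 (by rwa [card_cop])) hS₁ hyD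
    (herm_XX hX fun y hy => (hU y hy).1) (fun u hu w hw => ?_) hb hκ hzD
    (fun S' hS' => (h S' fun y hy => hU y (hS' hy)).1) ?_ hlow
  · rw [XX, (mem_cop.1 hu).1, (mem_cop.1 hw).1, hdiag v hvT]
  · have := (h _ hU).2 y (mem_union_left _ (mem_insert_self _ _)) hy2
    rwa [insert_union, erase_insert (by simp [hS₁, hyD]), ← insert_union] at this

end Init

variable {ι : Type*} [DecidableEq ι] {r : ℕ}

open Init in
theorem Q_unif_pos (hr : 0 < r) {T : Finset ι} {X : ι → ι → ℂ} (hX : Herm T X)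
    (hdiag : ∀ v ∈ T, X v v = 0) {R : ℝ} (hR : 0 ≤ R) (hB : Bdd T X R) (z : ι → ℝ)
    (hz : ∀ v ∈ T, 3 * R / Real.sqrt r < z v) :
    0 < (Q T (cp (fun _ => unif r)) X (fun v => (z v : ℂ))).re := by
  rcases hR.eq_or_lt with rfl | hR0
  · rw [Q_of_zero (isProb_unif hr) fun u hu v hv => norm_le_zero_iff.1 (hB.norm_entry_le hR hu hv),
      ← Complex.ofReal_prod, Complex.ofReal_re]
    exact Finset.prod_pos fun v hv => by simpa using hz v hv
  set s := Real.sqrt r with hs
  have hs1 : 1 ≤ s := Real.one_le_sqrt.2 (by exact_mod_cast hr)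
  have hss : (r : ℝ) = s ^ 2 := (Real.sq_sqrt (Nat.cast_nonneg r)).symm
  have hb : R < 2 * s * R := by nlinarith
  have hκ : 0 < 2 * s * R - R ^ 2 / (2 * s * R) := by
    rw [sub_pos, div_lt_iff₀ (by positivity)]
    nlinarith
  have ht : 2 * s * R / r + (2 * s * R - (2 * s * R - R ^ 2 / (2 * s * R))) ≤ 3 * R / s := by
    have : 2 * s * R / r + (2 * s * R - (2 * s * R - R ^ 2 / (2 * s * R))) = 5 / 2 * R / s := by
      rw [hss]
      field_simp
      ring
    rw [this]
    gcongr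
    norm_num
  have hinv : ∀ V, Inv r T X (3 * R / s) (2 * s * R) (2 * s * R - R ^ 2 / (2 * s * R)) V := by
    intro V
    induction V using Finset.induction_on with
    | empty => exact inv_empty hr hX hdiag hR hB hb
    | insert v V hv ih => exact inv_insert hr hX hdiag (by positivity) hκ ht hv ih
  refine qr_pos_mono (isProb_unif hr) (z := fun _ => 3 * R / s) (fun S hS => ?_)
    (fun v hv => (hz v hv).le) T subset_rfl
  have h1 := (hinv T (S.image fun v => (v, none)) fun y hy => by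
    obtain ⟨v, hv, rfl⟩ := Finset.mem_image.1 hy
    exact ⟨hS hv, by simp [hS hv]⟩).1
  unfold qr at h1 ⊢
  rwa [Q_image fun _ _ _ _ h => congrArg Prod.fst h] at h1

end Crest.Agent.R109
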