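import Crest.Agent.R109.QHerg
import Crest.Agent.R109.Herglotz

/-! Row 109, task A7, auxiliary file: real values of `Q`, monotonicity, the barrier step. -/

set_option autoImplicit false

noncomputable section

namespace Crest.Agent.R109.Init

open Polynomial Finset
open scoped ComplexConjugate

variable {ι : Type*} [DecidableEq ι] {r : ℕ}

/-- the real value of `Q` at a real point -/
def qr (p : ι → Fin r → ℝ) (X : ι → ι → ℂ) (S : Finset ι) (z : ι → ℝ) : ℝ :=
  (Q S (cp p) X (fun v => (z v : ℂ))).re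

/-- replace the coordinates in `D` by `w` -/
def zD (D : Finset ι) (z : ι → ℝ) (w : ℝ) : ι → ℝ := fun v => if v ∈ D then w else z v

variable {p : ι → Fin r → ℝ} {X : ι → ι → ℂ}

theorem Q_eq_qr {S : Finset ι} (hX : Herm S X) (p : ι → Fin r → ℝ) (z : ι → ℝ) :
    Q S (cp p) X (fun v => (z v : ℂ)) = (qr p X S z : ℂ) :=
  Complex.ext (by simp [qr]) (by simp [Q_im_eq_zero hX])

theorem qr_congr {S : Finset ι} {z z' : ι → ℝ} (h : ∀ v ∈ S, z v = z' v) :
    qr p X S z = qr p X S z' := by
  unfold qr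
  rw [Q_congr (fun _ _ => rfl) (fun _ _ _ _ => rfl) fun v hv => by rw [h v hv]]

theorem qr_empty (z : ι → ℝ) : qr p X ∅ z = 1 := by simp [qr, Q_empty]

omit [DecidableEq ι] in
theorem sum_cp (hp : IsProb p) (u : ι) : ∑ j, cp p u j = 1 := by
  unfold cp
  exact_mod_cast hp.2 u

theorem Q_insert' (hp : IsProb p) {S : Finset ι} {u : ι} (hu : u ∉ S) (z : ι → ℂ) :
    Q (insert u S) (cp p) X z = z u * Q S (cp p) X z - ∑ j, cp p u j * Bq S u j (cp p) X z := by
  rw [Q_insert hu]
  simp only [mul_sub, sum_sub_distrib, ← sum_mul, sum_cp hp, one_mul]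

theorem Bq_congr_z {S : Finset ι} (u : ι) (j : Fin r) (p : ι → Fin r → ℂ) {z z' : ι → ℂ}
    (h : ∀ v ∈ S, z v = z' v) : Bq S u j p X z = Bq S u j p X z' := by
  unfold Bq
  rw [Q_congr (fun _ _ => rfl) (fun _ _ _ _ => rfl) fun v hv => ?_]
  rcases eq_or_ne v u with rfl | hvu
  · simp
  · rw [Function.update_of_ne hvu, Function.update_of_ne hvu,
      h v ((mem_insert.1 hv).resolve_left hvu)]

theorem Bq_congr {S : Finset ι} {u u' : ι} (hu : u ∉ S) (hu' : u' ∉ S) (j : Fin r)
    (p : ι → Fin r → ℂ) (z : ι → ℂ) (h : ∀ w ∈ S, X u w = X u' w ∧ X w u = X w u')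
    (hd : X u u = X u' u') : Bq S u j p X z = Bq S u' j p X z := by
  have n1 : ∀ w ∈ S, w ≠ u := fun w hw h => hu (h ▸ hw)
  have n2 : ∀ w ∈ S, w ≠ u' := fun w hw h => hu' (h ▸ hw)
  have hS : ∀ w ∈ S, Equiv.swap u u' w = w := fun w hw =>
    Equiv.swap_apply_of_ne_of_ne (n1 w hw) (n2 w hw)
  have e : insert u' S = (insert u S).image (Equiv.swap u u') := by
    rw [image_insert, Equiv.swap_apply_left, image_congr (g := id) fun w hw => hS w hw, image_id]
  unfold Bq
  rw [e, Q_image (Equiv.swap u u').injective.injOn]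
  congr 1
  refine Q_congr (fun v hv => ?_) (fun v hv w hw => ?_) fun v hv => ?_
  · rcases mem_insert.1 hv with rfl | hv
    · simp
    · rw [hS v hv, Function.update_of_ne (n1 v hv), Function.update_of_ne (n2 v hv)]
  · rcases mem_insert.1 hv with hv' | hv' <;> rcases mem_insert.1 hw with hw' | hw'
    · rw [hv', hw', Equiv.swap_apply_left, hd]
    · rw [hv', hS w hw', Equiv.swap_apply_left, (h w hw').1]
    · rw [hw', hS v hv', Equiv.swap_apply_left, (h v hv').2]
    · rw [hS v hv', hS w hw']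
  · rcases mem_insert.1 hv with rfl | hv
    · simp
    · rw [hS v hv, Function.update_of_ne (n1 v hv), Function.update_of_ne (n2 v hv)]

theorem qr_insert (hp : IsProb p) {S : Finset ι} {u : ι} (hu : u ∉ S) {z z' : ι → ℝ}
    (h : ∀ v ∈ S, z v = z' v) :
    qr p X (insert u S) z = qr p X (insert u S) z' + (z u - z' u) * qr p X S z := by
  have h' : ∀ v ∈ S, (z' v : ℂ) = z v := fun v hv => by rw [h v hv]
  unfold qr
  rw [Q_insert' hp hu, Q_insert' hp hu,
    Q_congr (T := S) (fun _ _ => rfl) (fun _ _ _ _ => rfl) h']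
  simp only [fun j => Bq_congr_z (X := X) u j (cp p) h', Complex.sub_re, Complex.re_ofReal_mul]
  ring

/-- monotonicity above the barrier -/
theorem qr_pos_mono (hp : IsProb p) {S : Finset ι} {z z' : ι → ℝ}
    (h : ∀ S' ⊆ S, 0 < qr p X S' z) (hz : ∀ v ∈ S, z v ≤ z' v) : ∀ S' ⊆ S, 0 < qr p X S' z' := by
  have key : ∀ U : Finset ι, ∀ S' ⊆ S, 0 < qr p X S' fun v => if v ∈ U then z' v else z v := by
    intro U
    induction U using Finset.induction_on with
    | empty => simpa using h
    | insert u U hu ih =>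
      have hc : ∀ S' : Finset ι, u ∉ S' → ∀ v ∈ S',
          (if v ∈ insert u U then z' v else z v) = if v ∈ U then z' v else z v := by
        intro S' hS' v hv
        have : v ≠ u := fun h => hS' (h ▸ hv)
        simp [this]
      intro S' hS'
      by_cases huS : u ∈ S'
      · obtain ⟨S₁, hu₁, rfl⟩ : ∃ S₁, u ∉ S₁ ∧ S' = insert u S₁ :=
          ⟨S'.erase u, notMem_erase _ _, (insert_erase huS).symm⟩
        rw [qr_insert hp hu₁ (hc S₁ hu₁), qr_congr (hc S₁ hu₁)]
        have h1 := ih _ hS'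
        have h2 := ih S₁ ((subset_insert _ _).trans hS')
        have h3 := hz u (hS' (mem_insert_self _ _))
        simp only [mem_insert_self, if_true, hu, if_false]
        nlinarith
      · rw [qr_congr (hc S' huS)]
        exact ih S' hS'
  intro S' hS'
  rw [qr_congr (z' := fun v => if v ∈ S then z' v else z v) fun v hv => by simp [hS' hv]]
  exact key S S' hS'

theorem Q_of_zero (hp : IsProb p) {S : Finset ι} (hX : ∀ u ∈ S, ∀ v ∈ S, X u v = 0) (z : ι → ℂ) :
    Q S (cp p) X z = ∏ v ∈ S, z v := by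
  induction S using Finset.induction_on with
  | empty => simp [Q_empty]
  | insert u S hu ih =>
    have hu' := mem_insert_self u S
    rw [prod_insert hu, insert_eq, Q_union (disjoint_singleton_left.2 hu), Q_singleton _ _ _ _
      (sum_cp hp u), hX u hu' u hu', sub_zero,
      ih fun a ha b hb => hX a (mem_insert_of_mem ha) b (mem_insert_of_mem hb)]
    intro a ha b hb
    rw [mem_singleton.1 ha]
    exact ⟨hX u hu' b (mem_insert_of_mem hb), hX b (mem_insert_of_mem hb) u hu'⟩

theorem eval_QD_real (T D : Finset ι) (z : ι → ℝ) (w : ℝ) :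
    (QD T D p X fun v => (zD D z 0 v : ℂ)).eval (w : ℂ) =
      Q T (cp p) X fun v => (zD D z w v : ℂ) := by
  rw [eval_QD]
  congr 1
  funext v
  unfold zD
  split_ifs <;> simp

theorem qr_zD {S D : Finset ι} (h : Disjoint S D) (z : ι → ℝ) (w : ℝ) :
    qr p X S (zD D z w) = qr p X S z :=
  qr_congr fun _ hv => if_neg (disjoint_left.1 h hv)

/-- partial fractions for the ratio of the polynomials without and with the vertex `y` -/
theorem decomp (hp : IsProb p) {S D : Finset ι} (hD : Disjoint S D) (hne : D.Nonempty) {y : ι}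
    (hy : y ∉ S) (hyD : y ∉ D) (hX : Herm (insert y S ∪ D) X) (z : ι → ℝ)
    (ha : qr p X (insert y S) z ≠ 0) (ha' : qr p X S z ≠ 0) :
    ∃ α c : Fin D.card → ℝ, (∀ l, 0 ≤ c l) ∧
      (∀ w, qr p X (insert y S ∪ D) (zD D z w) = qr p X (insert y S) z * ∏ l, (w - α l)) ∧
      (∀ w, qr p X (S ∪ D) (zD D z w) = qr p X S z * ∏ l, (w - α l) +
        qr p X (insert y S) z * ∑ l, c l * ∏ l' ∈ univ.erase l, (w - α l')) ∧
      ∑ d ∈ D, qr p X (insert d (insert y S)) (zD D z 0) = -(qr p X (insert y S) z * ∑ l, α l) ∧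
      ∑ d ∈ D, qr p X (insert d S) (zD D z 0) =
        -(qr p X S z * ∑ l, α l) + qr p X (insert y S) z * ∑ l, c l := by
  have hD' : Disjoint (insert y S) D := disjoint_insert_left.2 ⟨hyD, hD⟩
  have e1 : (insert y S ∪ D) \ D = insert y S := union_sdiff_cancel_right hD'
  have e2 : (S ∪ D) \ D = S := union_sdiff_cancel_right hD
  have hsub : S ∪ D ⊆ insert y S ∪ D := union_subset_union_left (subset_insert _ _)
  have hX1 : Herm (insert y S) X := hX.mono subset_union_left
  have hX2 : Herm S X := hX1.mono (subset_insert _ _)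
  have q1 : Q (insert y S) (cp p) X (fun v => (zD D z 0 v : ℂ)) = (qr p X (insert y S) z : ℂ) := by
    rw [Q_eq_qr hX1, qr_zD hD']
  have q2 : Q S (cp p) X (fun v => (zD D z 0 v : ℂ)) = (qr p X S z : ℂ) := by
    rw [Q_eq_qr hX2, qr_zD hD]
  set a := qr p X (insert y S) z
  set a' := qr p X S z
  have haC : (a : ℂ) ≠ 0 := by exact_mod_cast ha
  have haC' : (a' : ℂ) ≠ 0 := by exact_mod_cast ha'
  obtain ⟨α, hα⟩ := QD_realRooted (T := insert y S ∪ D) (D := D) subset_union_right hp hX
    (zD D z 0) (by rwa [e1, q1])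
  rw [e1, q1] at hα
  have hIm := QD_ratio_im_nonpos (T := S ∪ D) (D := D) subset_union_right (y := y)
    (by simp [hy, hyD]) hp (by rwa [← insert_union]) (zD D z 0) (by rwa [e2, q2])
  rw [← insert_union, hα] at hIm
  obtain ⟨c, hc0, hc⟩ := herglotz (C (a : ℂ)⁻¹ * QD (S ∪ D) D p X fun v => (zD D z 0 v : ℂ)) α
    ((natDegree_C_mul_le _ _).trans (by simpa using natDegree_QD_le subset_union_right p X _))
    (fun w hw => by
      have := hIm w hw
      simp only [eval_mul, eval_C, eval_prod, eval_sub, eval_X] at this ⊢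
      rwa [inv_mul_eq_div, div_div])
  rw [coeff_C_mul, Fintype.card_fin, coeff_QD_card subset_union_right hp, e2, q2] at hc
  have hg : (QD (S ∪ D) D p X fun v => (zD D z 0 v : ℂ)) =
      C (a' : ℂ) * ∏ l, (Polynomial.X - C (α l : ℂ)) +
        C (a : ℂ) * ∑ l, C (c l : ℂ) * ∏ l' ∈ univ.erase l, (Polynomial.X - C (α l' : ℂ)) := by
    have h1 := congrArg (fun f => C (a : ℂ) * f) hc
    simp only [mul_add, ← mul_assoc, ← C_mul, mul_inv_cancel₀ haC, C_1, one_mul] at h1
    exact h1
  have hpos : 0 < D.card := card_pos.2 hne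
  have c1 : (∏ l, (Polynomial.X - C (α l : ℂ))).coeff (D.card - 1) = -∑ l, (α l : ℂ) := by
    simpa using prod_X_sub_C_coeff_card_pred univ (fun l => (α l : ℂ)) (by simpa using hpos)
  have c2 : ∀ l, (∏ l' ∈ univ.erase l, (Polynomial.X - C (α l' : ℂ))).coeff (D.card - 1) = 1 := by
    intro l
    have h1 := (monic_prod_X_sub_C (fun l' => (α l' : ℂ)) (univ.erase l)).coeff_natDegree
    rwa [natDegree_finsetProd_X_sub_C_eq_card, card_erase_of_mem (mem_univ l), card_univ,
      Fintype.card_fin] at h1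
  refine ⟨α, c, hc0, fun w => ?_, fun w => ?_, ?_, ?_⟩
  · have h1 := eval_QD_real (p := p) (X := X) (insert y S ∪ D) D z w
    rw [hα, Q_eq_qr hX] at h1
    simp only [eval_mul, eval_C, eval_prod, eval_sub, eval_X] at h1
    exact_mod_cast h1.symm
  · have h1 := eval_QD_real (p := p) (X := X) (S ∪ D) D z w
    rw [hg, Q_eq_qr (hX.mono hsub)] at h1
    simp only [eval_add, eval_mul, eval_C, eval_prod, eval_sub, eval_X, eval_finsetSum] at h1
    exact_mod_cast h1.symm
  · have h1 := coeff_QD_card_sub_one (T := insert y S ∪ D) subset_union_right hne hp X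
      fun v => (zD D z 0 v : ℂ)
    rw [hα, coeff_C_mul, c1, e1, sum_congr rfl fun d hd => Q_eq_qr (hX.mono
      (insert_subset (mem_union_right _ hd) subset_union_left)) p _, mul_neg] at h1
    exact_mod_cast h1.symm
  · have h1 := coeff_QD_card_sub_one (T := S ∪ D) subset_union_right hne hp X
      fun v => (zD D z 0 v : ℂ)
    rw [hg, coeff_add, coeff_C_mul, coeff_C_mul, c1, finsetSum_coeff, e2,
      sum_congr rfl fun d hd => Q_eq_qr ((hX.mono hsub).mono
        (insert_subset (mem_union_right _ hd) subset_union_left)) p _, mul_neg] at h1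
    simp only [coeff_C_mul, c2, mul_one] at h1
    exact_mod_cast h1.symm

theorem neg_one_pow_mul_prod {κ : Type*} (s : Finset κ) (α : κ → ℝ) (w : ℝ) :
    (-1) ^ s.card * ∏ l ∈ s, (w - α l) = ∏ l ∈ s, (α l - w) := by
  rw [← prod_const, ← prod_mul_distrib]
  exact prod_congr rfl fun l _ => by ring

/-- no negative roots in a direction on which `X` vanishes -/
theorem no_neg_root (hp : IsProb p) {D : Finset ι} (hne : D.Nonempty)
    (hXD : ∀ u ∈ D, ∀ v ∈ D, X u v = 0) (z : ι → ℝ) {S : Finset ι} (hD : Disjoint S D)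
    (hX : Herm (S ∪ D) X) (hpos : ∀ S' ⊆ S, 0 < qr p X S' z) :
    ∀ w < 0, 0 < (-1) ^ D.card * qr p X (S ∪ D) (zD D z w) := by
  induction S using Finset.induction_on with
  | empty =>
    intro w hw
    have h1 : qr p X D (zD D z w) = ∏ _l ∈ D, (w - 0) := by
      unfold qr
      rw [Q_of_zero hp hXD, ← Complex.ofReal_prod, Complex.ofReal_re]
      exact prod_congr rfl fun v hv => by simp [zD, hv]
    rw [empty_union, h1, neg_one_pow_mul_prod]
    exact prod_pos fun _ _ => by linarith
  | insert y S hy ih =>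
    obtain ⟨hyD, hD'⟩ := disjoint_insert_left.1 hD
    have ih' := ih hD' (hX.mono (union_subset_union_left (subset_insert _ _)))
      fun S' hS' => hpos S' (hS'.trans (subset_insert _ _))
    have ha := hpos _ subset_rfl
    obtain ⟨α, c, hc, h1, h2, -, -⟩ := decomp hp hD' hne hy hyD hX z ha.ne'
      (hpos S (subset_insert _ _)).ne'
    have hcard : (univ : Finset (Fin D.card)).card = D.card := by simp
    have : Nonempty (Fin D.card) := ⟨⟨0, card_pos.2 hne⟩⟩
    obtain ⟨l₀, -, hl₀⟩ := exists_min_image univ α univ_nonempty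
    have hα : 0 ≤ α l₀ := by
      by_contra hneg
      have h3 := ih' (α l₀) (not_le.1 hneg)
      rw [h2, prod_eq_zero (mem_univ l₀) (sub_self _), mul_zero, zero_add, mul_left_comm,
        mul_sum] at h3
      refine absurd h3 (not_lt.2 (mul_nonpos_of_nonneg_of_nonpos ha.le (sum_nonpos fun l _ => ?_)))
      have h4 : (-1 : ℝ) ^ D.card = -(-1) ^ (univ.erase l).card := by
        have h5 := card_erase_add_one (mem_univ l)
        rw [hcard] at h5
        calc (-1 : ℝ) ^ D.card = (-1) ^ ((univ.erase l).card + 1) := by rw [h5]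
          _ = _ := by rw [pow_succ]; simp
      rw [h4, mul_left_comm, neg_mul, neg_one_pow_mul_prod]
      exact mul_nonpos_of_nonneg_of_nonpos (hc l) (neg_nonpos.2 (prod_nonneg fun l' _ =>
        sub_nonneg.2 (hl₀ l' (mem_univ _))))
    intro w hw
    rw [h1, mul_left_comm]
    refine mul_pos ha ?_
    have h5 := neg_one_pow_mul_prod univ α w
    rw [hcard] at h5
    rw [h5]
    exact prod_pos fun l _ => by linarith [hl₀ l (mem_univ _)]

/-- the barrier step -/
theorem step_ratio (hp : IsProb p) {S D : Finset ι} (hD : Disjoint S D) (hne : D.Nonempty) {y : ι}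
    (hy : y ∉ S) (hyD : y ∉ D) (hX : Herm (insert y S ∪ D) X)
    (hXD : ∀ u ∈ D, ∀ v ∈ D, X u v = 0) {z : ι → ℝ} {b κ t : ℝ} (hb : 0 < b) (hκ : 0 < κ)
    (hz : ∀ d ∈ D, z d = b) (hpos : ∀ S' ⊆ insert y S ∪ D, 0 < qr p X S' z)
    (hrat : κ * qr p X (S ∪ D) z ≤ qr p X (insert y S ∪ D) z)
    (ht : b / D.card * qr p X (insert y S) z ≤ t * qr p X (insert y S) z +
      (∑ d ∈ D, qr p X (insert d (insert y S)) (zD D z 0)) / D.card) :
    κ * (t * qr p X S z + (∑ d ∈ D, qr p X (insert d S) (zD D z 0)) / D.card) ≤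
      t * qr p X (insert y S) z +
        (∑ d ∈ D, qr p X (insert d (insert y S)) (zD D z 0)) / D.card := by
  have ha := hpos _ (subset_union_left (s₁ := insert y S))
  have ha' := hpos S ((subset_insert _ _).trans subset_union_left)
  obtain ⟨α, c, hc, h1, h2, h3, h4⟩ := decomp hp hD hne hy hyD hX z ha.ne' ha'.ne'
  have hzb : zD D z b = z := by
    funext v
    unfold zD
    split_ifs with h
    · exact (hz v h).symm
    · rfl
  have hα0 : ∀ l, 0 ≤ α l := fun l => by
    by_contra hneg
    have h5 := no_neg_root hp hne hXD z (disjoint_insert_left.2 ⟨hyD, hD⟩) hX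
      (fun S' hS' => hpos S' (hS'.trans subset_union_left)) (α l) (not_le.1 hneg)
    rw [h1, prod_eq_zero (mem_univ l) (sub_self _)] at h5
    simp at h5
  have hαb : ∀ l, α l < b := fun l => by
    by_contra hge
    have h5 := qr_pos_mono hp hpos (z' := zD D z (α l)) (fun v _ => by
      unfold zD
      split_ifs with h
      · rw [hz v h]
        exact not_lt.1 hge
      · exact le_rfl) _ subset_rfl
    rw [h1, prod_eq_zero (mem_univ l) (sub_self _)] at h5
    simp at h5
  have g1 := h1 b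
  have g2 := h2 b
  rw [hzb] at g1 g2
  rw [h3] at ht ⊢
  rw [h4]
  rw [g1, g2] at hrat
  set a := qr p X (insert y S) z
  set a' := qr p X S z
  set P := ∏ l, (b - α l) with hP
  have hP0 : 0 < P := prod_pos fun l _ => sub_pos.2 (hαb l)
  have h5 : (∑ l, c l) / b * P ≤ ∑ l, c l * ∏ l' ∈ univ.erase l, (b - α l') := by
    rw [sum_div, sum_mul]
    refine sum_le_sum fun l _ => ?_
    rw [div_mul_eq_mul_div, mul_div_assoc]
    refine mul_le_mul_of_nonneg_left ?_ (hc l)
    rw [div_le_iff₀ hb, hP, ← mul_prod_erase univ _ (mem_univ l), mul_comm]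
    exact mul_le_mul_of_nonneg_left (by linarith [hα0 l])
      (prod_nonneg fun l' _ => (sub_pos.2 (hαb l')).le)
  set Cs := ∑ l, c l
  set A := ∑ l, α l
  have hC : 0 ≤ Cs := sum_nonneg fun l _ => hc l
  have h6 : κ * (a' + a * (Cs / b)) ≤ a := by
    refine le_of_mul_le_mul_right ?_ hP0
    refine le_trans ?_ hrat
    rw [mul_assoc]
    refine mul_le_mul_of_nonneg_left ?_ hκ.le
    nlinarith [mul_le_mul_of_nonneg_left h5 ha.le]
  have hn : (0 : ℝ) < D.card := by exact_mod_cast card_pos.2 hne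
  set n : ℝ := (D.card : ℝ)
  have h7 : b / n ≤ t - A / n := by
    refine le_of_mul_le_mul_right (ht.trans (le_of_eq ?_)) ha
    ring
  have h8 : 0 < t - A / n := lt_of_lt_of_le (by positivity) h7
  have h9 : Cs / n ≤ Cs / b * (t - A / n) := by
    calc Cs / n = Cs / b * (b / n) := by field_simp
      _ ≤ _ := by gcongr
  calc κ * (t * a' + (-(a' * A) + a * Cs) / n) = κ * (a' * (t - A / n) + a * (Cs / n)) := by ring
    _ ≤ κ * (a' * (t - A / n) + a * (Cs / b * (t - A / n))) := by gcongr
    _ = κ * (a' + a * (Cs / b)) * (t - A / n) := by ring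
    _ ≤ a * (t - A / n) := by gcongr
    _ = _ := by ring

end Crest.Agent.R109.Init
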