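import Crest.Agent.R109.NetFN

/-! Row 109, task B4: colouring a separated class. -/

set_option autoImplicit false

noncomputable section

namespace Crest.Agent.R109

open MeasureTheory
open scoped ComplexConjugate

namespace Net

variable {Ω : Type*} [TopologicalSpace Ω] [CompactSpace Ω] [MeasurableSpace Ω] [BorelSpace Ω]
  {G : Type*} [DecidableEq G] [Fintype G] (N : Net Ω G)

variable {r : ℕ}

theorem mob_Fst_two (hr : 0 < r) (M : ℝ) {L : ℕ} {Y : Set Ω} (hsep : N.Sep L Y) {χ : Ω}
    (st : List G → Option (Fin r)) {S : Finset (List G)} (hS : N.Valid χ S) {o v : List G}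
    (ho : o ∈ S) (hv : v ∈ S) (hov : o ≠ v) (hoY : N.τ o χ ∈ Y) (hvY : N.τ v χ ∈ Y) :
    mob (N.Fst M L χ st) S = 0 := by
  have hod := hS.1 o ho
  by_cases hn : N.near χ o L v
  · obtain ⟨w, hw, hrel⟩ := hn
    rcases hsep _ hoY w hw (N.dom_append_iff.1 (N.rel_dom_left hrel)).2
      (by rw [← N.τ_append, N.τ_rel _ _ _ hrel]; exact hvY) with h | h
    · exact absurd (hS.2 o ho v hv
        (N.rel_trans (N.rel_symm ((N.rel_append_iff hod).2 h)) hrel)) hov
    · exact N.mob_Fst_iso hr M L st ho hv hov hod h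
  · exact N.mob_Fst_far hr M L st ho hv hod hn

theorem Theta_move (hr : 0 < r) (M : ℝ) (L : ℕ) {σ σ' : Ω → Option (Fin r)}
    (hσ : IsLocallyConstant σ) (hσ' : IsLocallyConstant σ') {Y : Set Ω} (hY : IsClopen Y)
    (hsep : N.Sep L Y) {c : Ω → Fin r} (hc : IsLocallyConstant c)
    (hin : ∀ χ ∈ Y, σ' χ = some (c χ)) (hout : ∀ χ ∉ Y, σ' χ = σ χ) :
    N.Theta M L σ' = N.Theta M L σ + ∫ χ in Y, N.Dm M L σ (c χ) χ ∂N.μ := by
  classical
  have := N.fin
  let δ : Ω → Finset (List G) → ℝ := fun χ S => mob (N.FN M L σ' χ) S - mob (N.FN M L σ χ) S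
  let e : Ω → Finset (List G) → List G → ℝ := fun χ T o => ∑ S ∈ T.powerset with o ∈ S,
    δ χ S * ((S.card : ℝ)⁻¹ - Y.indicator 1 (N.τ o χ))
  have key := N.transport L e ?_ ?_ ?_ ?_
  · have h1 : ∀ χ, e χ (N.B L χ) [] =
        (∑ S ∈ (N.B L χ).powerset with [] ∈ S, mob (N.FN M L σ' χ) S / S.card) -
        (∑ S ∈ (N.B L χ).powerset with [] ∈ S, mob (N.FN M L σ χ) S / S.card) -
        Y.indicator (fun χ => N.Dm M L σ (c χ) χ) χ := by
      intro χ
      simp only [e, mul_sub, Finset.sum_sub_distrib, N.τ_nil]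
      congr 1
      · simp only [δ, sub_mul, Finset.sum_sub_distrib, div_eq_mul_inv]
      · by_cases hχ : χ ∈ Y
        · simp only [Set.indicator_of_mem hχ, Pi.one_apply, mul_one, δ, Finset.sum_sub_distrib]
          rw [Finset.sum_congr rfl (g := mob (N.Fst M L χ
              (Function.update (fun w => σ (N.τ w χ)) [] (some (c χ))))),
            sum_mob_mem _ (N.nil_mem_B L χ), sum_mob_mem _ (N.nil_mem_B L χ),
            N.Fst_congr M L χ (T := (N.B L χ).erase []) (st' := fun w => σ (N.τ w χ))
              fun w hw => Function.update_of_ne (Finset.ne_of_mem_erase hw) _ _]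
          · simp only [Dm, FN]
            ring
          · intro S hS
            simp only [Finset.mem_filter, Finset.mem_powerset] at hS
            have hv := (N.valid_B L χ).mono hS.1
            by_cases h : ∃ v ∈ S, v ≠ [] ∧ N.τ v χ ∈ Y
            · obtain ⟨v, h1, h2, h3⟩ := h
              have h4 : N.τ [] χ ∈ Y := by rwa [N.τ_nil]
              rw [N.mob_Fst_two hr M hsep _ hv hS.2 h1 h2.symm h4 h3]
              exact N.mob_Fst_two hr M hsep _ hv hS.2 h1 h2.symm h4 h3
            · push Not at h
              refine mob_congr fun S' hS' => N.Fst_congr M L χ fun w hw => ?_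
              by_cases hw0 : w = []
              · rw [hw0, Function.update_self, N.τ_nil, hin χ hχ]
              · rw [Function.update_of_ne hw0, hout _ (h w (hS' hw) hw0)]
        · simp [Set.indicator_of_notMem hχ]
    have h2 : ∀ {σ : Ω → Option (Fin r)}, IsLocallyConstant σ → Integrable (fun χ =>
        ∑ S ∈ (N.B L χ).powerset with [] ∈ S, mob (N.FN M L σ χ) S / S.card) N.μ := by
      intro σ hσ
      exact integrable_of_continuous _ (continuous_of_isLocallyConstant (N.isLocallyConstant_B L)
        (F := fun T χ => ∑ S ∈ T.powerset with [] ∈ S, mob (N.FN M L σ χ) S / S.card)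
        fun T => continuous_finsetSum _ fun S _ =>
          (continuous_mob (N.continuous_FN hr M L hσ) S).div_const _)
    have h3 : Integrable (fun χ => N.Dm M L σ (c χ) χ) N.μ :=
      integrable_of_continuous _ (continuous_of_isLocallyConstant hc (N.continuous_Dm hr M L hσ))
    simp only [h1] at key
    rw [integral_sub ((h2 hσ').sub' (h2 hσ)) (h3.indicator hY.isOpen.measurableSet),
      integral_sub (h2 hσ') (h2 hσ), integral_indicator hY.isOpen.measurableSet] at key
    unfold Theta
    linarith
  · intro χ w T π hw hT hπ hrel o ho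
    simp only [e, Finset.sum_filter]
    rw [sum_powerset_image hπ, Finset.mul_sum]
    refine Finset.sum_congr rfl fun S hS => ?_
    have hS' := Finset.mem_powerset.1 hS
    have hπ' : Set.InjOn π S := hπ.mono (Finset.coe_subset.2 hS')
    have h1 : π o ∈ S.image π ↔ o ∈ S := by
      refine ⟨fun h => ?_, Finset.mem_image_of_mem π⟩
      obtain ⟨u, hu, e⟩ := Finset.mem_image.1 h
      exact hπ (hS' hu) ho e ▸ hu
    simp only [h1, δ]
    rw [N.mob_FN_image hr M L σ' hw (hT.mono hS') hπ' fun u hu => hrel u (hS' hu),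
      N.mob_FN_image hr M L σ hw (hT.mono hS') hπ' fun u hu => hrel u (hS' hu),
      Finset.card_image_of_injOn hπ', ← N.τ_rel _ _ _ (hrel o ho), N.τ_append]
    split_ifs
    · ring
    · simp
  · intro χ T o v hT hv ho hfar
    simp only [e, Finset.sum_filter]
    rw [Finset.sum_powerset_insert hv, add_eq_left]
    refine Finset.sum_eq_zero fun S _ => ?_
    split_ifs with h
    · have hod := hT.1 o (Finset.mem_insert_of_mem ho)
      have h1 : ∀ σ : Ω → Option (Fin r), mob (N.FN M L σ χ) (insert v S) = 0 := fun σ =>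
        N.mob_Fst_far hr M L _ h (Finset.mem_insert_self v S) hod hfar
      simp only [δ, h1, sub_self, zero_mul]
    · rfl
  · intro T o
    exact continuous_finsetSum _ fun S _ =>
      ((continuous_mob (N.continuous_FN hr M L hσ') S).sub
        (continuous_mob (N.continuous_FN hr M L hσ) S)).mul
      (continuous_const.sub ((hY.continuous_indicator continuous_one).comp (N.τ_cont o)))
  · intro χ T hT
    simp only [e]
    rw [Finset.sum_comm' (t' := T.powerset) (s' := fun S => S) (by
      intro o S
      simp only [Finset.mem_filter, Finset.mem_powerset]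
      exact ⟨fun h => ⟨h.2.2, h.2.1⟩, fun h => ⟨h.2 h.1, h.2, h.1⟩⟩)]
    refine Finset.sum_eq_zero fun S hS => ?_
    have hv := hT.mono (Finset.mem_powerset.1 hS)
    rw [← Finset.mul_sum, mul_eq_zero, or_iff_not_imp_left]
    intro hδ
    obtain ⟨o, ho, hoY⟩ : ∃ o ∈ S, N.τ o χ ∈ Y := by
      by_contra h
      push Not at h
      exact hδ (sub_eq_zero.2 (mob_congr fun S' hS' => N.Fst_congr M L χ fun w hw =>
        hout _ (h w (hS' hw))))
    rw [Finset.sum_sub_distrib, Finset.sum_const, Finset.sum_eq_single_of_mem o ho,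
      Set.indicator_of_mem hoY, nsmul_eq_mul, mul_inv_cancel₀, Pi.one_apply, sub_self]
    · exact_mod_cast Finset.card_ne_zero_of_mem ho
    · intro v hv' hvo
      refine Set.indicator_of_notMem (fun hvY => hδ ?_) _
      have h1 : ∀ σ : Ω → Option (Fin r), mob (N.FN M L σ χ) S = 0 := fun σ =>
        N.mob_Fst_two hr M hsep _ hv ho hv' hvo.symm hoY hvY
      simp only [δ, h1, sub_self]

theorem Dm_avg_le (hr : 0 < r) (M : ℝ) (L : ℕ) (σ : Ω → Option (Fin r)) {χ : Ω}
    (hχ : σ χ = none) {S : ℝ} (hS : 1 < S) {t : ℝ} (ht : 1000 ≤ t) :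
    ∃ B : Finset (Fin r), 4 * B.card ≤ r ∧ ∀ J : Finset (Fin r), Disjoint J B → r ≤ 2 * J.card →
      ∑ j ∈ J, N.Dm M L σ j χ ≤
        J.card * (Real.exp t + 2 * errN (Fintype.card G) N.κ0 N.R M S L) := by
  let st : List G → Option (Fin r) := fun w => σ (N.τ w χ)
  have h0 : st [] = none := by simp only [st, N.τ_nil, hχ]
  obtain ⟨B, hB, hJ⟩ := psi_move hr (Finset.notMem_erase [] (N.B L χ)) (isProb_pst hr st)
    (by simp only [h0, pst_none]) (N.herm_Xst M χ st _) (by simp only [N.X_diag, mul_zero, zero_mul])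
    (fun w => N.h w χ) t ht
  refine ⟨B, hB, fun J h1 h2 => ?_⟩
  have h3 := hJ J h1 h2
  rw [Finset.insert_erase (N.nil_mem_B L χ), N.h_nil, zero_add] at h3
  have h4 := (abs_le.1 (N.abs_Fst_sub_le hr M L χ st subset_rfl hS)).1
  have h5 : ∀ j, N.Dm M L σ j χ ≤ (Psi (N.B L χ) (Function.update (fun w => pst (st w)) [] (dl ℝ j))
      (scale1 [] fun u v => (M : ℂ) * (θst (st u) * N.X u v χ * θst (st v))) fun w => N.h w χ).re +
      (2 * errN (Fintype.card G) N.κ0 N.R M S L - (Psi (N.B L χ) (fun w => pst (st w))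
        (fun u v => (M : ℂ) * (θst (st u) * N.X u v χ * θst (st v))) fun w => N.h w χ).re) := by
    intro j
    have h6 := (abs_le.1 (N.abs_Fst_sub_le hr M L χ (Function.update st [] (some j))
      subset_rfl hS)).2
    have h7 : ∀ u, θst (Function.update st [] (some j) u) =
        (if u = [] then (1 / 16 : ℂ) else 1) * θst (st u) := by
      intro u
      by_cases hu : u = []
      · rw [hu, Function.update_self, h0, θst_some, θst_none, if_pos rfl, mul_one]
      · rw [Function.update_of_ne hu, if_neg hu, one_mul]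
    rw [Psi_congr (p' := Function.update (fun w => pst (st w)) [] (dl ℝ j))
      (X' := scale1 [] fun u v => (M : ℂ) * (θst (st u) * N.X u v χ * θst (st v)))
      (h' := fun w => N.h w χ) (fun v _ => by
        by_cases hv : v = []
        · rw [hv, Function.update_self, Function.update_self, pst_some]
        · rw [Function.update_of_ne hv, Function.update_of_ne hv])
      (fun u _ v _ => by simp only [h7, scale1]; ring) fun _ _ => rfl] at h6
    simp only [Dm, FN]
    linarith
  refine (Finset.sum_le_sum fun j _ => h5 j).trans ?_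
  rw [Finset.sum_add_distrib, Finset.sum_const, nsmul_eq_mul]
  linarith

end Net

end Crest.Agent.R109
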