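import Crest.Agent.R109.WBasic

/-! Row 109, task D6: conditional expectations over infinitely fine future partitions. -/

set_option autoImplicit false
set_option linter.unusedSectionVars false

noncomputable section

namespace Crest.Agent.R109

open Filter Topology
open scoped ComplexOrder ComplexConjugate Classical

universe u

variable {𝓜 : Type u} [CStarAlgebra 𝓜] [PartialOrder 𝓜] [StarOrderedRing 𝓜]

/-- The one-step property of the potential `V`. -/
def WS.VStep (W : WS 𝓜) (r' : ℕ) (V : List 𝓜 → 𝓜 → ℝ) : Prop :=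
  ∀ (y : 𝓜) (ys : List 𝓜) (p : 𝓜) (δ : ℝ), 0 < δ → ∀ᶠ P in (W.U : Filter (Part W.A)),
    ∀ j : P.cells → Fin r',
      avg (fun pos : P.cells → Fin r' => V ys (p + sel (fun b : P.cells => (b : 𝓜) * y) j pos)) ≤
        V (y :: ys) p + δ

theorem Vfun.ulim {α : Type*} (U : Ultrafilter α) (f : α → ℝ) {a b : ℝ}
    (h : ∀ i, f i ∈ Set.Icc a b) :
    Tendsto f (U : Filter α) (𝓝 (limUnder (U : Filter α) f)) ∧
      limUnder (U : Filter α) f ∈ Set.Icc a b := by
  obtain ⟨x, hx, hx'⟩ := isCompact_Icc.ultrafilter_le_nhds (U.map f)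
    (by rw [Ultrafilter.coe_map, Filter.le_principal_iff, Filter.mem_map]
        exact Filter.Eventually.of_forall h)
  have ht : Tendsto f (U : Filter α) (𝓝 x) := hx'
  rw [ht.limUnder_eq]
  exact ⟨ht, hx⟩

theorem Vfun.avg_mem {Ξ : Type*} [Fintype Ξ] [Nonempty Ξ] {f : Ξ → ℝ} {a b : ℝ}
    (h : ∀ ξ, f ξ ∈ Set.Icc a b) : avg f ∈ Set.Icc a b :=
  ⟨(avg_const (Ξ := Ξ) a).symm.le.trans (avg_mono fun ξ => (h ξ).1),
    (avg_mono fun ξ => (h ξ).2).trans (avg_const (Ξ := Ξ) b).le⟩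

theorem Vfun.tendsto_avg {α Ξ : Type*} [Fintype Ξ] {l : Filter α} {f : α → Ξ → ℝ} {F : Ξ → ℝ}
    (h : ∀ ξ, Tendsto (fun i => f i ξ) l (𝓝 (F ξ))) :
    Tendsto (fun i => avg (f i)) l (𝓝 (avg F)) :=
  (tendsto_finset_sum _ fun ξ _ => h ξ).div_const _

theorem Vfun.avg_sel_shift {κ : Type*} [Fintype κ] [DecidableEq κ] {r' : ℕ} (e : κ → 𝓜)
    (j j' : κ → Fin r') (G : 𝓜 → ℝ) :
    avg (fun pos : κ → Fin r' => G (sel e j pos)) =
      avg (fun pos : κ → Fin r' => G (sel e j' pos)) := by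
  rw [← avg_equiv (Equiv.piCongrRight fun b => Equiv.swap (j b) (j' b))
    (fun pos : κ → Fin r' => G (sel e j' pos))]
  congr 1
  funext pos
  congr 1
  unfold sel
  refine Finset.sum_congr ?_ fun _ _ => rfl
  ext a
  simp only [Finset.mem_filter, Finset.mem_univ, true_and, Equiv.piCongrRight_apply, Pi.map_apply]
  rw [Equiv.swap_apply_eq_iff, Equiv.swap_apply_right]

theorem Vfun.avg_sel_sum {κ κ' : Type u} [Fintype κ] [DecidableEq κ] [Fintype κ'] [DecidableEq κ']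
    {r' : ℕ} (e : κ → 𝓜) (e' : κ' → 𝓜) (c : Fin r') (G : 𝓜 → ℝ) :
    avg (fun pos : κ ⊕ κ' → Fin r' => G (sel (Sum.elim e e') (fun _ => c) pos)) =
      avg (fun pos : κ → Fin r' => avg (fun pos' : κ' → Fin r' =>
        G (sel e (fun _ => c) pos + sel e' (fun _ => c) pos'))) := by
  rw [← avg_equiv (Equiv.sumArrowEquivProdArrow κ κ' (Fin r')).symm, avg_prod]
  congr 1
  funext pos
  congr 1
  funext pos'
  congr 1
  unfold sel
  simp only [Finset.sum_filter, Fintype.sum_sum_type]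
  simp [Equiv.sumArrowEquivProdArrow]

/-- The potential, by iterated ultralimits. -/
def WS.Vrec (W : WS 𝓜) {r' : ℕ} (c : Fin r') (g : 𝓜 → ℝ) : List 𝓜 → 𝓜 → ℝ
  | [] => g
  | y :: ys => fun p => limUnder (W.U : Filter (Part W.A)) fun P =>
      avg (fun pos : P.cells → Fin r' =>
        W.Vrec c g ys (p + sel (fun b : P.cells => (b : 𝓜) * y) (fun _ => c) pos))

theorem WS.Vrec_mem (W : WS 𝓜) {r' : ℕ} (c : Fin r') {g : 𝓜 → ℝ} {B₀ : ℝ}
    (hg : ∀ p, 0 ≤ g p ∧ g p ≤ B₀) (ys : List 𝓜) : ∀ p, W.Vrec c g ys p ∈ Set.Icc 0 B₀ := by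
  haveI : Nonempty (Fin r') := ⟨c⟩
  induction ys with
  | nil => exact hg
  | cons y ys ih => exact fun p => (Vfun.ulim W.U _ fun P => Vfun.avg_mem fun pos => ih _).2

theorem WS.Vrec_tendsto (W : WS 𝓜) {r' : ℕ} (c : Fin r') {g : 𝓜 → ℝ} {B₀ : ℝ}
    (hg : ∀ p, 0 ≤ g p ∧ g p ≤ B₀) (y : 𝓜) (ys : List 𝓜) (p : 𝓜) :
    Tendsto (fun P : Part W.A => avg (fun pos : P.cells → Fin r' =>
        W.Vrec c g ys (p + sel (fun b : P.cells => (b : 𝓜) * y) (fun _ => c) pos)))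
      (W.U : Filter (Part W.A)) (𝓝 (W.Vrec c g (y :: ys) p)) := by
  haveI : Nonempty (Fin r') := ⟨c⟩
  exact (Vfun.ulim W.U _ fun P => Vfun.avg_mem fun pos => W.Vrec_mem c hg ys _).1

theorem WS.Vrec_init (W : WS 𝓜) {r' : ℕ} (c : Fin r') {g : 𝓜 → ℝ} {B₀ : ℝ}
    (hg : ∀ p, 0 ≤ g p ∧ g p ≤ B₀) (P₀ : Part W.A) {Bd : ℝ}
    (H : ∀ (κ : Type u) [Fintype κ] [DecidableEq κ] (e : κ → 𝓜), IsPaving W.A e →
      (∀ a, ∀ b ∈ P₀.cells, e a * b = e a ∨ e a * b = 0) →
      avg (fun pos : κ → Fin r' => g (sel e (fun _ => c) pos)) ≤ Bd) (ys : List 𝓜) :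
    ∀ (κ : Type u) [Fintype κ] [DecidableEq κ] (e : κ → 𝓜),
      (∀ y ∈ ys, y ∈ W.A ∧ IsStarProjection y) → ys.Pairwise (fun a b => a * b = 0) →
      (∀ a, e a ∈ W.A ∧ IsStarProjection (e a)) → (∀ a b, a ≠ b → e a * e b = 0) →
      (∀ a, ∀ y ∈ ys, e a * y = 0) → ∑ a, e a + ys.sum = 1 →
      (∀ a, ∀ b ∈ P₀.cells, e a * b = e a ∨ e a * b = 0) →
      avg (fun pos : κ → Fin r' => W.Vrec c g ys (sel e (fun _ => c) pos)) ≤ Bd := by
  induction ys with
  | nil =>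
    intro κ _ _ e _ _ h1 h2 _ h4 h5
    exact H κ e ⟨h1, h2, by simpa using h4⟩ h5
  | cons y ys ih =>
    intro κ _ _ e hy hp h1 h2 h3 h4 h5
    have hyA := (hy y List.mem_cons_self).1
    have hyP := (hy y List.mem_cons_self).2
    rw [List.pairwise_cons] at hp
    have ht := Vfun.tendsto_avg (l := (W.U : Filter (Part W.A)))
      (f := fun (P : Part W.A) (pos : κ → Fin r') => avg (fun pos' : P.cells → Fin r' =>
        W.Vrec c g ys (sel e (fun _ => c) pos +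
          sel (fun b : P.cells => (b : 𝓜) * y) (fun _ => c) pos')))
      (fun pos => W.Vrec_tendsto c hg y ys (sel e (fun _ => c) pos))
    refine le_of_tendsto ht ((W.U_refines P₀).mono fun P hP => ?_)
    have hsum := Vfun.avg_sel_sum e (fun b : P.cells => (b : 𝓜) * y) c (W.Vrec c g ys)
    have hey : ∀ a (b : P.cells), e a * ((b : 𝓜) * y) = 0 := fun a b => by
      rw [W.comm _ (P.mem b.2) _ hyA, ← mul_assoc, h3 a y List.mem_cons_self, zero_mul]
    have key := ih (κ ⊕ P.cells) (Sum.elim e fun b : P.cells => (b : 𝓜) * y)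
      (fun z hz => hy z (List.mem_cons_of_mem _ hz)) hp.2
      (by
        rintro (a | b)
        · exact h1 a
        · exact ⟨mul_mem (P.mem b.2) hyA, W.proj_mul (P.mem b.2) hyA (P.proj b.2) hyP⟩)
      (by
        rintro (a | a) (b | b) hab
        · exact h2 a b fun h => hab (congrArg _ h)
        · exact hey a b
        · show (a : 𝓜) * y * e b = 0
          rw [W.comm _ (mul_mem (P.mem a.2) hyA) _ (h1 b).1]
          exact hey b a
        · show (a : 𝓜) * y * ((b : 𝓜) * y) = 0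
          have hne : (a : 𝓜) ≠ b := fun h => hab (congrArg _ (Subtype.ext h))
          rw [W.comm _ (P.mem a.2) _ hyA, mul_assoc, ← mul_assoc (a : 𝓜), P.orth a.2 b.2 hne,
            zero_mul, mul_zero])
      (by
        rintro (a | b) z hz
        · exact h3 a z (List.mem_cons_of_mem _ hz)
        · show (b : 𝓜) * y * z = 0
          rw [mul_assoc, hp.1 z hz, mul_zero])
      (by
        rw [Fintype.sum_sum_type]
        simp only [Sum.elim_inl, Sum.elim_inr]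
        rw [← Finset.sum_mul, P.paving.2.2, one_mul, add_assoc]
        simpa using h4)
      (by
        rintro (a | b) z hz
        · exact h5 a z hz
        · show (b : 𝓜) * y * z = (b : 𝓜) * y ∨ (b : 𝓜) * y * z = 0
          rw [mul_assoc, W.comm _ hyA _ (P₀.mem hz), ← mul_assoc]
          rcases hP z hz b b.2 with h | h
          · left; rw [h]
          · right; rw [h, zero_mul])
    exact hsum.symm.le.trans key

theorem WS.exists_V (W : WS 𝓜) {r' : ℕ} (hr' : 0 < r') (g : 𝓜 → ℝ) {B₀ : ℝ}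
    (hg : ∀ p, 0 ≤ g p ∧ g p ≤ B₀) (P₀ : Part W.A) {Bd : ℝ}
    (H : ∀ (κ : Type u) [Fintype κ] [DecidableEq κ] (e : κ → 𝓜), IsPaving W.A e →
      (∀ a, ∀ b ∈ P₀.cells, e a * b = e a ∨ e a * b = 0) →
      avg (fun pos : κ → Fin r' => g (sel e (fun _ => ⟨0, hr'⟩) pos)) ≤ Bd) :
    ∃ V : List 𝓜 → 𝓜 → ℝ, (∀ p, V [] p = g p) ∧ W.VStep r' V ∧
      ∀ ys : List 𝓜, (∀ y ∈ ys, y ∈ W.A ∧ IsStarProjection y) →
        ys.Pairwise (fun a b => a * b = 0) → ys.sum = 1 → V ys 0 ≤ Bd := by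
  refine ⟨W.Vrec ⟨0, hr'⟩ g, fun _ => rfl, fun y ys p δ hδ => ?_, fun ys h1 h2 h3 => ?_⟩
  · have ht := W.Vrec_tendsto ⟨0, hr'⟩ hg y ys p
    refine (ht.eventually (eventually_le_nhds (lt_add_of_pos_right _ hδ))).mono fun P hP j => ?_
    exact (Vfun.avg_sel_shift (fun b : P.cells => (b : 𝓜) * y) j (fun _ => ⟨0, hr'⟩)
      (fun q => W.Vrec ⟨0, hr'⟩ g ys (p + q))).le.trans hP
  · have key := W.Vrec_init ⟨0, hr'⟩ hg P₀ H ys PEmpty.{u + 1} (fun a => a.elim) h1 h2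
      (fun a => a.elim) (fun a => a.elim) (fun a => a.elim) (by simpa using h3) (fun a => a.elim)
    have h0 : ∀ pos : PEmpty.{u + 1} → Fin r',
        sel (fun a : PEmpty.{u + 1} => (a.elim : 𝓜)) (fun _ => ⟨0, hr'⟩) pos = 0 := fun pos => by
      simp [sel]
    simp only [h0] at key
    rwa [avg_const] at key

end Crest.Agent.R109
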