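import Crest.Agent.R109.GelApi
import Crest.Agent.R109.NetMove
import Crest.Agent.R109.Vfun

/-! Row 109, task D9a: colouring the classes one after the other. -/

set_option autoImplicit false
set_option linter.unusedSectionVars false

noncomputable section

namespace Crest.Agent.R109

open Filter Topology MeasureTheory
open scoped ComplexOrder ComplexConjugate Classical

universe u

variable {𝓜 : Type u} [CStarAlgebra 𝓜] [PartialOrder 𝓜] [StarOrderedRing 𝓜]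

variable {R : Reg 𝓜} {Ω : Type*} [TopologicalSpace Ω] [CompactSpace Ω] [MeasurableSpace Ω]
  [BorelSpace Ω] {ev : 𝓜 → Ω → ℂ} {μ : Measure Ω}

variable {G : Type*} [DecidableEq G] [Fintype G]

namespace Rounds

theorem select (hG : IsGel R ev μ) (N : Net Ω G) {r : ℕ} (hr : 0 < r) (M : ℝ) (L : ℕ) {S : ℝ}
    (hS : 1 < S) {t : ℝ} (ht : 1000 ≤ t) {σ : Ω → Option (Fin r)} (hσ : IsLocallyConstant σ) :
    ∃ s : Ω → (Fin ((r + 1) / 2) ↪ Fin r), IsLocallyConstant s ∧ ∀ χ, σ χ = none →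
      avg (fun i => N.Dm M L σ (s χ i) χ + N.Dm (-M) L σ (s χ i) χ) ≤
        2 * (Real.exp t + 2 * errN (Fintype.card G) N.κ0 N.R M S L) := by
  have : Nonempty (Fin ((r + 1) / 2) ↪ Fin r) := ⟨Fin.castLEEmb (by omega)⟩
  obtain ⟨s, hs, hmin⟩ := hG.exists_select
    (fun (J : Fin ((r + 1) / 2) ↪ Fin r) χ => ∑ i, (N.Dm M L σ (J i) χ + N.Dm (-M) L σ (J i) χ))
    fun J => continuous_finsetSum _ fun i _ =>
      (N.continuous_Dm hr M L hσ _).add (N.continuous_Dm hr (-M) L hσ _)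
  refine ⟨s, hs, fun χ hχ => ?_⟩
  obtain ⟨B, hB, h1⟩ := N.Dm_avg_le hr M L σ hχ hS ht
  obtain ⟨B', hB', h2⟩ := N.Dm_avg_le hr (-M) L σ hχ hS ht
  obtain ⟨J, hJ, hc⟩ := Finset.exists_subset_card_eq (s := (B ∪ B')ᶜ) (n := (r + 1) / 2) (by
    rw [Finset.card_compl, Fintype.card_fin]
    have := Finset.card_union_le B B'
    omega)
  have hd : Disjoint J (B ∪ B') := Finset.disjoint_left.2 fun a ha => Finset.mem_compl.1 (hJ ha)
  have h3 := h1 J (Finset.disjoint_union_right.1 hd).1 (by omega)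
  have h4 := h2 J (Finset.disjoint_union_right.1 hd).2 (by omega)
  have h5 := hmin χ (J.orderEmbOfFin hc).toEmbedding
  have h6 := Finset.sum_map Finset.univ (J.orderEmbOfFin hc).toEmbedding
    fun j => N.Dm M L σ j χ + N.Dm (-M) L σ j χ
  rw [Finset.map_orderEmbOfFin_univ] at h6
  rw [← h6, Finset.sum_add_distrib (s := J)] at h5
  have h7 : errN (Fintype.card G) N.κ0 N.R (-M) S L = errN (Fintype.card G) N.κ0 N.R M S L := by
    simp only [errN, abs_neg]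
  rw [h7, hc] at h4
  rw [hc] at h3
  have h8 : (0 : ℝ) < ((r + 1) / 2 : ℕ) := by exact_mod_cast (show 0 < (r + 1) / 2 by omega)
  rw [avg, Fintype.card_fin, div_le_iff₀ h8]
  linarith

theorem step (hG : IsGel R ev μ) (N : Net Ω G) (hμ : N.μ = μ) {r : ℕ} (hr : 0 < r) (M : ℝ)
    (L : ℕ) {S : ℝ} (hS : 1 < S) {t : ℝ} (ht : 1000 ≤ t) (V : List 𝓜 → 𝓜 → ℝ)
    (hV : R.VStep ((r + 1) / 2) V) {lam : ℝ} (hlam : 0 ≤ lam) {y : 𝓜} (hyA : y ∈ R.A)
    (hy : IsStarProjection y) (hsep : N.Sep L {χ | ev y χ = 1}) (ys : List 𝓜)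
    {σ : Ω → Option (Fin r)} (hσ : IsLocallyConstant σ) (hnone : ∀ χ, ev y χ = 1 → σ χ = none)
    (pt : Fin r → 𝓜) {δ : ℝ} (hδ : 0 < δ) :
    ∃ (σ' : Ω → Option (Fin r)) (q : Fin r → 𝓜), IsLocallyConstant σ' ∧
      (∀ l, q l ∈ R.A ∧ ∀ χ, ev (q l) χ = 0 ∨ ev (q l) χ = 1) ∧
      (∀ χ, ev y χ ≠ 1 → σ' χ = σ χ ∧ ∀ l, ev (q l) χ = 0) ∧
      (∀ χ, ev y χ = 1 → ∃ l, σ' χ = some l ∧ ev (q l) χ = 1) ∧
      N.Theta M L σ' + N.Theta (-M) L σ' + lam * ∑ l, V ys (pt l + q l) ≤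
        N.Theta M L σ + N.Theta (-M) L σ + lam * ∑ l, V (y :: ys) (pt l) +
          2 * (Real.exp t + 2 * errN (Fintype.card G) N.κ0 N.R M S L) * (R.ω y).re + δ := by
  have := N.fin
  have : Nonempty (Fin ((r + 1) / 2)) := ⟨⟨0, by omega⟩⟩
  set K := 2 * (Real.exp t + 2 * errN (Fintype.card G) N.κ0 N.R M S L) with hK
  set Y : Set Ω := {χ | ev y χ = 1} with hY
  have hYc : IsClopen Y := hG.isClopen_proj hyA hy
  obtain ⟨s, hs, hsK⟩ := select hG N hr M L hS ht hσ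
  obtain ⟨π, hπ, hπe⟩ := hG.exists_paving hs
  have hδ' : 0 < δ / (lam * r + 1) := by positivity
  obtain ⟨P, hP1, hP2⟩ := ((eventually_all.2 fun l => hV y ys (pt l) _ hδ').and
    (eventually_all.2 fun J => R.U_resp (hπ.1 J).1 (hπ.1 J).2)).exists
  obtain ⟨idx, hidx, hie⟩ := hG.exists_index P.paving
  have hJ : ∀ b : P.cells, ∃ J : Fin ((r + 1) / 2) ↪ Fin r, ∀ χ, idx χ = b → s χ = J := by
    intro b
    by_cases hb : ∃ χ₀, idx χ₀ = b
    · obtain ⟨χ₀, h0⟩ := hb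
      refine ⟨s χ₀, fun χ hχ => ?_⟩
      have hm := hG.ev_mul b (P.paving.1 b).1 _ (hπ.1 (s χ₀)).1
      rcases hP2 (s χ₀) b b.2 with h | h
      · have h1 := hm χ
        rw [h, hie, hπe, if_pos hχ] at h1
        by_contra hne
        simp [hne] at h1
      · have h1 := hm χ₀
        rw [h, hG.ev_zero, hie, hπe] at h1
        simp [h0] at h1
    · exact ⟨Fin.castLEEmb (by omega), fun χ hχ => absurd ⟨χ, hχ⟩ hb⟩
  choose J hJ using hJ
  set j : Fin r → P.cells → Fin ((r + 1) / 2) := fun l b => Function.invFun (J b) l with hj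
  set c : (P.cells → Fin ((r + 1) / 2)) → Ω → Fin r := fun pos χ => J (idx χ) (pos (idx χ))
    with hc
  have hcl : ∀ pos, IsLocallyConstant (c pos) := fun pos => hidx.comp fun b => J b (pos b)
  set g : (P.cells → Fin ((r + 1) / 2)) → Ω → ℝ := fun pos χ =>
    N.Dm M L σ (c pos χ) χ + N.Dm (-M) L σ (c pos χ) χ with hg
  have hi : ∀ M' pos, IntegrableOn (fun χ => N.Dm M' L σ (c pos χ) χ) Y N.μ := fun M' pos =>
    (integrable_of_continuous _ (continuous_of_isLocallyConstant (hcl pos)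
      (N.continuous_Dm hr M' L hσ))).integrableOn
  have hgi : ∀ pos, IntegrableOn (g pos) Y N.μ := fun pos => (hi M pos).add (hi (-M) pos)
  have h1 : avg (fun pos => ∫ χ in Y, g pos χ ∂N.μ) ≤ K * (R.ω y).re := by
    have e : avg (fun pos => ∫ χ in Y, g pos χ ∂N.μ) = ∫ χ in Y, avg (fun pos => g pos χ) ∂N.μ := by
      simp only [avg]
      rw [integral_div, integral_finsetSum _ fun pos _ => hgi pos]
    rw [e, ← hG.measure_proj hyA hy, ← hμ, mul_comm, ← smul_eq_mul, ← setIntegral_const]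
    refine setIntegral_mono_on ((integrable_finsetSum _ fun pos _ => hgi pos).div_const _)
      (integrable_const _).integrableOn hYc.isOpen.measurableSet fun χ hχ => ?_
    have h2 := avg_eval (idx χ) fun i =>
      N.Dm M L σ (J (idx χ) i) χ + N.Dm (-M) L σ (J (idx χ) i) χ
    refine h2.trans_le ?_
    rw [← hJ _ χ rfl]
    exact hsK χ (hnone χ hχ)
  have h2 : avg (fun pos => lam * ∑ l,
      V ys (pt l + sel (fun b : P.cells => (b : 𝓜) * y) (j l) pos)) ≤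
      lam * ∑ l, V (y :: ys) (pt l) + δ := by
    rw [avg_const_mul, avg_sum]
    have h3 := mul_le_mul_of_nonneg_left
      (Finset.sum_le_sum fun l (_ : l ∈ Finset.univ) => hP1 l (j l)) hlam
    rw [Finset.sum_add_distrib, Finset.sum_const, Finset.card_univ, Fintype.card_fin,
      nsmul_eq_mul] at h3
    have h4 : (lam * r + 1) * (δ / (lam * r + 1)) = δ := by field_simp
    nlinarith
  obtain ⟨pos, hpos⟩ := exists_le_avg fun pos => ∫ χ in Y, g pos χ ∂N.μ + lam * ∑ l,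
    V ys (pt l + sel (fun b : P.cells => (b : 𝓜) * y) (j l) pos)
  rw [avg_add] at hpos
  have hq : ∀ l χ, ev (sel (fun b : P.cells => (b : 𝓜) * y) (j l) pos) χ =
      if pos (idx χ) = j l (idx χ) then ev y χ else 0 := fun l χ => by
    rw [sel, hG.ev_sum, Finset.sum_filter, Finset.sum_eq_single (idx χ)]
    · rw [hG.ev_mul _ (P.paving.1 _).1 _ hyA, hie, if_pos rfl, one_mul]
    · intro b _ hb
      rw [hG.ev_mul _ (P.paving.1 _).1 _ hyA, hie, if_neg hb.symm, zero_mul, ite_self]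
    · simp
  have hσ' : IsLocallyConstant fun χ => if χ ∈ Y then some (c pos χ) else σ χ := by
    refine (IsLocallyConstant.iff_eventually_eq _).2 fun χ => ?_
    by_cases hχ : χ ∈ Y
    · filter_upwards [hYc.isOpen.mem_nhds hχ, (hcl pos).eventually_eq χ] with χ' h h'
      rw [if_pos h, if_pos hχ, h']
    · filter_upwards [hYc.isClosed.isOpen_compl.mem_nhds hχ, hσ.eventually_eq χ] with χ' h h'
      rw [if_neg h, if_neg hχ, h']
  refine ⟨_, fun l => sel (fun b : P.cells => (b : 𝓜) * y) (j l) pos, hσ', fun l => ⟨?_, fun χ => ?_⟩,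
    fun χ hχ => ⟨if_neg hχ, fun l => ?_⟩, fun χ hχ => ⟨c pos χ, if_pos hχ, ?_⟩, ?_⟩
  · exact sum_mem fun b _ => mul_mem (P.paving.1 b).1 hyA
  · rw [hq]
    split_ifs
    exacts [hG.ev_proj hyA hy χ, Or.inl rfl]
  · rw [hq, (hG.ev_proj hyA hy χ).resolve_right hχ, ite_self]
  · rw [hq, if_pos, hχ]
    exact (Function.leftInverse_invFun (J (idx χ)).injective _).symm
  · rw [N.Theta_move hr M L hσ hσ' hYc hsep (hcl pos) (fun χ h => if_pos h) fun χ h => if_neg h,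
      N.Theta_move hr (-M) L hσ hσ' hYc hsep (hcl pos) (fun χ h => if_pos h) fun χ h => if_neg h]
    have h3 : ∫ χ in Y, g pos χ ∂N.μ = ∫ χ in Y, N.Dm M L σ (c pos χ) χ ∂N.μ +
        ∫ χ in Y, N.Dm (-M) L σ (c pos χ) χ ∂N.μ := integral_add (hi M pos) (hi (-M) pos)
    linarith

theorem main (hG : IsGel R ev μ) (N : Net Ω G) (hμ : N.μ = μ) {r : ℕ} (hr : 0 < r) (M : ℝ)
    (L : ℕ) {S : ℝ} (hS : 1 < S) {t : ℝ} (ht : 1000 ≤ t) (V : List 𝓜 → 𝓜 → ℝ)
    (hV : R.VStep ((r + 1) / 2) V) {lam : ℝ} (hlam : 0 ≤ lam) (ys : List 𝓜)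
    (hys : ∀ y ∈ ys, y ∈ R.A ∧ IsStarProjection y ∧ N.Sep L {χ | ev y χ = 1})
    (horth : ys.Pairwise (fun a b => a * b = 0)) {σ : Ω → Option (Fin r)}
    (hσ : IsLocallyConstant σ) (pt : Fin r → 𝓜)
    (h1 : ∀ l, pt l ∈ R.A ∧ ∀ χ, ev (pt l) χ = 0 ∨ ev (pt l) χ = 1)
    (h2 : ∀ y ∈ ys, ∀ χ, ev y χ = 1 → σ χ = none ∧ ∀ l, ev (pt l) χ = 0)
    (h3 : ∀ χ, (∀ y ∈ ys, ev y χ ≠ 1) → ∃ l, σ χ = some l ∧ ev (pt l) χ = 1)
    {δ : ℝ} (hδ : 0 < δ) :
    ∃ c : Ω → Fin r, IsLocallyConstant c ∧ ∃ pt' : Fin r → 𝓜,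
      (∀ l, pt' l ∈ R.A ∧ IsStarProjection (pt' l) ∧ ∀ χ, c χ = l → ev (pt' l) χ = 1) ∧
      N.Theta M L (fun χ => some (c χ)) + N.Theta (-M) L (fun χ => some (c χ)) +
          lam * ∑ l, V [] (pt' l) ≤
        N.Theta M L σ + N.Theta (-M) L σ + lam * ∑ l, V ys (pt l) +
          2 * (Real.exp t + 2 * errN (Fintype.card G) N.κ0 N.R M S L) * (R.ω ys.sum).re + δ := by
  induction ys generalizing σ pt δ with
  | nil =>
    choose c hc hc' using fun χ => h3 χ (by simp)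
    obtain rfl : σ = fun χ => some (c χ) := funext hc
    refine ⟨c, IsLocallyConstant.desc c some hσ (Option.some_injective _), pt,
      fun l => ⟨(h1 l).1, hG.isStarProjection_of_ev (h1 l).1 (h1 l).2, fun χ h => h ▸ hc' χ⟩, ?_⟩
    simp [hδ.le]
  | cons y ys ih =>
    obtain ⟨hyA, hy, hsep⟩ := hys y List.mem_cons_self
    rw [List.pairwise_cons] at horth
    obtain ⟨σ', q, hσ', hq1, hq2, hq3, hq4⟩ := step hG N hμ hr M L hS ht V hV hlam hyA hy hsep ys hσ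
      (fun χ h => (h2 y List.mem_cons_self χ h).1) pt (half_pos hδ)
    obtain ⟨c, hc, pt', hpt', h4⟩ := ih (fun z hz => hys z (List.mem_cons_of_mem _ hz)) horth.2 hσ'
      (fun l => pt l + q l) (fun l => ⟨add_mem (h1 l).1 (hq1 l).1, fun χ => by
        rw [hG.ev_add]
        by_cases hχ : ev y χ = 1
        · rw [(h2 y List.mem_cons_self χ hχ).2 l, zero_add]; exact (hq1 l).2 χ
        · rw [(hq2 χ hχ).2 l, add_zero]; exact (h1 l).2 χ⟩)
      (fun z hz χ hχ => by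
        have hz' := List.mem_cons_of_mem y hz
        have h5 := hG.ev_mul y hyA z (hys z hz').1 χ
        rw [horth.1 z hz, hG.ev_zero, hχ, mul_one] at h5
        have h6 : ev y χ ≠ 1 := by rw [← h5]; exact zero_ne_one
        refine ⟨(hq2 χ h6).1.trans (h2 z hz' χ hχ).1, fun l => ?_⟩
        rw [hG.ev_add, (h2 z hz' χ hχ).2 l, (hq2 χ h6).2 l, add_zero])
      (fun χ hχ => by
        by_cases h5 : ev y χ = 1
        · obtain ⟨l, h6, h7⟩ := hq3 χ h5
          exact ⟨l, h6, by rw [hG.ev_add, (h2 y List.mem_cons_self χ h5).2 l, h7, zero_add]⟩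
        · obtain ⟨l, h6, h7⟩ := h3 χ (List.forall_mem_cons.2 ⟨h5, hχ⟩)
          exact ⟨l, (hq2 χ h5).1.trans h6, by rw [hG.ev_add, h7, (hq2 χ h5).2 l, add_zero]⟩)
      (half_pos hδ)
    refine ⟨c, hc, pt', hpt', ?_⟩
    rw [List.sum_cons, map_add, Complex.add_re, mul_add]
    linarith

end Rounds

theorem rounds (hG : IsGel R ev μ) (N : Net Ω G) (hμ : N.μ = μ) {r : ℕ} (hr : 0 < r) (M : ℝ)
    (L : ℕ) {S : ℝ} (hS : 1 < S) {t : ℝ} (ht : 1000 ≤ t) (V : List 𝓜 → 𝓜 → ℝ)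
    (hV : R.VStep ((r + 1) / 2) V) {lam : ℝ} (hlam : 0 ≤ lam) (ys : List 𝓜)
    (hys : ∀ y ∈ ys, y ∈ R.A ∧ IsStarProjection y ∧ N.Sep L {χ | ev y χ = 1})
    (horth : ys.Pairwise (fun a b => a * b = 0)) (hsum : ys.sum = 1) {δ : ℝ} (hδ : 0 < δ) :
    ∃ c : Ω → Fin r, IsLocallyConstant c ∧ ∃ pt : Fin r → 𝓜,
      (∀ l, pt l ∈ R.A ∧ IsStarProjection (pt l) ∧ ∀ χ, c χ = l → ev (pt l) χ = 1) ∧
      N.Theta M L (fun χ => some (c χ)) + N.Theta (-M) L (fun χ => some (c χ)) +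
          lam * ∑ l, V [] (pt l) ≤
        N.Theta M L (fun _ => (none : Option (Fin r))) +
          N.Theta (-M) L (fun _ => (none : Option (Fin r))) +
          2 * (Real.exp t + 2 * errN (Fintype.card G) N.κ0 N.R M S L) * (R.ω 1).re +
          lam * r * V ys 0 + δ := by
  obtain ⟨c, hc, pt, hpt, h⟩ := Rounds.main hG N hμ hr M L hS ht V hV hlam ys hys horth
    (σ := fun _ => none) (IsLocallyConstant.const _) (fun _ => 0)
    (fun l => ⟨zero_mem _, fun χ => Or.inl (hG.ev_zero χ)⟩)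
    (fun y _ χ _ => ⟨rfl, fun _ => hG.ev_zero χ⟩) (fun χ hχ => by
      have h1 : ∀ zs : List 𝓜, (∀ z ∈ zs, ev z χ = 0) → ev zs.sum χ = 0 := fun zs => by
        induction zs with
        | nil => exact fun _ => hG.ev_zero χ
        | cons z zs ih =>
          intro h
          rw [List.forall_mem_cons] at h
          rw [List.sum_cons, hG.ev_add, h.1, ih h.2, add_zero]
      have h2 := h1 ys fun z hz =>
        (hG.ev_proj (hys z hz).1 (hys z hz).2.1 χ).resolve_right (hχ z hz)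
      rw [hsum, hG.ev_one] at h2
      exact absurd h2 one_ne_zero) hδ
  refine ⟨c, hc, pt, hpt, ?_⟩
  rw [hsum, Finset.sum_const, Finset.card_univ, Fintype.card_fin, nsmul_eq_mul] at h
  linarith

end Crest.Agent.R109
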