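import Crest.Agent.R109.Gel
import Crest.Agent.R109.FinalOp
import Crest.Agent.R109.Rounds

/-! Row 109: the joint colouring of the normaliser part and of the orthogonal part. -/

set_option autoImplicit false
set_option linter.unusedSectionVars false

noncomputable section

namespace Crest.Agent.R109

open Filter Topology MeasureTheory
open scoped ComplexOrder ComplexConjugate Classical

universe u

variable {𝓜 : Type u} [CStarAlgebra 𝓜] [PartialOrder 𝓜] [StarOrderedRing 𝓜]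

theorem exists_L (D : ℕ) {κ0 M : ℝ} (hκ0 : 0 ≤ κ0) (hM : 0 ≤ M) :
    ∃ (S : ℝ) (L : ℕ), 1 < S ∧ 2 * (Real.exp (2 * κ0) * (D + 1)) ≤ S ∧
      errN D κ0 5 M S L ≤ 1 ∧ errK D κ0 5 M S L ≤ 1 ∧ 0 ≤ errK D κ0 5 M S L := by
  set S : ℝ := 2 * (Real.exp (2 * κ0) * (D + 1)) with hS
  have he1 : 1 ≤ Real.exp (2 * κ0) := Real.one_le_exp (by positivity)
  have hD1 : (1 : ℝ) ≤ D + 1 := by have : (0 : ℝ) ≤ D := Nat.cast_nonneg D; linarith
  have hS2 : 2 ≤ S := by rw [hS]; nlinarith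
  have hS0 : 0 < S := by linarith
  obtain ⟨L, hL⟩ := exists_pow_lt_of_lt_one (x := (Real.exp (S * (M * 5)))⁻¹) (y := (1 / 2 : ℝ))
    (by positivity) (by norm_num)
  have hL' : Real.exp (S * (M * 5)) * (1 / 2 : ℝ) ^ L ≤ 1 := by
    have := mul_le_mul_of_nonneg_left hL.le (Real.exp_pos (S * (M * 5))).le
    rwa [mul_inv_cancel₀ (Real.exp_pos _).ne'] at this
  refine ⟨S, L, by linarith, le_rfl, ?_, ?_, ?_⟩
  · unfold errN
    rw [abs_of_nonneg hM, div_le_one (by have : 0 < S - 1 := by linarith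
                                         positivity), Real.exp_add]
    have h1 : ((D : ℝ) + 1) ^ L * Real.exp (κ0 * L) ≤ (1 / 2 : ℝ) ^ L * S ^ L := by
      rw [mul_comm κ0, Real.exp_nat_mul, ← mul_pow, ← mul_pow]
      refine pow_le_pow_left₀ (by positivity) ?_ L
      have : Real.exp κ0 ≤ Real.exp (2 * κ0) := Real.exp_le_exp.2 (by linarith)
      rw [hS]; nlinarith
    calc ((D : ℝ) + 1) ^ L * (Real.exp (κ0 * L) * Real.exp (S * (M * 5)))
        = (((D : ℝ) + 1) ^ L * Real.exp (κ0 * L)) * Real.exp (S * (M * 5)) := by ring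
      _ ≤ ((1 / 2 : ℝ) ^ L * S ^ L) * Real.exp (S * (M * 5)) := by gcongr
      _ = (Real.exp (S * (M * 5)) * (1 / 2 : ℝ) ^ L) * S ^ L := by ring
      _ ≤ 1 * S ^ L := by gcongr
      _ ≤ S ^ L * (S - 1) := by
        have : 0 < S ^ L := by positivity
        nlinarith
  · unfold errK
    have hq : Real.exp (2 * κ0) * (D + 1) / S = 1 / 2 := by
      rw [hS]; field_simp
    rw [hq, abs_of_nonneg hM]
    refine le_trans ?_ hL'
    gcongr
    linarith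
  · unfold errK
    positivity

theorem errN_neg (D : ℕ) (κ0 R M S : ℝ) (L : ℕ) : errN D κ0 R (-M) S L = errN D κ0 R M S L := by
  unfold errN; rw [abs_neg]

theorem errK_neg (D : ℕ) (κ0 R M S : ℝ) (L : ℕ) : errK D κ0 R (-M) S L = errK D κ0 R M S L := by
  unfold errK; rw [abs_neg]

/-- From the final operator inequality to a `BLe` statement. -/
theorem Reg.ble_of_final (R : Reg 𝓜) {y b : 𝓜} {M s c m ε β : ℝ} (hM : 0 < M) (hb : 0 ≤ b)
    (hc : 0 ≤ c) (hm : (R.ω b).re ≤ m) (h : (M / 256) • y ≤ s • (1 : 𝓜) + c • b)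
    (hε : 256 / M * s ≤ ε) (hβ : 256 / M * (c * m) ≤ β) : R.BLe y ε β := by
  have h1 : R.BLe ((M / 256) • y) s (c * m) := by
    refine ⟨c • b, smul_nonneg hc hb, ?_, h⟩
    rw [pos_real_smul]
    simp only [Complex.mul_re, Complex.ofReal_re, Complex.ofReal_im, zero_mul, sub_zero]
    exact mul_le_mul_of_nonneg_left hm hc
  have h2 := h1.smul (c := 256 / M) (by positivity)
  rw [smul_smul, show 256 / M * (M / 256) = 1 by field_simp, one_smul] at h2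
  exact h2.mono hε hβ

theorem Reg.joint (R : Reg 𝓜) {ε : ℝ} (hε : 0 < ε) (hε1 : ε < 1) {r : ℕ}
    (hr : 400000000 / ε ^ 2 ≤ r) {x₀ : 𝓜} (hx₀ : x₀ ∈ R.N0) (hsa : IsSelfAdjoint x₀)
    (hE : R.E x₀ = 0) (hn : ‖x₀‖ ≤ 5) (V : List 𝓜 → 𝓜 → ℝ) (hV0 : ∀ p, 0 ≤ V [] p)
    (hV : R.VStep ((r + 1) / 2) V) {Bd : ℝ} (hBd : 0 < Bd)
    (hinit : ∀ ys : List 𝓜, (∀ y ∈ ys, y ∈ R.A ∧ IsStarProjection y) →
      ys.Pairwise (fun a b => a * b = 0) → ys.sum = 1 → V ys 0 ≤ Bd) {β : ℝ} (hβ : 0 < β) :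
    ∃ p pt : Fin r → 𝓜, IsPaving R.A p ∧ (∀ l, p l * pt l = p l ∧ IsStarProjection (pt l)) ∧
      ∑ l, V [] (pt l) ≤ 2 * r * Bd ∧ ∃ x', IsSelfAdjoint x' ∧ n2 R.ω (x₀ - x') ≤ β ∧
        R.BLe (pinch p x') (ε / 2) β ∧ R.BLe (-pinch p x') (ε / 2) β := by
  obtain ⟨n, inv, v, a, K, hK, hinv, hv, hvK, ha, hxa⟩ := R.N0_rep hx₀
  have hε2 : 0 < ε ^ 2 := by positivity
  have hr1 : (400000000 : ℝ) ≤ r := by
    refine le_trans ?_ hr
    rw [le_div_iff₀ hε2]; nlinarith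
  have hr0 : 0 < r := by
    have : (0 : ℝ) < r := by linarith
    exact_mod_cast this
  have hrR : (0 : ℝ) < r := by exact_mod_cast hr0
  have hsq : 20000 / ε ≤ Real.sqrt r := by
    refine Real.le_sqrt_of_sq_le ?_
    rw [div_pow]; norm_num; exact hr
  have hsq1 : 20000 ≤ Real.sqrt r := by
    refine le_trans ?_ hsq
    rw [le_div_iff₀ hε]; nlinarith
  have hsq0 : 0 < Real.sqrt r := by linarith
  set κ0 : ℝ := Real.log K with hκ0def
  have hκ0 : 0 ≤ κ0 := Real.log_nonneg hK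
  -- the width of the slab
  obtain ⟨τ0, hτ0, hτ⟩ : ∃ τ0 : ℝ, 0 < τ0 ∧ ((n : ℝ) + 1) * 5 * κ0 ^ 2 / (4 * τ0 ^ 2) ≤ ε / 10 := by
    set A0 : ℝ := ((n : ℝ) + 1) * 5 * κ0 ^ 2 with hA0
    have hA : 0 ≤ A0 := by positivity
    refine ⟨A0 * 10 / ε + 1, by positivity, ?_⟩
    have h1 : 1 ≤ A0 * 10 / ε + 1 := by have : 0 ≤ A0 * 10 / ε := by positivity
                                        linarith
    rw [div_le_iff₀ (by positivity)]
    have h2 : A0 = ε / 10 * (A0 * 10 / ε) := by field_simp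
    have h3 : A0 * 10 / ε ≤ 4 * (A0 * 10 / ε + 1) ^ 2 := by nlinarith
    calc A0 = ε / 10 * (A0 * 10 / ε) := h2
      _ ≤ ε / 10 * (4 * (A0 * 10 / ε + 1) ^ 2) := by gcongr
  -- the scale
  obtain ⟨t0, ht0, ht0'⟩ : ∃ t0 : ℝ, 1000 ≤ t0 ∧ 256 * 40 * Real.exp (τ0 ^ 2 / 4 - t0) ≤ β := by
    refine ⟨max 1000 (τ0 ^ 2 / 4 - Real.log (β / (256 * 40))), le_max_left _ _, ?_⟩
    have h1 : τ0 ^ 2 / 4 - max 1000 (τ0 ^ 2 / 4 - Real.log (β / (256 * 40))) ≤
        Real.log (β / (256 * 40)) := by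
      have := le_max_right 1000 (τ0 ^ 2 / 4 - Real.log (β / (256 * 40)))
      linarith
    have h2 := Real.exp_le_exp.2 h1
    rw [Real.exp_log (by positivity)] at h2
    have : 256 * 40 * (β / (256 * 40)) = β := by field_simp
    nlinarith
  set M : ℝ := t0 * Real.sqrt r / 15 with hMdef
  have hM1 : 1 ≤ M := by rw [hMdef, le_div_iff₀ (by norm_num)]; nlinarith
  have hM0 : 0 < M := by linarith
  have hMt : 3 * (|M| * 5) / Real.sqrt r = t0 := by
    rw [abs_of_pos hM0, hMdef]; field_simp; ring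
  obtain ⟨S, L, hS1, hS2, hN1, hK1, hK0⟩ := exists_L n hκ0 hM0.le
  -- the classes
  obtain ⟨κ', hκ', hcomp⟩ := R.exists_n2_compress x₀ hβ
  have hnorm : ∀ g, R.Norm (v g) := fun g => (hvK g).1
  obtain ⟨P, z, hzA, hzp, hzω, hcl⟩ := R.exists_classes ((words (Fin n) L).image (vw v))
    (by
      intro u hu
      obtain ⟨w, -, rfl⟩ := Finset.mem_image.1 hu
      exact WS.Norm.vw hnorm w) hκ'
  have hz1A : 1 - z ∈ R.A := R.A.sub_mem R.A.one_mem hzA
  have hz1p : IsStarProjection (1 - z) := hzp.one_sub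
  set x' : 𝓜 := (1 - z) * x₀ * (1 - z) with hx'
  have hx'sa : IsSelfAdjoint x' := by
    have := hsa.conjugate (1 - z)
    rwa [hz1p.isSelfAdjoint.star_eq] at this
  have hx'n : ‖x'‖ ≤ 5 := by
    have h1 : ‖(1 - z : 𝓜)‖ ≤ 1 := hz1p.norm_le _
    calc ‖x'‖ ≤ ‖(1 - z : 𝓜)‖ * ‖x₀‖ * ‖(1 - z : 𝓜)‖ :=
          (norm_mul_le _ _).trans (by gcongr; exact norm_mul_le _ _)
      _ ≤ 1 * 5 * 1 := by gcongr
      _ = 5 := by norm_num
  have hx'E : R.E x' = 0 := by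
    rw [hx', R.E_mul_right hz1A, R.E_mul_left hz1A, hE]; simp
  set a' : Fin n → 𝓜 := fun g => (star (v g) * (1 - z) * v g) * a g * (1 - z) with ha'
  have ha'A : ∀ g, a' g ∈ R.A := fun g =>
    R.A.mul_mem (R.A.mul_mem ((hnorm g).2 _ hz1A).1 (ha g)) hz1A
  have hx'a : x' = ∑ g, v g * a' g := by
    rw [hx', hxa, Finset.mul_sum, Finset.sum_mul]
    refine Finset.sum_congr rfl fun g _ => ?_
    rw [← mul_assoc, (hnorm g).mul_left_eq hz1A]
    simp only [ha', mul_assoc]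
  have hx'z : x' * z = 0 := by
    rw [hx', mul_assoc, hzp.isIdempotentElem.one_sub_mul_self, mul_zero]
  obtain ⟨Ω, _, _, _, _, ev, μ, hG⟩ := R.exists_gel
  obtain ⟨N, hN, hμ, hNR, hNκ⟩ := exists_net hG inv hinv v hv hK hvK a' ha'A hx'a hx'sa hx'E hx'n
  have hcard : Fintype.card (Fin n) = n := Fintype.card_fin n
  set P' : ℝ := 20 * Real.exp t0 with hP'
  have hP'0 : 0 < P' := by positivity
  set lam : ℝ := P' / (r * Bd) with hlam
  have hlam0 : 0 < lam := by positivity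
  have hys1 : ∀ y ∈ P.cells.toList, y ∈ R.A ∧ IsStarProjection y := fun y hy =>
    ⟨P.mem (Finset.mem_toList.1 hy), P.proj (Finset.mem_toList.1 hy)⟩
  have horth : P.cells.toList.Pairwise (fun a b => a * b = 0) := by
    refine (P.cells.nodup_toList).pairwise_of_forall_ne ?_
    intro a ha b hb hab
    exact P.orth (Finset.mem_toList.1 ha) (Finset.mem_toList.1 hb) hab
  have hsum : P.cells.toList.sum = 1 := by
    rw [Finset.sum_toList]; exact P.sum_cells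
  obtain ⟨c, hc, pt, hpt, hineq⟩ := rounds hG N hμ hr0 M L hS1 ht0 V hV hlam0.le P.cells.toList
    (fun y hy => ⟨(hys1 y hy).1, (hys1 y hy).2, hN.sep hG (hys1 y hy).1 (hys1 y hy).2 hzA hzp hx'z
      fun w hw => hcl _ (Finset.mem_image_of_mem _ (mem_words.2 hw)) y (Finset.mem_toList.1 hy)⟩)
    horth hsum one_pos
  obtain ⟨p, hp, hpc⟩ := hG.exists_paving hc
  have hS2' : 2 * (Real.exp (2 * N.κ0) * (Fintype.card (Fin n) + 1)) ≤ S := by
    rw [hNκ, hcard]; exact hS2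
  obtain ⟨b₁, hb₁, hω₁, hle₁⟩ := hN.final_op hG hμ hx'sa a' ha'A hx'a hr0 M L hτ0 hc hp hpc hS2'
    (2 * t0)
  obtain ⟨b₂, hb₂, hω₂, hle₂⟩ := hN.final_op hG hμ hx'sa a' ha'A hx'a hr0 (-M) L hτ0 hc hp hpc
    hS2' (2 * t0)
  have hi₁ := N.Theta_init_le hr0 M L hS1
  have hi₂ := N.Theta_init_le hr0 (-M) L hS1
  rw [hNκ, hNR, hcard] at hω₁ hω₂ hle₁ hle₂ hi₁ hi₂ hineq
  rw [errK_neg] at hω₂
  rw [errN_neg, abs_neg] at hi₂
  rw [abs_neg] at hle₂
  rw [hMt, hμ, hG.measure_univ] at hi₁ hi₂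
  have hω10 : 0 ≤ (R.ω 1).re := pos_re_nonneg _ zero_le_one
  have hω11 : (R.ω 1).re ≤ 1 := R.one_le
  have hVi : V P.cells.toList 0 ≤ Bd := hinit _ hys1 horth hsum
  have hsum0 : 0 ≤ ∑ l, V [] (pt l) := Finset.sum_nonneg fun l _ => hV0 _
  have hb₁0 := pos_re_nonneg R.ω hb₁
  have hb₂0 := pos_re_nonneg R.ω hb₂
  have hexp1 : Real.exp (1 + t0) ≤ 3 * Real.exp t0 := by
    rw [Real.exp_add]
    have := Real.exp_one_lt_d9
    have h0 := Real.exp_pos t0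
    nlinarith
  have hexp2 : 1001 ≤ Real.exp t0 := by have := Real.add_one_le_exp t0; linarith
  have hlamBd : lam * r * Bd = P' := by rw [hlam]; field_simp
  -- the total budget
  have htot : (R.ω b₁).re + (R.ω b₂).re + lam * ∑ l, V [] (pt l) ≤ 2 * P' := by
    set eN := errN n κ0 5 M S L
    set eK := errK n κ0 5 M S L
    set ω1 := (R.ω 1).re
    have h1 : (Real.exp (1 + t0) + 2 * eN) * ω1 ≤ (3 * Real.exp t0 + 2) * ω1 := by gcongr; linarith
    have h2 : (3 * Real.exp t0 + 2) * ω1 ≤ 3 * Real.exp t0 + 2 :=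
      mul_le_of_le_one_right (by positivity) hω11
    have h3 : 2 * (Real.exp t0 + 2 * eN) * ω1 ≤ 2 * (Real.exp t0 + 2) * ω1 := by gcongr; linarith
    have h4 : 2 * (Real.exp t0 + 2) * ω1 ≤ 2 * (Real.exp t0 + 2) :=
      mul_le_of_le_one_right (by positivity) hω11
    have h5 : eK * ω1 ≤ 1 := mul_le_one₀ hK1 hω10 hω11
    have h6 : lam * r * V P.cells.toList 0 ≤ lam * r * Bd := by gcongr
    rw [hω₁, hω₂]
    linarith
  have hεb : 256 / M * (2 * t0 + ((n : ℝ) + 1) * (|M| / 256 * 5) * κ0 ^ 2 / (4 * τ0 ^ 2)) ≤ ε / 2 := by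
    have h1 : 256 / M * (2 * t0 + ((n : ℝ) + 1) * (|M| / 256 * 5) * κ0 ^ 2 / (4 * τ0 ^ 2)) =
        7680 / Real.sqrt r + ((n : ℝ) + 1) * 5 * κ0 ^ 2 / (4 * τ0 ^ 2) := by
      rw [abs_of_pos hM0]
      have ht00 : t0 ≠ 0 := by linarith
      have : 256 / M * (2 * t0) = 7680 / Real.sqrt r := by rw [hMdef]; field_simp; ring
      rw [mul_add, this]; congr 1; field_simp
    have h2 : 7680 / Real.sqrt r ≤ 2 / 5 * ε := by
      rw [div_le_iff₀ hsq0]
      rw [div_le_iff₀ hε] at hsq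
      nlinarith
    rw [h1]; linarith
  have hβb : 256 / M * (Real.exp (τ0 ^ 2 / 4 - 2 * t0) * (2 * P')) ≤ β := by
    have h1 : Real.exp (τ0 ^ 2 / 4 - 2 * t0) * (2 * P') = 40 * Real.exp (τ0 ^ 2 / 4 - t0) := by
      rw [hP', show τ0 ^ 2 / 4 - t0 = (τ0 ^ 2 / 4 - 2 * t0) + t0 by ring, Real.exp_add (_ - 2 * t0)]
      ring
    have h2 : 256 / M ≤ 256 := div_le_self (by norm_num) hM1
    rw [h1]
    calc 256 / M * (40 * Real.exp (τ0 ^ 2 / 4 - t0)) ≤ 256 * (40 * Real.exp (τ0 ^ 2 / 4 - t0)) := by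
          gcongr
      _ ≤ β := by linarith
  have hlamV : 0 ≤ lam * ∑ l, V [] (pt l) := mul_nonneg hlam0.le hsum0
  refine ⟨p, pt, hp, fun l => ⟨?_, (hpt l).2.1⟩, ?_, x', hx'sa, ?_, ?_, ?_⟩
  · refine hG.eq_of_ev (R.A.mul_mem (hp.1 l).1 (hpt l).1) (hp.1 l).1 fun χ => ?_
    rw [hG.ev_mul _ (hp.1 l).1 _ (hpt l).1, hpc]
    split_ifs with h
    · rw [(hpt l).2.2 χ h, one_mul]
    · rw [zero_mul]
  · have h1 : lam * ∑ l, V [] (pt l) ≤ lam * (2 * r * Bd) := by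
      have : lam * (2 * r * Bd) = 2 * P' := by rw [← hlamBd]; ring
      linarith
    exact le_of_mul_le_mul_left h1 hlam0
  · exact hcomp (1 - z) hz1p (by rwa [sub_sub_cancel])
  · exact R.ble_of_final hM0 hb₁ (Real.exp_pos _).le (m := 2 * P') (by linarith) hle₁ hεb hβb
  · refine R.ble_of_final hM0 hb₂ (Real.exp_pos _).le (m := 2 * P') (by linarith) ?_ hεb hβb
    rwa [smul_neg, ← neg_smul, ← neg_div]

end Crest.Agent.R109
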