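import Crest.Agent.R109.Atoms

/-! Row 109, task D4: small blocks for elements orthogonal to the normaliser algebra. -/

set_option autoImplicit false
set_option linter.unusedSectionVars false

noncomputable section

namespace Crest.Agent.R109

open Filter Topology
open scoped ComplexOrder ComplexConjugate Classical

universe u

variable {𝓜 : Type u} [CStarAlgebra 𝓜] [PartialOrder 𝓜] [StarOrderedRing 𝓜]

theorem Reg.lemmaB (R : Reg 𝓜) {w : 𝓜} (hw : IsSelfAdjoint w) (hp : R.Perp w) {η : ℝ}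
    (hη : 0 < η) :
    ∃ x, IsSelfAdjoint x ∧ ‖x‖ ≤ ‖w‖ ∧ n2 R.ω (w - x) ≤ η ∧ ∃ P : Part R.A,
      ∀ e ∈ P.cells, ∀ e' ∈ P.cells, ‖e * x * e'‖ ≤ η := by
  obtain ⟨κ, hκ, hcomp⟩ := R.exists_n2_compress w hη
  have hγ : 0 < κ * η ^ 4 / 4 := by positivity
  obtain ⟨P₀, hP₀⟩ := R.atoms hw hp hγ
  set N : ℝ := (P₀.cells.card : ℝ) with hN
  have hN0 : 0 ≤ N := Nat.cast_nonneg _
  set δ : ℝ := Real.sqrt (κ * η ^ 4 / 4 / (N + 1)) with hδ
  have hδ0 : 0 < δ := Real.sqrt_pos.2 (by positivity)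
  have hδ2 : N * δ ^ 2 ≤ κ * η ^ 4 / 4 := by
    rw [hδ, Real.sq_sqrt (by positivity), mul_div_assoc', div_le_iff₀ (by positivity)]
    nlinarith
  have hev : ∀ᶠ P in (R.U : Filter (Part R.A)), ∀ a ∈ P₀.cells,
      n2 R.ω (P.pinch (w * a * w) - R.E (w * a * w)) ≤ δ :=
    (eventually_all_finset _).2 fun a _ => R.eventually_n2_pinch _ hδ0
  obtain ⟨P, hP1, hP2⟩ := (hev.and (R.U_refines P₀)).exists
  have hysa : ∀ a ∈ P₀.cells, IsSelfAdjoint (w * a * w) := fun a ha => by
    have := (P₀.proj ha).isSelfAdjoint.conjugate' w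
    rwa [hw.star_eq] at this
  set Z : 𝓜 := ∑ a ∈ P₀.cells, star (P.pinch (w * a * w)) * P.pinch (w * a * w) with hZ
  have hZ0 : 0 ≤ Z := Finset.sum_nonneg fun a _ => star_mul_self_nonneg _
  have hmul : ∀ b ∈ P.cells, ∀ y, b * P.pinch y = b * y * b ∧ P.pinch y * b = b * y * b :=
    fun b hb y => by
    rw [Part.pinch_eq]
    exact P.paving.mul_pinch ⟨b, hb⟩ y
  have hcomm : ∀ b ∈ P.cells, Commute b Z := fun b hb => by
    refine Commute.sum_right _ _ _ fun a ha => ?_
    have h1 : Commute b (P.pinch (w * a * w)) := (hmul b hb _).1.trans (hmul b hb _).2.symm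
    have h2 : Commute b (star (P.pinch (w * a * w))) := by
      have := h1.star_star
      rwa [(P.proj hb).isSelfAdjoint.star_eq] at this
    exact h2.mul_right h1
  have hωZ : (R.ω Z).re ≤ κ * η ^ 4 := by
    rw [hZ, map_sum, Complex.re_sum]
    have h1 : ∀ a ∈ P₀.cells, (R.ω (star (P.pinch (w * a * w)) * P.pinch (w * a * w))).re ≤
        2 * δ ^ 2 + 2 * (R.ω (R.E (w * a * w) * R.E (w * a * w))).re := fun a ha => by
      have h2 : (R.ω (R.E (w * a * w) * R.E (w * a * w))).re = n2 R.ω (R.E (w * a * w)) ^ 2 := by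
        rw [n2_sq, (R.E_sa (hysa a ha)).star_eq]
      have h3 := n2_add_le R.ω (P.pinch (w * a * w) - R.E (w * a * w)) (R.E (w * a * w))
      rw [sub_add_cancel] at h3
      have h4 := hP1 a ha
      have h5 := n2_nonneg R.ω (P.pinch (w * a * w))
      have h6 : n2 R.ω (P.pinch (w * a * w)) ^ 2 ≤ (δ + n2 R.ω (R.E (w * a * w))) ^ 2 :=
        pow_le_pow_left₀ h5 (by linarith) 2
      rw [← n2_sq, h2]
      nlinarith [sq_nonneg (δ - n2 R.ω (R.E (w * a * w)))]
    refine (Finset.sum_le_sum h1).trans ?_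
    rw [Finset.sum_add_distrib, Finset.sum_const, nsmul_eq_mul, ← Finset.mul_sum, ← hN]
    linarith
  obtain ⟨s, hs⟩ := R.exists_SP' hZ0.isSelfAdjoint (η ^ 4)
  have hq := hs.1.one_sub
  have hqs : star (1 - s) = 1 - s := hq.isSelfAdjoint.star_eq
  have hωs : (R.ω (1 - (1 - s))).re ≤ κ := by
    have h1 := pos_re_mono R.ω (hs.smul_le hZ0)
    rw [pos_real_smul, Complex.re_ofReal_mul] at h1
    rw [sub_sub_cancel]
    have h2 : η ^ 4 * (R.ω s).re ≤ η ^ 4 * κ := by linarith
    exact le_of_mul_le_mul_left h2 (by positivity)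
  have hnp : ∀ {e : 𝓜}, IsStarProjection e → ∀ y : 𝓜, ‖e * y‖ ≤ ‖y‖ := fun {e} he y =>
    (norm_mul_le _ _).trans (mul_le_of_le_one_left (norm_nonneg _) he.norm_le)
  have hnp' : ∀ {e : 𝓜}, IsStarProjection e → ∀ y : 𝓜, ‖y * e‖ ≤ ‖y‖ := fun {e} he y =>
    (norm_mul_le _ _).trans (mul_le_of_le_one_right (norm_nonneg _) he.norm_le)
  refine ⟨(1 - s) * w * (1 - s), ?_, (hnp' hq _).trans (hnp hq _), hcomp _ hq hωs, P,
    fun e he e' he' => ?_⟩
  · have := hw.conjugate' (1 - s)
    rwa [hqs] at this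
  rcases P₀.exists_cell (b := e) (fun a ha => hP2 a ha e he) with rfl | ⟨a, ha, hea⟩
  · simpa using hη.le
  have hce : e * (1 - s) = (1 - s) * e :=
    ((Commute.one_right e).sub_right (hs.2.1 e (hcomm e he))).eq
  have hce' : e' * (1 - s) = (1 - s) * e' :=
    ((Commute.one_right e').sub_right (hs.2.1 e' (hcomm e' he'))).eq
  -- the norm of `Y q`
  have h1 : ‖P.pinch (w * a * w) * (1 - s)‖ ≤ η ^ 2 := by
    have a1 : star (P.pinch (w * a * w)) * P.pinch (w * a * w) ≤ Z :=
      Finset.single_le_sum (f := fun a => star (P.pinch (w * a * w)) * P.pinch (w * a * w))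
        (fun a _ => star_mul_self_nonneg _) ha
    have a2 := star_left_conjugate_le_conjugate a1 (1 - s)
    have a3 : star (P.pinch (w * a * w) * (1 - s)) * (P.pinch (w * a * w) * (1 - s)) ≤
        (η ^ 4) • (1 : 𝓜) := by
      refine le_trans (le_of_eq ?_) (a2.trans ?_)
      · rw [star_mul]; simp only [mul_assoc]
      · rw [hqs]
        exact hs.conj_le.trans (smul_le_smul_of_nonneg_left hq.le_one (by positivity))
    have a4 := norm_le_of_le_of_neg_le (star_mul_self_nonneg _).isSelfAdjoint (by positivity) a3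
      ((neg_nonpos.2 (star_mul_self_nonneg _)).trans (smul_nonneg (by positivity) zero_le_one))
    rw [CStarRing.norm_star_mul_self] at a4
    refine (pow_le_pow_iff_left₀ (norm_nonneg _) (by positivity) two_ne_zero).1 ?_
    calc _ = _ := sq _
      _ ≤ η ^ 4 := a4
      _ = _ := by ring
  have h2 : ‖a * w * (1 - s) * e'‖ ≤ η := by
    have a1 : star (a * w * (1 - s) * e') * (a * w * (1 - s) * e') =
        (1 - s) * (e' * (P.pinch (w * a * w) * (1 - s))) := by
      rw [← mul_assoc e', (hmul e' he' _).1]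
      simp only [star_mul, hqs, hw.star_eq, (P.proj he').isSelfAdjoint.star_eq,
        (P₀.proj ha).isSelfAdjoint.star_eq]
      calc e' * ((1 - s) * (w * a)) * (a * w * (1 - s) * e')
          = e' * (1 - s) * w * (a * a) * w * ((1 - s) * e') := by simp only [mul_assoc]
        _ = _ := by
          rw [(P₀.proj ha).isIdempotentElem.eq, hce', ← hce']
          simp only [mul_assoc]
          rw [← mul_assoc, hce', mul_assoc]
    have a2 : ‖star (a * w * (1 - s) * e') * (a * w * (1 - s) * e')‖ ≤ η ^ 2 := by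
      rw [a1]
      exact (hnp hq _).trans ((hnp (P.proj he') _).trans h1)
    rw [CStarRing.norm_star_mul_self, ← sq] at a2
    exact (pow_le_pow_iff_left₀ (norm_nonneg _) hη.le two_ne_zero).1 a2
  have h3 : e * ((1 - s) * w * (1 - s)) * e' = (1 - s) * (e * (a * w * (1 - s) * e')) := by
    calc e * ((1 - s) * w * (1 - s)) * e' = e * (1 - s) * (w * (1 - s) * e') := by
          simp only [mul_assoc]
      _ = (1 - s) * (e * a) * (w * (1 - s) * e') := by rw [hce, hea]
      _ = _ := by simp only [mul_assoc]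
  rw [h3]
  exact (hnp hq _).trans ((hnp (P.proj he) _).trans h2)

end Crest.Agent.R109
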