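import Crest.Agent.R109.Struct

/-! Row 109, task A5: the averaging lemma for exponential weights. -/

set_option autoImplicit false

noncomputable section

namespace Crest.Agent.R109

open Polynomial
open scoped ComplexConjugate

open MeasureTheory

namespace LemmaMAux

open Set

theorem layer {ρ₁ ρ₂ : Measure ℝ} (h : ∀ v, ρ₁ (Ioi v) ≤ ρ₂ (Ioi v)) :
    ∫⁻ y, ENNReal.ofReal (Real.exp y) ∂ρ₁ ≤ ∫⁻ y, ENNReal.ofReal (Real.exp y) ∂ρ₂ := by
  rw [lintegral_eq_lintegral_meas_lt ρ₁ (Filter.Eventually.of_forall fun y => (Real.exp_pos y).le)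
      Real.measurable_exp.aemeasurable,
    lintegral_eq_lintegral_meas_lt ρ₂ (Filter.Eventually.of_forall fun y => (Real.exp_pos y).le)
      Real.measurable_exp.aemeasurable]
  refine setLIntegral_mono' measurableSet_Ioi fun t ht => ?_
  have : {a : ℝ | t < Real.exp a} = Ioi (Real.log t) := by
    ext a
    exact (Real.log_lt_iff_lt_exp ht).symm
  rw [this]
  exact h _

variable {κ : Type*} [Fintype κ]

/-- A finite sum of point masses. -/
def pm (ν w : κ → ℝ) : Measure ℝ := ∑ k, ENNReal.ofReal (w k) • Measure.dirac (ν k)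

theorem pm_Ioi (ν : κ → ℝ) {w : κ → ℝ} (hw : ∀ k, 0 ≤ w k) (v : ℝ) :
    pm ν w (Ioi v) = ENNReal.ofReal (∑ k, if v < ν k then w k else 0) := by
  rw [pm, Measure.finsetSum_apply, ENNReal.ofReal_sum_of_nonneg fun k _ => by
    split_ifs; exacts [hw k, le_rfl]]
  refine Finset.sum_congr rfl fun k _ => ?_
  rw [Measure.smul_apply, Measure.dirac_apply' _ measurableSet_Ioi]
  by_cases h : v < ν k <;> simp [h]

theorem pm_exp (ν : κ → ℝ) {w : κ → ℝ} (hw : ∀ k, 0 ≤ w k) :
    ∫⁻ y, ENNReal.ofReal (Real.exp y) ∂pm ν w = ENNReal.ofReal (∑ k, w k * Real.exp (ν k)) := by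
  rw [pm, lintegral_finsetSum_measure,
    ENNReal.ofReal_sum_of_nonneg fun k _ => mul_nonneg (hw k) (Real.exp_pos _).le]
  refine Finset.sum_congr rfl fun k _ => ?_
  rw [lintegral_smul_measure, lintegral_dirac, ENNReal.ofReal_mul (hw k), smul_eq_mul]

theorem restr (E : Set ℝ) (a v : ℝ) :
    volume.restrict (E ∩ Ioi a) (Ioi v) = volume (E ∩ Ioi (max a v)) := by
  rw [Measure.restrict_apply measurableSet_Ioi, ← Ioi_inter_Ioi]
  congr 1
  ext y
  simp only [mem_inter_iff]
  tauto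

theorem cut (ν w : κ → ℝ) (a v : ℝ) :
    (∑ k, if v < ν k then (if a < ν k then w k else 0) else 0) =
      ∑ k, if max a v < ν k then w k else 0 :=
  Finset.sum_congr rfl fun k _ => by
    by_cases h1 : v < ν k <;> by_cases h2 : a < ν k <;> simp [h1, h2]

theorem lint_eq {E : Set ℝ} (hE : IntegrableOn Real.exp E) :
    ∫⁻ y in E, ENNReal.ofReal (Real.exp y) = ENNReal.ofReal (∫ y in E, Real.exp y) :=
  (ofReal_integral_eq_lintegral_ofReal hE
    (Filter.Eventually.of_forall fun y => (Real.exp_pos y).le)).symm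

theorem int_nonneg (E : Set ℝ) : 0 ≤ ∫ y in E, Real.exp y :=
  integral_nonneg fun y => (Real.exp_pos y).le

theorem lower {E : Set ℝ} (hE : IntegrableOn Real.exp E) (ν w : κ → ℝ) (a : ℝ)
    (hw : ∀ k, a < ν k → 0 ≤ w k)
    (h : ∀ v, a ≤ v → ENNReal.ofReal (∑ k, if v < ν k then w k else 0) ≤ volume (E ∩ Ioi v)) :
    ∑ k, (if a < ν k then w k else 0) * Real.exp (ν k) ≤ ∫ y in E, Real.exp y := by
  have hw' : ∀ k, 0 ≤ if a < ν k then w k else 0 := fun k => by
    split_ifs with h1; exacts [hw k h1, le_rfl]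
  have H := layer (ρ₁ := pm ν fun k => if a < ν k then w k else 0)
    (ρ₂ := volume.restrict (E ∩ Ioi a)) fun v => by
      rw [pm_Ioi ν hw', restr, cut]
      exact h _ (le_max_left _ _)
  rw [pm_exp ν hw'] at H
  have H2 := H.trans (lintegral_mono_set inter_subset_left)
  rwa [lint_eq hE, ENNReal.ofReal_le_ofReal_iff (int_nonneg E)] at H2

theorem upper {E : Set ℝ} (hE : IntegrableOn Real.exp E) (ν w : κ → ℝ) (a : ℝ)
    (hw : ∀ k, a < ν k → 0 ≤ w k)
    (h : ∀ v, a ≤ v → volume (E ∩ Ioi v) ≤ ENNReal.ofReal (∑ k, if v < ν k then w k else 0)) :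
    ∫ y in E, Real.exp y ≤ Real.exp a + ∑ k, (if a < ν k then w k else 0) * Real.exp (ν k) := by
  have hw' : ∀ k, 0 ≤ if a < ν k then w k else 0 := fun k => by
    split_ifs with h1; exacts [hw k h1, le_rfl]
  have H := layer (ρ₂ := pm ν fun k => if a < ν k then w k else 0)
    (ρ₁ := volume.restrict (E ∩ Ioi a)) fun v => by
      rw [pm_Ioi ν hw', restr, cut]
      exact h _ (le_max_left _ _)
  rw [pm_exp ν hw'] at H
  have hs : 0 ≤ ∑ k, (if a < ν k then w k else 0) * Real.exp (ν k) :=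
    Finset.sum_nonneg fun k _ => mul_nonneg (hw' k) (Real.exp_pos _).le
  have sub : E ⊆ Iic a ∪ E ∩ Ioi a := fun y hy => by
    rcases le_or_gt y a with h1 | h1
    exacts [Or.inl h1, Or.inr ⟨hy, h1⟩]
  have H2 := (lintegral_mono_set (μ := volume) (f := fun y => ENNReal.ofReal (Real.exp y)) sub).trans
    ((lintegral_union_le _ _ _).trans (add_le_add le_rfl H))
  rwa [lint_eq hE, lint_eq (integrableOn_exp_Iic a), integral_exp_Iic,
    ← ENNReal.ofReal_add (Real.exp_pos _).le hs,
    ENNReal.ofReal_le_ofReal_iff (add_nonneg (Real.exp_pos _).le hs)] at H2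

theorem markov {E : Set ℝ} (hE : IntegrableOn Real.exp E) {v K : ℝ} (hK : 0 ≤ K)
    (h : ENNReal.ofReal K ≤ volume (E ∩ Ioi v)) : K * Real.exp v ≤ ∫ y in E, Real.exp y := by
  have H := lower (κ := Unit) hE (fun _ => v) (fun _ => K) (v - 1) (fun _ _ => hK) fun u _ => by
    by_cases h1 : u < v
    · simp only [h1, if_true, Finset.univ_unique, Finset.sum_singleton]
      exact h.trans (measure_mono (inter_subset_inter_right _ (Ioi_subset_Ioi h1.le)))
    · simp [h1]
  simpa using H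

theorem choose_y0 {E : Set ℝ} (hE : IntegrableOn Real.exp E) (t : ℝ) :
    ∃ y0, t ≤ y0 ∧ volume (E ∩ Ioi y0) ≤ ENNReal.ofReal 2 ∧
      Real.exp y0 ≤ Real.exp t + 2 / 3 * ∫ y in E, Real.exp y := by
  classical
  have hR := int_nonneg E
  have ex : ∃ n : ℕ, volume (E ∩ Ioi (t + n / 4)) ≤ ENNReal.ofReal 2 := by
    obtain ⟨n, hn⟩ := exists_nat_gt (4 * ((∫ y in E, Real.exp y) - t))
    refine ⟨n, ?_⟩
    by_contra hc
    have h1 := markov hE (by norm_num) (not_le.1 hc).le
    have h2 := Real.add_one_le_exp (t + n / 4)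
    have h3 := Real.exp_pos (t + n / 4)
    linarith
  refine ⟨t + (Nat.find ex : ℕ) / 4, by simp; positivity, Nat.find_spec ex, ?_⟩
  rcases Nat.eq_zero_or_pos (Nat.find ex) with h0 | h0
  · rw [h0]; simp; positivity
  · obtain ⟨m, hm⟩ : ∃ m, Nat.find ex = m + 1 := ⟨_, (Nat.succ_pred_eq_of_pos h0).symm⟩
    have h1 := markov hE (by norm_num) (not_le.1 (Nat.find_min ex (m := m) (by omega))).le
    rw [hm]
    have h2 : Real.exp (t + m / 4) = Real.exp (t + ((m + 1 : ℕ) : ℝ) / 4) * Real.exp (-(1 / 4)) := by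
      rw [← Real.exp_add]; congr 1; push_cast; ring
    have h3 := Real.add_one_le_exp (-(1 / 4) : ℝ)
    have h4 := Real.exp_pos (t + ((m + 1 : ℕ) : ℝ) / 4)
    have h5 := Real.exp_pos t
    nlinarith

theorem boole' (μ c : κ → ℝ) (hc : ∀ k, 0 ≤ c k) (γ θ v : ℝ) (hγ : 0 < γ) (hv : 0 ≤ γ * v + θ)
    (p : κ → Prop) [DecidablePred p] (hμ : ∀ k, p k → v < μ k) :
    ∃ ℓ : ℝ, 0 ≤ ℓ ∧ volume {y | v < y ∧ γ * y + θ < ∑ k, if p k then c k / (y - μ k) else 0} =
      ENNReal.ofReal ℓ ∧ γ * ℓ = ∑ k, if p k then c k / (μ k + θ / γ + ℓ) else 0 := by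
  classical
  obtain ⟨ℓ, h0, h1, h2⟩ := boole (fun k => if p k then μ k else v + 1)
    (fun k => if p k then c k else 0) (fun k => by split_ifs; exacts [hc k, le_rfl]) γ θ v hγ hv
    (fun k => by split_ifs with h; exacts [hμ k h, by linarith])
  refine ⟨ℓ, h0, ?_, ?_⟩
  · rw [← h1]
    congr 1
    ext y
    have : hsum (fun k => if p k then μ k else v + 1) (fun k => if p k then c k else 0) y =
        ∑ k, if p k then c k / (y - μ k) else 0 :=
      Finset.sum_congr rfl fun k _ => by by_cases h : p k <;> simp [h]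
    simp only [mem_ofPred_eq, this]
  · rw [h2]
    exact Finset.sum_congr rfl fun k _ => by split_ifs <;> simp

/-- Lower bound for the mass above `v`. -/
theorem stepB (μ c : κ → ℝ) (hc : ∀ k, 0 ≤ c k) {y0 v : ℝ} (hy : 1000 ≤ y0) (hv : y0 - 1 ≤ v)
    (hm : volume ({y | y - 0 < hsum μ c y} ∩ Ioi y0) ≤ ENNReal.ofReal 2) :
    (∑ k, if v < μ k then c k / (μ k + 3) else 0) ≤ 3 ∧
    ENNReal.ofReal (∑ k, if v < μ k then c k / (μ k + 3) else 0) ≤
      volume ({y | y - 0 < hsum μ c y} ∩ Ioi v) := by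
  obtain ⟨ℓ, h0, h1, h2⟩ := boole' μ c hc 1 0 v one_pos (by linarith) (fun k => v < μ k)
    fun _ h => h
  have sub : {y | v < y ∧ 1 * y + 0 < ∑ k, if v < μ k then c k / (y - μ k) else 0} ⊆
      {y | y - 0 < hsum μ c y} ∩ Ioi v := by
    rintro y ⟨hy1, hy2⟩
    refine ⟨?_, hy1⟩
    have : (∑ k, if v < μ k then c k / (y - μ k) else 0) ≤ hsum μ c y :=
      Finset.sum_le_sum fun k _ => by
        split_ifs with h
        exacts [le_rfl, div_nonneg (hc k) (by linarith)]
    show y - 0 < _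
    linarith
  have h3 : ENNReal.ofReal ℓ ≤ volume ({y | y - 0 < hsum μ c y} ∩ Ioi v) :=
    h1 ▸ measure_mono sub
  have sub2 : {y | y - 0 < hsum μ c y} ∩ Ioi v ⊆ Ioc (y0 - 1) y0 ∪ {y | y - 0 < hsum μ c y} ∩ Ioi y0 := by
    rintro y ⟨hy1, hy2⟩
    rcases le_or_gt y y0 with h | h
    exacts [Or.inl ⟨hv.trans_lt hy2, h⟩, Or.inr ⟨hy1, h⟩]
  have h4 := h3.trans ((measure_mono sub2).trans ((measure_union_le _ _).trans (add_le_add le_rfl hm)))
  rw [Real.volume_Ioc, ← ENNReal.ofReal_add (by linarith) (by norm_num),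
    ENNReal.ofReal_le_ofReal_iff (by linarith)] at h4
  have h5 : (∑ k, if v < μ k then c k / (μ k + 3) else 0) ≤ ℓ := by
    rw [← one_mul ℓ, h2]
    refine Finset.sum_le_sum fun k _ => ?_
    split_ifs with h
    · exact div_le_div_of_nonneg_left (hc k) (by linarith) (by linarith)
    · exact le_rfl
  exact ⟨by linarith, (ENNReal.ofReal_le_ofReal h5).trans h3⟩

/-- The field of the low poles. -/
theorem stepC (μ c : κ → ℝ) (hc : ∀ k, 0 ≤ c k) {y0 : ℝ} (hy : 1000 ≤ y0)
    (hm : volume ({y | y - 0 < hsum μ c y} ∩ Ioi y0) ≤ ENNReal.ofReal 2) :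
    (∑ k, if y0 - 1 < μ k then 0 else c k / (y0 + 3 - μ k)) ≤ 7 * y0 + 47 := by
  by_contra hΛ
  rw [not_le] at hΛ
  have hN := (stepB μ c hc hy le_rfl hm).1
  set Λ := ∑ k, if y0 - 1 < μ k then 0 else c k / (y0 + 3 - μ k) with hΛdef
  set N := ∑ k, if y0 - 1 < μ k then c k / (μ k + 3) else 0 with hNdef
  set θ := Λ - 3 * (y0 + 7) - 1 with hθ
  obtain ⟨ℓ, h0, h1, h2⟩ := boole' (fun k => -μ k) c hc 1 θ (-(y0 + 4)) one_pos (by linarith)
    (fun k => y0 - 1 < μ k ∧ μ k < y0 + 4) fun _ h => by linarith [h.2]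
  have hD : 3 * (y0 + 7) < θ - (y0 + 4) := by linarith
  have h3 : ℓ * (θ - (y0 + 4)) ≤ (y0 + 7) * N := by
    rw [← one_mul ℓ, h2, hNdef, Finset.sum_mul, Finset.mul_sum]
    refine Finset.sum_le_sum fun k _ => ?_
    by_cases a1 : y0 - 1 < μ k
    · have b1 : 0 < μ k + 3 := by linarith
      by_cases a2 : μ k < y0 + 4
      · rw [if_pos ⟨a1, a2⟩, if_pos a1]
        have b2 : c k / (-μ k + θ / 1 + ℓ) * (θ - (y0 + 4)) ≤ c k := by
          rw [div_mul_eq_mul_div, div_le_iff₀ (by linarith)]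
          exact mul_le_mul_of_nonneg_left (by linarith) (hc k)
        refine b2.trans ?_
        rw [← mul_div_assoc, le_div_iff₀ b1, mul_comm]
        exact mul_le_mul_of_nonneg_right (by linarith) (hc k)
      · rw [if_neg fun h => a2 h.2, if_pos a1, zero_mul]
        exact mul_nonneg (by linarith) (div_nonneg (hc k) b1.le)
    · rw [if_neg fun h => a1 h.1, if_neg a1]
      simp
  have h4 : ℓ < 1 := by
    by_contra h
    rw [not_lt] at h
    nlinarith
  have sub : Ioc y0 (y0 + 3) ⊆ {y | y - 0 < hsum μ c y} ∩ Ioi y0 ∪ Neg.neg ⁻¹' {y | -(y0 + 4) < y ∧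
      1 * y + θ < ∑ k, if y0 - 1 < μ k ∧ μ k < y0 + 4 then c k / (y - -μ k) else 0} := by
    rintro y ⟨hy1, hy2⟩
    by_cases hE : y - 0 < hsum μ c y
    · exact Or.inl ⟨hE, hy1⟩
    refine Or.inr ⟨by linarith, ?_⟩
    have key : Λ - (y0 + 7) * N ≤ hsum μ c y +
        ∑ k, if y0 - 1 < μ k ∧ μ k < y0 + 4 then c k / (-y - -μ k) else 0 := by
      rw [hΛdef, hNdef, hsum, Finset.mul_sum, ← Finset.sum_sub_distrib, ← Finset.sum_add_distrib]
      refine Finset.sum_le_sum fun k _ => ?_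
      by_cases a1 : y0 - 1 < μ k
      · have b1 : 0 < μ k + 3 := by linarith
        by_cases a2 : μ k < y0 + 4
        · rw [if_pos a1, if_pos a1, if_pos ⟨a1, a2⟩,
            show -y - -μ k = -(y - μ k) by ring, div_neg, add_neg_cancel, zero_sub, neg_nonpos]
          exact mul_nonneg (by linarith) (div_nonneg (hc k) b1.le)
        · rw [if_pos a1, if_pos a1, if_neg fun h => a2 h.2, add_zero, zero_sub,
            show y - μ k = -(μ k - y) by ring, div_neg, neg_le_neg_iff, ← mul_div_assoc,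
            div_le_div_iff₀ (by linarith) b1, mul_comm (y0 + 7), mul_assoc]
          exact mul_le_mul_of_nonneg_left (by nlinarith) (hc k)
      · rw [if_neg a1, if_neg a1, if_neg fun h => a1 h.1, mul_zero, sub_zero, add_zero]
        exact div_le_div_of_nonneg_left (hc k) (by linarith) (by linarith)
    show 1 * -y + θ < _
    nlinarith
  have h5 := (measure_mono sub).trans ((measure_union_le _ _).trans (add_le_add hm le_rfl))
  rw [Measure.measure_preimage_neg, h1, Real.volume_Ioc, ← ENNReal.ofReal_add (by norm_num) h0,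
    ENNReal.ofReal_le_ofReal_iff (by linarith)] at h5
  linarith

/-- The weight of a pole in the background field. -/
def om (y0 m : ℝ) : ℝ := if y0 - 1 < m then 2 / (m + 3) else 1 / ((y0 - m) * y0)

theorem om_nonneg {y0 : ℝ} (hy : 1000 ≤ y0) (m : ℝ) : 0 ≤ om y0 m := by
  unfold om
  split_ifs with h
  · exact div_nonneg (by norm_num) (by linarith)
  · exact div_nonneg (by norm_num) (mul_nonneg (by linarith) (by linarith))

theorem stepD (μ c : κ → ℝ) (hc : ∀ k, 0 ≤ c k) {y0 : ℝ} (hy : 1000 ≤ y0)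
    (hm : volume ({y | y - 0 < hsum μ c y} ∩ Ioi y0) ≤ ENNReal.ofReal 2) :
    ∑ k, c k * om y0 (μ k) ≤ 40 := by
  have hN := (stepB μ c hc hy le_rfl hm).1
  have hΛ := stepC μ c hc hy hm
  have hy0 : 0 < y0 := by linarith
  have key : ∑ k, c k * om y0 (μ k) ≤ 2 * (∑ k, if y0 - 1 < μ k then c k / (μ k + 3) else 0) +
      4 / y0 * ∑ k, if y0 - 1 < μ k then 0 else c k / (y0 + 3 - μ k) := by
    rw [Finset.mul_sum, Finset.mul_sum, ← Finset.sum_add_distrib]
    refine Finset.sum_le_sum fun k _ => ?_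
    unfold om
    split_ifs with h
    · exact le_of_eq (by ring)
    · have a1 : 0 < y0 - μ k := by linarith
      have a2 : 0 < y0 + 3 - μ k := by linarith
      rw [mul_zero, zero_add, mul_one_div, div_mul_div_comm, div_le_div_iff₀ (by positivity) (by positivity)]
      have : c k * y0 * (y0 + 3 - μ k) ≤ c k * y0 * (4 * (y0 - μ k)) :=
        mul_le_mul_of_nonneg_left (by linarith) (mul_nonneg (hc k) hy0.le)
      linarith
  have h2 : 4 / y0 * (∑ k, if y0 - 1 < μ k then 0 else c k / (y0 + 3 - μ k)) ≤ 30 := by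
    rw [div_mul_eq_mul_div, div_le_iff₀ hy0]
    linarith
  linarith

theorem stepE [DecidableEq κ] (μ c : κ → ℝ) (hc : ∀ k, 0 ≤ c k) {y0 : ℝ} (hy : 1000 ≤ y0)
    (hφ : ∑ k, c k * om y0 (μ k) ≤ 160) :
    Iexp 0 μ (fun k => c k / 256) ≤ Real.exp y0 +
      1 / 16 * ∑ k, (if y0 - 1 < μ k then c k / (μ k + 3) else 0) * Real.exp (μ k) := by
  have H := upper (integrableOn_Iexp 0 μ (fun k => c k / 256) fun k => by linarith [hc k])
    (fun k => μ k + 1) (fun k => c k / (96 * μ k)) y0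
    (fun k hk => div_nonneg (hc k) (by linarith)) fun v hv => by
      obtain ⟨ℓ, h0, h1, h2⟩ := boole' μ c hc 96 0 (v - 1) (by norm_num) (by linarith)
        (fun k => v < μ k + 1) fun _ h => by linarith
      have sub : {y | y - 0 < hsum μ (fun k => c k / 256) y} ∩ Ioi v ⊆
          {y | v - 1 < y ∧ 96 * y + 0 < ∑ k, if v < μ k + 1 then c k / (y - μ k) else 0} := by
        rintro y ⟨hy1, hy2⟩
        have hy3 : v < y := hy2
        have hy4 : y - 0 < hsum μ (fun k => c k / 256) y := hy1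
        refine ⟨by linarith, ?_⟩
        have key : 256 * hsum μ (fun k => c k / 256) y ≤
            (∑ k, if v < μ k + 1 then c k / (y - μ k) else 0) + y * ∑ k, c k * om y0 (μ k) := by
          rw [hsum, Finset.mul_sum, Finset.mul_sum, ← Finset.sum_add_distrib]
          refine Finset.sum_le_sum fun k _ => ?_
          rw [show 256 * (c k / 256 / (y - μ k)) = c k / (y - μ k) by ring]
          split_ifs with h
          · exact le_add_of_nonneg_right
              (mul_nonneg (by linarith) (mul_nonneg (hc k) (om_nonneg hy _)))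
          · have a1 : 0 < y - μ k := by linarith
            rw [zero_add, mul_left_comm, div_eq_mul_one_div]
            refine mul_le_mul_of_nonneg_left ?_ (hc k)
            unfold om
            split_ifs with h'
            · rw [← mul_div_assoc, div_le_div_iff₀ a1 (by linarith)]
              nlinarith
            · have a2 : 0 < y0 - μ k := by linarith
              rw [← mul_div_assoc, div_le_div_iff₀ a1 (mul_pos a2 (by linarith))]
              have := mul_le_mul (show y0 - μ k ≤ y - μ k by linarith) (show y0 ≤ y by linarith)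
                (by linarith) a1.le
              linarith
        have := mul_le_mul_of_nonneg_left hφ (show 0 ≤ y by linarith)
        linarith
      refine (measure_mono sub).trans (h1.trans_le (ENNReal.ofReal_le_ofReal ?_))
      have h3 : 96 * ℓ ≤ 96 * ∑ k, if v < μ k + 1 then c k / (96 * μ k) else 0 := by
        rw [h2, Finset.mul_sum]
        refine Finset.sum_le_sum fun k _ => ?_
        split_ifs with h
        · have a1 : 0 < μ k := by linarith
          rw [show 96 * (c k / (96 * μ k)) = c k / μ k by field_simp]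
          exact div_le_div_of_nonneg_left (hc k) a1 (by linarith)
        · simp
      linarith
  refine H.trans (add_le_add le_rfl ?_)
  rw [Finset.mul_sum]
  refine Finset.sum_le_sum fun k _ => ?_
  by_cases h : y0 < μ k + 1
  · have a1 : 0 < μ k := by linarith
    have a2 : Real.exp 1 ≤ 3 := Real.exp_one_lt_d9.le.trans (by norm_num)
    rw [if_pos h, if_pos (by linarith), Real.exp_add, ← mul_assoc, mul_right_comm, ← mul_assoc]
    refine mul_le_mul_of_nonneg_right ?_ (Real.exp_pos _).le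
    have a3 : c k / (96 * μ k) * Real.exp 1 ≤ c k / (96 * μ k) * 3 :=
      mul_le_mul_of_nonneg_left a2 (div_nonneg (hc k) (by linarith))
    refine a3.trans ?_
    rw [div_mul_eq_mul_div, div_mul_div_comm, div_le_div_iff₀ (by linarith) (by linarith)]
    have := mul_le_mul_of_nonneg_left (show μ k + 3 ≤ 2 * μ k by linarith) (hc k)
    linarith
  · rw [if_neg h, if_neg (by linarith)]
    simp

theorem shift (g : ℝ) (μ c : κ → ℝ) : Iexp g μ c = Real.exp g * Iexp 0 (fun k => μ k - g) c := by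
  classical
  have m : ∀ (g : ℝ) (μ : κ → ℝ), MeasurableSet {y | y - g < hsum μ c y} := fun g μ =>
    measurableSet_lt (measurable_id.sub_const g) (measurable_hsum μ c)
  unfold Iexp
  rw [← integral_indicator (m _ _), ← integral_indicator (m _ _), ← integral_const_mul,
    ← integral_add_right_eq_self _ g]
  congr 1
  ext y
  have : hsum μ c (y + g) = hsum (fun k => μ k - g) c y :=
    Finset.sum_congr rfl fun k _ => by rw [show y + g - μ k = y - (μ k - g) by ring]
  simp only [indicator, mem_ofPred_eq, this, add_sub_cancel_right, sub_zero]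
  split_ifs
  · rw [Real.exp_add, mul_comm]
  · simp

theorem main0 [DecidableEq κ] {r : ℕ} (hr : 0 < r) (μ : κ → ℝ)
    (c : Fin r → κ → ℝ) (hc : ∀ j k, 0 ≤ c j k) (t : ℝ) (ht : 1000 ≤ t) :
    ∃ B : Finset (Fin r), 4 * B.card ≤ r ∧ ∀ J : Finset (Fin r), Disjoint J B → r ≤ 2 * J.card →
      ∑ j ∈ J, Iexp 0 μ (fun k => c j k / 256) ≤
        J.card * (Iexp 0 μ (fun k => (∑ j, c j k) / r) + Real.exp t) := by
  have hr' : (0 : ℝ) < r := by exact_mod_cast hr
  have hcb : ∀ k, 0 ≤ (∑ j, c j k) / r := fun k =>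
    div_nonneg (Finset.sum_nonneg fun j _ => hc j k) hr'.le
  have hE := integrableOn_Iexp 0 μ _ hcb
  obtain ⟨y0, h1, hm, h2⟩ := choose_y0 hE t
  have hy : 1000 ≤ y0 := ht.trans h1
  have hD := stepD μ _ hcb hy hm
  have hL := lower hE μ (fun k => (∑ j, c j k) / r / (μ k + 3)) (y0 - 1)
    (fun k hk => div_nonneg (hcb k) (by linarith)) fun v hv => (stepB μ _ hcb hy hv hm).2
  change _ ≤ Iexp 0 μ (fun k => (∑ j, c j k) / r) at hL
  change _ ≤ _ + 2 / 3 * Iexp 0 μ (fun k => (∑ j, c j k) / r) at h2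
  have hR : 0 ≤ Iexp 0 μ (fun k => (∑ j, c j k) / r) := int_nonneg _
  generalize Iexp 0 μ (fun k => (∑ j, c j k) / r) = R at hL h2 hR
  have nφ : ∀ j, 0 ≤ ∑ k, c j k * om y0 (μ k) := fun j =>
    Finset.sum_nonneg fun k _ => mul_nonneg (hc j k) (om_nonneg hy _)
  refine ⟨Finset.univ.filter fun j => 160 < ∑ k, c j k * om y0 (μ k), ?_, fun J hJ hJr => ?_⟩
  · set B := Finset.univ.filter fun j => 160 < ∑ k, c j k * om y0 (μ k) with hB
    have a1 : (B.card : ℝ) * 160 ≤ ∑ j ∈ B, ∑ k, c j k * om y0 (μ k) := by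
      rw [← nsmul_eq_mul]
      exact Finset.card_nsmul_le_sum _ _ _ fun j hj => (Finset.mem_filter.1 hj).2.le
    have a2 : ∑ j ∈ B, ∑ k, c j k * om y0 (μ k) ≤ ∑ j, ∑ k, c j k * om y0 (μ k) :=
      Finset.sum_le_sum_of_subset_of_nonneg (Finset.subset_univ _) fun j _ _ => nφ j
    have a3 : ∑ j, ∑ k, c j k * om y0 (μ k) = r * ∑ k, (∑ j, c j k) / r * om y0 (μ k) := by
      rw [Finset.sum_comm, Finset.mul_sum]
      refine Finset.sum_congr rfl fun k _ => ?_
      rw [← Finset.sum_mul]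
      field_simp
    have a4 : (4 : ℝ) * B.card ≤ r := by nlinarith
    exact_mod_cast a4
  · set L : Fin r → ℝ := fun j =>
      ∑ k, (if y0 - 1 < μ k then c j k / (μ k + 3) else 0) * Real.exp (μ k) with hLdef
    have nL : ∀ j, 0 ≤ L j := fun j => Finset.sum_nonneg fun k _ => mul_nonneg (by
      split_ifs
      exacts [div_nonneg (hc j k) (by linarith), le_rfl]) (Real.exp_pos _).le
    have a1 : ∑ j ∈ J, Iexp 0 μ (fun k => c j k / 256) ≤ ∑ j ∈ J, (Real.exp y0 + 1 / 16 * L j) :=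
      Finset.sum_le_sum fun j hj => stepE μ (c j) (hc j) hy (by
        have := Finset.disjoint_left.1 hJ hj
        simpa using this)
    have a2 : ∑ j ∈ J, L j ≤ ∑ j, L j :=
      Finset.sum_le_sum_of_subset_of_nonneg (Finset.subset_univ _) fun j _ _ => nL j
    have a3 : ∑ j, L j = r * ∑ k, (if y0 - 1 < μ k then (∑ j, c j k) / r / (μ k + 3) else 0) *
        Real.exp (μ k) := by
      rw [hLdef, Finset.sum_comm, Finset.mul_sum]
      refine Finset.sum_congr rfl fun k _ => ?_
      rw [← Finset.sum_mul]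
      split_ifs
      · rw [← Finset.sum_div]
        field_simp
      · simp
    rw [Finset.sum_add_distrib, Finset.sum_const, nsmul_eq_mul, ← Finset.mul_sum] at a1
    have a4 : (r : ℝ) ≤ 2 * J.card := by exact_mod_cast hJr
    have a5 := mul_le_mul_of_nonneg_left hL hr'.le
    have a6 := mul_le_mul_of_nonneg_right a4 hR
    have a7 := mul_le_mul_of_nonneg_left h2 (Nat.cast_nonneg (α := ℝ) J.card)
    have a8 := mul_nonneg (Nat.cast_nonneg (α := ℝ) J.card) hR
    linarith

end LemmaMAux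

theorem lemmaM {κ : Type*} [Fintype κ] [DecidableEq κ] {r : ℕ} (hr : 0 < r) (μ : κ → ℝ)
    (c : Fin r → κ → ℝ) (hc : ∀ j k, 0 ≤ c j k) (g t : ℝ) (ht : 1000 ≤ t) :
    ∃ B : Finset (Fin r), 4 * B.card ≤ r ∧ ∀ J : Finset (Fin r), Disjoint J B → r ≤ 2 * J.card →
      ∑ j ∈ J, Iexp g μ (fun k => c j k / 256) ≤
        J.card * (Iexp g μ (fun k => (∑ j, c j k) / r) + Real.exp (g + t)) := by
  obtain ⟨B, h1, h2⟩ := LemmaMAux.main0 hr (fun k => μ k - g) c hc t ht
  refine ⟨B, h1, fun J hJ hJr => ?_⟩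
  have := mul_le_mul_of_nonneg_left (h2 J hJ hJr) (Real.exp_pos g).le
  simp only [LemmaMAux.shift g μ, Real.exp_add, ← Finset.mul_sum]
  linarith

end Crest.Agent.R109
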