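import Crest.Agent.R109.QZero
import Crest.Agent.R109.Taylor

/-! Row 109, task A10: Taylor coefficients of the entries of `exp (diag h + s Y)`. -/

set_option autoImplicit false

noncomputable section

namespace Crest.Agent.R109

open Polynomial
open scoped ComplexConjugate

variable {ι : Type*} [DecidableEq ι] {r : ℕ}

namespace MatExp

set_option backward.isDefEq.respectTransparency false in
theorem hasSum_exp {n : Type*} [Fintype n] [DecidableEq n] (A : Matrix n n ℂ) :
    HasSum (fun k : ℕ => ((k.factorial : ℂ)⁻¹) • A ^ k) (NormedSpace.exp A) :=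
  open scoped Matrix.Norms.Operator in NormedSpace.exp_series_hasSum_exp' (𝕂 := ℂ) A

set_option backward.isDefEq.respectTransparency false in
theorem continuous_exp {n : Type*} [Fintype n] [DecidableEq n] :
    Continuous (NormedSpace.exp : Matrix n n ℂ → Matrix n n ℂ) :=
  open scoped Matrix.Norms.Operator in NormedSpace.exp_continuous

/-- The column of `o` of `(diag h + X Y) ^ n`. -/
def W (T : Finset ι) (Y : ι → ι → ℂ) (h : ι → ℝ) (o : ι) : ℕ → ι → ℂ[X]
  | 0, a => if a ∈ T ∧ a = o then 1 else 0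
  | n + 1, a => if a ∈ T then
      C (h a : ℂ) * W T Y h o n a + X * ∑ b ∈ T, C (Y a b) * W T Y h o n b else 0

variable {T : Finset ι} {Y : ι → ι → ℂ} {h : ι → ℝ} {o : ι}

theorem W_of_notMem (n : ℕ) {a : ι} (ha : a ∉ T) : W T Y h o n a = 0 := by
  cases n <;> simp [W, ha]

theorem W_of_notMem' (ho : o ∉ T) (n : ℕ) (a : ι) : W T Y h o n a = 0 := by
  induction n generalizing a with
  | zero =>
    rw [W, if_neg]
    rintro ⟨h1, rfl⟩
    exact ho h1
  | succ n ih => simp [W, ih]

theorem eval_W_succ (s : ℂ) (n : ℕ) {a : ι} (ha : a ∈ T) :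
    (W T Y h o (n + 1) a).eval s =
      h a * (W T Y h o n a).eval s + s * ∑ b ∈ T, Y a b * (W T Y h o n b).eval s := by
  simp [W, ha, eval_finsetSum]

theorem eval_W (s : ℂ) (ho : o ∈ T) (n : ℕ) (a : T) :
    (W T Y h o n a).eval s =
      ((Matrix.of fun u v : T => (if u = v then (h u : ℂ) else 0) + s * Y u v) ^ n) a ⟨o, ho⟩ := by
  induction n generalizing a with
  | zero =>
    simp only [W, a.2, true_and, pow_zero, Matrix.one_apply, Subtype.ext_iff]
    split_ifs <;> simp
  | succ n ih =>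
    rw [eval_W_succ s n a.2, pow_succ', Matrix.mul_apply, ← Finset.sum_coe_sort T]
    simp only [Matrix.of_apply, add_mul, Finset.sum_add_distrib, ite_mul, zero_mul,
      Finset.sum_ite_eq, Finset.mem_univ, if_true, ih, Finset.mul_sum, mul_assoc]

theorem hasSum_W (T : Finset ι) (Y : ι → ι → ℂ) (h : ι → ℝ) (u v : ι) (s : ℂ) :
    HasSum (fun n : ℕ => (C ((n.factorial : ℂ)⁻¹) * W T Y h v n u).eval s) (exE T Y h s u v) := by
  unfold exE
  split_ifs with hu hv
  · have h1 := hasSum_exp (Matrix.of fun u v : T => (if u = v then (h u : ℂ) else 0) + s * Y u v)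
    have h2 := Pi.hasSum.1 (Pi.hasSum.1 h1 ⟨u, hu⟩) ⟨v, hv⟩
    simp only [eval_mul, eval_C, eval_W s hv _ ⟨u, hu⟩]
    exact h2
  · simpa [W_of_notMem' hv] using hasSum_zero
  · simpa [W_of_notMem _ hu] using hasSum_zero

theorem bound_W (T : Finset ι) (Y : ι → ι → ℂ) (h : ι → ℝ) (u v : ι) (ρ : ℝ) :
    ∃ b : ℕ → ℝ, Summable b ∧ ∀ n (s : ℂ), ‖s‖ ≤ ρ →
      ‖(C ((n.factorial : ℂ)⁻¹) * W T Y h v n u).eval s‖ ≤ b n := by
  set K : ℝ := ∑ a ∈ T, (|h a| + |ρ| * ∑ b ∈ T, ‖Y a b‖) with hK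
  have hK0 : 0 ≤ K := Finset.sum_nonneg fun a _ => by positivity
  refine ⟨fun n => K ^ n / n.factorial, Real.summable_pow_div_factorial K, fun n s hs => ?_⟩
  have key : ∀ n a, ‖(W T Y h v n a).eval s‖ ≤ K ^ n := by
    intro n
    induction n with
    | zero =>
      intro a
      rw [W]
      split_ifs <;> simp
    | succ n ih =>
      intro a
      by_cases ha : a ∈ T
      swap
      · rw [W_of_notMem _ ha]; simp only [eval_zero, norm_zero]; positivity
      rw [eval_W_succ s n ha, pow_succ']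
      have h1 : |h a| + |ρ| * ∑ b ∈ T, ‖Y a b‖ ≤ K :=
        Finset.single_le_sum (f := fun a => |h a| + |ρ| * ∑ b ∈ T, ‖Y a b‖)
          (fun a _ => by positivity) ha
      refine le_trans ?_ (mul_le_mul_of_nonneg_right h1 (by positivity))
      rw [add_mul, mul_assoc, Finset.sum_mul]
      refine (norm_add_le _ _).trans (add_le_add ?_ ?_)
      · rw [norm_mul, Complex.norm_real, Real.norm_eq_abs]
        exact mul_le_mul_of_nonneg_left (ih a) (abs_nonneg _)
      · rw [norm_mul]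
        refine mul_le_mul (hs.trans (le_abs_self ρ)) ((norm_sum_le _ _).trans
          (Finset.sum_le_sum fun b _ => ?_)) (norm_nonneg _) (abs_nonneg _)
        rw [norm_mul]
        exact mul_le_mul_of_nonneg_left (ih b) (norm_nonneg _)
  beta_reduce
  rw [eval_mul, eval_C, norm_mul, norm_inv, Complex.norm_natCast, div_eq_inv_mul]
  exact mul_le_mul_of_nonneg_left (key n u) (by positivity)

theorem hasSum_tc_W (T : Finset ι) (Y : ι → ι → ℂ) (h : ι → ℝ) (u v : ι) (m : ℕ) :
    HasSum (fun n : ℕ => ((n.factorial : ℂ)⁻¹) * (W T Y h v n u).coeff m)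
      (tc m fun s => exE T Y h s u v) := by
  simpa only [coeff_C_mul] using
    hasSum_tc_of_series _ (bound_W T Y h u v) (hasSum_W T Y h u v) m

theorem exE_shift (T : Finset ι) (Y : ι → ι → ℂ) (h : ι → ℝ) (c : ℝ) (s : ℂ) (u v : ι) :
    exE T Y (fun a => h a + c) s u v = (Real.exp c : ℂ) * exE T Y h s u v := by
  have key : exM T Y (fun a => h a + c) s = (Real.exp c : ℂ) • exM T Y h s := by
    unfold exM
    have e : (Matrix.of fun u v : T => (if u = v then ((h u + c : ℝ) : ℂ) else 0) + s * Y u v) =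
        Matrix.diagonal (fun _ : T => (c : ℂ)) +
          Matrix.of fun u v : T => (if u = v then (h u : ℂ) else 0) + s * Y u v := by
      ext a b
      simp only [Matrix.of_apply, Matrix.add_apply, Matrix.diagonal_apply]
      split_ifs <;> push_cast <;> ring
    rw [e, Matrix.exp_add_of_commute (Matrix.diagonal fun _ : T => (c : ℂ)) _
      (Matrix.scalar_commute (c : ℂ) (fun _ => Commute.all _ _) _), Matrix.exp_diagonal]
    ext a b
    rw [Matrix.diagonal_mul, Pi.coe_exp, Matrix.smul_apply, smul_eq_mul, ← Complex.exp_eq_exp_ℂ,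
      Complex.ofReal_exp]
  unfold exE
  split_ifs
  · rw [key]; rfl
  · simp
  · simp

theorem norm_W_le {R G : ℝ} (hR : 0 ≤ R) (hG0 : 0 ≤ G) (hB : Bdd T Y R) (hG : ∀ v ∈ T, |h v| ≤ G)
    (s : ℂ) (n : ℕ) :
    ‖(WithLp.toLp 2 fun a : T => (W T Y h o n a).eval s : EuclideanSpace ℂ T)‖ ≤
      (G + ‖s‖ * R) ^ n := by
  induction n with
  | zero =>
    rw [pow_zero, ← sq_le_one_iff₀ (norm_nonneg _), EuclideanSpace.norm_sq_eq]
    simp only [W]
    refine le_trans (Finset.sum_le_sum (g := fun a : T => if (a : ι) = o then (1 : ℝ) else 0)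
      fun a _ => ?_) ?_
    · by_cases e : (a : ι) = o <;> simp [e]
      split_ifs <;> simp
    · rw [Finset.sum_coe_sort T (fun a => if a = o then (1 : ℝ) else 0), Finset.sum_ite_eq']
      split_ifs <;> simp
  | succ n ih =>
    set x : EuclideanSpace ℂ T := WithLp.toLp 2 fun a : T => (W T Y h o n a).eval s with hx
    have e : (WithLp.toLp 2 fun a : T => (W T Y h o (n + 1) a).eval s : EuclideanSpace ℂ T) =
        (WithLp.toLp 2 fun a : T => h a * (W T Y h o n a).eval s : EuclideanSpace ℂ T) +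
          s • (WithLp.toLp 2 fun a : T => ∑ b ∈ T, Y a b * (W T Y h o n b).eval s :
            EuclideanSpace ℂ T) := by
      ext a
      simp [eval_W_succ s n a.2]
    have h1 : ‖(WithLp.toLp 2 fun a : T => h a * (W T Y h o n a).eval s : EuclideanSpace ℂ T)‖ ≤
        G * ‖x‖ := by
      rw [← sq_le_sq₀ (norm_nonneg _) (by positivity), mul_pow, EuclideanSpace.norm_sq_eq,
        EuclideanSpace.norm_sq_eq, Finset.mul_sum]
      refine Finset.sum_le_sum fun a _ => ?_
      simp only [hx, norm_mul, mul_pow, Complex.norm_real, Real.norm_eq_abs]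
      exact mul_le_mul_of_nonneg_right (pow_le_pow_left₀ (abs_nonneg _) (hG a a.2) 2) (sq_nonneg _)
    have h2 : ‖(WithLp.toLp 2 fun a : T => ∑ b ∈ T, Y a b * (W T Y h o n b).eval s :
        EuclideanSpace ℂ T)‖ ≤ R * ‖x‖ := by
      rw [← sq_le_sq₀ (norm_nonneg _) (by positivity), mul_pow, EuclideanSpace.norm_sq_eq,
        EuclideanSpace.norm_sq_eq]
      have := hB fun b => (W T Y h o n b).eval s
      rw [← Finset.sum_coe_sort T, ← Finset.sum_coe_sort T
        (fun b => ‖(W T Y h o n b).eval s‖ ^ 2)] at this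
      exact this
    rw [e, pow_succ']
    refine (norm_add_le _ _).trans ?_
    rw [norm_smul]
    calc _ ≤ G * ‖x‖ + ‖s‖ * (R * ‖x‖) :=
          add_le_add h1 (mul_le_mul_of_nonneg_left h2 (norm_nonneg _))
      _ = (G + ‖s‖ * R) * ‖x‖ := by ring
      _ ≤ _ := mul_le_mul_of_nonneg_left ih (by positivity)

theorem coeff_W_succ (n m : ℕ) {a : ι} (ha : a ∈ T) :
    (W T Y h o (n + 1) a).coeff (m + 1) =
      h a * (W T Y h o n a).coeff (m + 1) + ∑ b ∈ T, Y a b * (W T Y h o n b).coeff m := by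
  simp [W, ha, coeff_X_mul]

theorem coeff_W_succ_zero (n : ℕ) {a : ι} (ha : a ∈ T) :
    (W T Y h o (n + 1) a).coeff 0 = h a * (W T Y h o n a).coeff 0 := by
  simp [W, ha]

omit [DecidableEq ι] in
theorem layer_mono {N : ℕ → ι → Prop} (hN : Layered T Y N) {m m' : ℕ} (hm : m ≤ m') {a : ι}
    (ha : N m a) : N m' a := by
  induction hm with
  | refl => exact ha
  | step _ ih => exact hN.1 _ _ ih

theorem coeff_W_eq_zero {N : ℕ → ι → Prop} (hN : Layered T Y N) (hN0 : N 0 o) (n : ℕ) :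
    ∀ m a, ¬ N m a → (W T Y h o n a).coeff m = 0 := by
  induction n with
  | zero =>
    intro m a ha
    rw [W, if_neg, coeff_zero]
    rintro ⟨-, rfl⟩
    exact ha (layer_mono hN (Nat.zero_le m) hN0)
  | succ n ih =>
    intro m a ha
    by_cases haT : a ∈ T
    swap
    · rw [W_of_notMem _ haT, coeff_zero]
    cases m with
    | zero => rw [coeff_W_succ_zero n haT, ih 0 a ha, mul_zero]
    | succ m =>
      rw [coeff_W_succ n m haT, ih _ a ha, mul_zero, zero_add]
      refine Finset.sum_eq_zero fun b hb => ?_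
      by_cases hY : Y a b = 0
      · rw [hY, zero_mul]
      · rw [ih m b fun hb' => ha (hN.2 m b hb a haT hb' (Or.inr hY)), mul_zero]

theorem coeff_W_local {T' : Finset ι} (hT : T' ⊆ T) {N : ℕ → ι → Prop} (hN : Layered T Y N)
    (ho : o ∈ T') (hN0 : N 0 o) {L : ℕ} (hT' : ∀ a ∈ T, N L a → a ∈ T') (n : ℕ) :
    ∀ m ≤ L, ∀ a, (W T Y h o n a).coeff m = (W T' Y h o n a).coeff m := by
  have out : ∀ n, ∀ m ≤ L, ∀ a, a ∉ T' → (W T Y h o n a).coeff m = 0 := by
    intro n m hm a ha
    by_cases haT : a ∈ T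
    · exact coeff_W_eq_zero hN hN0 n m a fun hh => ha (hT' a haT (layer_mono hN hm hh))
    · rw [W_of_notMem _ haT, coeff_zero]
  induction n with
  | zero =>
    intro m hm a
    by_cases ha : a ∈ T'
    · simp [W, ha, hT ha]
    · rw [out 0 m hm a ha, W_of_notMem _ ha, coeff_zero]
  | succ n ih =>
    intro m hm a
    by_cases ha : a ∈ T'
    swap
    · rw [out _ m hm a ha, W_of_notMem _ ha, coeff_zero]
    cases m with
    | zero => rw [coeff_W_succ_zero n ha, coeff_W_succ_zero n (hT ha), ih 0 hm]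
    | succ m =>
      rw [coeff_W_succ n m ha, coeff_W_succ n m (hT ha), ih _ hm,
        ← Finset.sum_subset hT fun b _ hb => by rw [out n m (by omega) b hb, mul_zero]]
      exact congrArg _ (Finset.sum_congr rfl fun b _ => by rw [ih m (by omega)])

theorem W_image {ι' : Type*} [DecidableEq ι'] {e : ι → ι'} (he : Set.InjOn e T)
    {Y' : ι' → ι' → ℂ} {h' : ι' → ℝ} (ϑ : ι → ℂ) (hϑ : ∀ v ∈ T, ‖ϑ v‖ = 1)
    (hYY : ∀ u ∈ T, ∀ v ∈ T, Y' (e u) (e v) = conj (ϑ u) * Y u v * ϑ v)
    (hhh : ∀ v ∈ T, h' (e v) = h v) (ho : o ∈ T) (s : ℂ) (n : ℕ) :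
    ∀ a ∈ T, (W (T.image e) Y' h' (e o) n (e a)).eval s =
      conj (ϑ a) * (W T Y h o n a).eval s * ϑ o := by
  have h1 : ∀ v ∈ T, conj (ϑ v) * ϑ v = 1 := fun v hv => by
    rw [Complex.conj_mul', hϑ v hv]; simp
  induction n with
  | zero =>
    intro a ha
    by_cases e' : a = o
    · subst e'
      simp [W, ha, Finset.mem_image_of_mem e ha, h1 a ha]
    · have : e a ≠ e o := fun hh => e' (he ha ho hh)
      simp [W, e', this]
  | succ n ih =>
    intro a ha
    rw [eval_W_succ s n (Finset.mem_image_of_mem e ha), eval_W_succ s n ha,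
      Finset.sum_image fun x hx y hy => he hx hy, ih a ha, hhh a ha,
      Finset.sum_congr rfl (g := fun b => conj (ϑ a) * (Y a b * (W T Y h o n b).eval s) * ϑ o)
        fun b hb => by
          rw [hYY a ha b hb, ih b hb]
          linear_combination
            (conj (ϑ a) * Y a b * (W T Y h o n b).eval s * ϑ o) * h1 b hb,
      ← Finset.sum_mul, ← Finset.mul_sum]
    ring

end MatExp

open MatExp

theorem differentiable_exE (T : Finset ι) (Y : ι → ι → ℂ) (h : ι → ℝ) (u v : ι) :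
    Differentiable ℂ (fun s => exE T Y h s u v) := by
  exact differentiable_of_series _ (bound_W T Y h u v) (hasSum_W T Y h u v)

theorem norm_exE_le {T : Finset ι} {Y : ι → ι → ℂ} {R : ℝ} (hR : 0 ≤ R) (hB : Bdd T Y R)
    {h : ι → ℝ} {a G : ℝ} (hG : ∀ v ∈ T, |h v - a| ≤ G) (s : ℂ) (u v : ι) :
    ‖exE T Y h s u v‖ ≤ Real.exp (a + G + ‖s‖ * R) := by
  by_cases hu : u ∈ T
  swap
  · simp only [exE, dif_neg hu, norm_zero]; positivity
  have hG0 : 0 ≤ G := (abs_nonneg _).trans (hG u hu)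
  have e : h = fun b => (h b - a) + a := by funext b; ring
  rw [e, exE_shift, norm_mul, Complex.norm_real, Real.norm_eq_abs, abs_of_pos (Real.exp_pos a),
    add_assoc, Real.exp_add]
  refine mul_le_mul_of_nonneg_left ?_ (Real.exp_pos a).le
  have h1 := NormedSpace.expSeries_div_hasSum_exp (G + ‖s‖ * R)
  rw [← Real.exp_eq_exp_ℝ] at h1
  refine (hasSum_W T Y (fun b => h b - a) u v s).norm_le_of_bounded h1 fun n => ?_
  rw [eval_mul, eval_C, norm_mul, norm_inv, Complex.norm_natCast, div_eq_inv_mul]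
  refine mul_le_mul_of_nonneg_left (le_trans ?_ (norm_W_le (o := v) hR hG0 hB hG s n))
    (by positivity)
  exact PiLp.norm_apply_le (WithLp.toLp 2 fun b : T => (W T Y (fun b => h b - a) v n b).eval s :
    EuclideanSpace ℂ T) ⟨u, hu⟩

theorem exE_congr {T : Finset ι} {Y Y' : ι → ι → ℂ} {h h' : ι → ℝ}
    (hY : ∀ u ∈ T, ∀ v ∈ T, Y u v = Y' u v) (hh : ∀ v ∈ T, h v = h' v) (s : ℂ) (u v : ι) :
    exE T Y h s u v = exE T Y' h' s u v := by
  have : exM T Y h s = exM T Y' h' s := by
    unfold exM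
    congr 1
    ext a b
    simp only [Matrix.of_apply, hY a a.2 b b.2, hh a a.2]
  unfold exE
  rw [this]

/-- The `m`-th coefficient vanishes beyond distance `m`. -/
theorem tc_exE_eq_zero {T : Finset ι} {Y : ι → ι → ℂ} (h : ι → ℝ) {N : ℕ → ι → Prop}
    (hN : Layered T Y N) {o : ι} (hN0 : N 0 o) {m : ℕ} {u : ι} (hu : ¬ N m u) :
    tc m (fun s => exE T Y h s u o) = 0 := by
  refine (hasSum_tc_W T Y h u o m).unique ?_
  simpa only [coeff_W_eq_zero hN hN0 _ m u hu, mul_zero] using hasSum_zero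

/-- The `m`-th coefficient of the column of `o` only sees the `m`-neighbourhood of `o`. -/
theorem tc_exE_local {T T' : Finset ι} (hT : T' ⊆ T) {Y : ι → ι → ℂ} (h : ι → ℝ)
    {N : ℕ → ι → Prop} (hN : Layered T Y N) {o : ι} (ho : o ∈ T') (hN0 : N 0 o) {m : ℕ}
    (hT' : ∀ a ∈ T, N m a → a ∈ T') (u : ι) :
    tc m (fun s => exE T Y h s u o) = tc m (fun s => exE T' Y h s u o) := by
  refine (hasSum_tc_W T Y h u o m).unique ?_
  simpa only [coeff_W_local hT hN ho hN0 hT' _ m le_rfl u] using hasSum_tc_W T' Y h u o m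

theorem kE_eq_zero (L : ℕ) {T : Finset ι} {Y : ι → ι → ℂ} (h : ι → ℝ) {N : ℕ → ι → Prop}
    (hN : Layered T Y N) {o : ι} (hN0 : N 0 o) {u : ι} (hu : ¬ N L u) : kE L T Y h u o = 0 := by
  unfold kE trunc
  refine Finset.sum_eq_zero fun m hm => tc_exE_eq_zero h hN hN0 fun hh => hu ?_
  exact layer_mono hN (Nat.lt_succ_iff.1 (Finset.mem_range.1 hm)) hh

theorem kE_local (L : ℕ) {T T' : Finset ι} (hT : T' ⊆ T) {Y : ι → ι → ℂ} (h : ι → ℝ)
    {N : ℕ → ι → Prop} (hN : Layered T Y N) {o : ι} (ho : o ∈ T') (hN0 : N 0 o)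
    (hT' : ∀ a ∈ T, N L a → a ∈ T') (u : ι) : kE L T Y h u o = kE L T' Y h u o := by
  unfold kE trunc
  refine Finset.sum_congr rfl fun m hm => tc_exE_local hT h hN ho hN0 (fun a ha hh => ?_) u
  exact hT' a ha (layer_mono hN (Nat.lt_succ_iff.1 (Finset.mem_range.1 hm)) hh)

theorem kE_image (L : ℕ) {ι' : Type*} [DecidableEq ι'] {T : Finset ι} {e : ι → ι'}
    (he : Set.InjOn e T) {Y : ι → ι → ℂ} {Y' : ι' → ι' → ℂ} {h : ι → ℝ} {h' : ι' → ℝ}
    (ϑ : ι → ℂ) (c : ℝ) (hϑ : ∀ v ∈ T, ‖ϑ v‖ = 1)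
    (hYY : ∀ u ∈ T, ∀ v ∈ T, Y' (e u) (e v) = conj (ϑ u) * Y u v * ϑ v)
    (hhh : ∀ v ∈ T, h' (e v) = h v + c) {u v : ι} (hu : u ∈ T) (hv : v ∈ T) :
    kE L (T.image e) Y' h' (e u) (e v) =
      (Real.exp c : ℂ) * (conj (ϑ u) * kE L T Y h u v * ϑ v) := by
  have key : ∀ s, exE (T.image e) Y' h' s (e u) (e v) =
      (Real.exp c * (conj (ϑ u) * ϑ v)) * exE T Y h s u v := by
    intro s
    have e1 := exE_shift (T.image e) Y' (fun b => h' b - c) c s (e u) (e v)
    simp only [sub_add_cancel] at e1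
    rw [e1, mul_assoc]
    congr 1
    refine (hasSum_W (T.image e) Y' (fun b => h' b - c) (e u) (e v) s).unique ?_
    have e2 : (fun n : ℕ => (C ((n.factorial : ℂ)⁻¹) *
        W (T.image e) Y' (fun b => h' b - c) (e v) n (e u)).eval s) =
        fun n : ℕ => conj (ϑ u) * ϑ v * (C ((n.factorial : ℂ)⁻¹) * W T Y h v n u).eval s := by
      funext n
      rw [eval_mul, eval_mul, W_image (h := h) he ϑ hϑ hYY
        (fun b hb => by rw [hhh b hb]; ring) hv s n u hu]
      ring
    rw [e2]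
    exact (hasSum_W T Y h u v s).mul_left (conj (ϑ u) * ϑ v)
  unfold kE
  simp only [key]
  rw [trunc_const_mul]
  ring

theorem continuous_kE (L : ℕ) {Ω : Type*} [TopologicalSpace Ω] (T : Finset ι)
    {Y : Ω → ι → ι → ℂ} (hY : ∀ u v, Continuous fun χ => Y χ u v) {h : Ω → ι → ℝ}
    (hh : ∀ v, Continuous fun χ => h χ v) (u v : ι) :
    Continuous fun χ => kE L T (Y χ) (h χ) u v := by
  refine continuous_trunc L ?_ fun χ => differentiable_exE T (Y χ) (h χ) u v
  unfold Function.uncurry exE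
  split_ifs with hu hv
  · refine Continuous.matrix_elem (continuous_exp.comp (continuous_matrix fun a b => ?_)) _ _
    simp only [Matrix.of_apply]
    refine Continuous.add ?_ (continuous_snd.mul ((hY a b).comp continuous_fst))
    split_ifs
    · exact Complex.continuous_ofReal.comp ((hh a).comp continuous_fst)
    · exact continuous_const
  · exact continuous_const
  · exact continuous_const

end Crest.Agent.R109
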