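import Crest.Agent.R109.FDefs

/-! Row 109, task A12: Möbius inversion and Plackett–Luce allocations. -/

set_option autoImplicit false

noncomputable section

namespace Crest.Agent.R109

open Polynomial
open scoped ComplexConjugate

variable {ι : Type*} [DecidableEq ι]

theorem mob_insert (F : Finset ι → ℝ) {S : Finset ι} {v : ι} (hv : v ∉ S) :
    mob F (insert v S) = mob (fun S' => F (insert v S') - F S') S := by
  simp only [mob]
  rw [Finset.sum_powerset_insert hv, ← Finset.sum_add_distrib]
  refine Finset.sum_congr rfl fun S' hS' => ?_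
  have h1 : S' ⊆ S := Finset.mem_powerset.1 hS'
  have h2 := Finset.card_le_card h1
  rw [Finset.card_insert_of_notMem hv, Finset.card_insert_of_notMem fun h => hv (h1 h),
    Nat.add_sub_add_right, show S.card + 1 - S'.card = S.card - S'.card + 1 by omega, pow_succ]
  ring

theorem mob_sub' (F F' : Finset ι → ℝ) (S : Finset ι) :
    mob (fun S' => F S' - F' S') S = mob F S - mob F' S := by
  simp only [mob, mul_sub, Finset.sum_sub_distrib]

theorem sum_mob (F : Finset ι → ℝ) (T : Finset ι) : ∑ S ∈ T.powerset, mob F S = F T := by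
  induction T using Finset.induction_on generalizing F with
  | empty => simp [mob]
  | insert v T hv ih =>
    rw [Finset.sum_powerset_insert hv, ih, Finset.sum_congr rfl fun S hS =>
      mob_insert F fun h => hv (Finset.mem_powerset.1 hS h), ih]
    ring

theorem mob_empty (F : Finset ι → ℝ) : mob F ∅ = F ∅ := by
  simp [mob]

theorem mob_congr {F F' : Finset ι → ℝ} {S : Finset ι} (h : ∀ S' ⊆ S, F S' = F' S') :
    mob F S = mob F' S := by
  exact Finset.sum_congr rfl fun S' hS' => by rw [h S' (Finset.mem_powerset.1 hS')]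

theorem mob_add (F F' : Finset ι → ℝ) (S : Finset ι) :
    mob (fun S' => F S' + F' S') S = mob F S + mob F' S := by
  simp only [mob, mul_add, Finset.sum_add_distrib]

theorem mob_sub (F F' : Finset ι → ℝ) (S : Finset ι) :
    mob (fun S' => F S' - F' S') S = mob F S - mob F' S := by
  exact mob_sub' F F' S

theorem mob_const_mul (a : ℝ) (F : Finset ι → ℝ) (S : Finset ι) :
    mob (fun S' => a * F S') S = a * mob F S := by
  simp only [mob, Finset.mul_sum, mul_left_comm a]

theorem mob_sum {α : Type*} (I : Finset α) (F : α → Finset ι → ℝ) (S : Finset ι) :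
    mob (fun S' => ∑ i ∈ I, F i S') S = ∑ i ∈ I, mob (F i) S := by
  simp only [mob, Finset.mul_sum]
  exact Finset.sum_comm

theorem mob_eq_zero_of_insert {F : Finset ι → ℝ} {S : Finset ι} {v : ι} (hv : v ∈ S)
    (h : ∀ S' ⊆ S.erase v, F (insert v S') = F S') : mob F S = 0 := by
  rw [← Finset.insert_erase hv, mob_insert F (Finset.notMem_erase v S),
    mob_congr (F' := fun _ => 0) fun S' hS' => sub_eq_zero.2 (h S' hS')]
  simp [mob]

theorem mob_eq_zero_of_mixed {F : Finset ι → ℝ} {S : Finset ι} {o v : ι} (ho : o ∈ S)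
    (hv : v ∈ S) (hov : o ≠ v)
    (h : ∀ S' ⊆ (S.erase o).erase v,
      F (insert o (insert v S')) - F (insert o S') - F (insert v S') + F S' = 0) :
    mob F S = 0 := by
  rw [← Finset.insert_erase ho, mob_insert F (Finset.notMem_erase o S)]
  refine mob_eq_zero_of_insert (Finset.mem_erase.2 ⟨hov.symm, hv⟩) fun S' hS' => ?_
  linarith [h S' hS']

theorem sum_powerset_image' {ι' : Type*} [DecidableEq ι'] {e : ι → ι'} {S : Finset ι}
    (he : Set.InjOn e S) (F : Finset ι' → ℝ) :
    ∑ S' ∈ (S.image e).powerset, F S' = ∑ S' ∈ S.powerset, F (S'.image e) := by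
  rw [Finset.powerset_image, Finset.sum_image]
  intro A hA B hB h
  have hA' : A ⊆ S := Finset.mem_powerset.1 hA
  have hB' : B ⊆ S := Finset.mem_powerset.1 hB
  have key : ∀ {A B : Finset ι}, A ⊆ S → B ⊆ S → A.image e = B.image e → A ⊆ B := by
    intro A B hA hB h x hx
    obtain ⟨y, hy, e'⟩ := Finset.mem_image.1 (h ▸ Finset.mem_image_of_mem e hx)
    exact he (hB hy) (hA hx) e' ▸ hy
  exact Finset.Subset.antisymm (key hA' hB' h) (key hB' hA' h.symm)

theorem mob_image {ι' : Type*} [DecidableEq ι'] {e : ι → ι'} {S : Finset ι}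
    (he : Set.InjOn e S) (F : Finset ι' → ℝ) :
    mob F (S.image e) = mob (fun S' => F (S'.image e)) S := by
  simp only [mob]
  rw [sum_powerset_image' he, Finset.card_image_of_injOn he]
  refine Finset.sum_congr rfl fun S' hS' => ?_
  rw [Finset.card_image_of_injOn (he.mono (Finset.coe_subset.2 (Finset.mem_powerset.1 hS')))]

theorem sum_powerset_image {ι' : Type*} [DecidableEq ι'] {e : ι → ι'} {S : Finset ι}
    (he : Set.InjOn e S) (F : Finset ι' → ℝ) :
    ∑ S' ∈ (S.image e).powerset, F S' = ∑ S' ∈ S.powerset, F (S'.image e) := by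
  exact sum_powerset_image' he F

theorem sum_powerset_mem (f : Finset ι → ℝ) {T : Finset ι} {o : ι} (ho : o ∈ T) :
    ∑ S ∈ T.powerset with o ∈ S, f S = ∑ S ∈ (T.erase o).powerset, f (insert o S) := by
  conv_lhs => rw [← Finset.insert_erase ho]
  rw [Finset.sum_filter, Finset.sum_powerset_insert (Finset.notMem_erase o T),
    Finset.sum_eq_zero, zero_add]
  · simp
  · intro S hS
    rw [if_neg fun h => Finset.notMem_erase o T (Finset.mem_powerset.1 hS h)]

theorem sum_mob_mem (F : Finset ι → ℝ) {T : Finset ι} {o : ι} (ho : o ∈ T) :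
    ∑ S ∈ T.powerset with o ∈ S, mob F S = F T - F (T.erase o) := by
  rw [sum_powerset_mem _ ho, Finset.sum_congr rfl fun S hS =>
    mob_insert F fun h => Finset.notMem_erase o T (Finset.mem_powerset.1 hS h), sum_mob,
    Finset.insert_erase ho]

theorem continuous_mob {Ω : Type*} [TopologicalSpace Ω] {F : Ω → Finset ι → ℝ}
    (hF : ∀ S, Continuous fun χ => F χ S) (S : Finset ι) : Continuous fun χ => mob (F χ) S := by
  exact continuous_finsetSum _ fun S' _ => continuous_const.mul (hF S')

theorem pl_rec (G : Finset ι → ℝ) {a : ℝ} (ha : 0 < a) (w : ι → ℝ) (L : Finset ι)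
    (hw : ∀ v ∈ L, 0 < w v) :
    (a + ∑ v ∈ L, w v) * ∑ S ∈ L.powerset, mob G S * (a / (a + ∑ v ∈ S, w v)) =
      a * G L + ∑ v ∈ L, w v *
        ∑ S ∈ (L.erase v).powerset, mob G S * (a / (a + ∑ v ∈ S, w v)) := by
  have e : ∀ v ∈ L, w v * ∑ S ∈ (L.erase v).powerset, mob G S * (a / (a + ∑ v ∈ S, w v)) =
      ∑ S ∈ L.powerset, if v ∈ S then 0 else w v * (mob G S * (a / (a + ∑ v ∈ S, w v))) := by
    intro v _
    rw [Finset.mul_sum, Finset.sum_ite, Finset.sum_const_zero, zero_add]
    refine Finset.sum_congr ?_ fun _ _ => rfl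
    ext S
    simp [Finset.subset_erase]
  rw [Finset.sum_congr rfl e, Finset.sum_comm, ← sum_mob G L, Finset.mul_sum, Finset.mul_sum,
    ← Finset.sum_add_distrib]
  refine Finset.sum_congr rfl fun S hS => ?_
  have hS' : S ⊆ L := Finset.mem_powerset.1 hS
  have hpos : 0 < a + ∑ v ∈ S, w v :=
    add_pos_of_pos_of_nonneg ha (Finset.sum_nonneg fun v hv => (hw v (hS' hv)).le)
  rw [Finset.sum_ite, Finset.sum_const_zero, zero_add, ← Finset.sum_mul,
    ← Finset.sdiff_eq_filter, ← Finset.sum_sdiff hS']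
  field_simp
  ring

/-- Plackett–Luce allocation bound. -/
theorem pl_bound (F : Finset ι → ℝ) {T : Finset ι} {o : ι} (ho : o ∈ T) (w : ι → ℝ)
    (hw : ∀ v ∈ T, 0 < w v) (Λ : Finset ι) {α β : ℝ} (hβ : 0 ≤ β)
    (h1 : ∀ U ⊆ T.erase o, U ⊆ Λ → F (insert o U) - F U ≤ α)
    (h2 : ∀ U ⊆ T.erase o, F (insert o U) - F U ≤ α + β) :
    ∑ S ∈ T.powerset with o ∈ S, mob F S * (w o / ∑ v ∈ S, w v) ≤
      α + β * ∑ v ∈ (T.erase o) \ Λ, w o / (w o + w v) := by
  have hwo := hw o ho
  have key : ∀ L : Finset ι, L ⊆ T.erase o →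
      ∑ S ∈ L.powerset, mob (fun U => F (insert o U) - F U) S * (w o / (w o + ∑ v ∈ S, w v)) ≤
        α + β * ∑ v ∈ L \ Λ, w o / (w o + w v) := by
    intro L
    induction L using Finset.strongInduction with
    | H L ih =>
      intro hL
      have hwL : ∀ v ∈ L, 0 < w v := fun v hv => hw v (Finset.mem_of_mem_erase (hL hv))
      have hpos : 0 < w o + ∑ v ∈ L, w v :=
        add_pos_of_pos_of_nonneg hwo (Finset.sum_nonneg fun v hv => (hwL v hv).le)
      refine le_of_mul_le_mul_left ?_ hpos
      rw [pl_rec _ hwo w L hwL]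
      have hG : F (insert o L) - F L ≤ α + β * (L \ Λ).card := by
        rcases (L \ Λ).eq_empty_or_nonempty with h | h
        · simpa [h] using h1 L hL (Finset.sdiff_eq_empty_iff_subset.1 h)
        · have : (1 : ℝ) ≤ (L \ Λ).card := by exact_mod_cast h.card_pos
          nlinarith [h2 L hL]
      have h3 : ∀ v ∈ L, w v * ∑ S ∈ (L.erase v).powerset,
          mob (fun U => F (insert o U) - F U) S * (w o / (w o + ∑ v ∈ S, w v)) ≤
          w v * (α + β * ∑ v ∈ L \ Λ, w o / (w o + w v)) -
            β * if v ∈ Λ then 0 else w v * (w o / (w o + w v)) := by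
        intro v hv
        refine (mul_le_mul_of_nonneg_left (ih _ (Finset.erase_ssubset hv)
          ((Finset.erase_subset _ _).trans hL)) (hwL v hv).le).trans (le_of_eq ?_)
        rw [Finset.erase_sdiff_comm]
        split_ifs with h
        · rw [Finset.erase_eq_of_notMem (by simp [h])]; ring
        · rw [← Finset.add_sum_erase _ _ (Finset.mem_sdiff.2 ⟨hv, h⟩)]; ring
      refine (add_le_add (mul_le_mul_of_nonneg_left hG hwo.le) (Finset.sum_le_sum h3)).trans
        (le_of_eq ?_)
      rw [Finset.sum_sub_distrib, ← Finset.sum_mul, ← Finset.mul_sum, Finset.sum_ite,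
        Finset.sum_const_zero, zero_add, ← Finset.sdiff_eq_filter]
      have h4 : w o * (L \ Λ).card = w o * ∑ v ∈ L \ Λ, w o / (w o + w v) +
          ∑ v ∈ L \ Λ, w v * (w o / (w o + w v)) := by
        rw [Finset.mul_sum, ← Finset.sum_add_distrib, mul_comm, ← nsmul_eq_mul, ← Finset.sum_const]
        refine Finset.sum_congr rfl fun v hv => ?_
        have := hwL v (Finset.mem_sdiff.1 hv).1
        field_simp
      linear_combination β * h4
  rw [sum_powerset_mem _ ho]
  refine le_of_eq_of_le (Finset.sum_congr rfl fun S hS => ?_) (key _ le_rfl)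
  have hoS : o ∉ S := fun h => Finset.notMem_erase o T (Finset.mem_powerset.1 hS h)
  rw [mob_insert F hoS, Finset.sum_insert hoS]

end Crest.Agent.R109
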