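import Mathlib

/-! Row 109, task D5b: the coefficients of a polynomial bounded on `[0,1]`. -/

set_option autoImplicit false
set_option linter.unusedSectionVars false

noncomputable section

namespace Crest.Agent.R109.Mom

open Finset Polynomial

/-- The `ℓ¹` norm of the coefficients of `p` is at most `c`. -/
def Maj (p : ℂ[X]) (c : ℝ) : Prop := ∀ d : ℕ, ∑ m ∈ range d, ‖p.coeff m‖ ≤ c

theorem Maj.nonneg {p : ℂ[X]} {c : ℝ} (h : Maj p c) : 0 ≤ c := by simpa using h 0

theorem Maj.mono {p : ℂ[X]} {c c' : ℝ} (h : Maj p c) (hc : c ≤ c') : Maj p c' :=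
  fun d => (h d).trans hc

theorem Maj.zero : Maj 0 0 := fun d => by simp

theorem Maj.one : Maj 1 1 := fun d => by
  cases d with
  | zero => simp
  | succ d => rw [sum_range_succ']; simp [coeff_one]

theorem Maj.add {p q : ℂ[X]} {c c' : ℝ} (h : Maj p c) (h' : Maj q c') : Maj (p + q) (c + c') := by
  intro d
  refine le_trans (sum_le_sum fun m _ => ?_) ((sum_add_distrib).le.trans (add_le_add (h d) (h' d)))
  rw [coeff_add]
  exact norm_add_le _ _

theorem Maj.C_mul {p : ℂ[X]} {c : ℝ} (h : Maj p c) (a : ℂ) : Maj (C a * p) (‖a‖ * c) := by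
  intro d
  simp only [coeff_C_mul, norm_mul, ← mul_sum]
  exact mul_le_mul_of_nonneg_left (h d) (norm_nonneg _)

theorem Maj.X_mul {p : ℂ[X]} {c : ℝ} (h : Maj p c) : Maj (X * p) c := by
  intro d
  cases d with
  | zero => simpa using h.nonneg
  | succ d =>
    rw [sum_range_succ']
    simpa [coeff_X_mul] using h d

theorem Maj.sum {ι : Type*} (s : Finset ι) {p : ι → ℂ[X]} {c : ι → ℝ}
    (h : ∀ i ∈ s, Maj (p i) (c i)) : Maj (∑ i ∈ s, p i) (∑ i ∈ s, c i) := by
  classical
  induction s using Finset.induction_on with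
  | empty => simpa using Maj.zero
  | insert a s ha ih =>
    rw [sum_insert ha, sum_insert ha]
    exact (h a (mem_insert_self _ _)).add (ih fun i hi => h i (mem_insert_of_mem hi))

theorem Maj.divisor_mul {p : ℂ[X]} {c : ℝ} (h : Maj p c) (x y : ℂ) (hy : ‖y‖ ≤ 1) :
    Maj (Lagrange.basisDivisor x y * p) (2 * ‖x - y‖⁻¹ * c) := by
  have e : Lagrange.basisDivisor x y * p = C (x - y)⁻¹ * (X * p + C (-y) * p) := by
    rw [Lagrange.basisDivisor, map_neg]; ring
  rw [e]
  refine ((h.X_mul.add (h.C_mul (-y))).C_mul _).mono ?_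
  rw [norm_inv, norm_neg]
  have h0 := h.nonneg
  have : ‖y‖ * c ≤ c := mul_le_of_le_one_left h0 hy
  have h1 : 0 ≤ ‖x - y‖⁻¹ := by positivity
  nlinarith

theorem Maj.prod_divisor {ι : Type*} (s : Finset ι) (x : ℂ) (v : ι → ℂ) (hv : ∀ j ∈ s, ‖v j‖ ≤ 1) :
    Maj (∏ j ∈ s, Lagrange.basisDivisor x (v j)) (∏ j ∈ s, 2 * ‖x - v j‖⁻¹) := by
  classical
  induction s using Finset.induction_on with
  | empty => simpa using Maj.one
  | insert a s ha ih =>
    rw [prod_insert ha, prod_insert ha]
    exact (ih fun i hi => hv i (mem_insert_of_mem hi)).divisor_mul _ _ (hv a (mem_insert_self _ _))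

theorem prod_range_sub (i : ℕ) : ∏ j ∈ range i, |(i : ℝ) - j| = i.factorial := by
  rw [← prod_range_reflect, ← prod_range_add_one_eq_factorial, Nat.cast_prod]
  refine prod_congr rfl fun j hj => ?_
  have hj' := mem_range.1 hj
  have : ((i - 1 - j : ℕ) : ℝ) = i - 1 - j := by
    rw [Nat.cast_sub (by omega), Nat.cast_sub (by omega)]; simp
  rw [this, abs_of_nonneg (by have : (0 : ℝ) ≤ j := Nat.cast_nonneg _; linarith)]
  push_cast; ring

theorem prod_erase_sub (i r : ℕ) :
    ∏ j ∈ (range (i + r + 1)).erase i, |(i : ℝ) - j| = i.factorial * r.factorial := by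
  induction r with
  | zero =>
    rw [add_zero, range_add_one, erase_insert (by simp), prod_range_sub]; simp
  | succ r ih =>
    rw [← add_assoc, range_add_one (n := i + r + 1), erase_insert_of_ne (by omega),
      prod_insert (by simp), ih, Nat.factorial_succ]
    push_cast
    rw [abs_of_nonpos (by have : (0 : ℝ) ≤ r := Nat.cast_nonneg _; linarith)]
    ring

theorem sum_norm_coeff_le (n : ℕ) (A : ℕ → ℂ) {B : ℝ}
    (h : ∀ t : ℝ, 0 ≤ t → t ≤ 1 → ‖∑ m ∈ Finset.range (n + 1), A m * (t : ℂ) ^ m‖ ≤ B) :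
    ∑ m ∈ Finset.range (n + 1), ‖A m‖ ≤ 11 ^ n * B := by
  rcases Nat.eq_zero_or_pos n with rfl | hn
  · simpa using h 0 le_rfl zero_le_one
  have hB : 0 ≤ B := (norm_nonneg _).trans (h 0 le_rfl zero_le_one)
  have hn' : (0 : ℝ) < n := by exact_mod_cast hn
  set f : ℂ[X] := ∑ m ∈ range (n + 1), C (A m) * X ^ m with hf
  have hcoeff : ∀ m ∈ range (n + 1), f.coeff m = A m := by
    intro m hm
    simp [hf, finsetSum_coeff, coeff_C_mul, coeff_X_pow, mem_range.1 hm]
  have hdeg : f.degree < (range (n + 1)).card := by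
    rw [card_range]
    refine (degree_lt_iff_coeff_zero _ _).2 fun m hm => ?_
    have : ¬ m ≤ n := by omega
    simp [hf, finsetSum_coeff, coeff_C_mul, coeff_X_pow, this]
  let v : ℕ → ℂ := fun i => (((i : ℝ) / n : ℝ) : ℂ)
  have hv : Set.InjOn v (range (n + 1) : Finset ℕ) := by
    intro i _ j _ hij
    have := Complex.ofReal_injective hij
    rw [div_left_inj' hn'.ne'] at this
    exact_mod_cast this
  have hv1 : ∀ i ∈ range (n + 1), (i : ℝ) / n ≤ 1 := fun i hi => by
    rw [div_le_one hn']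
    exact_mod_cast Nat.lt_succ_iff.1 (mem_range.1 hi)
  have hev : ∀ i ∈ range (n + 1), ‖f.eval (v i)‖ ≤ B := fun i hi => by
    have := h ((i : ℝ) / n) (by positivity) (hv1 i hi)
    simpa only [hf, eval_finsetSum, eval_mul, eval_C, eval_pow, eval_X] using this
  have hM : Maj f (∑ i ∈ range (n + 1), B * ((2 * n) ^ n / n.factorial * n.choose i)) := by
    rw [Lagrange.eq_interpolate hv hdeg, Lagrange.interpolate_apply]
    refine Maj.sum _ fun i hi => ?_
    have h1 := (Maj.prod_divisor ((range (n + 1)).erase i) (v i) v fun j hj => by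
      simp only [v, Complex.norm_real, Real.norm_eq_abs]
      rw [abs_of_nonneg (by positivity)]
      exact hv1 j (mem_of_mem_erase hj)).C_mul (f.eval (v i))
    refine Maj.mono h1 (mul_le_mul (hev i hi) (le_of_eq ?_) (by positivity) hB)
    have hi' : i ≤ n := Nat.lt_succ_iff.1 (mem_range.1 hi)
    have e1 : ∀ j : ℕ, 2 * ‖v i - v j‖⁻¹ = (2 * n) * |(i : ℝ) - j|⁻¹ := fun j => by
      simp only [v]
      rw [← Complex.ofReal_sub, Complex.norm_real, Real.norm_eq_abs, ← sub_div, abs_div,
        abs_of_pos hn', inv_div]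
      ring
    have e2 := prod_erase_sub i (n - i)
    rw [Nat.add_sub_cancel' hi'] at e2
    simp only [e1]
    rw [prod_mul_distrib, prod_const, card_erase_of_mem hi, card_range, Nat.add_sub_cancel,
      prod_inv_distrib, e2, Nat.cast_choose ℝ hi']
    have : (0 : ℝ) < n.factorial := by exact_mod_cast n.factorial_pos
    field_simp
  have h2 := hM (n + 1)
  rw [sum_congr rfl fun m hm => congrArg norm (hcoeff m hm), ← mul_sum, ← mul_sum,
    ← Nat.cast_sum, Nat.sum_range_choose] at h2
  refine h2.trans ?_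
  rw [mul_comm]
  refine mul_le_mul_of_nonneg_right ?_ hB
  have h3 := Real.pow_div_factorial_le_exp (n : ℝ) hn'.le n
  have h4 : Real.exp n = Real.exp 1 ^ n := by rw [← Real.exp_nat_mul, mul_one]
  have h5 : Real.exp 1 ≤ 11 / 4 := by have := Real.exp_one_lt_d9; linarith
  calc (2 * (n : ℝ)) ^ n / n.factorial * ((2 ^ n : ℕ) : ℝ) = 4 ^ n * ((n : ℝ) ^ n / n.factorial) := by
        push_cast
        rw [mul_pow, show (4 : ℝ) = 2 * 2 by norm_num, mul_pow]; ring
    _ ≤ 4 ^ n * (11 / 4) ^ n := by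
        refine mul_le_mul_of_nonneg_left (h3.trans ?_) (by positivity)
        rw [h4]
        exact pow_le_pow_left₀ (Real.exp_pos _).le h5 n
    _ = 11 ^ n := by rw [← mul_pow]; norm_num

end Crest.Agent.R109.Mom
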