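import Crest.Agent.R109.Pattern
import Crest.Agent.R109.MomentAux

/-! Row 109, task D5b: moments of random compressions. -/

set_option autoImplicit false
set_option linter.unusedSectionVars false

noncomputable section

namespace Crest.Agent.R109

open Filter Topology
open scoped ComplexOrder ComplexConjugate Classical

universe u

variable {𝓜 : Type u} [CStarAlgebra 𝓜] [PartialOrder 𝓜] [StarOrderedRing 𝓜]

/-- Coefficients of a polynomial bounded on `[0,1]`. -/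
theorem sum_norm_coeff_le (n : ℕ) (A : ℕ → ℂ) {B : ℝ}
    (h : ∀ t : ℝ, 0 ≤ t → t ≤ 1 → ‖∑ m ∈ Finset.range (n + 1), A m * (t : ℂ) ^ m‖ ≤ B) :
    ∑ m ∈ Finset.range (n + 1), ‖A m‖ ≤ 11 ^ n * B :=
  Mom.sum_norm_coeff_le n A h

namespace Mom

theorem pr_const (x p : 𝓜) (hp : p * p = p) (w : ℕ → 𝓜) (hw : ∀ q, w q = Pat.fr x q * p) (n : ℕ) :
    Pat.pr w 0 (n + 1) = p * (p * x * p) ^ n := by
  induction n with
  | zero => simp [Pat.pr_one, hw, Pat.fr]
  | succ n ih =>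
    have h1 : p * (p * x * p) ^ n * p = p * (p * x * p) ^ n := by
      cases n with
      | zero => simpa using hp
      | succ n => rw [pow_succ, mul_assoc, mul_assoc, mul_assoc (p * x), hp]
    rw [Pat.pr_add, Pat.pr_one, ih, hw, Pat.fr, if_neg (by omega), pow_succ]
    conv_lhs => rw [← h1]
    simp only [mul_assoc]

variable {κ : Type u} [Fintype κ] [DecidableEq κ] {e : κ → 𝓜}

theorem pow_eq_sum {A : StarSubalgebra ℂ 𝓜} (he : IsPaving A e) (x : 𝓜) {r' : ℕ}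
    (j pos : κ → Fin r') {n : ℕ} (hn : 1 ≤ n) :
    (sel e j pos * x * sel e j pos) ^ n = ∑ a : Fin (n + 1) → κ,
      (∏ q : Fin (n + 1), if pos (a q) = j (a q) then (1 : ℂ) else 0) •
        chain x (List.ofFn fun i => e (a i)) := by
  have hp : sel e j pos * sel e j pos = sel e j pos := (he.sel_mem j pos).2.isIdempotentElem.eq
  have h := Pat.sum_chain x e (fun _ γ => if pos γ = j γ then (1 : ℂ) else 0) n
  rw [h, pr_const x (sel e j pos) hp]
  · obtain ⟨n, rfl⟩ : ∃ m, n = m + 1 := ⟨n - 1, by omega⟩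
    rw [pow_succ', ← mul_assoc, ← mul_assoc, ← mul_assoc, hp]
  · intro q
    simp [Pat.wt, Pat.U, sel, Finset.sum_filter]

theorem sum_weight {r' : ℕ} (μ : Fin r' → ℝ) (hμ : ∑ b, μ b = 1) (j : κ → Fin r') {t : ℝ}
    (ht : ∀ γ, μ (j γ) = t) {N : ℕ} (a : Fin N → κ) :
    ∑ pos : κ → Fin r', ((∏ γ, μ (pos γ) : ℝ) : ℂ) *
      (∏ q : Fin N, if pos (a q) = j (a q) then (1 : ℂ) else 0) =
      (t : ℂ) ^ (Finset.univ.image a).card := by
  have h1 : ∀ pos : κ → Fin r', (∏ q : Fin N, if pos (a q) = j (a q) then (1 : ℂ) else 0) =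
      ∏ γ, if γ ∈ Finset.univ.image a then (if pos γ = j γ then (1 : ℂ) else 0) else 1 := by
    intro pos
    by_cases h : ∀ q, pos (a q) = j (a q)
    · rw [Finset.prod_eq_one fun q _ => if_pos (h q), Finset.prod_eq_one]
      intro γ _
      split_ifs with h1 h2
      · rfl
      · obtain ⟨q, -, rfl⟩ := Finset.mem_image.1 h1
        exact absurd (h q) h2
      · rfl
    · push Not at h
      obtain ⟨q, hq⟩ := h
      rw [Finset.prod_eq_zero (Finset.mem_univ q) (if_neg hq),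
        Finset.prod_eq_zero (Finset.mem_univ (a q))]
      rw [if_pos (Finset.mem_image_of_mem a (Finset.mem_univ q)), if_neg hq]
  simp only [h1, Complex.ofReal_prod, ← Finset.prod_mul_distrib]
  rw [← Fintype.prod_sum (fun γ (b : Fin r') => (μ b : ℂ) *
    if γ ∈ Finset.univ.image a then (if b = j γ then (1 : ℂ) else 0) else 1)]
  have h2 : ∀ γ, (∑ b : Fin r', (μ b : ℂ) *
      if γ ∈ Finset.univ.image a then (if b = j γ then (1 : ℂ) else 0) else 1) =
      if γ ∈ Finset.univ.image a then (t : ℂ) else 1 := by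
    intro γ
    split_ifs with h
    · simp [ht]
    · simp only [mul_one]
      exact_mod_cast hμ
  simp only [h2]
  rw [Finset.prod_ite_mem, Finset.univ_inter, Finset.prod_const]

/-- The sum over the index patterns with `m` values. -/
def coef (R : Reg 𝓜) (e : κ → 𝓜) (x : 𝓜) (n m : ℕ) : ℂ :=
  ∑ a : Fin (n + 1) → κ with (Finset.univ.image a).card = m,
    R.ω (chain x (List.ofFn fun i => e (a i)))

theorem wavg (R : Reg 𝓜) (he : IsPaving R.A e) (x : 𝓜) {r' : ℕ} (μ : Fin r' → ℝ)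
    (hμ : ∑ b, μ b = 1) (j : κ → Fin r') {t : ℝ} (ht : ∀ γ, μ (j γ) = t) {n : ℕ} (hn : 1 ≤ n) :
    ∑ pos : κ → Fin r', ((∏ γ, μ (pos γ) : ℝ) : ℂ) * R.ω ((sel e j pos * x * sel e j pos) ^ n) =
      ∑ m ∈ Finset.range (n + 1 + 1), coef R e x n m * (t : ℂ) ^ m := by
  simp only [pow_eq_sum he x j _ hn, map_sum, map_smul, smul_eq_mul, Finset.mul_sum, ← mul_assoc]
  rw [Finset.sum_comm]
  simp only [← Finset.sum_mul, sum_weight μ hμ j ht]
  rw [← Finset.sum_fiberwise_of_maps_to (s := Finset.univ) (t := Finset.range (n + 1 + 1))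
    (g := fun a : Fin (n + 1) → κ => (Finset.univ.image a).card) fun a _ => by
      rw [Finset.mem_range, Nat.lt_succ_iff]
      exact Finset.card_image_le.trans (by simp)]
  refine Finset.sum_congr rfl fun m _ => ?_
  rw [coef, Finset.sum_mul]
  refine Finset.sum_congr rfl fun a ha => ?_
  rw [(Finset.mem_filter.1 ha).2, mul_comm]

theorem sum_coef_le (R : Reg 𝓜) (he : IsPaving R.A e) {x : 𝓜} {ρ : ℝ} (hx : ‖x‖ ≤ ρ) {n : ℕ}
    (hn : 1 ≤ n) : ∑ m ∈ Finset.range (n + 1 + 1), ‖coef R e x n m‖ ≤ 11 ^ (n + 1) * ρ ^ n := by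
  refine sum_norm_coeff_le (n + 1) _ fun t ht0 ht1 => ?_
  have hμ : ∑ b : Fin 2, (![t, 1 - t] : Fin 2 → ℝ) b = 1 := by simp
  have hμ0 : ∀ b : Fin 2, 0 ≤ (![t, 1 - t] : Fin 2 → ℝ) b := fun b => by
    fin_cases b
    · simpa using ht0
    · simpa using ht1
  rw [← wavg R he x ![t, 1 - t] hμ (fun _ => 0) (t := t) (fun _ => rfl) hn]
  refine (norm_sum_le _ _).trans ?_
  have h1 : ∀ pos : κ → Fin 2, ‖((∏ γ, (![t, 1 - t] : Fin 2 → ℝ) (pos γ) : ℝ) : ℂ) *
      R.ω ((sel e (fun _ => 0) pos * x * sel e (fun _ => 0) pos) ^ n)‖ ≤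
      (∏ γ, (![t, 1 - t] : Fin 2 → ℝ) (pos γ)) * ρ ^ n := by
    intro pos
    have h0 : 0 ≤ ∏ γ, (![t, 1 - t] : Fin 2 → ℝ) (pos γ) := Finset.prod_nonneg fun γ _ => hμ0 _
    rw [norm_mul, Complex.norm_real, Real.norm_of_nonneg h0]
    refine mul_le_mul_of_nonneg_left ((R.norm_ω_le _).trans ((norm_pow_le' _ hn).trans
      (pow_le_pow_left₀ (norm_nonneg _) ?_ n))) h0
    have hp := (he.sel_mem (fun _ => (0 : Fin 2)) pos).2.norm_le
    exact (norm_mul_le _ _).trans ((mul_le_of_le_one_right (norm_nonneg _) hp).trans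
      ((norm_mul_le _ _).trans ((mul_le_of_le_one_left (norm_nonneg _) hp).trans hx)))
  refine (Finset.sum_le_sum fun pos _ => h1 pos).trans (le_of_eq ?_)
  rw [← Finset.sum_mul, ← Fintype.prod_sum (fun (_ : κ) (b : Fin 2) => (![t, 1 - t] : Fin 2 → ℝ) b)]
  simp

end Mom

theorem Reg.moment_bound (R : Reg 𝓜) {k : ℕ} (hk : 1 ≤ k) {ρ : ℝ} (hρ : 0 ≤ ρ) :
    ∃ C : ℝ, 0 ≤ C ∧ ∀ (κ : Type u) [Fintype κ] [DecidableEq κ] (e : κ → 𝓜), IsPaving R.A e →
      ∀ x : 𝓜, ‖x‖ ≤ ρ → ∀ η : ℝ, 0 ≤ η → (∀ a b, ‖e a * x * e b‖ ≤ η) →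
        ∀ (r' : ℕ), 0 < r' → ∀ j : κ → Fin r',
          avg (fun pos : κ → Fin r' => (R.ω ((sel e j pos * x * sel e j pos) ^ (2 * k))).re) ≤
            11 ^ (2 * k + 1) * (1 / (r' : ℝ)) ^ (k + 1) * ρ ^ (2 * k) + C * η := by
  obtain ⟨C, hC, hpat⟩ := R.pattern_bound k hρ
  refine ⟨(2 * k + 2) * C, by positivity, fun κ _ _ e he x hx η hη hb r' hr j => ?_⟩
  have hr' : (0 : ℝ) < r' := by exact_mod_cast hr
  have ht0 : 0 ≤ 1 / (r' : ℝ) := by positivity
  have ht1 : 1 / (r' : ℝ) ≤ 1 := by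
    rw [div_le_one hr']
    exact_mod_cast hr
  have h1 := Mom.wavg R he x (fun _ : Fin r' => 1 / (r' : ℝ)) (by simp; field_simp) j
    (t := 1 / (r' : ℝ)) (fun _ => rfl) (n := 2 * k) (by omega)
  have h2 : avg (fun pos : κ → Fin r' => (R.ω ((sel e j pos * x * sel e j pos) ^ (2 * k))).re) =
      (∑ m ∈ Finset.range (2 * k + 1 + 1), Mom.coef R e x (2 * k) m *
        ((1 / (r' : ℝ) : ℝ) : ℂ) ^ m).re := by
    rw [← h1, Complex.re_sum, avg, Finset.sum_div]
    refine Finset.sum_congr rfl fun pos _ => ?_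
    rw [Complex.re_ofReal_mul]
    simp [div_eq_inv_mul]
  have h3 := Mom.sum_coef_le R he hx (n := 2 * k) (by omega)
  rw [h2]
  refine (Complex.re_le_norm _).trans ((norm_sum_le _ _).trans ?_)
  have h4 : ∀ m ∈ Finset.range (2 * k + 1 + 1), ‖Mom.coef R e x (2 * k) m *
      ((1 / (r' : ℝ) : ℝ) : ℂ) ^ m‖ ≤
      (1 / (r' : ℝ)) ^ (k + 1) * ‖Mom.coef R e x (2 * k) m‖ + C * η := by
    intro m _
    rw [norm_mul, norm_pow, Complex.norm_real, Real.norm_of_nonneg ht0]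
    by_cases hm : m ≤ k
    · have := hpat κ e he x hx η hη hb m hm hk
      refine le_add_of_nonneg_of_le (by positivity) ?_
      exact (mul_le_of_le_one_right (norm_nonneg _) (pow_le_one₀ ht0 ht1)).trans this
    · refine le_add_of_le_of_nonneg ?_ (by positivity)
      rw [mul_comm]
      exact mul_le_mul_of_nonneg_right (pow_le_pow_of_le_one ht0 ht1 (by omega)) (norm_nonneg _)
  refine (Finset.sum_le_sum h4).trans ?_
  rw [Finset.sum_add_distrib, ← Finset.mul_sum, Finset.sum_const, Finset.card_range, nsmul_eq_mul]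
  have h5 := mul_le_mul_of_nonneg_left h3 (pow_nonneg ht0 (k + 1))
  push_cast
  nlinarith [h5]

end Crest.Agent.R109
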