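import Crest.Agent.R109.Init
import Crest.Agent.R109.LemmaM

/-! Row 109, task A6: the potential under colouring or adding one vertex. -/

set_option autoImplicit false

noncomputable section

namespace Crest.Agent.R109

open Polynomial
open scoped ComplexConjugate

variable {ι : Type*} [DecidableEq ι] {r : ℕ}

section MoveAux

variable {R : Type*} [CommRing R]

theorem move_map_Bq {S : Type*} [CommRing S] (f : R →+* S) (T : Finset ι) (u : ι) (j : Fin r)
    (p : ι → Fin r → R) (X : ι → ι → R) (z : ι → R) :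
    f (Bq T u j p X z) =
      Bq T u j (fun v j => f (p v j)) (fun a b => f (X a b)) (fun v => f (z v)) := by
  unfold Bq
  rw [map_neg, map_Q]
  congr 1
  apply Q_congr
  · intro v _
    funext i
    by_cases hv : v = u
    · subst hv
      simp only [Function.update_self, dl]
      split_ifs <;> simp
    · simp [Function.update_of_ne hv]
  · intro _ _ _ _; rfl
  · intro v _
    by_cases hv : v = u
    · subst hv; simp
    · simp [Function.update_of_ne hv]

theorem move_Bq_congr {T : Finset ι} {u : ι} (j : Fin r) {p p' : ι → Fin r → R}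
    (X : ι → ι → R) {z z' : ι → R} (hp : ∀ v ∈ T, v ≠ u → p v = p' v)
    (hz : ∀ v ∈ T, v ≠ u → z v = z' v) : Bq T u j p X z = Bq T u j p' X z' := by
  unfold Bq
  congr 1
  apply Q_congr
  · intro v hv
    by_cases hvu : v = u
    · subst hvu; simp
    · rw [Function.update_of_ne hvu, Function.update_of_ne hvu]
      exact hp v ((Finset.mem_insert.1 hv).resolve_left hvu) hvu
  · intro _ _ _ _; rfl
  · intro v hv
    by_cases hvu : v = u
    · subst hvu; simp
    · rw [Function.update_of_ne hvu, Function.update_of_ne hvu]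
      exact hz v ((Finset.mem_insert.1 hv).resolve_left hvu) hvu

theorem move_Bq_scale {T : Finset ι} {u : ι} (hu : u ∉ T) (j : Fin r) (p : ι → Fin r → R)
    (X : ι → ι → R) (z : ι → R) (e : R) :
    Bq T u j p (fun a b => (if a = u then e else 1) * X a b * (if b = u then e else 1)) z =
      e * e * Bq T u j p X z := by
  unfold Bq
  have h1 := Q_scale (insert u T) (Function.update p u (dl R j)) X (Function.update z u 0)
    (fun a => if a = u then e else 1) (fun a => if a = u then e else 1)
  have h2 : (fun v => (if v = u then e else 1) * (if v = u then e else 1) *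
      Function.update z u 0 v) = Function.update z u 0 := by
    funext v
    by_cases hv : v = u
    · subst hv; simp
    · simp [hv]
  have h3 : (∏ v ∈ insert u T, (if v = u then e else 1) * (if v = u then e else (1 : R))) =
      e * e := by
    rw [Finset.prod_insert hu, Finset.prod_eq_one]
    · simp
    · intro v hv
      have : v ≠ u := fun h => hu (h ▸ hv)
      simp [this]
  rw [h2, h3] at h1
  rw [h1]; ring

end MoveAux

/-- `Bq` as a polynomial. -/
def moveBp (T : Finset ι) (u : ι) (j : Fin r) (p : ι → Fin r → ℝ) (X : ι → ι → ℂ) (h : ι → ℝ) :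
    ℂ[X] :=
  Bq T u j (fun v j => C (p v j : ℂ)) (fun u v => C (X u v)) (fun v => Polynomial.X - C (h v : ℂ))

theorem move_Qp_insert {T : Finset ι} {u : ι} (hu : u ∉ T) {p : ι → Fin r → ℝ} (hp : IsProb p)
    (X : ι → ι → ℂ) (h : ι → ℝ) :
    Qp (insert u T) p X h = (Polynomial.X - C (h u : ℂ)) * Qp T p X h -
      ∑ j, C (p u j : ℂ) * moveBp T u j p X h := by
  have h1 : ∑ j, C (p u j : ℂ) = (1 : ℂ[X]) := by
    rw [← map_sum, ← Complex.ofReal_sum, hp.2 u]; simp
  unfold Qp moveBp
  rw [Q_insert hu]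
  simp only [mul_sub, Finset.sum_sub_distrib, ← Finset.sum_mul, h1, one_mul]

theorem moveBp_eq_QD {T : Finset ι} {u : ι} (hu : u ∉ T) (j : Fin r) (p : ι → Fin r → ℝ)
    (X : ι → ι → ℂ) (h : ι → ℝ) :
    moveBp T u j p X h = - QD (insert u T) T (Function.update p u (dl ℝ j)) X
      (fun v => if v = u then 0 else -(h v : ℂ)) := by
  unfold moveBp Bq QD
  congr 1
  apply Q_congr
  · intro v _
    funext i
    by_cases hv : v = u
    · subst hv
      simp only [Function.update_self, dl]
      split_ifs <;> simp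
    · simp [Function.update_of_ne hv]
  · intro _ _ _ _; rfl
  · intro v hv
    by_cases hvu : v = u
    · subst hvu; simp [hu]
    · have hvT : v ∈ T := (Finset.mem_insert.1 hv).resolve_left hvu
      simp [hvT, hvu, sub_eq_add_neg]

theorem moveBp_eval (T : Finset ι) (u : ι) (j : Fin r) (p : ι → Fin r → ℝ)
    (X : ι → ι → ℂ) (h : ι → ℝ) (w : ℂ) :
    (moveBp T u j p X h).eval w = Bq T u j (cp p) X (fun v => w - h v) := by
  have := move_map_Bq (evalRingHom w) T u j (fun v j => C (p v j : ℂ)) (fun u v => C (X u v))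
    (fun v => Polynomial.X - C (h v : ℂ))
  simp only [coe_evalRingHom, eval_C, eval_sub, eval_X] at this
  exact this

theorem move_struct {T : Finset ι} {u : ι} (hu : u ∉ T) {p : ι → Fin r → ℝ} (hp : IsProb p)
    {X : ι → ι → ℂ} (hX : Herm (insert u T) X) (hd : X u u = 0) (h : ι → ℝ) :
    ∃ (α : Fin T.card → ℝ) (c : Fin r → Fin T.card → ℝ), (∀ j l, 0 ≤ c j l) ∧
      Qp T p X h = ∏ l, (Polynomial.X - C (α l : ℂ)) ∧
      ∀ j, moveBp T u j p X h = ∑ l, C (c j l : ℂ) *
        ∏ l' ∈ Finset.univ.erase l, (Polynomial.X - C (α l' : ℂ)) := by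
  obtain ⟨α, hα⟩ := Qp_realRooted hp (hX.mono (Finset.subset_insert u T)) h
  have key : ∀ j, ∃ c : Fin T.card → ℝ, (∀ l, 0 ≤ c l) ∧ moveBp T u j p X h =
      ∑ l, C (c l : ℂ) * ∏ l' ∈ Finset.univ.erase l, (Polynomial.X - C (α l' : ℂ)) := by
    intro j
    have hdeg : (moveBp T u j p X h).natDegree ≤ Fintype.card (Fin T.card) := by
      rw [moveBp_eq_QD hu, natDegree_neg, Fintype.card_fin]
      exact natDegree_QD_le (Finset.subset_insert u T) _ _ _
    have hco : (moveBp T u j p X h).coeff (Fintype.card (Fin T.card)) = 0 := by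
      rw [moveBp_eq_QD hu, coeff_neg, Fintype.card_fin,
        coeff_QD_card (Finset.subset_insert u T) (hp.update u j), Finset.insert_sdiff_cancel hu,
        Q_singleton]
      · simp [hd]
      · have := (hp.update u j).2 u
        unfold cp
        rw [← Complex.ofReal_sum, this]; simp
    have hIm : ∀ w : ℂ, 0 < w.im →
        ((moveBp T u j p X h).eval w / ∏ l, (w - (α l : ℂ))).im ≤ 0 := by
      intro w hw
      have h1 := Bq_div_im_nonpos (Finset.Subset.refl T) hu hp hX (fun v => -h v)
        (by rw [Finset.sdiff_self, Q_empty]; exact one_ne_zero) j w hw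
      have h2 : (∏ l, (w - (α l : ℂ))) = Q T (cp p) X
          (fun v => if v ∈ T then w + ((-h v : ℝ) : ℂ) else ((-h v : ℝ) : ℂ)) := by
        have h3 := eval_Qp T p X h w
        rw [hα] at h3
        simp only [eval_prod, eval_sub, eval_X, eval_C] at h3
        rw [h3]
        apply Q_congr (fun _ _ => rfl) (fun _ _ _ _ => rfl)
        intro v hv
        simp [hv, sub_eq_add_neg]
      have h4 : (moveBp T u j p X h).eval w = Bq T u j (cp p) X
          (fun v => if v ∈ T then w + ((-h v : ℝ) : ℂ) else ((-h v : ℝ) : ℂ)) := by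
        rw [moveBp_eval]
        apply move_Bq_congr j X (fun _ _ _ => rfl)
        intro v hv _
        simp [hv, sub_eq_add_neg]
      rw [h2, h4]
      exact h1
    obtain ⟨c, hc, hf⟩ := herglotz (moveBp T u j p X h) α hdeg hIm
    refine ⟨c, hc, ?_⟩
    rw [hf, hco]
    simp
  choose c hc hf using key
  exact ⟨α, c, hc, hα, hf⟩

theorem move_psi_prod {κ : Type*} [Fintype κ] (α : κ → ℝ) :
    ((∏ l, (Polynomial.X - C (α l : ℂ))).roots.map Complex.exp).sum =
      ((∑ l, Real.exp (α l) : ℝ) : ℂ) := by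
  have h1 : (∏ l, (Polynomial.X - C (α l : ℂ))) =
      ((Finset.univ.val.map (fun l => (α l : ℂ))).map (fun a => Polynomial.X - C a)).prod := by
    rw [Multiset.map_map]; rfl
  rw [h1, roots_multiset_prod_X_sub_C, Multiset.map_map]
  push_cast
  rfl

theorem move_avg {κ : Type*} [Fintype κ] (q : Fin r → ℝ) (c : Fin r → κ → ℝ) (P : κ → ℂ[X]) :
    ∑ j, C (q j : ℂ) * ∑ l, C (c j l : ℂ) * P l = ∑ l, C ((∑ j, q j * c j l : ℝ) : ℂ) * P l := by
  simp only [Finset.mul_sum]
  rw [Finset.sum_comm]
  refine Finset.sum_congr rfl fun l _ => ?_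
  push_cast
  rw [map_sum, Finset.sum_mul]
  refine Finset.sum_congr rfl fun j _ => ?_
  rw [map_mul, mul_assoc]

theorem move_Qp_scale {T : Finset ι} {u : ι} (hu : u ∉ T) {p : ι → Fin r → ℝ} (hp : IsProb p)
    (X : ι → ι → ℂ) (h : ι → ℝ) (j : Fin r) :
    Qp (insert u T) (Function.update p u (dl ℝ j)) (scale1 u X) h =
      (Polynomial.X - C (h u : ℂ)) * Qp T p X h - C (1 / 256 : ℂ) * moveBp T u j p X h := by
  rw [move_Qp_insert hu (hp.update u j)]
  have h1 : Qp T (Function.update p u (dl ℝ j)) (scale1 u X) h = Qp T p X h := by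
    unfold Qp
    apply Q_congr
    · intro v hv
      have : v ≠ u := fun h => hu (h ▸ hv)
      simp [Function.update_of_ne this]
    · intro a ha b hb
      have ha' : a ≠ u := fun h => hu (h ▸ ha)
      have hb' : b ≠ u := fun h => hu (h ▸ hb)
      simp [scale1, ha', hb']
    · intro _ _; rfl
  have h2 : ∀ i, moveBp T u i (Function.update p u (dl ℝ j)) (scale1 u X) h =
      C (1 / 256 : ℂ) * moveBp T u i p X h := by
    intro i
    unfold moveBp
    have h3 : (fun a b => C (scale1 u X a b)) = fun a b =>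
        (if a = u then C (1 / 16 : ℂ) else 1) * C (X a b) *
          (if b = u then C (1 / 16 : ℂ) else 1) := by
      funext a b
      unfold scale1
      split_ifs <;> simp
    rw [h3, move_Bq_scale hu, ← map_mul]
    congr 1
    · norm_num
    · apply move_Bq_congr
      · intro v _ hv
        simp [Function.update_of_ne hv]
      · intro _ _ _; rfl
  rw [h1]
  congr 1
  rw [Finset.sum_eq_single j]
  · simp [h2, dl]
  · intro i _ hi
    simp [dl, hi]
  · simp

theorem psi_move (hr : 0 < r) {T : Finset ι} {u : ι} (hu : u ∉ T) {p : ι → Fin r → ℝ}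
    (hp : IsProb p) (hpu : p u = unif r) {X : ι → ι → ℂ} (hX : Herm (insert u T) X)
    (hd : X u u = 0) (h : ι → ℝ) (t : ℝ) (ht : 1000 ≤ t) :
    ∃ B : Finset (Fin r), 4 * B.card ≤ r ∧ ∀ J : Finset (Fin r), Disjoint J B → r ≤ 2 * J.card →
      ∑ j ∈ J, (Psi (insert u T) (Function.update p u (dl ℝ j)) (scale1 u X) h).re ≤
        J.card * ((Psi (insert u T) p X h).re + Real.exp (h u + t)) := by
  obtain ⟨α, c, hc, hα, hf⟩ := move_struct hu hp hX hd h
  obtain ⟨B, hB, hJ⟩ := lemmaM hr α c hc (h u) t ht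
  refine ⟨B, hB, fun J hJB hJr => ?_⟩
  have h1 : ∀ j, (Psi (insert u T) (Function.update p u (dl ℝ j)) (scale1 u X) h).re =
      ∑ l, Real.exp (α l) + Iexp (h u) α (fun k => c j k / 256) := by
    intro j
    unfold Psi
    rw [rootsum_exp (h u) α (fun k => c j k / 256) (fun k => by have := hc j k; positivity) _ ?_,
      Complex.ofReal_re]
    rw [move_Qp_scale hu hp, hα, hf, Finset.mul_sum]
    congr 1
    refine Finset.sum_congr rfl fun l _ => ?_
    rw [← mul_assoc, ← map_mul]
    congr 2
    push_cast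
    ring
  have h2 : (Psi (insert u T) p X h).re =
      ∑ l, Real.exp (α l) + Iexp (h u) α (fun k => (∑ j, c j k) / r) := by
    unfold Psi
    rw [rootsum_exp (h u) α (fun k => (∑ j, c j k) / r)
      (fun k => div_nonneg (Finset.sum_nonneg fun j _ => hc j k) (Nat.cast_nonneg r)) _ ?_,
      Complex.ofReal_re]
    rw [move_Qp_insert hu hp, hα]
    simp only [hf]
    rw [move_avg]
    congr 1
    refine Finset.sum_congr rfl fun l _ => ?_
    congr 3
    rw [hpu, Finset.sum_div]
    refine Finset.sum_congr rfl fun j _ => ?_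
    unfold unif
    ring
  have h3 := hJ J hJB hJr
  simp only [h1, h2, Finset.sum_add_distrib, Finset.sum_const, nsmul_eq_mul]
  linarith

theorem psi_add_unif (hr : 0 < r) {T : Finset ι} {u : ι} (hu : u ∉ T) {X : ι → ι → ℂ}
    (hX : Herm (insert u T) X) (hdiag : ∀ v ∈ insert u T, X v v = 0) {R : ℝ} (hR : 0 ≤ R)
    (hB : Bdd (insert u T) X R) (h : ι → ℝ) (G : ℝ) (hG : ∀ v ∈ insert u T, h v ≤ G) :
    (Psi (insert u T) (fun _ => unif r) X h).re ≤
      (Psi T (fun _ => unif r) X h).re + Real.exp (G + 3 * R / Real.sqrt r) := by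
  have hp : IsProb (fun _ : ι => unif r) := isProb_unif hr
  obtain ⟨α, c, hc, hα, hf⟩ := move_struct hu hp hX (hdiag u (Finset.mem_insert_self u T)) h
  set cb : Fin T.card → ℝ := fun l => ∑ j, unif r j * c j l with hcb
  have hcb0 : ∀ l, 0 ≤ cb l := fun l => Finset.sum_nonneg fun j _ => mul_nonneg (hp.1 u j) (hc j l)
  have hins : Qp (insert u T) (fun _ => unif r) X h =
      (Polynomial.X - C (h u : ℂ)) * ∏ l, (Polynomial.X - C (α l : ℂ)) -
        ∑ l, C (cb l : ℂ) * ∏ l' ∈ Finset.univ.erase l, (Polynomial.X - C (α l' : ℂ)) := by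
    rw [move_Qp_insert hu hp, hα]
    simp only [hf]
    rw [move_avg]
  have h1 : (Psi (insert u T) (fun _ => unif r) X h).re =
      ∑ l, Real.exp (α l) + Iexp (h u) α cb := by
    unfold Psi
    rw [rootsum_exp (h u) α cb hcb0 _ hins, Complex.ofReal_re]
  have h2 : (Psi T (fun _ => unif r) X h).re = ∑ l, Real.exp (α l) := by
    unfold Psi
    rw [hα, move_psi_prod, Complex.ofReal_re]
  have hsub : {y | y - h u < hsum α cb y} ⊆ Set.Iic (G + 3 * R / Real.sqrt r) := by
    intro y hy
    rw [Set.mem_Iic]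
    by_contra hlt
    rw [not_le] at hlt
    have hz : ∀ v ∈ insert u T, 3 * R / Real.sqrt r < y - h v := fun v hv => by
      have := hG v hv
      linarith
    have hA := Q_unif_pos hr hX hdiag hR hB (fun v => y - h v) hz
    have hsubT := Finset.subset_insert u T
    have hA' := Q_unif_pos hr (hX.mono hsubT) (fun v hv => hdiag v (hsubT hv)) hR (hB.mono hsubT)
      (fun v => y - h v) (fun v hv => hz v (hsubT hv))
    have e1 := eval_Qp (insert u T) (fun _ => unif r) X h y
    have e2 := eval_Qp T (fun _ => unif r) X h y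
    rw [hins] at e1
    rw [hα] at e2
    simp only [eval_sub, eval_mul, eval_prod, eval_finsetSum, eval_X, eval_C] at e1 e2
    push_cast at hA hA'
    rw [← e1] at hA
    rw [← e2] at hA'
    have hP : 0 < ∏ l, (y - α l) := by
      have : (∏ l, ((y : ℂ) - (α l : ℂ))) = ((∏ l, (y - α l) : ℝ) : ℂ) := by push_cast; rfl
      rwa [this, Complex.ofReal_re] at hA'
    have hP2 : 0 < (y - h u) * ∏ l, (y - α l) -
        ∑ l, cb l * ∏ l' ∈ Finset.univ.erase l, (y - α l') := by
      have : ((y : ℂ) - (h u : ℂ)) * ∏ l, ((y : ℂ) - (α l : ℂ)) -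
          ∑ l, (cb l : ℂ) * ∏ l' ∈ Finset.univ.erase l, ((y : ℂ) - (α l' : ℂ)) =
          (((y - h u) * ∏ l, (y - α l) -
            ∑ l, cb l * ∏ l' ∈ Finset.univ.erase l, (y - α l') : ℝ) : ℂ) := by push_cast; rfl
      rwa [this, Complex.ofReal_re] at hA
    have hne : ∀ l, y - α l ≠ 0 := fun l =>
      (Finset.prod_ne_zero_iff.1 hP.ne') l (Finset.mem_univ l)
    have e3 : ∑ l, cb l * ∏ l' ∈ Finset.univ.erase l, (y - α l') =
        hsum α cb y * ∏ l, (y - α l) := by
      unfold hsum
      rw [Finset.sum_mul]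
      refine Finset.sum_congr rfl fun l _ => ?_
      rw [← Finset.mul_prod_erase Finset.univ (fun l => y - α l) (Finset.mem_univ l)]
      have := hne l
      field_simp
    rw [e3, ← sub_mul] at hP2
    have := (pos_iff_pos_of_mul_pos hP2).2 hP
    have hy' : y - h u < hsum α cb y := hy
    linarith
  have h3 : Iexp (h u) α cb ≤ Real.exp (G + 3 * R / Real.sqrt r) := by
    rw [← integral_exp_Iic]
    unfold Iexp
    exact MeasureTheory.setIntegral_mono_set (integrableOn_exp_Iic _)
      (Filter.Eventually.of_forall fun y => (Real.exp_pos y).le) hsub.eventuallyLE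
  rw [h1, h2]
  linarith

end Crest.Agent.R109
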