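import Crest.Agent.R109.FDefs

/-!
# Row 109: the measured network layer

A `Net` is an abstract model of the orbit graph of finitely many normalising partial isometries
`v g` (`g : G`) of a maximal abelian subalgebra with spectrum `Ω`.  A word `w` stands for the
vector `v w` in the fibre Hilbert space at `χ`; `Γ` is the Gram kernel (of modulus `0` or `1`),
`X` the kernel of an operator, `τ w` the induced map on `Ω`, `h w` the logarithm of the
Radon-Nikodym derivative.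
-/

set_option autoImplicit false

noncomputable section

namespace Crest.Agent.R109

open MeasureTheory
open scoped ComplexConjugate Classical

/-- The formal inverse of a word. -/
def winv {G : Type*} (inv : G → G) (w : List G) : List G := (w.map inv).reverse

/-- Words of length at most `n`. -/
def words (G : Type*) [Finite G] (n : ℕ) : Finset (List G) := (List.finite_length_le G n).toFinset

/-- A fixed injective enumeration of words. -/
def enc (G : Type*) [Finite G] : List G → ℕ := (exists_injective_nat (List G)).choose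

/-- Length-first strict well order on words. -/
def wlt {G : Type*} [Finite G] (w' w : List G) : Prop :=
  w'.length < w.length ∨ (w'.length = w.length ∧ enc G w' < enc G w)

/-- The abstract network. -/
structure Net (Ω : Type*) [TopologicalSpace Ω] [MeasurableSpace Ω] (G : Type*)
    [DecidableEq G] where
  μ : Measure Ω
  inv : G → G
  Γ : List G → List G → Ω → ℂ
  X : List G → List G → Ω → ℂ
  τ : List G → Ω → Ω
  h : List G → Ω → ℝ
  R : ℝ
  κ0 : ℝ
  fin : IsFiniteMeasure μ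
  inv_inv : ∀ g, inv (inv g) = g
  R_nonneg : 0 ≤ R
  κ0_nonneg : 0 ≤ κ0
  Γ_cont : ∀ u v, Continuous (Γ u v)
  X_cont : ∀ u v, Continuous (X u v)
  τ_cont : ∀ w, Continuous (τ w)
  h_cont : ∀ w, Continuous (h w)
  Γ_norm : ∀ u v χ, Γ u v χ = 0 ∨ ‖Γ u v χ‖ = 1
  Γ_conj : ∀ u v χ, Γ v u χ = conj (Γ u v χ)
  X_conj : ∀ u v χ, X v u χ = conj (X u v χ)
  Γ_mul : ∀ u v w χ, Γ u v χ ≠ 0 → Γ w v χ = Γ w u χ * Γ u v χ
  X_mul : ∀ u v w χ, Γ u v χ ≠ 0 → X w v χ = X w u χ * Γ u v χ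
  X_dom : ∀ u w χ, Γ u u χ = 0 → X w u χ = 0
  τ_rel : ∀ u v χ, Γ u v χ ≠ 0 → τ u χ = τ v χ
  h_rel : ∀ u v χ, Γ u v χ ≠ 0 → h u χ = h v χ
  Γ_nil : ∀ χ, Γ [] [] χ = 1
  τ_nil : ∀ χ, τ [] χ = χ
  h_nil : ∀ χ, h [] χ = 0
  Γ_append : ∀ u v w χ, Γ w w χ ≠ 0 → Γ (u ++ w) (v ++ w) χ = Γ u v (τ w χ)
  X_append : ∀ u v w χ, Γ w w χ ≠ 0 → X (u ++ w) (v ++ w) χ = X u v (τ w χ)
  dom_append : ∀ u w χ, Γ (u ++ w) (u ++ w) χ ≠ 0 → Γ w w χ ≠ 0
  τ_append : ∀ u w χ, τ (u ++ w) χ = τ u (τ w χ)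
  h_append : ∀ u w χ, h (u ++ w) χ = h u (τ w χ) + h w χ
  Γ_congr : ∀ u w w' χ, Γ w w' χ ≠ 0 → Γ (u ++ w) (u ++ w) χ ≠ 0 →
    Γ (u ++ w) (u ++ w') χ = Γ w w' χ
  Γ_inv : ∀ w χ, Γ w w χ ≠ 0 → Γ [] (winv inv w ++ w) χ = 1
  h_gen : ∀ g χ, Γ [g] [g] χ ≠ 0 → |h [g] χ| ≤ κ0
  X_range : ∀ u v χ, X u v χ ≠ 0 → ∃ g, Γ u (g :: v) χ ≠ 0
  X_diag : ∀ u χ, X u u χ = 0
  X_bilin : ∀ χ (W : Finset (List G)) (ζ η : List G → ℂ),
    ‖∑ u ∈ W, ∑ v ∈ W, conj (ζ u) * X u v χ * η v‖ ^ 2 ≤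
      R ^ 2 * (form W (fun u v => Γ u v χ) ζ).re * (form W (fun u v => Γ u v χ) η).re
  mtp : ∀ (w : List G) (f : Ω → ℝ), Continuous f →
    ∫ χ, (Γ w w χ).re * (f (τ w χ) * Real.exp (h w χ)) ∂μ =
      ∫ χ, (Γ (winv inv w) (winv inv w) χ).re * f χ ∂μ

/-- The colour law of a state (`none` = not yet coloured). -/
def pst {r : ℕ} : Option (Fin r) → Fin r → ℝ
  | none => unif r
  | some j => dl ℝ j

/-- The scaling factor of a state. -/
def θst {r : ℕ} : Option (Fin r) → ℂ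
  | none => 1
  | some _ => 1 / 16

theorem pst_none {r : ℕ} : pst (none : Option (Fin r)) = unif r := rfl
theorem pst_some {r : ℕ} (j : Fin r) : pst (some j) = dl ℝ j := rfl
theorem θst_none {r : ℕ} : θst (none : Option (Fin r)) = 1 := rfl
theorem θst_some {r : ℕ} (j : Fin r) : θst (some j) = 1 / 16 := rfl

/-- The truncation error of the potential on a ball of radius `L`. -/
def errN (D : ℕ) (κ0 R M S : ℝ) (L : ℕ) : ℝ :=
  ((D : ℝ) + 1) ^ L * Real.exp (κ0 * L + S * (|M| * R)) / (S ^ L * (S - 1))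

/-- The truncation error of the final kernel. -/
def errK (D : ℕ) (κ0 R M S : ℝ) (L : ℕ) : ℝ :=
  Real.exp (S * (|M| / 256 * R)) * (Real.exp (2 * κ0) * (D + 1) / S) ^ L

namespace Net

variable {Ω : Type*} [TopologicalSpace Ω] [MeasurableSpace Ω] {G : Type*} [DecidableEq G]
  (N : Net Ω G)

/-- The word `w` is defined at `χ`. -/
def dom (w : List G) (χ : Ω) : Prop := N.Γ w w χ ≠ 0

/-- The words `u, v` give the same vertex at `χ`. -/
def rel (u v : List G) (χ : Ω) : Prop := N.Γ u v χ ≠ 0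

/-- `T` is a set of distinct vertices at `χ`. -/
def Valid (χ : Ω) (T : Finset (List G)) : Prop :=
  (∀ u ∈ T, N.dom u χ) ∧ ∀ u ∈ T, ∀ v ∈ T, N.rel u v χ → u = v

/-- `u` is at word distance at most `m` from `o`. -/
def near (χ : Ω) (o : List G) (m : ℕ) (u : List G) : Prop :=
  ∃ w : List G, w.length ≤ m ∧ N.rel (w ++ o) u χ

/-- The root at `χ` has no edge. -/
def Iso (χ : Ω) : Prop := ∀ u, N.X u [] χ = 0

/-- Two distinct vertices over `Y` are at distance `> L`, unless the first one is isolated. -/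
def Sep (L : ℕ) (Y : Set Ω) : Prop :=
  ∀ χ ∈ Y, ∀ w : List G, w.length ≤ L → N.dom w χ → N.τ w χ ∈ Y → N.rel w [] χ ∨ N.Iso χ

/-- Covariance under re-rooting. -/
def Cov (e : Ω → Finset (List G) → List G → ℝ) : Prop :=
  ∀ (χ : Ω) (w : List G) (T : Finset (List G)) (π : List G → List G), N.dom w χ →
    N.Valid (N.τ w χ) T → Set.InjOn π T → (∀ u ∈ T, N.rel (u ++ w) (π u) χ) →
    ∀ o ∈ T, e χ (T.image π) (π o) = Real.exp (N.h w χ) * e (N.τ w χ) T o

/-- Locality with range `L`. -/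
def Loc (L : ℕ) (e : Ω → Finset (List G) → List G → ℝ) : Prop :=
  ∀ (χ : Ω) (T : Finset (List G)) (o v : List G), N.Valid χ (insert v T) → v ∉ T → o ∈ T →
    ¬ N.near χ o L v → e χ (insert v T) o = e χ T o

/-- The local potential for an explicit state of the vertices. -/
def Fst {r : ℕ} (M : ℝ) (L : ℕ) (χ : Ω) (st : List G → Option (Fin r)) (T : Finset (List G)) :
    ℝ :=
  Fm L T (fun w => pst (st w)) (fun u v => (M : ℂ) * (θst (st u) * N.X u v χ * θst (st v)))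
    (fun w => N.h w χ)

/-- The local potential of a partial colouring `σ` of `Ω`. -/
def FN {r : ℕ} (M : ℝ) (L : ℕ) (σ : Ω → Option (Fin r)) (χ : Ω) (T : Finset (List G)) : ℝ :=
  N.Fst M L χ (fun w => σ (N.τ w χ)) T

/-- The kernel of the pinched operator, times `M / 256`. -/
def Yc {r : ℕ} (M : ℝ) (c : Ω → Fin r) (χ : Ω) : List G → List G → ℂ :=
  mask (fun w => c (N.τ w χ)) (fun u v => ((M / 256 : ℝ) : ℂ) * N.X u v χ)

variable [Fintype G]

/-- Canonical representatives of the vertices at distance at most `n` from the root. -/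
def B (n : ℕ) (χ : Ω) : Finset (List G) :=
  (words G n).filter fun w => N.dom w χ ∧ ∀ w', wlt w' w → ¬ N.rel w' w χ

/-- The canonical representative of a word. -/
def rep (χ : Ω) (w : List G) : List G :=
  if h : ∃ w' ∈ N.B w.length χ, N.rel w' w χ then h.choose else w

/-- The density of the potential. -/
def Theta {r : ℕ} (M : ℝ) (L : ℕ) (σ : Ω → Option (Fin r)) : ℝ :=
  ∫ χ, ∑ S ∈ (N.B L χ).powerset with [] ∈ S, mob (N.FN M L σ χ) S / S.card ∂N.μ

/-- The local change of the potential when the root gets the colour `j`. -/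
def Dm {r : ℕ} (M : ℝ) (L : ℕ) (σ : Ω → Option (Fin r)) (j : Fin r) (χ : Ω) : ℝ :=
  N.Fst M L χ (Function.update (fun w => σ (N.τ w χ)) [] (some j)) (N.B L χ) -
    N.FN M L σ χ (N.B L χ)

/-- Coefficients of the final majorant. -/
def κw {r : ℕ} (M : ℝ) (L : ℕ) (τ0 : ℝ) (c : Ω → Fin r) (w : List G) (χ : Ω) : ℂ :=
  if w ∈ N.B L χ then kN L τ0 (N.B L χ) (N.Yc M c χ) (fun w => N.h w χ) w [] else 0

/-- The kernel of the final majorant. -/
def Bm {r : ℕ} (M : ℝ) (L : ℕ) (τ0 : ℝ) (c : Ω → Fin r) (χ : Ω) (u v : List G) : ℂ :=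
  ∑ w ∈ words G L, N.κw M L τ0 c w (N.τ v χ) * N.Γ u (w ++ v) χ

end Net

end Crest.Agent.R109
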