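import Crest.Agent.R109.Transport
import Crest.Agent.R109.FmApi
import Crest.Agent.R109.Move

/-! Row 109, task B3: the local potential on a network. -/

set_option autoImplicit false

noncomputable section

namespace Crest.Agent.R109

open MeasureTheory
open scoped ComplexConjugate

theorem isProb_pst {ι : Type*} {r : ℕ} (hr : 0 < r) (st : ι → Option (Fin r)) :
    IsProb (fun w => pst (st w)) := by
  refine ⟨fun v j => ?_, fun v => ?_⟩
  · dsimp only
    cases st v with
    | none => exact (isProb_unif (ι := Unit) hr).1 () j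
    | some i => exact (isProb_dl (ι := Unit) fun _ => i).1 () j
  · dsimp only
    cases st v with
    | none => exact (isProb_unif (ι := Unit) hr).2 ()
    | some i => exact (isProb_dl (ι := Unit) fun _ => i).2 ()

theorem conj_θst {r : ℕ} (s : Option (Fin r)) : conj (θst s) = θst s := by
  cases s <;> simp [θst_none, θst_some, map_ofNat]

theorem norm_θst_le {r : ℕ} (s : Option (Fin r)) : ‖θst s‖ ≤ 1 := by
  cases s <;> norm_num [θst_none, θst_some]

namespace Net

variable {Ω : Type*} [TopologicalSpace Ω] [CompactSpace Ω] [MeasurableSpace Ω] [BorelSpace Ω]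
  {G : Type*} [DecidableEq G] [Fintype G] (N : Net Ω G)

variable {r : ℕ}

theorem Fst_congr (M : ℝ) (L : ℕ) (χ : Ω) {st st' : List G → Option (Fin r)}
    {T : Finset (List G)} (h : ∀ w ∈ T, st w = st' w) : N.Fst M L χ st T = N.Fst M L χ st' T := by
  exact Fm_congr L (fun v hv => by rw [h v hv]) (fun u hu v hv => by rw [h u hu, h v hv])
    fun _ _ => rfl

theorem Fst_empty (M : ℝ) (L : ℕ) (χ : Ω) (st : List G → Option (Fin r)) :
    N.Fst M L χ st ∅ = 0 := by
  exact Fm_empty L _ _ _

theorem herm_Xst (M : ℝ) (χ : Ω) (st : List G → Option (Fin r)) (T : Finset (List G)) :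
    Herm T (fun u v => (M : ℂ) * (θst (st u) * N.X u v χ * θst (st v))) := by
  intro u _ v _
  simp only [map_mul, Complex.conj_ofReal, conj_θst, N.X_conj u v χ]
  ring

theorem bdd_Xst (M : ℝ) {χ : Ω} (st : List G → Option (Fin r)) {T : Finset (List G)}
    (hT : N.Valid χ T) :
    Bdd T (fun u v => (M : ℂ) * (θst (st u) * N.X u v χ * θst (st v))) (|M| * N.R) := by
  intro η
  have h1 := N.bdd_X hT fun v => θst (st v) * η v
  have h2 : ∑ v ∈ T, ‖θst (st v) * η v‖ ^ 2 ≤ ∑ v ∈ T, ‖η v‖ ^ 2 :=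
    Finset.sum_le_sum fun v _ => by
      rw [norm_mul]
      exact pow_le_pow_left₀ (by positivity)
        (mul_le_of_le_one_left (norm_nonneg _) (norm_θst_le _)) 2
  have h3 : ∑ u ∈ T, ‖∑ v ∈ T, (M : ℂ) * (θst (st u) * N.X u v χ * θst (st v)) * η v‖ ^ 2 ≤
      |M| ^ 2 * ∑ u ∈ T, ‖∑ v ∈ T, N.X u v χ * (θst (st v) * η v)‖ ^ 2 := by
    rw [Finset.mul_sum]
    refine Finset.sum_le_sum fun u _ => ?_
    have e : ∑ v ∈ T, (M : ℂ) * (θst (st u) * N.X u v χ * θst (st v)) * η v =
        (M : ℂ) * (θst (st u) * ∑ v ∈ T, N.X u v χ * (θst (st v) * η v)) := by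
      rw [Finset.mul_sum, Finset.mul_sum]
      exact Finset.sum_congr rfl fun v _ => by ring
    rw [e, norm_mul, norm_mul, Complex.norm_real, Real.norm_eq_abs, ← mul_pow]
    exact pow_le_pow_left₀ (by positivity) (mul_le_mul_of_nonneg_left
      (mul_le_of_le_one_left (norm_nonneg _) (norm_θst_le _)) (abs_nonneg M)) 2
  refine h3.trans ?_
  rw [mul_pow, mul_assoc]
  exact mul_le_mul_of_nonneg_left (h1.trans (mul_le_mul_of_nonneg_left h2 (sq_nonneg _)))
    (sq_nonneg _)

theorem h_le_of_mem_B {L : ℕ} {χ : Ω} {v : List G} (hv : v ∈ N.B L χ) : N.h v χ ≤ N.κ0 * L := by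
  have h := N.mem_B.1 hv
  refine (le_abs_self _).trans ((N.abs_h_le h.2.1).trans ?_)
  exact mul_le_mul_of_nonneg_left (by exact_mod_cast h.1) N.κ0_nonneg

theorem abs_Fst_sub_le (hr : 0 < r) (M : ℝ) (L : ℕ) (χ : Ω) (st : List G → Option (Fin r))
    {T : Finset (List G)} (hT : T ⊆ N.B L χ) {S : ℝ} (hS : 1 < S) :
    |N.Fst M L χ st T - (Psi T (fun w => pst (st w))
        (fun u v => (M : ℂ) * (θst (st u) * N.X u v χ * θst (st v))) (fun w => N.h w χ)).re| ≤
      errN (Fintype.card G) N.κ0 N.R M S L := by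
  refine (abs_Fm_sub_le L (isProb_pst hr st) (mul_nonneg (abs_nonneg M) N.R_nonneg)
    (N.bdd_Xst M st ((N.valid_B L χ).mono hT)) (G := N.κ0 * L)
    (fun v hv => N.h_le_of_mem_B (hT hv)) hS).trans ?_
  have h1 : (T.card : ℝ) ≤ ((Fintype.card G : ℝ) + 1) ^ L := by
    exact_mod_cast (Finset.card_le_card hT).trans (N.card_B_le L χ)
  have h2 : 0 < S - 1 := sub_pos.2 hS
  unfold errN
  gcongr

theorem mob_Fst_far (hr : 0 < r) (M : ℝ) (L : ℕ) {χ : Ω} (st : List G → Option (Fin r))
    {S : Finset (List G)} {o v : List G} (ho : o ∈ S) (hv : v ∈ S) (hod : N.dom o χ)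
    (hfar : ¬ N.near χ o L v) : mob (N.Fst M L χ st) S = 0 := by
  have hov : o ≠ v := by
    rintro rfl
    exact hfar (N.near_mono (N.near_refl hod) (Nat.zero_le L))
  refine mob_eq_zero_of_mixed ho hv hov fun S' hS' => ?_
  have h1 : v ∉ S' := fun h => Finset.notMem_erase _ _ (hS' h)
  have h2 : o ∉ S' := fun h => Finset.notMem_erase _ _ (Finset.mem_of_mem_erase (hS' h))
  exact Fm_mixed L h2 h1 hov (isProb_pst hr st) _ _
    (N.layered_near χ o _ fun a b hab h0 => hab (by simp [h0])) (N.near_refl hod) hfar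

theorem mob_Fst_iso (hr : 0 < r) (M : ℝ) (L : ℕ) {χ : Ω} (st : List G → Option (Fin r))
    {S : Finset (List G)} {o v : List G} (ho : o ∈ S) (hv : v ∈ S) (hov : o ≠ v)
    (hod : N.dom o χ) (hiso : N.Iso (N.τ o χ)) : mob (N.Fst M L χ st) S = 0 := by
  refine mob_eq_zero_of_mixed ho hv hov fun S' hS' => ?_
  have h1 : v ∉ S' := fun h => Finset.notMem_erase _ _ (hS' h)
  have h2 : o ∉ S' := fun h => Finset.notMem_erase _ _ (Finset.mem_of_mem_erase (hS' h))
  refine Fm_mixed L h2 h1 hov (isProb_pst hr st) _ _ (N := fun _ a => a = o)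
    ⟨fun _ _ h => h, ?_⟩ rfl hov.symm
  rintro m a - b - rfl hab
  have h3 := N.X_eq_zero_of_iso hod hiso b
  simp [h3.1, h3.2] at hab

theorem FN_image (hr : 0 < r) (M : ℝ) (L : ℕ) (σ : Ω → Option (Fin r)) {χ : Ω} {w : List G}
    {T : Finset (List G)} {π : List G → List G} (hw : N.dom w χ) (hT : N.Valid (N.τ w χ) T)
    (hπ : Set.InjOn π T) (hrel : ∀ u ∈ T, N.rel (u ++ w) (π u) χ) :
    N.FN M L σ χ (T.image π) = Real.exp (N.h w χ) * N.FN M L σ (N.τ w χ) T := by
  have hτ : ∀ u ∈ T, N.τ (π u) χ = N.τ u (N.τ w χ) := fun u hu => by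
    rw [← N.τ_rel _ _ χ (hrel u hu), N.τ_append]
  refine Fm_image L hπ (isProb_pst hr _) (fun u => N.Γ (u ++ w) (π u) χ) (N.h w χ)
    (fun u hu => N.norm_Γ (hrel u hu)) (fun u hu => by simp only [hτ u hu])
    (fun u hu v hv => ?_) fun u hu => ?_
  · simp only [hτ u hu, hτ v hv]
    rw [N.X_rel (hrel u hu) (hrel v hv), N.X_append _ _ _ _ hw]
    ring
  · rw [← N.h_rel _ _ χ (hrel u hu), N.h_append]

theorem mob_FN_image (hr : 0 < r) (M : ℝ) (L : ℕ) (σ : Ω → Option (Fin r)) {χ : Ω} {w : List G}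
    {T : Finset (List G)} {π : List G → List G} (hw : N.dom w χ) (hT : N.Valid (N.τ w χ) T)
    (hπ : Set.InjOn π T) (hrel : ∀ u ∈ T, N.rel (u ++ w) (π u) χ) :
    mob (N.FN M L σ χ) (T.image π) = Real.exp (N.h w χ) * mob (N.FN M L σ (N.τ w χ)) T := by
  rw [mob_image hπ, ← mob_const_mul]
  exact mob_congr fun S hS => N.FN_image hr M L σ hw (hT.mono hS) (hπ.mono hS)
    fun u hu => hrel u (hS hu)

theorem continuous_Fst (hr : 0 < r) (M : ℝ) (L : ℕ) {st : Ω → List G → Option (Fin r)}
    (hst : ∀ w, IsLocallyConstant fun χ => st χ w) (T : Finset (List G)) :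
    Continuous fun χ => N.Fst M L χ (st χ) T := by
  have hθ : ∀ w, Continuous fun χ => θst (st χ w) := fun w => ((hst w).comp θst).continuous
  exact continuous_Fm L T (fun χ => isProb_pst hr (st χ))
    (fun v j => ((hst v).comp fun s => pst s j).continuous)
    (fun u v => continuous_const.mul (((hθ u).mul (N.X_cont u v)).mul (hθ v))) N.h_cont

theorem continuous_FN (hr : 0 < r) (M : ℝ) (L : ℕ) {σ : Ω → Option (Fin r)}
    (hσ : IsLocallyConstant σ) (T : Finset (List G)) :
    Continuous fun χ => N.FN M L σ χ T := by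
  exact N.continuous_Fst hr M L (st := fun χ w => σ (N.τ w χ))
    (fun w => hσ.comp_continuous (N.τ_cont w)) T

theorem continuous_Dm (hr : 0 < r) (M : ℝ) (L : ℕ) {σ : Ω → Option (Fin r)}
    (hσ : IsLocallyConstant σ) (j : Fin r) : Continuous (N.Dm M L σ j) := by
  refine continuous_of_isLocallyConstant (N.isLocallyConstant_B L) (F := fun T χ =>
    N.Fst M L χ (Function.update (fun w => σ (N.τ w χ)) [] (some j)) T - N.FN M L σ χ T)
    fun T => Continuous.sub ?_ (N.continuous_FN hr M L hσ T)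
  refine N.continuous_Fst hr M L
    (st := fun χ => Function.update (fun w => σ (N.τ w χ)) [] (some j)) (fun w => ?_) T
  by_cases hw : w = []
  · subst hw
    simp only [Function.update_self]
    exact IsLocallyConstant.const _
  · simp only [Function.update_of_ne hw]
    exact hσ.comp_continuous (N.τ_cont w)

/-- The allocation of the potential with weights `α`. -/
def alloc (M : ℝ) (L : ℕ) (σ : Ω → Option (Fin r)) (α : Ω → Finset (List G) → List G → ℝ) (χ : Ω)
    (T : Finset (List G)) (o : List G) : ℝ :=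
  ∑ S ∈ T.powerset with o ∈ S, mob (N.FN M L σ χ) S * α χ S o

/-- Invariant continuous probability weights. -/
structure Weights (α : Ω → Finset (List G) → List G → ℝ) : Prop where
  inv : ∀ (χ : Ω) (w : List G) (S : Finset (List G)) (π : List G → List G), N.dom w χ →
    Set.InjOn π S → (∀ u ∈ S, N.rel (u ++ w) (π u) χ) → ∀ o ∈ S,
      α χ (S.image π) (π o) = α (N.τ w χ) S o
  sum : ∀ χ S, S.Nonempty → ∑ o ∈ S, α χ S o = 1
  cont : ∀ S, ∀ o ∈ S, Continuous fun χ => α χ S o

theorem anchorFN : True := by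
  have := @alloc.eq_1.{0, 0}
  trivial

theorem weights_exp (β : ℝ) :
    N.Weights fun χ S o => Real.exp (β * N.h o χ) / ∑ v ∈ S, Real.exp (β * N.h v χ) := by
  refine ⟨fun χ w S π _ hπ hrel o ho => ?_, fun χ S hS => ?_, fun S o ho => ?_⟩
  · have e : ∀ u ∈ S, Real.exp (β * N.h (π u) χ) =
        Real.exp (β * N.h w χ) * Real.exp (β * N.h u (N.τ w χ)) := fun u hu => by
      rw [← N.h_rel _ _ χ (hrel u hu), N.h_append, ← Real.exp_add]
      congr 1; ring
    rw [Finset.sum_image hπ, Finset.sum_congr rfl e, e o ho, ← Finset.mul_sum,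
      mul_div_mul_left _ _ (Real.exp_pos _).ne']
  · rw [← Finset.sum_div, div_self (Finset.sum_pos (fun _ _ => Real.exp_pos _) hS).ne']
  · have hh := N.h_cont
    exact Continuous.div (by fun_prop) (by fun_prop)
      fun χ => (Finset.sum_pos (fun _ _ => Real.exp_pos _) ⟨o, ho⟩).ne'

theorem cov_alloc (hr : 0 < r) (M : ℝ) (L : ℕ) (σ : Ω → Option (Fin r))
    {α : Ω → Finset (List G) → List G → ℝ} (hα : N.Weights α) : N.Cov (N.alloc M L σ α) := by
  intro χ w T π hw hT hπ hrel o ho
  simp only [alloc, Finset.sum_filter]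
  rw [sum_powerset_image hπ, Finset.mul_sum]
  refine Finset.sum_congr rfl fun S hS => ?_
  have hS' := Finset.mem_powerset.1 hS
  by_cases h : o ∈ S
  · rw [if_pos (Finset.mem_image_of_mem π h), if_pos h,
      N.mob_FN_image hr M L σ hw (hT.mono hS') (hπ.mono hS') fun u hu => hrel u (hS' hu),
      hα.inv χ w S π hw (hπ.mono hS') (fun u hu => hrel u (hS' hu)) o h, mul_assoc]
  · rw [if_neg h, mul_zero, if_neg]
    intro h1
    obtain ⟨u, hu, e⟩ := Finset.mem_image.1 h1
    exact h (hπ (hS' hu) ho e ▸ hu)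

theorem loc_alloc (hr : 0 < r) (M : ℝ) (L : ℕ) (σ : Ω → Option (Fin r))
    (α : Ω → Finset (List G) → List G → ℝ) : N.Loc L (N.alloc M L σ α) := by
  intro χ T o v hT hv ho hfar
  simp only [alloc, Finset.sum_filter]
  rw [Finset.sum_powerset_insert hv, add_eq_left]
  refine Finset.sum_eq_zero fun S _ => ?_
  split_ifs with h
  · exact mul_eq_zero_of_left (N.mob_Fst_far hr M L _ h (Finset.mem_insert_self v S)
      (hT.1 o (Finset.mem_insert_of_mem ho)) hfar) _
  · rfl

theorem continuous_alloc (hr : 0 < r) (M : ℝ) (L : ℕ) {σ : Ω → Option (Fin r)}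
    (hσ : IsLocallyConstant σ) {α : Ω → Finset (List G) → List G → ℝ} (hα : N.Weights α)
    (T : Finset (List G)) (o : List G) : Continuous fun χ => N.alloc M L σ α χ T o :=
  continuous_finsetSum _ fun S hS => (continuous_mob (N.continuous_FN hr M L hσ) S).mul
    (hα.cont S o (Finset.mem_filter.1 hS).2)

theorem sum_alloc (M : ℝ) (L : ℕ) (σ : Ω → Option (Fin r))
    {α : Ω → Finset (List G) → List G → ℝ} (hα : N.Weights α) (χ : Ω) (T : Finset (List G)) :
    ∑ o ∈ T, N.alloc M L σ α χ T o = N.FN M L σ χ T := by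
  simp only [alloc, Finset.sum_filter]
  rw [Finset.sum_comm, ← sum_mob (N.FN M L σ χ) T]
  refine Finset.sum_congr rfl fun S hS => ?_
  rw [Finset.sum_ite_mem, Finset.inter_eq_right.2 (Finset.mem_powerset.1 hS), ← Finset.mul_sum]
  rcases S.eq_empty_or_nonempty with rfl | h
  · rw [mob_empty, FN, N.Fst_empty, zero_mul]
  · rw [hα.sum χ S h, mul_one]

/-- Any covariant local allocation of the potential has density `Theta`. -/
theorem integral_eq_Theta (hr : 0 < r) (M : ℝ) (L : ℕ) {σ : Ω → Option (Fin r)}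
    (hσ : IsLocallyConstant σ) (e : Ω → Finset (List G) → List G → ℝ) (hcov : N.Cov e)
    (hloc : N.Loc L e) (hc : ∀ T o, Continuous fun χ => e χ T o)
    (hsum : ∀ χ T, N.Valid χ T → ∑ o ∈ T, e χ T o = N.FN M L σ χ T) :
    ∫ χ, e χ (N.B L χ) [] ∂N.μ = N.Theta M L σ := by
  have hU : N.Weights fun _ S _ => (S.card : ℝ)⁻¹ :=
    ⟨fun χ w S π _ hπ _ o _ => by rw [Finset.card_image_of_injOn hπ], fun χ S hS => by
      have : (S.card : ℝ) ≠ 0 := by exact_mod_cast hS.card_pos.ne'
      simp [this], fun S o _ => continuous_const⟩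
  have hcU := N.continuous_alloc hr M L hσ hU
  have h := N.transport L (fun χ T o => e χ T o - N.alloc M L σ (fun _ S _ => (S.card : ℝ)⁻¹) χ T o)
    (fun χ w T π hw hT hπ hrel o ho => by
      simp only [hcov χ w T π hw hT hπ hrel o ho, N.cov_alloc hr M L σ hU χ w T π hw hT hπ hrel o ho]
      ring)
    (fun χ T o v hT hv ho hfar => by
      simp only [hloc χ T o v hT hv ho hfar, N.loc_alloc hr M L σ _ χ T o v hT hv ho hfar])
    (fun T o => (hc T o).sub (hcU T o))
    (fun χ T hT => by rw [Finset.sum_sub_distrib, hsum χ T hT, N.sum_alloc M L σ hU, sub_self])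
  have := N.fin
  rw [integral_sub (integrable_of_continuous _ (continuous_of_isLocallyConstant
      (N.isLocallyConstant_B L) (F := fun T χ => e χ T []) fun T => hc T []))
    (integrable_of_continuous _ (continuous_of_isLocallyConstant (N.isLocallyConstant_B L)
      (F := fun T χ => N.alloc M L σ (fun _ S _ => (S.card : ℝ)⁻¹) χ T []) fun T => hcU T [])),
    sub_eq_zero] at h
  rw [h]
  simp only [Theta, alloc, div_eq_mul_inv]

/-- The initial bound. -/
theorem Theta_init_le (hr : 0 < r) (M : ℝ) (L : ℕ) {S : ℝ} (hS : 1 < S) :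
    N.Theta M L (fun _ => (none : Option (Fin r))) ≤
      (Real.exp (1 + 3 * (|M| * N.R) / Real.sqrt r) + 2 * errN (Fintype.card G) N.κ0 N.R M S L) *
        N.μ.real Set.univ := by
  have := N.fin
  set c := 3 * (|M| * N.R) / Real.sqrt r with hc
  set E := errN (Fintype.card G) N.κ0 N.R M S L with hE
  set C := Real.exp (N.κ0 * L + c) * ((Fintype.card G : ℝ) + 1) ^ L with hC
  have hμ : 0 ≤ N.μ.real Set.univ := measureReal_nonneg
  have key : ∀ β : ℝ, 0 ≤ β → N.Theta M L (fun _ => (none : Option (Fin r))) ≤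
      (Real.exp (1 + c) + 2 * E + C * Real.exp (-β)) * N.μ.real Set.univ := by
    intro β hβ
    have hW := N.weights_exp β
    have hσ : IsLocallyConstant fun _ : Ω => (none : Option (Fin r)) := IsLocallyConstant.const _
    have hcW := N.continuous_alloc hr M L hσ hW
    rw [← N.integral_eq_Theta hr M L hσ _ (N.cov_alloc hr M L _ hW) (N.loc_alloc hr M L _ _) hcW
      fun χ T _ => N.sum_alloc M L _ hW χ T]
    refine (integral_mono (integrable_of_continuous _ (continuous_of_isLocallyConstant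
      (N.isLocallyConstant_B L) (F := fun T χ => N.alloc M L (fun _ => (none : Option (Fin r)))
        (fun χ S o => Real.exp (β * N.h o χ) / ∑ v ∈ S, Real.exp (β * N.h v χ)) χ T [])
      fun T => hcW T [])) (integrable_const (Real.exp (1 + c) + 2 * E + C * Real.exp (-β)))
      fun χ => ?_).trans (le_of_eq (by rw [integral_const, smul_eq_mul, mul_comm]))
    have step : ∀ (g : ℝ) (U : Finset (List G)), U ⊆ (N.B L χ).erase [] →
        (∀ v ∈ insert [] U, N.h v χ ≤ g) →
        N.FN M L (fun _ => (none : Option (Fin r))) χ (insert [] U) -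
          N.FN M L (fun _ => (none : Option (Fin r))) χ U ≤ Real.exp (g + c) + 2 * E := by
      intro g U hU hg
      have hU1 : U ⊆ N.B L χ := hU.trans (Finset.erase_subset _ _)
      have hU2 : insert [] U ⊆ N.B L χ := Finset.insert_subset (N.nil_mem_B L χ) hU1
      have h1 := abs_le.1 (N.abs_Fst_sub_le hr M L χ (fun _ => none) hU1 hS)
      have h2 := abs_le.1 (N.abs_Fst_sub_le hr M L χ (fun _ => none) hU2 hS)
      have h3 := psi_add_unif hr (fun h => Finset.notMem_erase _ _ (hU h))
        (N.herm_Xst M χ (fun _ => (none : Option (Fin r))) (insert [] U))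
        (fun v _ => by simp [N.X_diag]) (mul_nonneg (abs_nonneg M) N.R_nonneg)
        (N.bdd_Xst M (fun _ => (none : Option (Fin r))) ((N.valid_B L χ).mono hU2))
        (fun w => N.h w χ) g hg
      simp only [pst_none] at h1 h2
      unfold FN
      linarith [h1.1, h2.2]
    classical
    refine (pl_bound (N.FN M L (fun _ => (none : Option (Fin r))) χ) (N.nil_mem_B L χ)
      (fun v => Real.exp (β * N.h v χ)) (fun v _ => Real.exp_pos _)
      ((N.B L χ).filter fun v => N.h v χ ≤ 1) (α := Real.exp (1 + c) + 2 * E)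
      (β := Real.exp (N.κ0 * L + c)) (Real.exp_pos _).le (fun U hU hΛ => step 1 U hU ?_)
      fun U hU => (step (N.κ0 * L) U hU ?_).trans ?_).trans ?_
    · intro v hv
      rcases Finset.mem_insert.1 hv with rfl | hv
      · rw [N.h_nil]; exact zero_le_one
      · exact (Finset.mem_filter.1 (hΛ hv)).2
    · intro v hv
      rcases Finset.mem_insert.1 hv with rfl | hv
      · exact N.h_le_of_mem_B (N.nil_mem_B L χ)
      · exact N.h_le_of_mem_B (Finset.mem_of_mem_erase (hU hv))
    · linarith [Real.exp_pos (1 + c)]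
    · rw [hC, mul_assoc]
      refine add_le_add le_rfl (mul_le_mul_of_nonneg_left ?_ (Real.exp_pos _).le)
      refine (Finset.sum_le_card_nsmul _ _ (Real.exp (-β)) fun v hv => ?_).trans ?_
      · have hv1 := Finset.mem_sdiff.1 hv
        have hv2 : 1 < N.h v χ := by
          by_contra h
          exact hv1.2 (Finset.mem_filter.2 ⟨Finset.mem_of_mem_erase hv1.1, not_lt.1 h⟩)
        have h1 : Real.exp β ≤ Real.exp (β * N.h v χ) := Real.exp_le_exp.2 (by nlinarith)
        rw [N.h_nil, mul_zero, Real.exp_zero, Real.exp_neg, ← one_div]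
        exact one_div_le_one_div_of_le (Real.exp_pos _) (by linarith)
      · rw [nsmul_eq_mul]
        refine mul_le_mul_of_nonneg_right ?_ (Real.exp_pos _).le
        exact_mod_cast (Finset.card_le_card (Finset.sdiff_subset.trans
          (Finset.erase_subset _ _))).trans (N.card_B_le L χ)
  have hlim : Filter.Tendsto (fun β : ℝ =>
      (Real.exp (1 + c) + 2 * E + C * Real.exp (-β)) * N.μ.real Set.univ) Filter.atTop
      (nhds ((Real.exp (1 + c) + 2 * E + C * 0) * N.μ.real Set.univ)) :=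
    ((Real.tendsto_exp_neg_atTop_nhds_zero.const_mul C).const_add _).mul_const _
  rw [mul_zero, add_zero] at hlim
  exact ge_of_tendsto hlim (Filter.eventually_atTop.2 ⟨0, key⟩)

end Net

end Crest.Agent.R109
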