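import Crest.Agent.R109.NormG

/-! Row 109, task D1c: Radon-Nikodym derivatives in `A`. -/

set_option autoImplicit false
set_option linter.unusedSectionVars false

noncomputable section

namespace Crest.Agent.R109

open Filter Topology
open scoped ComplexOrder ComplexConjugate Classical

universe u

variable {𝓜 : Type u} [CStarAlgebra 𝓜] [PartialOrder 𝓜] [StarOrderedRing 𝓜]

namespace RNAux

theorem real_smul_mem (W : WS 𝓜) (c : ℝ) {a : 𝓜} (ha : a ∈ W.A) : c • a ∈ W.A := by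
  rw [← Complex.coe_smul]
  exact W.A.smul_mem ha _

theorem mul_le_mul_A (W : WS 𝓜) {x y z : 𝓜} (hx : x ∈ W.A) (hy : y ∈ W.A) (hz : z ∈ W.A)
    (hxy : x ≤ y) (hz0 : 0 ≤ z) : x * z ≤ y * z := by
  rw [← sub_nonneg, ← sub_mul]
  exact W.mul_nonneg_A (sub_mem hy hx) hz (sub_nonneg.2 hxy) hz0

/-- the functional that is minimised -/
def F (φ₁ φ₂ : 𝓜 →ₚ[ℂ] ℂ) (d : 𝓜) : ℝ := (φ₂ (d * d)).re - 2 * (φ₁ d).re

theorem exists_clamp (W : WS 𝓜) {φ₁ φ₂ : 𝓜 →ₚ[ℂ] ℂ} {K : ℝ} (hK : 0 ≤ K)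
    (hle : ∀ a ∈ W.A, 0 ≤ a → (φ₁ a).re ≤ K * (φ₂ a).re) {d : 𝓜} (hd : d ∈ W.A)
    (hsa : IsSelfAdjoint d) :
    ∃ d' ∈ W.A, 0 ≤ d' ∧ d' ≤ K • (1 : 𝓜) ∧ F φ₁ φ₂ d' ≤ F φ₁ φ₂ d := by
  refine ⟨cfc (fun t : ℝ => max 0 (min t K)) d, W.cfc_mem_A hd _,
    cfc_nonneg fun t _ => le_max_left _ _, ?_, ?_⟩
  · rw [← Algebra.algebraMap_eq_smul_one]
    exact cfc_le_algebraMap _ _ _ fun t _ => max_le hK (min_le_right _ _)
  have h0 := hle _ (W.cfc_mem_A hd fun t : ℝ => max (t - K) 0)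
    (cfc_nonneg fun t _ => le_max_right _ _)
  have h1 : cfc (fun t : ℝ => t) d ≤ cfc (fun t : ℝ => max 0 (min t K) + max (t - K) 0) d := by
    refine cfc_mono fun t _ => ?_
    rcases le_total t K with h | h
    · rw [min_eq_left h]
      exact (le_max_right _ _).trans (le_add_of_nonneg_right (le_max_right _ _))
    · rw [min_eq_right h]
      linarith [le_max_right 0 K, le_max_left (t - K) 0]
  have h2 : cfc (fun t : ℝ => max 0 (min t K) * max 0 (min t K) + 2 * K * max (t - K) 0) d ≤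
      cfc (fun t : ℝ => t * t) d := by
    refine cfc_mono fun t _ => ?_
    rcases le_total t K with h | h
    · rw [min_eq_left h, max_eq_right (sub_nonpos.2 h), mul_zero, add_zero]
      rcases le_total 0 t with h' | h'
      · rw [max_eq_right h']
      · rw [max_eq_left h', mul_zero]
        exact mul_self_nonneg t
    · rw [min_eq_right h, max_eq_right hK, max_eq_left (sub_nonneg.2 h)]
      nlinarith [sq_nonneg (t - K)]
  rw [cfc_id' ℝ d, cfc_add d _ _] at h1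
  rw [cfc_add d _ _, cfc_const_mul _ _ d, cfc_mul _ _ d, cfc_mul _ _ d, cfc_id' ℝ d] at h2
  have h3 := pos_re_mono φ₁ h1
  have h4 := pos_re_mono φ₂ h2
  rw [map_add, Complex.add_re] at h3 h4
  rw [pos_real_smul, Complex.re_ofReal_mul] at h4
  unfold F
  linarith

theorem exists_min (W : WS 𝓜) {φ₁ φ₂ : 𝓜 →ₚ[ℂ] ℂ} (h₁ : φ₁ ∈ W.𝓕) (h₂ : φ₂ ∈ W.𝓕) {K : ℝ}
    (hK : 0 ≤ K) : ∃ k ∈ W.A, 0 ≤ k ∧ k ≤ K • (1 : 𝓜) ∧
      ∀ d ∈ W.A, 0 ≤ d → d ≤ K • (1 : 𝓜) → F φ₁ φ₂ k ≤ F φ₁ φ₂ d := by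
  let D := {d : 𝓜 // d ∈ W.A ∧ 0 ≤ d ∧ d ≤ K • (1 : 𝓜)}
  have : Nonempty D := ⟨⟨0, W.A.zero_mem, le_rfl, smul_nonneg hK zero_le_one⟩⟩
  have hl : (⨅ d₀ : D, 𝓟 {d : D | F φ₁ φ₂ d.1 ≤ F φ₁ φ₂ d₀.1}).NeBot := by
    refine iInf_neBot_of_directed (fun a b => ?_) fun d₀ => 
      principal_neBot_iff.2 ⟨d₀, le_refl (F φ₁ φ₂ d₀.1)⟩
    rcases le_total (F φ₁ φ₂ a.1) (F φ₁ φ₂ b.1) with h | h
    · exact ⟨a, le_rfl, principal_mono.2 fun d hd => le_trans hd h⟩
    · exact ⟨b, principal_mono.2 fun d hd => le_trans hd h, le_rfl⟩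
  obtain ⟨U, hU⟩ := Ultrafilter.exists_le (⨅ d₀ : D, 𝓟 {d : D | F φ₁ φ₂ d.1 ≤ F φ₁ φ₂ d₀.1})
  obtain ⟨k, hk⟩ := W.exists_wlim U (fun d => d.1) (R := K) (Eventually.of_forall fun d => by
    rw [CStarAlgebra.norm_le_iff_le_algebraMap _ hK d.2.2.1, Algebra.algebraMap_eq_smul_one]
    exact d.2.2.2)
  have hkA := hk.mem_A (Eventually.of_forall fun d => d.2.1)
  have hk0 := hk.nonneg (Eventually.of_forall fun d => d.2.2.1)
  refine ⟨k, hkA, hk0, hk.le_const (Eventually.of_forall fun d => d.2.2.2), fun d hd h0 h1 => ?_⟩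
  have t1 := (Complex.continuous_re.tendsto _).comp (hk _ h₁)
  have t2 := (Complex.continuous_re.tendsto _).comp (hk.mul_left k _ h₂)
  have t3 := ((t2.const_mul 2).sub_const (φ₂ (k * k)).re).sub (t1.const_mul 2)
  refine le_of_eq_of_le (by unfold F; ring) (le_of_tendsto t3 ?_)
  filter_upwards [hU.trans (iInf_le _ ⟨d, hd, h0, h1⟩) (mem_principal_self _)] with x hx
  refine le_trans ?_ hx
  have h3 := pos_re_nonneg φ₂ (star_mul_self_nonneg (k - x.1))
  rw [(hk0.isSelfAdjoint.sub x.2.2.1.isSelfAdjoint).star_eq, sub_mul, mul_sub, mul_sub,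
    W.comm _ x.2.1 _ hkA] at h3
  simp only [map_sub, Complex.sub_re] at h3
  simp only [F, Function.comp]
  linarith

theorem eq_zero_of_quad {b c : ℝ} (h : ∀ t : ℝ, 0 ≤ t * b + t ^ 2 * c) : b = 0 := by
  have h1 := discrim_le_zero (a := c) (b := b) (c := 0) fun t => by linarith [h t]
  rw [discrim] at h1
  nlinarith

end RNAux

open RNAux

theorem WS.exists_rn (W : WS 𝓜) {φ₁ φ₂ : 𝓜 →ₚ[ℂ] ℂ} (h₁ : φ₁ ∈ W.𝓕) (h₂ : φ₂ ∈ W.𝓕)
    (hf : ∀ a ∈ W.A, 0 ≤ a → φ₂ a = 0 → a = 0) {K : ℝ} (hK : 0 ≤ K)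
    (hle : ∀ a ∈ W.A, 0 ≤ a → (φ₁ a).re ≤ K * (φ₂ a).re) :
    ∃ k ∈ W.A, 0 ≤ k ∧ k ≤ K • (1 : 𝓜) ∧ ∀ a ∈ W.A, φ₁ a = φ₂ (k * a) := by
  obtain ⟨k, hkA, hk0, hk1, hk⟩ := exists_min W h₁ h₂ hK
  refine ⟨k, hkA, hk0, hk1, ?_⟩
  have key : ∀ a ∈ W.A, IsSelfAdjoint a → φ₁ a = φ₂ (k * a) := by
    intro a ha hsa
    have e : 2 * (φ₂ (k * a)).re - 2 * (φ₁ a).re = 0 := by
      refine eq_zero_of_quad (c := (φ₂ (a * a)).re) fun t => ?_
      obtain ⟨d, h1, h2, h3, h4⟩ := exists_clamp W hK hle (W.A.add_mem hkA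
        (real_smul_mem W t ha))
        (hk0.isSelfAdjoint.add ((IsSelfAdjoint.all t).smul hsa))
      have h5 := (hk d h1 h2 h3).trans h4
      simp only [F, add_mul, mul_add, mul_smul_comm, smul_mul_assoc, W.comm a ha k hkA, map_add,
        pos_real_smul, Complex.add_re, Complex.re_ofReal_mul] at h5
      linarith
    refine Complex.ext (by linarith) ?_
    rw [pos_im _ hsa, pos_im]
    rw [IsSelfAdjoint, star_mul, hsa.star_eq, hk0.isSelfAdjoint.star_eq, W.comm a ha k hkA]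
  intro a ha
  have e1 := key (a + star a) (AddMemClass.add_mem ha (star_mem ha)) (IsSelfAdjoint.add_star_self a)
  have e2 := key (Complex.I • (a - star a)) (W.A.smul_mem (sub_mem ha (star_mem ha)) _) (by
    rw [IsSelfAdjoint, star_smul, star_sub, star_star, Complex.star_def, Complex.conj_I, neg_smul,
      ← smul_neg, neg_sub])
  rw [mul_smul_comm, map_smul, map_smul, smul_eq_mul, smul_eq_mul,
    mul_right_inj' Complex.I_ne_zero] at e2
  simp only [mul_add, mul_sub, map_add, map_sub] at e1 e2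
  linear_combination (1 / 2 : ℂ) * e1 + (1 / 2 : ℂ) * e2

theorem Reg.exists_rn_G (R : Reg 𝓜) {K : ℝ} (hK : 1 ≤ K) {v : 𝓜} (hv : R.IsG K v) :
    ∃ k ∈ R.A, 0 ≤ k ∧ K⁻¹ • (star v * v) ≤ k ∧ k ≤ K • (1 : 𝓜) ∧
      ∀ a ∈ R.A, R.ω (v * a * star v) = R.ω (k * a) := by
  have hK0 : 0 < K := by linarith
  obtain ⟨k, hkA, hk0, hk1, hk⟩ := R.exists_rn (R.conj_mem _ R.ω_mem (star v)) R.ω_mem
    (fun a _ => R.faithful a) hK0.le fun a ha h0 => by
      rw [conjF_apply, star_star]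
      exact (hv.2 a ha h0).1
  simp only [conjF_apply, star_star] at hk
  refine ⟨k, hkA, hk0, ?_, hk1, hk⟩
  have hs := hv.1.src_mem
  rw [← sub_nonneg]
  refine R.nonneg_of_ω (sub_mem hkA (real_smul_mem _ _ hs)) (hk0.isSelfAdjoint.sub
    ((IsSelfAdjoint.all _).smul (IsSelfAdjoint.star_mul_self v))) fun e he hp => ?_
  have h1 := (hv.2 _ (hv.1.2 e he).2 (star_right_conjugate_nonneg hp.nonneg v)).2
  have h2 : star v * (v * e * star v) * v = e * (star v * v) := by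
    calc star v * (v * e * star v) * v = star v * v * e * (star v * v) := by
          simp only [mul_assoc]
      _ = _ := by rw [R.comm _ hs e he, mul_assoc, hv.1.src_proj.isIdempotentElem.eq]
  rw [h2, hk e he, R.comm k hkA e he] at h1
  rw [mul_sub, mul_smul_comm, map_sub, pos_real_smul, Complex.sub_re, Complex.re_ofReal_mul,
    sub_nonneg, inv_mul_le_iff₀ hK0]
  exact h1

theorem Reg.exists_cut (R : Reg 𝓜) {v : 𝓜} (hv : R.Norm v) {c : 𝓜} (hc : c ∈ R.A)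
    (hcv : c * (star v * v) = c) (hne : c ≠ 0) :
    ∃ e ∈ R.A, IsStarProjection e ∧ R.InG (v * e) ∧ c * e ≠ 0 := by
  obtain ⟨k, hkA, hk0, hk1, hk⟩ := R.exists_rn (R.conj_mem _ R.ω_mem (star v))
    (R.add_mem _ R.ω_mem _ (R.conj_mem _ R.ω_mem (star v))) (K := 1)
    (fun a _ h0 h => R.faithful a h0 (pos_eq_zero_of_re _ h0 (by
      have h1 := congrArg Complex.re h
      rw [PositiveLinearMap.add_apply, Complex.add_re, Complex.zero_re] at h1
      linarith [pos_re_nonneg (conjF R.ω (star v)) h0]))) zero_le_one fun a _ h0 => by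
      rw [PositiveLinearMap.add_apply, Complex.add_re]
      linarith [pos_re_nonneg R.ω h0]
  rw [one_smul] at hk1
  have hk' : ∀ a ∈ R.A, R.ω (k * a) = conjF R.ω (star v) ((1 - k) * a) := fun a ha => by
    rw [sub_mul, one_mul, map_sub, hk a ha, PositiveLinearMap.add_apply, add_sub_cancel_right]
  have hjA : 1 - k ∈ R.A := sub_mem R.A.one_mem hkA
  have hj0 : 0 ≤ 1 - k := sub_nonneg.2 hk1
  have hj1 : 1 - k ≤ 1 := sub_le_self _ hk0
  have hcA : star c * c ∈ R.A := mul_mem (star_mem hc) hc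
  have hc0 := star_mul_self_nonneg c
  have hb : star c * c * (1 - k) * k ≠ 0 := by
    intro h
    have h1 : c * k = 0 := by
      refine (CStarRing.star_mul_self_eq_zero_iff _).1 (R.faithful _ (star_mul_self_nonneg _) ?_)
      rw [star_mul, hk0.isSelfAdjoint.star_eq, mul_assoc, ← mul_assoc (star c),
        hk' _ (mul_mem hcA hkA), ← mul_assoc, R.comm _ hjA _ hcA, h, map_zero]
    have h2 : c * star v = 0 := by
      refine (CStarRing.star_mul_self_eq_zero_iff _).1 (R.faithful _ (star_mul_self_nonneg _) ?_)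
      have h3 := hk' _ hcA
      rw [R.comm _ hjA _ hcA, R.comm _ hkA _ hcA, mul_sub, mul_assoc, h1, mul_zero, map_zero,
        mul_one, sub_zero, conjF_apply] at h3
      rw [star_mul, h3]
      simp only [mul_assoc]
    exact hne (by rw [← hcv, ← mul_assoc, h2, zero_mul])
  have hdA := mul_mem hcA hjA
  have hd0 := R.mul_nonneg_A hcA hjA hc0 hj0
  obtain ⟨e, heA, he, he0, γ, hγ, hγe⟩ := R.exists_proj_le (mul_mem hdA hkA)
    (R.mul_nonneg_A hdA hkA hd0 hk0) hb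
  have hM := le_norm_smul_one (IsSelfAdjoint.star_mul_self c)
  set M := ‖star c * c‖ with hMdef
  have hM0 : 0 ≤ M := norm_nonneg _
  have hMA := real_smul_mem R.toWS M R.A.one_mem
  have key : ∀ x ∈ R.A, ∀ y ∈ R.A, 0 ≤ x → x ≤ 1 → 0 ≤ y → γ • e ≤ star c * c * x * y * e →
      ∀ a ∈ R.A, 0 ≤ a → γ • (e * a) ≤ M • (y * (e * a)) ∧ x * (e * a) ≤ a := by
    intro x hx y hy hx0 hx1 hy0 h a ha ha0
    have hea := R.mul_nonneg_A heA ha he.nonneg ha0
    have h1 : star c * c * x ≤ M • (1 : 𝓜) := by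
      have h2 := mul_le_mul_A R.toWS hx R.A.one_mem hcA hx1 hc0
      rw [one_mul, R.comm x hx _ hcA] at h2
      exact h2.trans hM
    constructor
    · have h3 := mul_le_mul_A R.toWS (real_smul_mem _ _ heA)
        (mul_mem (mul_mem (mul_mem hcA hx) hy) heA) ha h ha0
      have h4 := mul_le_mul_A R.toWS (mul_mem hcA hx) hMA (mul_mem hy (mul_mem heA ha)) h1
        (R.mul_nonneg_A hy (mul_mem heA ha) hy0 hea)
      rw [smul_mul_assoc, mul_assoc, mul_assoc] at h3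
      rw [smul_mul_assoc, one_mul] at h4
      exact h3.trans h4
    · have h3 := mul_le_mul_A R.toWS hx R.A.one_mem (mul_mem heA ha) hx1 hea
      have h4 := mul_le_mul_A R.toWS heA R.A.one_mem ha he.le_one ha0
      rw [one_mul] at h3 h4
      exact h3.trans h4
  have hee : ∀ a ∈ R.A, e * a * e = e * a := fun a ha => by
    rw [mul_assoc, R.comm a ha e heA, ← mul_assoc, he.isIdempotentElem.eq]
  have k1 := key _ hjA _ hkA hj0 hj1 hk0 hγe
  have k2 := key _ hkA _ hjA hk0 hk1 hj0 (by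
    rwa [mul_assoc _ k, R.comm k hkA _ hjA, ← mul_assoc])
  refine ⟨e, heA, he, ⟨M / γ, hv.mul (WS.Norm.of_proj heA he), fun a ha h0 => ⟨?_, ?_⟩⟩,
    fun h => he0 ?_⟩
  · have h1 := pos_re_mono (conjF R.ω (star v)) (k2 a ha h0).1
    have h2 := pos_re_mono R.ω (k2 a ha h0).2
    rw [pos_real_smul, pos_real_smul, Complex.re_ofReal_mul, Complex.re_ofReal_mul,
      ← hk' _ (mul_mem heA ha), conjF_apply, star_star, ← hee a ha] at h1
    rw [star_mul, he.isSelfAdjoint.star_eq, div_mul_eq_mul_div, le_div_iff₀' hγ]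
    refine le_trans (le_of_eq ?_) (h1.trans ?_)
    · simp only [mul_assoc]
    · rw [hee a ha]
      exact mul_le_mul_of_nonneg_left h2 hM0
  · have hbA := (hv.2 a ha).1
    have hb0 := star_left_conjugate_nonneg h0 v
    have h1 := pos_re_mono R.ω (k1 _ hbA hb0).1
    have h2 := pos_re_mono (conjF R.ω (star v)) (k1 _ hbA hb0).2
    have h3 := R.ω_proj_conj_le hv.rng_mem hv.rng_proj h0
    rw [pos_real_smul, pos_real_smul, Complex.re_ofReal_mul, Complex.re_ofReal_mul,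
      hk' _ (mul_mem heA hbA)] at h1
    rw [conjF_apply _ _ (star v * a * v), star_star] at h2
    rw [star_mul, he.isSelfAdjoint.star_eq, div_mul_eq_mul_div, le_div_iff₀' hγ]
    refine le_trans (le_of_eq ?_) (h1.trans (mul_le_mul_of_nonneg_left (h2.trans
      (le_of_eq_of_le ?_ h3)) hM0))
    · rw [← hee _ hbA]
      simp only [mul_assoc]
    · simp only [mul_assoc]
  · rw [mul_assoc (star c * c), mul_assoc, R.comm _ (mul_mem hjA hkA) e heA, ← mul_assoc,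
      mul_assoc (star c), h, mul_zero, zero_mul] at hγe
    have h1 := smul_le_smul_of_nonneg_left hγe (inv_nonneg.2 hγ.le)
    rw [smul_smul, inv_mul_cancel₀ hγ.ne', one_smul, smul_zero] at h1
    exact h1.antisymm he.nonneg

end Crest.Agent.R109
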