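import Crest.Agent.R109.GelApi
import Crest.Agent.R109.RN

/-! Row 109: fibrewise calculus of normalising partial isometries in a Gelfand picture. -/

set_option autoImplicit false
set_option linter.unusedSectionVars false

noncomputable section

namespace Crest.Agent.R109.NetOf

open Filter Topology MeasureTheory
open scoped ComplexOrder ComplexConjugate Classical

universe u

variable {𝓜 : Type u} [CStarAlgebra 𝓜] [PartialOrder 𝓜] [StarOrderedRing 𝓜]

variable {R : Reg 𝓜} {Ω : Type*} [TopologicalSpace Ω] [CompactSpace Ω] [MeasurableSpace Ω]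
  [BorelSpace Ω] {ev : 𝓜 → Ω → ℂ} {μ : Measure Ω} {u v : 𝓜} {χ : Ω}

theorem ev_E_sq (hG : IsGel R ev μ) (u : 𝓜) (χ : Ω) :
    ev (star (R.E u) * R.E u) χ = conj (ev u χ) * ev u χ := by
  rw [hG.ev_mul_right (R.E_mem u), hG.ev_star, hG.ev_E]

theorem conj_mul_eq_one (hG : IsGel R ev μ) (hu : R.Norm u) (h : ev u χ ≠ 0) :
    conj (ev u χ) * ev u χ = 1 := by
  obtain ⟨e, he, hp, -, h1, -⟩ := R.E_norm hu
  rw [← ev_E_sq hG, h1]
  refine (hG.ev_proj he hp χ).resolve_left fun h2 => ?_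
  rw [← h1, ev_E_sq hG] at h2
  simp [h] at h2

theorem norm01 (hG : IsGel R ev μ) (hu : R.Norm u) (χ : Ω) : ev u χ = 0 ∨ ‖ev u χ‖ = 1 := by
  refine or_iff_not_imp_left.2 fun h => ?_
  have h1 := congrArg norm (conj_mul_eq_one hG hu h)
  rw [norm_mul, Complex.norm_conj, norm_one] at h1
  nlinarith [norm_nonneg (ev u χ)]

theorem src_eq_one (hG : IsGel R ev μ) (hu : R.Norm u) (h : ev (star u * u) χ ≠ 0) :
    ev (star u * u) χ = 1 :=
  (hG.ev_proj hu.src_mem hu.src_proj χ).resolve_left h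

theorem zero_right (hG : IsGel R ev μ) (a : 𝓜) {d : 𝓜} (h : ev (star d * d) χ = 0) :
    ev (a * d) χ = 0 := by
  have h1 := hG.norm_ev_conj_sq_le (star a) 1 d χ
  rw [h, Complex.zero_re, mul_zero, star_star, mul_one] at h1
  exact norm_eq_zero.1 (pow_eq_zero_iff two_ne_zero |>.1 (le_antisymm h1 (sq_nonneg _)))

theorem zero_left (hG : IsGel R ev μ) (a : 𝓜) {d : 𝓜} (h : ev (star d * d) χ = 0) :
    ev (star d * a) χ = 0 := by
  have h1 := hG.ev_star (star a * d) χ
  rwa [zero_right hG _ h, map_zero, star_mul, star_star] at h1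

theorem ev_swap (hG : IsGel R ev μ) (u v : 𝓜) (χ : Ω) :
    ev (star v * u) χ = conj (ev (star u * v) χ) := by
  rw [← hG.ev_star, star_mul, star_star]

theorem rel_mul (hG : IsGel R ev μ) (hu : R.Norm u) (hv : R.Norm v)
    (h : ev (star u * v) χ ≠ 0) (a : 𝓜) : ev (a * v) χ = ev (a * u) χ * ev (star u * v) χ := by
  have h1 := src_eq_one hG hu fun h0 => h (zero_left hG v h0)
  have h2 := src_eq_one hG hv fun h0 => h (zero_right hG _ h0)
  have h3 := conj_mul_eq_one hG (hu.star.mul hv) h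
  have h4 := ev_swap hG u v χ
  generalize ev (star u * v) χ = γ at *
  have h5 : ev (star (v - γ • u) * (v - γ • u)) χ = 0 := by
    simp only [star_sub, star_smul, sub_mul, mul_sub, smul_mul_assoc, mul_smul_comm, hG.ev_sub,
      hG.ev_smul, h1, h2, h4, ev_swap hG v u χ, Complex.conj_conj, RCLike.star_def]
    linear_combination -h3
  have h6 := zero_right hG a h5
  rw [mul_sub, mul_smul_comm, hG.ev_sub, hG.ev_smul] at h6
  linear_combination h6

theorem rel_conj (hG : IsGel R ev μ) (hu : R.Norm u) (hv : R.Norm v)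
    (h : ev (star u * v) χ ≠ 0) (y : 𝓜) : ev (star v * y * v) χ = ev (star u * y * u) χ := by
  have h1 := rel_mul hG hu hv h (star v * y)
  have h2 := rel_mul hG hu hv h (star u * star y)
  have h3 := conj_mul_eq_one hG (hu.star.mul hv) h
  have h4 := hG.ev_star (star u * star y * v) χ
  have h5 := hG.ev_star (star u * y * u) χ
  simp only [star_mul, star_star, ← mul_assoc] at h4 h5
  rw [h1, h4, h2, h5, map_mul, Complex.conj_conj, mul_assoc, h3, mul_one]

/-- `τ` implements the conjugation by `v`. -/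
def Tau (R : Reg 𝓜) (ev : 𝓜 → Ω → ℂ) (v : 𝓜) (τ : Ω → Ω) : Prop :=
  ∀ a ∈ R.A, ∀ χ, ev (star v * v) χ ≠ 0 → ev a (τ χ) = ev (star v * a * v) χ

theorem Tau.all {τ : Ω → Ω} (hG : IsGel R ev μ) (hv : R.Norm v) (hτ : Tau R ev v τ) (y : 𝓜)
    (h : ev (star v * v) χ ≠ 0) : ev y (τ χ) = ev (star v * y * v) χ := by
  rw [← hG.ev_E y, hτ _ (R.E_mem y) χ h, ← R.E_conj hv, hG.ev_E]

theorem dom_mul (hG : IsGel R ev μ) (h : ev (star (u * v) * (u * v)) χ ≠ 0) :
    ev (star v * v) χ ≠ 0 := fun h0 => h (by rw [← mul_assoc]; exact zero_right hG _ h0)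

theorem Tau.one : Tau R ev 1 fun χ => χ := fun a _ χ _ => by simp

theorem Tau.mul {τ τ' : Ω → Ω} (hG : IsGel R ev μ) (hv : R.Norm v)
    (hτ : Tau R ev u τ) (hτ' : Tau R ev v τ') : Tau R ev (u * v) fun χ => τ (τ' χ) := by
  intro a ha χ h
  have h1 := dom_mul hG h
  rw [hτ a ha, hτ'.all hG hv _ h1]
  · simp only [star_mul, mul_assoc]
  · rw [hτ'.all hG hv _ h1]
    simpa only [star_mul, mul_assoc] using h

/-- `exp H` is the Radon-Nikodym derivative of the conjugation by `v`. -/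
def RNd (R : Reg 𝓜) (ev : 𝓜 → Ω → ℂ) (v : 𝓜) (H : Ω → ℝ) : Prop :=
  ∃ k ∈ R.A, (∀ χ, ev k χ = ev (star v * v) χ * Real.exp (H χ)) ∧
    ∀ a ∈ R.A, R.ω (v * a * star v) = R.ω (k * a)

theorem RNd.one : RNd R ev 1 fun _ => 0 :=
  ⟨1, R.A.one_mem, fun χ => by simp, fun a _ => by simp⟩

theorem RNd.mul {τ : Ω → Ω} {H H' : Ω → ℝ} (hG : IsGel R ev μ) (hv : R.Norm v)
    (hτ : Tau R ev v τ) (h : RNd R ev u H) (h' : RNd R ev v H') :
    RNd R ev (u * v) fun χ => H (τ χ) + H' χ := by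
  obtain ⟨k, hk, h1, h2⟩ := h
  obtain ⟨k', hk', h3, h4⟩ := h'
  have h5 : star v * k * v ∈ R.A := (hv.2 k hk).1
  refine ⟨k' * (star v * k * v), mul_mem hk' h5, fun χ => ?_, fun a ha => ?_⟩
  · rw [hG.ev_mul _ hk' _ h5, h3]
    by_cases h0 : ev (star v * v) χ = 0
    · rw [h0, not_not.1 (mt (dom_mul hG) (not_not.2 h0))]
      simp
    · rw [← hτ.all hG hv _ h0, h1, hτ.all hG hv _ h0, src_eq_one hG hv h0, Real.exp_add]
      simp only [star_mul, mul_assoc, Complex.ofReal_mul]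
      ring
  · rw [mul_assoc k', ← h4 _ (mul_mem h5 ha), ← mul_assoc v, ← hv.mul_left_eq hk, star_mul]
    have := h2 _ (hv.2 a ha).2
    simpa only [mul_assoc] using this

theorem exists_RNd (hG : IsGel R ev μ) {K : ℝ} (hK : 1 ≤ K) (hv : R.IsG K v) :
    ∃ H : Ω → ℝ, Continuous H ∧ (∀ χ, |H χ| ≤ Real.log K) ∧ RNd R ev v H := by
  obtain ⟨k, hk, h0, h1, h2, h3⟩ := R.exists_rn_G hK hv
  have hK0 : 0 < K := by linarith
  have hKi : 0 < K⁻¹ := inv_pos.2 hK0
  have hpos : ∀ χ, 0 < max (ev k χ).re K⁻¹ := fun χ => hKi.trans_le (le_max_right _ _)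
  refine ⟨fun χ => Real.log (max (ev k χ).re K⁻¹), ?_, fun χ => abs_le.2 ⟨?_, ?_⟩,
    k * (star v * v), mul_mem hk hv.1.src_mem, fun χ => ?_, fun a ha => ?_⟩
  · exact ((Complex.continuous_re.comp (hG.cont k)).max continuous_const).log
      fun χ => (hpos χ).ne'
  · rw [← Real.log_inv]
    exact Real.log_le_log hKi (le_max_right _ _)
  · refine Real.log_le_log (hpos χ) (max_le ?_ ((inv_le_one_of_one_le₀ hK).trans hK))
    have := (Complex.le_def.1 (hG.ev_mono h2 χ)).1
    simpa [hG.ev_real_smul, hG.ev_one] using this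
  · rw [hG.ev_mul _ hk _ hv.1.src_mem]
    by_cases h : ev (star v * v) χ = 0
    · simp [h]
    have h4 := (Complex.le_def.1 (hG.ev_mono h1 χ)).1
    rw [hG.ev_real_smul, src_eq_one hG hv.1 h, mul_one, Complex.ofReal_re] at h4
    rw [src_eq_one hG hv.1 h, Real.exp_log (hpos χ), max_eq_left h4, mul_one, one_mul]
    exact Complex.ext rfl (Complex.le_def.1 (hG.ev_nonneg k h0 χ)).2.symm
  · rw [mul_assoc k, ← h3 _ (mul_mem hv.1.src_mem ha), ← mul_assoc, ← mul_assoc, hv.1.1]

theorem RNd.mtp {τ : Ω → Ω} {H : Ω → ℝ} (hG : IsGel R ev μ) (hv : R.Norm v)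
    (hτ : Tau R ev v τ) (h : RNd R ev v H) {f : Ω → ℝ} (hf : Continuous f) :
    ∫ χ, (ev (star v * v) χ).re * (f (τ χ) * Real.exp (H χ)) ∂μ =
      ∫ χ, (ev (v * star v) χ).re * f χ ∂μ := by
  obtain ⟨k, hk, h1, h2⟩ := h
  obtain ⟨a, ha, hfa⟩ := hG.surj (fun χ => f χ) (Complex.continuous_ofReal.comp hf)
  have h3 : star v * a * v ∈ R.A := (hv.2 a ha).1
  have h4 : v * (star v * a * v) * star v = v * star v * a := by
    rw [← hv.mul_left_eq ha, mul_assoc, R.comm a ha _ hv.rng_mem]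
  calc _ = ∫ χ, (ev (k * (star v * a * v)) χ).re ∂μ := by
        refine integral_congr_ae (Eventually.of_forall fun χ => ?_)
        simp only [hG.ev_mul _ hk _ h3, h1]
        by_cases h0 : ev (star v * v) χ = 0
        · simp [h0]
        · rw [← hτ a ha χ h0, src_eq_one hG hv h0, hfa, one_mul, ← Complex.ofReal_mul,
            Complex.ofReal_re, Complex.one_re, one_mul, mul_comm]
    _ = ∫ χ, (ev (v * star v * a) χ).re ∂μ := by rw [hG.integral_re, hG.integral_re, ← h2 _ h3, h4]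
    _ = _ := by simp only [hG.ev_mul_right ha, hfa, Complex.re_mul_ofReal]

theorem RNd.rel {H H' : Ω → ℝ} (hG : IsGel R ev μ) (hu : R.Norm u) (hv : R.Norm v)
    (h : RNd R ev u H) (h' : RNd R ev v H') (hr : ev (star u * v) χ ≠ 0) : H χ = H' χ := by
  obtain ⟨k, hk, h1, h2⟩ := h
  obtain ⟨k', hk', h3, h4⟩ := h'
  obtain ⟨e, he, hp, h5, h6, h7⟩ := R.E_norm (hu.star.mul hv)
  have hc := R.E_mem (star u * v)
  have he1 : ev e χ = 1 := by rw [← h6, ev_E_sq hG, conj_mul_eq_one hG (hu.star.mul hv) hr]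
  have h8 : v * e = u * R.E (star u * v) := by
    rw [h5, ← mul_assoc, ← mul_assoc, hv.mul_left_eq hu.rng_mem, mul_assoc v]
    congr 1
    simpa only [star_mul, star_star, mul_assoc] using h7.symm
  generalize R.E (star u * v) = c at *
  have h9 : k * e - k' * e = 0 := by
    refine R.eq_zero_of_ω (sub_mem (mul_mem hk he) (mul_mem hk' he)) fun b hb => ?_
    have e1 : v * (e * b) * star v = u * (e * b) * star u := by
      have a1 : e * b = e * b * star e := by
        rw [hp.isSelfAdjoint.star_eq, mul_assoc, R.comm b hb e he, ← mul_assoc,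
          hp.isIdempotentElem.eq]
      have a2 : e * b = c * b * star c := by
        rw [← h6, R.comm _ (mul_mem hc hb) _ (star_mem hc), mul_assoc]
      calc v * (e * b) * star v = v * e * b * star (v * e) := by
            rw [a1]; simp only [star_mul, mul_assoc]
        _ = _ := by rw [h8, a2]; simp only [star_mul, mul_assoc]
    rw [R.comm b hb _ (sub_mem (mul_mem hk he) (mul_mem hk' he)), sub_mul, map_sub, mul_assoc,
      mul_assoc, ← h2 _ (mul_mem he hb), ← h4 _ (mul_mem he hb), e1, sub_self]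
  have h10 := congrArg (fun y => ev y χ) (sub_eq_zero.1 h9)
  simp only [hG.ev_mul_right he, he1, mul_one, h1, h3,
    src_eq_one hG hu fun h0 => hr (zero_left hG v h0),
    src_eq_one hG hv fun h0 => hr (zero_right hG _ h0), one_mul] at h10
  exact Real.exp_injective (by exact_mod_cast h10)

theorem ev_bilin (hG : IsGel R ev μ) {ι : Type*} (W : Finset ι) (V : ι → 𝓜) (ζ η : ι → ℂ)
    (x : 𝓜) (χ : Ω) : ev (star (∑ i ∈ W, ζ i • V i) * x * ∑ j ∈ W, η j • V j) χ =
      ∑ i ∈ W, ∑ j ∈ W, conj (ζ i) * ev (star (V i) * x * V j) χ * η j := by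
  simp only [star_sum, Finset.sum_mul, hG.ev_sum]
  refine Finset.sum_congr rfl fun i _ => ?_
  simp only [Finset.mul_sum, hG.ev_sum, star_smul, smul_mul_assoc, mul_smul_comm, hG.ev_smul,
    RCLike.star_def]
  exact Finset.sum_congr rfl fun j _ => by ring

variable {G : Type*}

/-- The map of a word. -/
def τw (τ : G → Ω → Ω) : List G → Ω → Ω
  | [] => fun χ => χ
  | g :: w => fun χ => τ g (τw τ w χ)

/-- The logarithmic derivative of a word. -/
def hw (τ : G → Ω → Ω) (H : G → Ω → ℝ) : List G → Ω → ℝ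
  | [] => fun _ => 0
  | g :: w => fun χ => H g (τw τ w χ) + hw τ H w χ

theorem τw_nil (τ : G → Ω → Ω) : τw τ [] = fun χ => χ := rfl

theorem τw_cons (τ : G → Ω → Ω) (g : G) (w : List G) :
    τw τ (g :: w) = fun χ => τ g (τw τ w χ) := rfl

theorem hw_nil (τ : G → Ω → Ω) (H : G → Ω → ℝ) : hw τ H [] = fun _ => 0 := rfl

theorem hw_cons (τ : G → Ω → Ω) (H : G → Ω → ℝ) (g : G) (w : List G) :
    hw τ H (g :: w) = fun χ => H g (τw τ w χ) + hw τ H w χ := rfl

theorem τw_append (τ : G → Ω → Ω) (u w : List G) (χ : Ω) :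
    τw τ (u ++ w) χ = τw τ u (τw τ w χ) := by
  induction u with
  | nil => rfl
  | cons g u ih => simp only [List.cons_append, τw_cons, ih]

theorem hw_append (τ : G → Ω → Ω) (H : G → Ω → ℝ) (u w : List G) (χ : Ω) :
    hw τ H (u ++ w) χ = hw τ H u (τw τ w χ) + hw τ H w χ := by
  induction u with
  | nil => simp only [List.nil_append, hw_nil, zero_add]
  | cons g u ih => simp only [List.cons_append, hw_cons, ih, τw_append, add_assoc]

theorem continuous_τw {τ : G → Ω → Ω} (hτ : ∀ g, Continuous (τ g)) (w : List G) :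
    Continuous (τw τ w) := by
  induction w with
  | nil => exact continuous_id
  | cons g w ih => exact (hτ g).comp ih

theorem continuous_hw {τ : G → Ω → Ω} (hτ : ∀ g, Continuous (τ g)) {H : G → Ω → ℝ}
    (hH : ∀ g, Continuous (H g)) (w : List G) : Continuous (hw τ H w) := by
  induction w with
  | nil => exact continuous_const
  | cons g w ih => exact ((hH g).comp (continuous_τw hτ w)).add ih

theorem tau_τw (hG : IsGel R ev μ) {v : G → 𝓜} (hv : ∀ g, R.Norm (v g)) {τ : G → Ω → Ω}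
    (hτ : ∀ g, Tau R ev (v g) (τ g)) (w : List G) : Tau R ev (vw v w) (τw τ w) := by
  induction w with
  | nil => rw [vw_nil]; exact Tau.one
  | cons g w ih => rw [vw_cons, τw_cons]; exact (hτ g).mul hG (WS.Norm.vw hv w) ih

theorem rnd_hw (hG : IsGel R ev μ) {v : G → 𝓜} (hv : ∀ g, R.Norm (v g)) {τ : G → Ω → Ω}
    (hτ : ∀ g, Tau R ev (v g) (τ g)) {H : G → Ω → ℝ} (hH : ∀ g, RNd R ev (v g) (H g))
    (w : List G) : RNd R ev (vw v w) (hw τ H w) := by
  induction w with
  | nil => rw [vw_nil]; exact RNd.one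
  | cons g w ih => rw [vw_cons]; exact (hH g).mul hG (WS.Norm.vw hv w) (tau_τw hG hv hτ w) ih

end Crest.Agent.R109.NetOf
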