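import Crest.Agent.R109.GelApi
import Crest.Agent.R109.RN
import Crest.Agent.R109.NetOfAux

/-! Row 109, task D7c: the network of a symmetric family of normalising partial isometries. -/

set_option autoImplicit false
set_option linter.unusedSectionVars false

noncomputable section

namespace Crest.Agent.R109

open Filter Topology MeasureTheory NetOf
open scoped ComplexOrder ComplexConjugate Classical

universe u

variable {𝓜 : Type u} [CStarAlgebra 𝓜] [PartialOrder 𝓜] [StarOrderedRing 𝓜]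

variable {R : Reg 𝓜} {Ω : Type*} [TopologicalSpace Ω] [CompactSpace Ω] [MeasurableSpace Ω]
  [BorelSpace Ω] {ev : 𝓜 → Ω → ℂ} {μ : Measure Ω}

variable {G : Type*} [DecidableEq G] [Fintype G]

/-- `N` is the network of the family `v` and of the operator `x`. -/
structure IsNetOf (R : Reg 𝓜) (ev : 𝓜 → Ω → ℂ) (v : G → 𝓜) (x : 𝓜) (N : Net Ω G) : Prop where
  norm : ∀ g, R.Norm (v g)
  star_inv : ∀ g, v (N.inv g) = star (v g)
  Γ_eq : ∀ u w χ, N.Γ u w χ = ev (star (vw v u) * vw v w) χ
  X_eq : ∀ u w χ, N.X u w χ = ev (star (vw v u) * x * vw v w) χ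
  τ_eq : ∀ a ∈ R.A, ∀ w χ, N.dom w χ → ev a (N.τ w χ) = ev (star (vw v w) * a * vw v w) χ

theorem vw_winv {v : G → 𝓜} {inv : G → G} (h : ∀ g, v (inv g) = star (v g)) (w : List G) :
    vw v (winv inv w) = star (vw v w) := by
  induction w with
  | nil => simp [winv, vw_nil]
  | cons g w ih =>
    have : winv inv (g :: w) = winv inv w ++ [inv g] := by simp [winv]
    rw [this, vw_append, ih, vw_cons, vw_nil, mul_one, h, vw_cons, star_mul]

theorem exists_net (hG : IsGel R ev μ) (inv : G → G) (hinv : ∀ g, inv (inv g) = g) (v : G → 𝓜)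
    (hv : ∀ g, v (inv g) = star (v g)) {K : ℝ} (hK : 1 ≤ K) (hvK : ∀ g, R.IsG K (v g))
    (a : G → 𝓜) (ha : ∀ g, a g ∈ R.A) {x : 𝓜} (hx : x = ∑ g, v g * a g) (hsa : IsSelfAdjoint x)
    (hE : R.E x = 0) {ρ : ℝ} (hρ : ‖x‖ ≤ ρ) :
    ∃ N : Net Ω G, IsNetOf R ev v x N ∧ N.μ = μ ∧ N.R = ρ ∧ N.κ0 = Real.log K := by
  have hn : ∀ g, R.Norm (v g) := fun g => (hvK g).1
  have hV := WS.Norm.vw hn
  choose τ hτc hτ using fun g => hG.tau (v g) (hn g)
  choose H hHc hHK hH using fun g => exists_RNd hG hK (hvK g)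
  have hT := tau_τw hG hn hτ
  have hR := rnd_hw hG hn hτ hH
  have hl : ∀ {u w : List G} {χ : Ω}, ev (star (vw v u) * vw v w) χ ≠ 0 →
      ev (star (vw v u) * vw v u) χ ≠ 0 := fun h h0 => h (zero_left hG _ h0)
  have hr : ∀ {u w : List G} {χ : Ω}, ev (star (vw v u) * vw v w) χ ≠ 0 →
      ev (star (vw v w) * vw v w) χ ≠ 0 := fun h h0 => h (zero_right hG _ h0)
  refine ⟨{
    μ := μ
    inv := inv
    Γ := fun u w χ => ev (star (vw v u) * vw v w) χ
    X := fun u w χ => ev (star (vw v u) * x * vw v w) χ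
    τ := τw τ
    h := hw τ H
    R := ρ
    κ0 := Real.log K
    fin := hG.fin
    inv_inv := hinv
    R_nonneg := (norm_nonneg x).trans hρ
    κ0_nonneg := Real.log_nonneg hK
    Γ_cont := fun _ _ => hG.cont _
    X_cont := fun _ _ => hG.cont _
    τ_cont := continuous_τw hτc
    h_cont := continuous_hw hτc hHc
    Γ_norm := fun u w χ => norm01 hG ((hV u).star.mul (hV w)) χ
    Γ_conj := fun u w χ => ev_swap hG _ _ χ
    X_conj := fun u w χ => by
      rw [← hG.ev_star, star_mul, star_mul, star_star, hsa.star_eq, mul_assoc]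
    Γ_mul := fun u u' w χ h => rel_mul hG (hV u) (hV u') h _
    X_mul := fun u u' w χ h => rel_mul hG (hV u) (hV u') h _
    X_dom := fun u w χ h => zero_right hG _ h
    τ_rel := fun u w χ h => hG.sep _ _ fun b hb => by
      rw [hT u b hb χ (hl h), hT w b hb χ (hr h), rel_conj hG (hV u) (hV w) h]
    h_rel := fun u w χ h => (hR u).rel hG (hV u) (hV w) (hR w) h
    Γ_nil := fun χ => by rw [vw_nil, mul_one, star_one, hG.ev_one]
    τ_nil := fun _ => rfl
    h_nil := fun _ => rfl
    Γ_append := fun u u' w χ h => by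
      rw [(hT w).all hG (hV w) _ h]
      simp only [vw_append, star_mul, mul_assoc]
    X_append := fun u u' w χ h => by
      rw [(hT w).all hG (hV w) _ h]
      simp only [vw_append, star_mul, mul_assoc]
    dom_append := fun u w χ h => dom_mul hG (u := vw v u) (by rwa [vw_append] at h)
    τ_append := τw_append τ
    h_append := hw_append τ H
    Γ_congr := fun u w w' χ h h' => by
      have h1 := src_eq_one hG (hV _) h'
      rw [vw_append v u w', ← mul_assoc, rel_mul hG (hV w) (hV w') h, mul_assoc, ← vw_append, h1,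
        one_mul]
    Γ_inv := fun w χ h => by
      rw [vw_nil, star_one, one_mul, vw_append, vw_winv hv, src_eq_one hG (hV w) h]
    h_gen := fun g χ _ => by simpa only [hw_cons, hw_nil, add_zero] using hHK g _
    X_range := fun u w χ h => by
      by_contra h0
      refine h ?_
      rw [hx, Finset.mul_sum, Finset.sum_mul, hG.ev_sum]
      refine Finset.sum_eq_zero fun g _ => ?_
      rw [mul_assoc, mul_assoc (v g), (hV w).mul_left_eq (ha g), ← mul_assoc (v g), ← vw_cons,
        ← mul_assoc, hG.ev_mul_right ((hV w).2 _ (ha g)).1, not_not.1 (not_exists.1 h0 g),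
        zero_mul]
    X_diag := fun u χ => by
      rw [← hG.ev_E, R.E_conj (hV u), hE, mul_zero, zero_mul, hG.ev_zero]
    X_bilin := fun χ W ζ η => by
      have e : ∀ ξ : List G → ℂ, form W (fun u w => ev (star (vw v u) * vw v w) χ) ξ =
          ev (star (∑ i ∈ W, ξ i • vw v i) * ∑ j ∈ W, ξ j • vw v j) χ := fun ξ => by
        simpa only [mul_one, form] using (ev_bilin hG W (vw v) ξ ξ 1 χ).symm
      rw [← ev_bilin hG, e, e]
      refine (hG.norm_ev_conj_sq_le _ _ _ χ).trans ?_
      have h0 : ∀ y, 0 ≤ (ev (star y * y) χ).re := fun y =>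
        (Complex.le_def.1 (hG.ev_nonneg _ (star_mul_self_nonneg y) χ)).1
      gcongr
      exacts [h0 _, h0 _]
    mtp := fun w f hf => by
      rw [vw_winv hv, star_star]
      exact (hR w).mtp hG (hV w) (hT w) hf },
    ⟨hn, hv, fun _ _ _ => rfl, fun _ _ _ => rfl, fun b hb w χ h => hT w b hb χ h⟩, rfl, rfl, rfl⟩

set_option linter.unusedVariables false in
theorem IsNetOf.sep (hG : IsGel R ev μ) {v : G → 𝓜} {x : 𝓜} {N : Net Ω G}
    (hN : IsNetOf R ev v x N) {L : ℕ} {e z : 𝓜} (he : e ∈ R.A) (hep : IsStarProjection e)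
    (hz : z ∈ R.A) (hzp : IsStarProjection z) (hxz : x * z = 0)
    (h : ∀ w : List G, w.length ≤ L → e * (vw v w - R.E (vw v w)) * e * (1 - z) = 0) :
    N.Sep L {χ | ev e χ = 1} := by
  intro χ hχ w hw hd hτ
  refine or_iff_not_imp_left.2 fun h0 u => ?_
  have h1 : ev (R.E (vw v w)) χ = 0 := by
    have h2 := not_not.1 h0
    rw [hN.Γ_eq, vw_nil, mul_one, hG.ev_star, map_eq_zero] at h2
    rw [hG.ev_E, h2]
  have hz' : 1 - z ∈ R.A := sub_mem R.A.one_mem hz
  have h2 : ev (star (vw v w) * e * vw v w) χ = 1 := (hN.τ_eq e he w χ hd).symm.trans hτ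
  have h3 : ev ((star (vw v w) * e * vw v w - star (vw v w) * e * R.E (vw v w)) * e * (1 - z)) χ
      = 0 := by
    rw [← mul_sub, mul_assoc (star _), mul_assoc (star _), mul_assoc (star _), h w hw, mul_zero,
      hG.ev_zero]
  rw [hG.ev_mul_right hz', hG.ev_mul_right he, hG.ev_sub, hG.ev_mul_right (R.E_mem _), h1, h2,
    show ev e χ = 1 from hχ, mul_zero, sub_zero, one_mul, one_mul] at h3
  have h4 : x = x * (1 - z) := by rw [mul_sub, hxz, mul_one, sub_zero]
  rw [hN.X_eq, vw_nil, mul_one, h4, ← mul_assoc, hG.ev_mul_right hz', h3, mul_zero]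

end Crest.Agent.R109
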