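import Crest.Agent.R109.RegBasic

/-! Row 109, task D1b: normalising partial isometries. -/

set_option autoImplicit false
set_option linter.unusedSectionVars false

noncomputable section

namespace Crest.Agent.R109

open Filter Topology
open scoped ComplexOrder ComplexConjugate Classical

universe u

variable {𝓜 : Type u} [CStarAlgebra 𝓜] [PartialOrder 𝓜] [StarOrderedRing 𝓜]

namespace WS

variable {W : WS 𝓜} {u v : 𝓜}

theorem Norm.of_proj {e : 𝓜} (he : e ∈ W.A) (hp : IsStarProjection e) : W.Norm e := by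
  have hs := hp.isSelfAdjoint.star_eq
  refine ⟨by rw [hs, hp.isIdempotentElem.eq, hp.isIdempotentElem.eq], fun a ha => ?_⟩
  rw [hs]
  exact ⟨mul_mem (mul_mem he ha) he, mul_mem (mul_mem he ha) he⟩

theorem Norm.one : W.Norm 1 := by
  exact Norm.of_proj W.A.one_mem (IsStarProjection.one 𝓜)

theorem Norm.star (hv : W.Norm v) : W.Norm (Star.star v) := by
  refine ⟨?_, fun a ha => ?_⟩
  · have h := congrArg Star.star hv.1
    rw [star_mul, star_mul, star_star, ← mul_assoc] at h
    rwa [star_star]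
  · rw [star_star]
    exact (hv.2 a ha).symm

theorem Norm.src_mem (hv : W.Norm v) : Star.star v * v ∈ W.A := by
  simpa using (hv.2 1 W.A.one_mem).1

theorem Norm.rng_mem (hv : W.Norm v) : v * Star.star v ∈ W.A := by
  simpa using (hv.2 1 W.A.one_mem).2

theorem Norm.src_proj (hv : W.Norm v) : IsStarProjection (Star.star v * v) := by
  refine ⟨?_, IsSelfAdjoint.star_mul_self v⟩
  rw [IsIdempotentElem, mul_assoc, ← mul_assoc v, hv.1]

theorem Norm.rng_proj (hv : W.Norm v) : IsStarProjection (v * Star.star v) := by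
  refine ⟨?_, IsSelfAdjoint.mul_star_self v⟩
  rw [IsIdempotentElem, ← mul_assoc, hv.1]

theorem Norm.norm_le (hv : W.Norm v) : ‖v‖ ≤ 1 := by
  have h := hv.src_proj.norm_le
  rw [CStarRing.norm_star_mul_self] at h
  nlinarith [norm_nonneg v]

theorem Norm.mul_left_eq (hv : W.Norm v) {a : 𝓜} (ha : a ∈ W.A) :
    a * v = v * (Star.star v * a * v) := by
  rw [← mul_assoc, ← mul_assoc, W.comm _ hv.rng_mem a ha, mul_assoc, hv.1]

theorem Norm.mul_right_eq (hv : W.Norm v) {a : 𝓜} (ha : a ∈ W.A) :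
    v * a = (v * a * Star.star v) * v := by
  rw [mul_assoc (v * a), mul_assoc v a, W.comm a ha _ hv.src_mem, ← mul_assoc, ← mul_assoc, hv.1]

theorem Norm.conj_mul (hv : W.Norm v) {a b : 𝓜} (ha : a ∈ W.A) :
    Star.star v * (a * b) * v = (Star.star v * a * v) * (Star.star v * b * v) := by
  have h := hv.star.mul_right_eq ha
  rw [star_star] at h
  rw [← mul_assoc, ← mul_assoc, ← mul_assoc, ← h]

theorem Norm.mul (hu : W.Norm u) (hv : W.Norm v) : W.Norm (u * v) := by
  refine ⟨?_, fun a ha => ⟨?_, ?_⟩⟩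
  · have h := W.comm _ hv.rng_mem _ hu.src_mem
    calc u * v * Star.star (u * v) * (u * v)
        = u * (v * Star.star v * (Star.star u * u)) * v := by simp only [star_mul, mul_assoc]
      _ = u * Star.star u * u * (v * Star.star v * v) := by rw [h]; simp only [mul_assoc]
      _ = u * v := by rw [hu.1, hv.1]
  · have h := (hv.2 _ (hu.2 a ha).1).1
    simpa only [star_mul, mul_assoc] using h
  · have h := (hu.2 _ (hv.2 a ha).2).2
    simpa only [star_mul, mul_assoc] using h

theorem Norm.vw {G : Type*} {v : G → 𝓜} (hv : ∀ g, W.Norm (v g)) (w : List G) :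
    W.Norm (R109.vw v w) := by
  induction w with
  | nil => exact Norm.one
  | cons g w ih =>
    have h := (hv g).mul ih
    simpa only [R109.vw, List.map_cons, List.prod_cons] using h

/-- The pinching of a normalising partial isometry has its source projection in `A`. -/
theorem Norm.pinch_src (hv : W.Norm v) (P : Part W.A) :
    Star.star (P.pinch v) * P.pinch v ∈ W.A ∧
      IsStarProjection (Star.star (P.pinch v) * P.pinch v) := by
  have hc : ∀ b ∈ P.cells, Star.star v * b * v ∈ W.A := fun b hb => (hv.2 b (P.mem hb)).1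
  have hp : ∀ b ∈ P.cells, IsStarProjection (Star.star v * b * v) := fun b hb =>
    ⟨by rw [IsIdempotentElem, ← hv.conj_mul (P.mem hb), (P.proj hb).isIdempotentElem.eq],
      (P.proj hb).isSelfAdjoint.conjugate' v⟩
  have h1 : Star.star (P.pinch v) * P.pinch v = ∑ b ∈ P.cells, b * (Star.star v * b * v) := by
    rw [Part.pinch, star_sum, Finset.sum_mul_sum]
    refine Finset.sum_congr rfl fun b hb => ?_
    have hs := (P.proj hb).isSelfAdjoint.star_eq
    have hi := (P.proj hb).isIdempotentElem.eq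
    rw [Finset.sum_eq_single_of_mem b hb fun b' hb' hne => ?_]
    · calc Star.star (b * v * b) * (b * v * b) = b * (Star.star v * (b * b) * v * b) := by
            simp only [star_mul, hs, mul_assoc]
        _ = b * (Star.star v * b * v) := by
            rw [hi, W.comm _ (hc b hb) b (P.mem hb), ← mul_assoc, hi]
    · calc Star.star (b * v * b) * (b' * v * b') = b * Star.star v * (b * b') * v * b' := by
            simp only [star_mul, hs, mul_assoc]
        _ = 0 := by rw [P.orth hb hb' hne.symm, mul_zero, zero_mul, zero_mul]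
  rw [h1]
  refine ⟨sum_mem fun b hb => mul_mem (P.mem hb) (hc b hb), isStarProjection_sum _ _
    (fun b hb => W.proj_mul (P.mem hb) (hc b hb) (P.proj hb) (hp b hb)) fun b hb b' hb' hne => ?_⟩
  rw [W.comm _ (P.mem hb) _ (hc b hb), mul_assoc, ← mul_assoc b, P.orth hb hb' hne, zero_mul,
    mul_zero]

end WS

/-- A partial isometry is supported on its source projection. -/
theorem mul_src_eq {w : 𝓜} (h : IsStarProjection (star w * w)) : w * (star w * w) = w := by
  rw [← sub_eq_zero, ← neg_eq_zero, neg_sub, ← mul_one_sub, ← CStarRing.star_mul_self_eq_zero_iff,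
    star_mul, mul_assoc, ← mul_assoc (star w), mul_one_sub, h.isIdempotentElem.eq, sub_self,
    mul_zero]

theorem vw_nil {G : Type*} (v : G → 𝓜) : vw v [] = 1 := by
  rfl

theorem vw_cons {G : Type*} (v : G → 𝓜) (g : G) (w : List G) : vw v (g :: w) = v g * vw v w := by
  simp only [vw, List.map_cons, List.prod_cons]

theorem vw_append {G : Type*} (v : G → 𝓜) (w w' : List G) :
    vw v (w ++ w') = vw v w * vw v w' := by
  simp only [vw, List.map_append, List.prod_append]

namespace Reg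

variable (R : Reg 𝓜)

theorem E_conj {v : 𝓜} (hv : R.Norm v) (y : 𝓜) :
    R.E (star v * y * v) = star v * R.E y * v := by
  refine R.E_eq_of (hv.2 _ (R.E_mem y)).1 fun b hb => ?_
  have hc : ∀ a ∈ R.A, ∀ y, conjF R.ω v (a * y) = conjF R.ω v (y * a) := fun a ha y => by
    have h1 := hv.star.mul_right_eq ha
    rw [star_star] at h1
    rw [conjF_apply, conjF_apply, ← mul_assoc, h1, mul_assoc, mul_assoc,
      R.central _ (hv.2 a ha).1, mul_assoc (star v), mul_assoc y, ← hv.mul_left_eq ha]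
    simp only [mul_assoc]
  have h := ((R.normal_of_mem R.ω_mem).conjF v).apply_E hc (v * b * star v * y)
  have h2 := hv.star.mul_left_eq hb
  rw [star_star] at h2
  rw [R.E_mul_left (hv.2 b hb).2, conjF_apply, conjF_apply, ← mul_assoc (star v) _ (R.E y),
    ← mul_assoc (star v) _ y, ← h2] at h
  simpa only [mul_assoc] using h.symm

theorem E_swap {v : 𝓜} (hv : R.Norm v) (y : 𝓜) :
    R.E (y * v) = star v * R.E (v * y) * v := by
  have h1 : y * v = y * v * (star v * v) := by
    rw [mul_assoc y, ← mul_assoc v, hv.1]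
  rw [← R.E_conj hv, ← mul_assoc, mul_assoc _ y v, R.E_mul_left hv.src_mem,
    R.comm _ hv.src_mem _ (R.E_mem _), ← R.E_mul_right hv.src_mem, ← h1]

/-- The expectation of a normalising partial isometry is its restriction to a projection. -/
theorem E_norm {u : 𝓜} (hu : R.Norm u) :
    ∃ e ∈ R.A, IsStarProjection e ∧ R.E u = u * e ∧ star (R.E u) * R.E u = e ∧
      star u * u * e = e := by
  have hc := R.E_mem u
  have h1 : star u * R.E u ∈ R.A := by
    refine R.max _ fun a ha => ?_
    have h2 := hu.star.mul_left_eq ha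
    rw [star_star] at h2
    rw [← mul_assoc, h2, mul_assoc, ← R.E_mul_left (hu.2 a ha).2, ← hu.mul_right_eq ha,
      R.E_mul_right ha, mul_assoc]
  have h2 : star (R.E u) * R.E u = star u * R.E u := by
    rw [← R.E_star, ← R.E_mul_right hc, R.E_of_mem h1]
  have h3 : R.E u = u * (star u * R.E u) := by
    rw [← mul_assoc, ← R.E_mul_left hu.rng_mem, hu.1]
  have h4 : star u * u * (star u * R.E u) = star u * R.E u := by
    rw [mul_assoc, ← h3]
  have h5 : IsSelfAdjoint (star u * R.E u) := h2 ▸ IsSelfAdjoint.star_mul_self _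
  refine ⟨star u * R.E u, h1, ⟨?_, h5⟩, h3, h2, h4⟩
  have h6 : star (R.E u) = star u * R.E u * star u := by
    conv_lhs => rw [h3, star_mul, h5.star_eq]
  rw [IsIdempotentElem]
  conv_rhs => rw [← h2, h6, mul_assoc]

theorem IsG.mono {R : Reg 𝓜} {K K' : ℝ} {v : 𝓜} (h : R.IsG K v) (hK : K ≤ K') : R.IsG K' v := by
  refine ⟨h.1, fun a ha h0 => ?_⟩
  have h1 := mul_le_mul_of_nonneg_right hK (pos_re_nonneg R.ω h0)
  exact ⟨(h.2 a ha h0).1.trans h1, (h.2 a ha h0).2.trans h1⟩

theorem IsG.star {R : Reg 𝓜} {K : ℝ} {v : 𝓜} (h : R.IsG K v) : R.IsG K (Star.star v) := by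
  refine ⟨h.1.star, fun a ha h0 => ?_⟩
  rw [star_star]
  exact (h.2 a ha h0).symm

theorem IsG.mul {R : Reg 𝓜} {K K' : ℝ} {u v : 𝓜} (hK : 0 ≤ K) (hK' : 0 ≤ K') (h : R.IsG K u)
    (h' : R.IsG K' v) : R.IsG (K * K') (u * v) := by
  refine ⟨h.1.mul h'.1, fun a ha h0 => ⟨?_, ?_⟩⟩
  · have h1 := (h.2 _ (h'.1.2 a ha).2 (star_right_conjugate_nonneg h0 v)).1
    have h2 := mul_le_mul_of_nonneg_left (h'.2 a ha h0).1 hK
    have h3 : u * v * a * Star.star (u * v) = u * (v * a * Star.star v) * Star.star u := by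
      simp only [star_mul, mul_assoc]
    rw [h3, mul_assoc K]
    exact h1.trans h2
  · have h1 := (h'.2 _ (h.1.2 a ha).1 (star_left_conjugate_nonneg h0 u)).2
    have h2 := mul_le_mul_of_nonneg_left (h.2 a ha h0).2 hK'
    have h3 : Star.star (u * v) * a * (u * v) = Star.star v * (Star.star u * a * u) * v := by
      simp only [star_mul, mul_assoc]
    rw [h3, mul_comm K, mul_assoc K']
    exact h1.trans h2

theorem isG_proj {e : 𝓜} (he : e ∈ R.A) (hp : IsStarProjection e) : R.IsG 1 e := by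
  refine ⟨WS.Norm.of_proj he hp, fun a _ h0 => ?_⟩
  rw [hp.isSelfAdjoint.star_eq, one_mul]
  exact ⟨R.ω_proj_conj_le he hp h0, R.ω_proj_conj_le he hp h0⟩

theorem InG.exists_one_le {R : Reg 𝓜} {v : 𝓜} (h : R.InG v) : ∃ K : ℝ, 1 ≤ K ∧ R.IsG K v := by
  obtain ⟨K, hK⟩ := h
  exact ⟨max 1 K, le_max_left _ _, hK.mono (le_max_right _ _)⟩

theorem inG_one : R.InG 1 := by
  exact ⟨1, R.isG_proj R.A.one_mem (IsStarProjection.one 𝓜)⟩

theorem InG.star {R : Reg 𝓜} {v : 𝓜} (h : R.InG v) : R.InG (Star.star v) := by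
  obtain ⟨K, hK⟩ := h
  exact ⟨K, hK.star⟩

theorem InG.mul {R : Reg 𝓜} {u v : 𝓜} (h : R.InG u) (h' : R.InG v) : R.InG (u * v) := by
  obtain ⟨K, h1, hK⟩ := h.exists_one_le
  obtain ⟨K', h1', hK'⟩ := h'.exists_one_le
  exact ⟨K * K', hK.mul (by linarith) (by linarith) hK'⟩

theorem IsG.n2_mul_right {R : Reg 𝓜} {K : ℝ} {v : 𝓜} (h : R.IsG K v) (y : 𝓜) :
    n2 R.ω (y * v) ≤ Real.sqrt K * n2 R.ω y := by
  have h0 := star_mul_self_nonneg y
  have h1 := (h.2 _ (R.E_mem (Star.star y * y)) (R.E_nonneg h0)).2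
  rw [← R.E_conj h.1, R.ω_E, R.ω_E] at h1
  rw [n2, n2, ← Real.sqrt_mul' _ (pos_re_nonneg R.ω h0)]
  refine Real.sqrt_le_sqrt ?_
  simpa only [star_mul, mul_assoc] using h1

theorem mem_N0_of_mem_A {a : 𝓜} (ha : a ∈ R.A) : a ∈ R.N0 := by
  exact Submodule.subset_span ⟨1, a, R.inG_one, ha, (one_mul a).symm⟩

theorem mem_N0_of_inG {v : 𝓜} (hv : R.InG v) : v ∈ R.N0 := by
  exact Submodule.subset_span ⟨v, 1, hv, R.A.one_mem, (mul_one v).symm⟩

theorem N0_mul {y y' : 𝓜} (h : y ∈ R.N0) (h' : y' ∈ R.N0) : y * y' ∈ R.N0 := by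
  induction h using Submodule.span_induction with
  | mem x hx =>
    obtain ⟨v, a, hv, ha, rfl⟩ := hx
    induction h' using Submodule.span_induction with
    | mem x' hx' =>
      obtain ⟨v', a', hv', ha', rfl⟩ := hx'
      have hn : R.Norm v' := hv'.choose_spec.1
      refine Submodule.subset_span ⟨v * v', star v' * a * v' * a', hv.mul hv',
        mul_mem (hn.2 a ha).1 ha', ?_⟩
      rw [mul_assoc v a, ← mul_assoc a, hn.mul_left_eq ha]
      simp only [mul_assoc]
    | zero => rw [mul_zero]; exact zero_mem _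
    | add x z _ _ hx hz => rw [mul_add]; exact add_mem hx hz
    | smul c x _ hx => rw [mul_smul_comm]; exact Submodule.smul_mem _ c hx
  | zero => rw [zero_mul]; exact zero_mem _
  | add x z _ _ hx hz => rw [add_mul]; exact add_mem hx hz
  | smul c x _ hx => rw [smul_mul_assoc]; exact Submodule.smul_mem _ c hx

theorem N0_star {y : 𝓜} (h : y ∈ R.N0) : star y ∈ R.N0 := by
  induction h using Submodule.span_induction with
  | mem x hx =>
    obtain ⟨v, a, hv, ha, rfl⟩ := hx
    rw [star_mul]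
    exact R.N0_mul (R.mem_N0_of_mem_A (star_mem ha)) (R.mem_N0_of_inG hv.star)
  | zero => rw [star_zero]; exact zero_mem _
  | add x z _ _ hx hz => rw [star_add]; exact add_mem hx hz
  | smul c x _ hx => rw [star_smul]; exact Submodule.smul_mem _ _ hx

theorem n2_mul_right_N0 {a : 𝓜} (ha : a ∈ R.N0) :
    ∃ C : ℝ, 0 ≤ C ∧ ∀ y, n2 R.ω (y * a) ≤ C * n2 R.ω y := by
  induction ha using Submodule.span_induction with
  | mem x hx =>
    obtain ⟨v, a, ⟨K, hv⟩, ha, rfl⟩ := hx
    refine ⟨‖a‖ * Real.sqrt K, by positivity, fun y => ?_⟩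
    rw [← mul_assoc, mul_assoc ‖a‖]
    exact (R.n2_mul_right_A ha _).trans
      (mul_le_mul_of_nonneg_left (hv.n2_mul_right y) (norm_nonneg a))
  | zero => exact ⟨0, le_rfl, fun y => by rw [mul_zero, n2_zero, zero_mul]⟩
  | add x z _ _ hx hz =>
    obtain ⟨C, hC, hx⟩ := hx
    obtain ⟨C', hC', hz⟩ := hz
    refine ⟨C + C', add_nonneg hC hC', fun y => ?_⟩
    rw [mul_add, add_mul]
    exact (n2_add_le _ _ _).trans (add_le_add (hx y) (hz y))
  | smul c x _ hx =>
    obtain ⟨C, hC, hx⟩ := hx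
    refine ⟨‖c‖ * C, by positivity, fun y => ?_⟩
    rw [mul_smul_comm, n2_smul, mul_assoc]
    exact mul_le_mul_of_nonneg_left (hx y) (norm_nonneg c)

/-- Elements of `N0` have finite propagation along a symmetric family in the groupoid. -/
theorem N0_rep {y : 𝓜} (hy : y ∈ R.N0) :
    ∃ (n : ℕ) (inv : Fin n → Fin n) (v a : Fin n → 𝓜) (K : ℝ), 1 ≤ K ∧ (∀ g, inv (inv g) = g) ∧
      (∀ g, v (inv g) = star (v g)) ∧ (∀ g, R.IsG K (v g)) ∧ (∀ g, a g ∈ R.A) ∧
      y = ∑ g, v g * a g := by
  obtain ⟨n, c, x, rfl⟩ := Submodule.mem_span_set'.1 hy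
  choose v a hv ha hx using fun g => (x g).2
  choose K hK1 hK using fun g => (hv g).exists_one_le
  have hK0 : ∀ g, 0 ≤ K g := fun g => zero_le_one.trans (hK1 g)
  have hS : 0 ≤ ∑ g, K g := Finset.sum_nonneg fun g _ => hK0 g
  have hG : ∀ g, R.IsG (1 + ∑ g, K g) (v g) := fun g => (hK g).mono (by
    have := Finset.single_le_sum (fun g _ => hK0 g) (Finset.mem_univ g)
    linarith)
  refine ⟨n + n, fun g => finSumFinEquiv (finSumFinEquiv.symm g).swap,
    fun g => Sum.elim v (fun g => star (v g)) (finSumFinEquiv.symm g),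
    fun g => Sum.elim (fun g => c g • a g) (fun _ => 0) (finSumFinEquiv.symm g),
    1 + ∑ g, K g, by linarith, fun g => ?_, fun g => ?_, fun g => ?_, fun g => ?_, ?_⟩
  · simp only [Equiv.symm_apply_apply, Sum.swap_swap, Equiv.apply_symm_apply]
  · simp only [Equiv.symm_apply_apply]
    rcases finSumFinEquiv.symm g with g | g
    · rfl
    · exact (star_star _).symm
  · beta_reduce
    rcases finSumFinEquiv.symm g with g | g
    · exact hG g
    · exact (hG g).star
  · beta_reduce
    rcases finSumFinEquiv.symm g with g | g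
    · exact R.A.smul_mem (ha g) (c g)
    · exact R.A.zero_mem
  · rw [Equiv.sum_comp finSumFinEquiv.symm fun s : Fin n ⊕ Fin n =>
      Sum.elim v (fun g => star (v g)) s * Sum.elim (fun g => c g • a g) (fun _ => 0) s,
      Fintype.sum_sum_type]
    simp only [Sum.elim_inl, Sum.elim_inr, mul_zero, Finset.sum_const_zero, add_zero,
      mul_smul_comm, hx]

/-- The supremum of finitely many projections of `A`. -/
theorem exists_proj_sup {α : Type*} (T : Finset α) (p : α → 𝓜)
    (hp : ∀ u ∈ T, p u ∈ R.A ∧ IsStarProjection (p u)) :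
    ∃ z ∈ R.A, IsStarProjection z ∧ (R.ω z).re ≤ ∑ u ∈ T, (R.ω (p u)).re ∧
      ∀ u ∈ T, p u * (1 - z) = 0 := by
  induction T using Finset.cons_induction with
  | empty => exact ⟨0, R.A.zero_mem, IsStarProjection.zero 𝓜, by simp, by simp⟩
  | cons t T ht ih =>
    obtain ⟨z, hz, hzp, hω, hz0⟩ := ih fun u hu => hp u (Finset.mem_cons_of_mem hu)
    obtain ⟨hq, hqp⟩ := hp t (Finset.mem_cons_self t T)
    have h1 : 1 - z ∈ R.A := sub_mem R.A.one_mem hz
    have h2 : 1 - p t ∈ R.A := sub_mem R.A.one_mem hq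
    refine ⟨1 - (1 - z) * (1 - p t), sub_mem R.A.one_mem (mul_mem h1 h2),
      (R.proj_mul h1 h2 hzp.one_sub hqp.one_sub).one_sub, ?_, fun u hu => ?_⟩
    · have h3 : 1 - (1 - z) * (1 - p t) = p t + z - z * p t := by noncomm_ring
      have h4 := pos_re_nonneg R.ω (R.proj_mul hz hq hzp hqp).nonneg
      rw [h3, map_sub, map_add, Finset.sum_cons, Complex.sub_re, Complex.add_re]
      linarith
    · rw [sub_sub_cancel]
      rcases Finset.mem_cons.1 hu with rfl | hu
      · rw [R.comm _ h1 _ h2, ← mul_assoc, mul_one_sub (p u), hqp.isIdempotentElem.eq,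
          sub_self, zero_mul]
      · rw [← mul_assoc, hz0 u hu, zero_mul]

/-- Fine partitions separate points from their images, outside a small projection. -/
theorem exists_classes (T : Finset 𝓜) (hT : ∀ u ∈ T, R.Norm u) {δ : ℝ} (hδ : 0 < δ) :
    ∃ (P : Part R.A) (z : 𝓜), z ∈ R.A ∧ IsStarProjection z ∧ (R.ω z).re ≤ δ ∧
      ∀ u ∈ T, ∀ e ∈ P.cells, e * (u - R.E u) * e * (1 - z) = 0 := by
  have hn : ∀ u ∈ T, R.Norm (u - R.E u) := fun u hu => by
    obtain ⟨e, he, hp, h1, -, -⟩ := R.E_norm (hT u hu)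
    rw [h1, ← mul_one_sub]
    exact (hT u hu).mul (WS.Norm.of_proj (sub_mem R.A.one_mem he) hp.one_sub)
  have hη : 0 < Real.sqrt (δ / (T.card + 1)) := Real.sqrt_pos.2 (by positivity)
  obtain ⟨P, hP⟩ := ((Finset.eventually_all T).2 fun u _ =>
    R.eventually_n2_pinch (u - R.E u) hη).exists
  obtain ⟨z, hz, hzp, hω, hz0⟩ := R.exists_proj_sup T
    (fun u => star (P.pinch (u - R.E u)) * P.pinch (u - R.E u))
    fun u hu => (hn u hu).pinch_src P
  refine ⟨P, z, hz, hzp, hω.trans ?_, fun u hu e he => ?_⟩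
  · have h1 : ∀ u ∈ T, (R.ω (star (P.pinch (u - R.E u)) * P.pinch (u - R.E u))).re ≤
        δ / (T.card + 1) := fun u hu => by
      have h2 := hP u hu
      rw [R.E_sub, R.E_E, sub_self, sub_zero] at h2
      exact (Real.sqrt_le_sqrt_iff (by positivity)).1 h2
    refine (Finset.sum_le_card_nsmul _ _ _ h1).trans ?_
    rw [nsmul_eq_mul, mul_div_assoc', div_le_iff₀ (by positivity)]
    nlinarith
  · have h1 := (P.paving.mul_pinch ⟨e, he⟩ (u - R.E u)).1
    rw [← P.pinch_eq] at h1
    rw [← h1, mul_assoc, ← mul_src_eq ((hn u hu).pinch_src P).2, mul_assoc, hz0 u hu,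
      mul_zero, mul_zero]

end Reg

end Crest.Agent.R109
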