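import Mathlib

/-! Row 109, task D5a: combinatorial tools for index patterns. -/

set_option autoImplicit false
set_option linter.unusedSectionVars false

noncomputable section

namespace Crest.Agent.R109.Pat

open Finset

variable {κ : Type*} [Fintype κ] [DecidableEq κ] {N : ℕ}

/-! ### Test against products of contractions -/

/-- Multiply the weight at the position `p` by `ε`. -/
def mulS (s : ℕ → κ → ℂ) (p : ℕ) (ε : κ → ℂ) : ℕ → κ → ℂ :=
  fun q γ => if q = p then s q γ * ε γ else s q γ

omit [Fintype κ] [DecidableEq κ] in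
theorem prod_mulS (s : ℕ → κ → ℂ) (p : Fin N) (ε : κ → ℂ) (a : Fin N → κ) :
    ∏ q : Fin N, mulS s p ε q (a q) = (∏ q : Fin N, s q (a q)) * ε (a p) := by
  have : ∀ q : Fin N, mulS s p ε q (a q) = s q (a q) * if q = p then ε (a q) else 1 := by
    intro q
    simp only [mulS, Fin.val_inj]
    split_ifs <;> simp
  simp only [this, prod_mul_distrib]
  simp

omit [Fintype κ] [DecidableEq κ] in
theorem norm_mulS_le {s : ℕ → κ → ℂ} (hs : ∀ q γ, ‖s q γ‖ ≤ 1) (p : ℕ) {ε : κ → ℂ}
    (hε : ∀ γ, ‖ε γ‖ ≤ 1) (q : ℕ) (γ : κ) : ‖mulS s p ε q γ‖ ≤ 1 := by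
  unfold mulS
  split_ifs
  · rw [norm_mul]
    exact mul_le_one₀ (hs q γ) (norm_nonneg _) (hε γ)
  · exact hs q γ

/-- All tests against products of contractions are bounded by `c`. -/
def TB (W : (Fin N → κ) → ℂ) (c : ℝ) : Prop :=
  ∀ s : ℕ → κ → ℂ, (∀ q γ, ‖s q γ‖ ≤ 1) → ‖∑ a, W a * ∏ q : Fin N, s q (a q)‖ ≤ c

/-- A sign. -/
def sg (b : Bool) : ℂ := if b then 1 else -1

theorem sum_sg (α β : κ) : ∑ ε : κ → Bool, sg (ε α) * sg (ε β) =
    Fintype.card (κ → Bool) * if α = β then 1 else 0 := by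
  split_ifs with h
  · subst h
    have : ∀ ε : κ → Bool, sg (ε α) * sg (ε α) = 1 := fun ε => by cases ε α <;> simp [sg]
    simp only [this, sum_const, card_univ, nsmul_eq_mul]
  · have hi : Function.Involutive fun ε : κ → Bool => Function.update ε α (!ε α) := fun ε => by
      simp
    have h1 := Equiv.sum_comp hi.toPerm fun ε : κ → Bool => sg (ε α) * sg (ε β)
    have h2 : ∀ ε : κ → Bool, sg (hi.toPerm _ ε α) * sg (hi.toPerm _ ε β) =
        -(sg (ε α) * sg (ε β)) := by
      intro ε
      simp only [Function.Involutive.coe_toPerm, Function.update_self,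
        Function.update_of_ne (Ne.symm h)]
      cases ε α <;> cases ε β <;> simp [sg]
    simp only [h2, sum_neg_distrib] at h1
    rw [mul_zero]
    linear_combination (-1 / 2 : ℂ) * h1

theorem TB.delta {W : (Fin N → κ) → ℂ} {c : ℝ} (h : TB W c) (p q : Fin N) :
    TB (fun a => W a * if a p = a q then 1 else 0) c := by
  intro s hs
  have hc : (0 : ℝ) < Fintype.card (κ → Bool) := by exact_mod_cast Fintype.card_pos
  have h1 : (Fintype.card (κ → Bool) : ℂ) *
      ∑ a : Fin N → κ, (W a * if a p = a q then 1 else 0) * ∏ r : Fin N, s r (a r) =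
      ∑ ε : κ → Bool, ∑ a : Fin N → κ, W a *
        ∏ r : Fin N, mulS (mulS s p fun γ => sg (ε γ)) q (fun γ => sg (ε γ)) r (a r) := by
    rw [sum_comm, mul_sum]
    refine sum_congr rfl fun a _ => ?_
    simp only [prod_mulS, mul_assoc, ← mul_sum, sum_sg]
    ring
  have hsg : ∀ (ε : κ → Bool) γ, ‖sg (ε γ)‖ ≤ 1 := fun ε γ => by cases ε γ <;> simp [sg]
  refine le_of_mul_le_mul_left ?_ hc
  have h2 := congrArg norm h1
  rw [norm_mul, Complex.norm_natCast] at h2
  rw [h2]
  refine (norm_sum_le _ _).trans ((sum_le_sum fun ε _ =>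
    h _ (norm_mulS_le (norm_mulS_le hs p (hsg ε)) q (hsg ε))).trans ?_)
  rw [sum_const, card_univ, nsmul_eq_mul]

theorem TB.sub {W W' : (Fin N → κ) → ℂ} {c c' : ℝ} (h : TB W c) (h' : TB W' c') :
    TB (fun a => W a - W' a) (c + c') := by
  intro s hs
  simp only [sub_mul, sum_sub_distrib]
  exact (norm_sub_le _ _).trans (add_le_add (h s hs) (h' s hs))

theorem TB.mono {W : (Fin N → κ) → ℂ} {c c' : ℝ} (h : TB W c) (hc : c ≤ c') : TB W c' :=
  fun s hs => (h s hs).trans hc

theorem TB.prod {W : (Fin N → κ) → ℂ} {c : ℝ} (h : TB W c) (hc : 0 ≤ c) (a₀ : Fin N → κ)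
    (G : Finset (Fin N × Fin N)) :
    TB (fun a => W a * ∏ z ∈ G, if (a z.1 = a z.2 ↔ a₀ z.1 = a₀ z.2) then 1 else 0)
      (2 ^ G.card * c) := by
  induction G using Finset.induction_on with
  | empty => simpa using h
  | insert z G hz ih =>
    simp only [prod_insert hz, card_insert_of_notMem hz, pow_succ]
    have h0 : 0 ≤ 2 ^ G.card * c := by positivity
    by_cases h1 : a₀ z.1 = a₀ z.2
    · refine TB.mono ?_ (show 2 ^ G.card * c ≤ _ by linarith)
      convert ih.delta z.1 z.2 using 2 with a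
      simp only [h1, iff_true]
      ring
    · refine TB.mono ?_ (show 2 ^ G.card * c + 2 ^ G.card * c ≤ _ by linarith)
      convert ih.sub (ih.delta z.1 z.2) using 2 with a
      simp only [h1, iff_false]
      split_ifs <;> simp

/-- The sum over all index functions with the pattern of `a₀`. -/
theorem TB.pattern {W : (Fin N → κ) → ℂ} {c : ℝ} (h : TB W c) (hc : 0 ≤ c) (a₀ : Fin N → κ) :
    ‖∑ a with ∀ p q, a p = a q ↔ a₀ p = a₀ q, W a‖ ≤ 2 ^ (N * N) * c := by
  have h1 := h.prod hc a₀ univ (fun _ _ => 1) (by simp)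
  rw [card_univ, Fintype.card_prod, Fintype.card_fin] at h1
  convert h1 using 2
  rw [sum_filter]
  refine sum_congr rfl fun a _ => ?_
  simp [prod_ite_zero]

/-! ### Counting -/

omit [Fintype κ] in
theorem card_first (a : Fin N → κ) :
    (univ.filter fun p => ∀ q, q < p → a q ≠ a p).card = (univ.image a).card := by
  refine card_bij (fun p _ => a p) (fun p _ => mem_image_of_mem a (mem_univ p))
    (fun p hp q hq h => ?_) fun γ hγ => ?_
  · rcases lt_trichotomy p q with h1 | h1 | h1
    · exact absurd h ((mem_filter.1 hq).2 p h1)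
    · exact h1
    · exact absurd h.symm ((mem_filter.1 hp).2 q h1)
  · obtain ⟨p₀, -, h₀⟩ := mem_image.1 hγ
    obtain ⟨p, hp, hmin⟩ := exists_min_image (univ.filter fun p => a p = γ) id
      ⟨p₀, by simpa using h₀⟩
    have hp' : a p = γ := (mem_filter.1 hp).2
    refine ⟨p, mem_filter.2 ⟨mem_univ _, fun q hq h => ?_⟩, hp'⟩
    exact absurd (hmin q (by simp [h, hp'])) (not_le.2 hq)

omit [Fintype κ] in
theorem card_last (a : Fin N → κ) :
    (univ.filter fun p => ∀ q, p < q → a q ≠ a p).card = (univ.image a).card := by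
  refine card_bij (fun p _ => a p) (fun p _ => mem_image_of_mem a (mem_univ p))
    (fun p hp q hq h => ?_) fun γ hγ => ?_
  · rcases lt_trichotomy p q with h1 | h1 | h1
    · exact absurd h.symm ((mem_filter.1 hp).2 q h1)
    · exact h1
    · exact absurd h ((mem_filter.1 hq).2 p h1)
  · obtain ⟨p₀, -, h₀⟩ := mem_image.1 hγ
    obtain ⟨p, hp, hmax⟩ := exists_max_image (univ.filter fun p => a p = γ) id
      ⟨p₀, by simpa using h₀⟩
    have hp' : a p = γ := (mem_filter.1 hp).2
    refine ⟨p, mem_filter.2 ⟨mem_univ _, fun q hq h => ?_⟩, hp'⟩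
    exact absurd (hmax q (by simp [h, hp'])) (not_le.2 hq)

omit [Fintype κ] in
theorem card_image_congr {a b : Fin N → κ} (h : ∀ p q, a p = a q ↔ b p = b q) :
    (univ.image a).card = (univ.image b).card := by
  rw [← card_first, ← card_first]
  simp only [ne_eq, h]

omit [Fintype κ] in
/-- With few values there is an edge whose left end returns later and whose right end has
occurred before. -/
theorem exists_edge {n : ℕ} (a : Fin (n + 1) → κ) (h : 2 * (univ.image a).card < n + 2) :
    ∃ (i : Fin n) (j j' : Fin (n + 1)), i.castSucc < j ∧ j' < i.succ ∧ a i.castSucc = a j ∧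
      a j' = a i.succ := by
  by_contra hne
  have h1 : (univ.filter fun i : Fin n => ∀ q, i.castSucc < q → a q ≠ a i.castSucc).card + 1 ≤
      (univ.image a).card := by
    rw [← card_last, ← card_image_of_injective _ (Fin.castSucc_injective n),
      ← card_insert_of_notMem (a := Fin.last n) (by simp [Fin.castSucc_ne_last])]
    refine card_le_card fun p hp => ?_
    rcases mem_insert.1 hp with rfl | hp
    · simp [Fin.le_last]
    · obtain ⟨i, hi, rfl⟩ := mem_image.1 hp
      simpa using hi
  have h2 : (univ.filter fun i : Fin n => ∀ q, q < i.succ → a q ≠ a i.succ).card + 1 ≤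
      (univ.image a).card := by
    rw [← card_first, ← card_image_of_injective _ (Fin.succ_injective n),
      ← card_insert_of_notMem (a := 0) (by simp [Fin.succ_ne_zero])]
    refine card_le_card fun p hp => ?_
    rcases mem_insert.1 hp with rfl | hp
    · simp
    · obtain ⟨i, hi, rfl⟩ := mem_image.1 hp
      simpa using hi
  have h3 : (univ : Finset (Fin n)) ⊆
      (univ.filter fun i : Fin n => ∀ q, i.castSucc < q → a q ≠ a i.castSucc) ∪
      (univ.filter fun i : Fin n => ∀ q, q < i.succ → a q ≠ a i.succ) := by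
    intro i _
    by_contra hi
    simp only [mem_union, mem_filter, mem_univ, true_and, not_or, not_forall, not_not] at hi
    obtain ⟨⟨j, hj, hj'⟩, j', hk, hk'⟩ := hi
    exact hne ⟨i, j, j', hj, hk, hj'.symm, hk'⟩
  have h4 := (card_le_card h3).trans (card_union_le _ _)
  rw [card_univ, Fintype.card_fin] at h4
  omega

/-! ### Products over intervals -/

section Pr
variable {M : Type*} [Monoid M]

/-- The product `w a * ⋯ * w (a + l - 1)`. -/
def pr (w : ℕ → M) (a l : ℕ) : M := ((List.range' a l).map w).prod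

theorem pr_add (w : ℕ → M) (a l l' : ℕ) : pr w a (l + l') = pr w a l * pr w (a + l) l' := by
  rw [pr, ← List.range'_append_1, List.map_append, List.prod_append]
  rfl

theorem pr_one (w : ℕ → M) (a : ℕ) : pr w a 1 = w a := by simp [pr]

theorem pr_congr {w w' : ℕ → M} {a l : ℕ} (h : ∀ p, a ≤ p → p < a + l → w p = w' p) :
    pr w a l = pr w' a l := by
  unfold pr
  rw [List.map_congr_left fun p hp => h p (List.mem_range'_1.1 hp).1 (List.mem_range'_1.1 hp).2]

theorem prod_ofFn_eq_pr (w : ℕ → M) (l : ℕ) : (List.ofFn fun p : Fin l => w p).prod = pr w 0 l := by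
  rw [pr, ← List.range_eq_range']
  congr 1
  apply List.ext_getElem <;> simp

/-- Insert a factor after the position `p`. -/
def ins (w : ℕ → M) (p : ℕ) (f : M) : ℕ → M := fun q => if q = p then w q * f else w q

theorem pr_ins_of_lt (w : ℕ → M) {p a : ℕ} (h : p < a) (f : M) (l : ℕ) :
    pr (ins w p f) a l = pr w a l :=
  pr_congr fun q h1 _ => if_neg (by omega)

theorem pr_ins (w : ℕ → M) {p l : ℕ} (h : p < l) (f : M) :
    pr (ins w p f) 0 l = pr w 0 (p + 1) * f * pr w (p + 1) (l - (p + 1)) := by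
  obtain ⟨r, rfl⟩ : ∃ r, l = p + 1 + r := ⟨l - (p + 1), by omega⟩
  rw [pr_add, pr_add, pr_add, pr_one, pr_one, zero_add, zero_add,
    pr_ins_of_lt _ (Nat.lt_succ_self p), Nat.add_sub_cancel_left,
    pr_congr (w := ins w p f) (w' := w) fun q _ h2 => if_neg (by omega)]
  simp [ins, mul_assoc]

end Pr

theorem norm_pr_le {M : Type*} [NormedRing M] (h1 : ‖(1 : M)‖ ≤ 1) {w : ℕ → M} {K : ℝ}
    (hK : 1 ≤ K) (h : ∀ p, ‖w p‖ ≤ K) (a : ℕ) {l L : ℕ} (hl : l ≤ L) : ‖pr w a l‖ ≤ K ^ L := by
  refine le_trans ?_ (pow_le_pow_right₀ hK hl)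
  clear hl
  induction l with
  | zero => simpa [pr] using h1
  | succ l ih =>
    rw [pr_add, pr_one, pow_succ]
    exact (norm_mul_le _ _).trans (mul_le_mul ih (h _) (norm_nonneg _) (by positivity))

end Crest.Agent.R109.Pat
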