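import Crest.Agent.R109.RegBasic
import Crest.Agent.R109.PatternAux

/-! Row 109, task D5a: index patterns with few blocks are small. -/

set_option autoImplicit false
set_option linter.unusedSectionVars false

noncomputable section

namespace Crest.Agent.R109

open Filter Topology
open scoped ComplexOrder ComplexConjugate Classical

universe u

variable {𝓜 : Type u} [CStarAlgebra 𝓜] [PartialOrder 𝓜] [StarOrderedRing 𝓜]

/-- `e₀ x e₁ x ⋯ x eₙ`. -/
def chain (x : 𝓜) (l : List 𝓜) : 𝓜 := (l.intersperse x).prod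

theorem chain_nil (x : 𝓜) : chain x [] = 1 := by
  simp [chain]

theorem chain_singleton (x e : 𝓜) : chain x [e] = e := by
  simp [chain]

theorem chain_cons_cons (x e e' : 𝓜) (l : List 𝓜) :
    chain x (e :: e' :: l) = e * x * chain x (e' :: l) := by
  simp [chain, mul_assoc]

theorem chain_append (x : 𝓜) {l l' : List 𝓜} (h : l ≠ []) (h' : l' ≠ []) :
    chain x (l ++ l') = chain x l * x * chain x l' := by
  induction l with
  | nil => exact absurd rfl h
  | cons a l ih =>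
    cases l with
    | nil =>
      obtain ⟨b, l', rfl⟩ := List.exists_cons_of_ne_nil h'
      rw [List.singleton_append, chain_cons_cons, chain_singleton]
    | cons b l =>
      have := ih (by simp)
      rw [List.cons_append] at this
      rw [List.cons_append, List.cons_append, chain_cons_cons, chain_cons_cons, this]
      simp only [mul_assoc]

namespace Pat

theorem chain_cons (x e : 𝓜) (l : List 𝓜) : chain x (e :: l) = e * (l.map (x * ·)).prod := by
  induction l generalizing e with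
  | nil => simp [chain_singleton]
  | cons b l ih => rw [chain_cons_cons, ih, List.map_cons, List.prod_cons, mul_assoc, mul_assoc]

/-- The factor in front of the position `p`. -/
def fr (x : 𝓜) (p : ℕ) : 𝓜 := if p = 0 then 1 else x

theorem chain_ofFn (x : 𝓜) {n : ℕ} (v : Fin (n + 1) → 𝓜) :
    chain x (List.ofFn v) = (List.ofFn fun p : Fin (n + 1) => fr x p * v p).prod := by
  rw [List.ofFn_succ, chain_cons, List.ofFn_succ, List.prod_cons, List.map_ofFn]
  simp [fr, Function.comp_def]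

theorem norm_one_le' : ‖(1 : 𝓜)‖ ≤ 1 := (IsStarProjection.one 𝓜).norm_le

variable {κ : Type u} [Fintype κ] [DecidableEq κ] {A : StarSubalgebra ℂ 𝓜} {e : κ → 𝓜}

/-- The function `s` of the partition. -/
def U (e : κ → 𝓜) (s : κ → ℂ) : 𝓜 := ∑ γ, s γ • e γ

theorem e_mul_e (he : IsPaving A e) (α : κ) : e α * e α = e α := (he.1 α).2.isIdempotentElem.eq

theorem star_e (he : IsPaving A e) (α : κ) : star (e α) = e α := (he.1 α).2.isSelfAdjoint.star_eq

theorem U_mul_e (he : IsPaving A e) (s : κ → ℂ) (α : κ) : U e s * e α = s α • e α := by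
  rw [U, Finset.sum_mul, Finset.sum_eq_single α (fun γ _ h => by
    rw [smul_mul_assoc, he.2.1 γ α h, smul_zero]) (by simp), smul_mul_assoc, e_mul_e he]

theorem e_mul_U (he : IsPaving A e) (s : κ → ℂ) (α : κ) : e α * U e s = s α • e α := by
  rw [U, Finset.mul_sum, Finset.sum_eq_single α (fun γ _ h => by
    rw [mul_smul_comm, he.2.1 α γ (Ne.symm h), smul_zero]) (by simp), mul_smul_comm, e_mul_e he]

theorem norm_U_le (he : IsPaving A e) {s : κ → ℂ} (hs : ∀ γ, ‖s γ‖ ≤ 1) : ‖U e s‖ ≤ 1 := by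
  have h : ∀ γ, e γ * (s γ • (1 : 𝓜)) * e γ = s γ • e γ := fun γ => by simp [e_mul_e he]
  have := norm_sum_blocks_le Finset.univ e e (fun γ => s γ • (1 : 𝓜)) (fun γ _ => (he.1 γ).2)
    (fun γ _ => (he.1 γ).2) (fun i _ j _ => he.2.1 i j) (fun i _ j _ => he.2.1 i j) zero_le_one
    fun γ _ => by
      rw [h, norm_smul]
      exact mul_le_one₀ (hs γ) (norm_nonneg _) (he.1 γ).2.norm_le
  simpa only [h, U] using this

/-- The factors of the chain after the summation over the indices. -/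
def wt (x : 𝓜) (e : κ → 𝓜) (s : ℕ → κ → ℂ) : ℕ → 𝓜 := fun p => fr x p * U e (s p)

theorem sum_chain (x : 𝓜) (e : κ → 𝓜) (s : ℕ → κ → ℂ) (n : ℕ) :
    ∑ a : Fin (n + 1) → κ, (∏ q : Fin (n + 1), s q (a q)) •
      chain x (List.ofFn fun i => e (a i)) = pr (wt x e s) 0 (n + 1) := by
  have h := (MultilinearMap.mkPiAlgebraFin ℂ (n + 1) 𝓜).map_sum
    (g := fun (p : Fin (n + 1)) (γ : κ) => s p γ • (fr x p * e γ))
  simp only [MultilinearMap.map_smul_univ, MultilinearMap.mkPiAlgebraFin_apply] at h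
  simp only [chain_ofFn, ← h, ← prod_ofFn_eq_pr, wt, U, Finset.mul_sum, mul_smul_comm]

theorem wt_mulS (he : IsPaving A e) (x : 𝓜) (s : ℕ → κ → ℂ) (p : ℕ) (α : κ) :
    wt x e (mulS s p fun γ => if γ = α then 1 else 0) = ins (wt x e s) p (e α) := by
  funext q
  by_cases h : q = p
  · simp only [wt, ins, if_pos h, mul_assoc, U_mul_e he]
    simp [U, mulS, h]
  · simp only [wt, ins, if_neg h]
    simp [U, mulS, h]

theorem sum_n2_sq (he : IsPaving A e) (φ : 𝓜 →ₚ[ℂ] ℂ) (z : 𝓜) :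
    ∑ β, n2 φ (e β * z) ^ 2 = n2 φ z ^ 2 := by
  have h : ∀ β, star (e β * z) * (e β * z) = star z * e β * z := fun β => by
    rw [star_mul, star_e he, mul_assoc, ← mul_assoc (e β), e_mul_e he, mul_assoc]
  simp only [n2_sq, h]
  rw [← Complex.re_sum, ← map_sum, ← Finset.sum_mul, ← Finset.mul_sum, he.2.2, mul_one]

theorem sum_sum_n2_sq (R : Reg 𝓜) (he : IsPaving A e) (M M' : 𝓜) :
    ∑ α, ∑ β, n2 R.ω (e β * (M * (e α * M'))) ^ 2 ≤ (‖M‖ * ‖M'‖) ^ 2 := by
  simp only [sum_n2_sq he]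
  calc ∑ α, n2 R.ω (M * (e α * M')) ^ 2 ≤ ∑ α, ‖M‖ ^ 2 * n2 R.ω (e α * M') ^ 2 :=
        Finset.sum_le_sum fun α _ => by
          rw [← mul_pow]
          exact pow_le_pow_left₀ (n2_nonneg _ _) (n2_mul_le _ _ _) 2
    _ = ‖M‖ ^ 2 * n2 R.ω M' ^ 2 := by rw [← Finset.mul_sum, sum_n2_sq he]
    _ ≤ _ := by
      rw [← mul_pow]
      exact pow_le_pow_left₀ (mul_nonneg (norm_nonneg _) (n2_nonneg _ _))
        (mul_le_mul_of_nonneg_left (R.n2_le_norm' M') (norm_nonneg _)) 2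

/-- The key inequality. -/
theorem key_ineq (R : Reg 𝓜) (he : IsPaving A e) {x : 𝓜} {η : ℝ} (hη : 0 ≤ η)
    (hb : ∀ a b, ‖e a * x * e b‖ ≤ η) (M₀ M₁ M₂ M₃ : 𝓜) :
    ‖∑ α, ∑ β, R.ω (M₀ * e β * M₁ * e α * x * e β * M₂ * e α * M₃)‖ ≤
      η * (‖M₁‖ * ‖M₀‖ * (‖M₂‖ * ‖M₃‖)) := by
  have h1 : ∀ α β, ‖R.ω (M₀ * e β * M₁ * e α * x * e β * M₂ * e α * M₃)‖ ≤
      η * (n2 R.ω (e α * (star M₁ * (e β * star M₀))) * n2 R.ω (e β * (M₂ * (e α * M₃)))) := by
    intro α β
    have e1 : M₀ * e β * M₁ * e α * x * e β * M₂ * e α * M₃ =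
        star (e α * (star M₁ * (e β * star M₀))) *
          (e α * x * e β * (e β * (M₂ * (e α * M₃)))) := by
      simp only [star_mul, star_star, star_e he, mul_assoc]
      rw [← mul_assoc (e α) (e α), ← mul_assoc (e β) (e β), e_mul_e he, e_mul_e he]
    rw [e1, mul_left_comm]
    exact (cauchy_schwarz _ _ _).trans (mul_le_mul_of_nonneg_left ((n2_mul_le _ _ _).trans
      (mul_le_mul_of_nonneg_right (hb α β) (n2_nonneg _ _))) (n2_nonneg _ _))
  rw [← Fintype.sum_prod_type']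
  refine (norm_sum_le _ _).trans ((Finset.sum_le_sum fun z _ => h1 z.1 z.2).trans ?_)
  rw [← Finset.mul_sum]
  refine mul_le_mul_of_nonneg_left ?_ hη
  refine (Real.sum_mul_le_sqrt_mul_sqrt _ _ _).trans (mul_le_mul ?_ ?_ (Real.sqrt_nonneg _)
    (by positivity))
  · refine Real.sqrt_le_iff.2 ⟨by positivity, ?_⟩
    rw [Fintype.sum_prod_type_right]
    simpa only [norm_star] using sum_sum_n2_sq R he (star M₁) (star M₀)
  · refine Real.sqrt_le_iff.2 ⟨by positivity, ?_⟩
    rw [Fintype.sum_prod_type]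
    exact sum_sum_n2_sq R he M₂ M₃

theorem tb_edge (R : Reg 𝓜) (he : IsPaving A e) {x : 𝓜} {η K : ℝ} (hx : ‖x‖ ≤ K) (hK : 1 ≤ K)
    (hη : 0 ≤ η) (hb : ∀ a b, ‖e a * x * e b‖ ≤ η) {n : ℕ} (i : Fin n) {j j' : Fin (n + 1)}
    (hj : i.castSucc < j) (hj' : j' < i.succ) :
    TB (fun a : Fin (n + 1) → κ => R.ω (chain x (List.ofFn fun i => e (a i))) *
      (if a i.castSucc = a j then 1 else 0) * (if a j' = a i.succ then 1 else 0))
      (η * (K ^ (n + 1)) ^ 4) := by
  intro s hs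
  have hj1 : (i : ℕ) < j := hj
  have hj2 : (j' : ℕ) < i + 1 := hj'
  have hj3 : (j : ℕ) < n + 1 := j.2
  have hδ : ∀ c d : κ, (if c = d then (1 : ℂ) else 0) =
      ∑ α, (if c = α then 1 else 0) * (if d = α then 1 else 0) := fun c d => by
    simp
  have h1 : ∑ a : Fin (n + 1) → κ, R.ω (chain x (List.ofFn fun i => e (a i))) *
      (if a i.castSucc = a j then 1 else 0) * (if a j' = a i.succ then 1 else 0) *
        ∏ q : Fin (n + 1), s q (a q) =
      ∑ α, ∑ β, R.ω (pr (ins (ins (ins (ins (wt x e s) j' (e β)) i.castSucc (e α)) i.succ (e β))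
        j (e α)) 0 (n + 1)) := by
    simp only [← wt_mulS he, ← sum_chain, prod_mulS, map_sum, map_smul, smul_eq_mul]
    rw [← Fintype.sum_prod_type', Finset.sum_comm]
    refine Finset.sum_congr rfl fun a _ => ?_
    rw [Fintype.sum_prod_type, hδ, hδ (a j'), mul_assoc (R.ω _), Finset.sum_mul_sum,
      Finset.mul_sum, Finset.sum_mul]
    refine Finset.sum_congr rfl fun α _ => ?_
    rw [Finset.mul_sum, Finset.sum_mul]
    exact Finset.sum_congr rfl fun β _ => by ring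
  have h2 : ∀ α β, pr (ins (ins (ins (ins (wt x e s) j' (e β)) i.castSucc (e α)) i.succ (e β))
      j (e α)) 0 (n + 1) = pr (wt x e s) 0 (j' + 1) * e β * pr (wt x e s) (j' + 1) (i - j') * e α *
        x * e β * (U e (s (i + 1)) * pr (wt x e s) (i + 1 + 1) (j - (i + 1))) * e α *
        pr (wt x e s) (j + 1) (n - j) := by
    intro α β
    rw [Fin.val_castSucc, Fin.val_succ, pr_ins _ hj3,
      pr_ins _ (show (i : ℕ) + 1 < j + 1 by omega),
      pr_ins _ (show (i : ℕ) < i + 1 + 1 by omega), pr_ins _ hj2,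
      pr_ins_of_lt _ (show (i : ℕ) + 1 < j + 1 by omega),
      pr_ins_of_lt _ (show (i : ℕ) < j + 1 by omega),
      pr_ins_of_lt _ (show (j' : ℕ) < j + 1 by omega),
      pr_ins_of_lt _ (show (i : ℕ) < i + 1 + 1 by omega),
      pr_ins_of_lt _ (show (j' : ℕ) < i + 1 + 1 by omega), pr_ins_of_lt _ hj2,
      Nat.add_sub_cancel_left, pr_one, Nat.add_sub_add_right, Nat.add_sub_add_right,
      Nat.add_sub_add_right]
    have : wt x e s (i + 1) * e β = x * e β * U e (s (i + 1)) := by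
      rw [wt, fr, if_neg (Nat.succ_ne_zero _), mul_assoc, mul_assoc, U_mul_e he, e_mul_U he]
    rw [mul_assoc _ (wt x e s (i + 1)), this]
    simp only [mul_assoc]
  have hw : ∀ p, ‖wt x e s p‖ ≤ K := fun p => by
    refine (norm_mul_le _ _).trans ((mul_le_of_le_one_right (norm_nonneg _)
      (norm_U_le he (hs p))).trans ?_)
    unfold fr
    split_ifs
    exacts [norm_one_le'.trans hK, hx]
  have h3 : ∀ a l, l ≤ n + 1 → ‖pr (wt x e s) a l‖ ≤ K ^ (n + 1) := fun a l hl =>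
    norm_pr_le norm_one_le' hK hw a hl
  have h4 : ‖U e (s (i + 1)) * pr (wt x e s) (i + 1 + 1) (j - (i + 1))‖ ≤ K ^ (n + 1) :=
    (norm_mul_le _ _).trans ((mul_le_of_le_one_left (norm_nonneg _)
      (norm_U_le he (hs _))).trans (h3 _ _ (by omega)))
  simp only [h1, h2]
  refine (key_ineq R he hη hb _ _ _ _).trans (mul_le_mul_of_nonneg_left ?_ hη)
  calc _ ≤ K ^ (n + 1) * K ^ (n + 1) * (K ^ (n + 1) * K ^ (n + 1)) := by
        gcongr
        exacts [h3 _ _ (by omega), h3 _ _ (by omega), h3 _ _ (by omega)]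
    _ = _ := by ring

end Pat

theorem Reg.pattern_bound (R : Reg 𝓜) (k : ℕ) {ρ : ℝ} (hρ : 0 ≤ ρ) :
    ∃ C : ℝ, 0 ≤ C ∧ ∀ (κ : Type u) [Fintype κ] [DecidableEq κ] (e : κ → 𝓜), IsPaving R.A e →
      ∀ x : 𝓜, ‖x‖ ≤ ρ → ∀ η : ℝ, 0 ≤ η → (∀ a b, ‖e a * x * e b‖ ≤ η) → ∀ m ≤ k, 1 ≤ k →
        ‖∑ a : Fin (2 * k + 1) → κ with (Finset.univ.image a).card = m,
          R.ω (chain x (List.ofFn fun i => e (a i)))‖ ≤ C * η := by
  refine ⟨Fintype.card (Fin (2 * k + 1) × Fin (2 * k + 1) → Bool) *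
    (2 ^ ((2 * k + 1) * (2 * k + 1)) * ((ρ + 1) ^ (2 * k + 1)) ^ 4), by positivity,
    fun κ _ _ e he x hx η hη hb m hm hk => ?_⟩
  rw [← Finset.sum_fiberwise (g := fun (a : Fin (2 * k + 1) → κ)
    (z : Fin (2 * k + 1) × Fin (2 * k + 1)) => decide (a z.1 = a z.2))]
  refine (norm_sum_le _ _).trans ((Finset.sum_le_sum (g := fun _ =>
    2 ^ ((2 * k + 1) * (2 * k + 1)) * (η * ((ρ + 1) ^ (2 * k + 1)) ^ 4)) fun σ _ => ?_).trans
    (le_of_eq ?_))
  · by_cases h0 : ∃ a₀ : Fin (2 * k + 1) → κ, (Finset.univ.image a₀).card = m ∧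
      (fun z : Fin (2 * k + 1) × Fin (2 * k + 1) => decide (a₀ z.1 = a₀ z.2)) = σ
    swap
    · rw [Finset.sum_eq_zero fun a ha => absurd ⟨a, by simpa using ha⟩ h0, norm_zero]
      positivity
    · obtain ⟨a₀, h1, rfl⟩ := h0
      obtain ⟨i, j, j', hj, hj', e1, e2⟩ := Pat.exists_edge a₀ (by omega)
      have h2 := (Pat.tb_edge R he (hx.trans (le_add_of_nonneg_right zero_le_one))
        (le_add_of_nonneg_left hρ) hη hb i hj hj').pattern (by positivity) a₀
      refine le_of_eq_of_le (congrArg norm (Finset.sum_congr ?_ fun a ha => ?_)) h2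
      · ext a
        simp only [Finset.mem_filter, Finset.mem_univ, true_and, funext_iff, decide_eq_decide,
          Prod.forall]
        exact ⟨fun h => h.2, fun h => ⟨(Pat.card_image_congr h).trans h1, h⟩⟩
      · have h3 := (Finset.mem_filter.1 ha).2
        rw [if_pos ((h3 _ _).2 e1), if_pos ((h3 _ _).2 e2), mul_one, mul_one]
  · rw [Finset.sum_const, Finset.card_univ, nsmul_eq_mul]
    ring

end Crest.Agent.R109
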