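import Crest.Agent.R109.FDefs

/-! Row 109, task A1: type-level version of the mixed determinant (helper for `QBasic`). -/

set_option autoImplicit false

noncomputable section

namespace Crest.Agent.R109

open Polynomial
open scoped ComplexConjugate

section Gen

variable {r : ℕ} {R : Type*} [CommRing R]

/-- Type-level version of `blk`. -/
def blkG {α : Type*} [DecidableEq α] (X : α → α → R) (z : α → R) (c : α → Fin r) :
    Matrix α α R :=
  Matrix.of fun u v => (if u = v then z u else 0) - (if c u = c v then X u v else 0)

/-- Type-level version of `Q`. -/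
def QG {α : Type*} [Fintype α] [DecidableEq α] (p : α → Fin r → R) (X : α → α → R)
    (z : α → R) : R :=
  ∑ c : α → Fin r, (∏ v, p v (c v)) * (blkG X z c).det

theorem Q_eq_QG {ι : Type*} [DecidableEq ι] (T : Finset ι) (p : ι → Fin r → R) (X : ι → ι → R)
    (z : ι → R) :
    Q T p X z = QG (fun v : T => p v) (fun u v : T => X u v) (fun v : T => z v) := rfl

variable {α β : Type*} [Fintype α] [DecidableEq α] [Fintype β] [DecidableEq β]

omit [Fintype α] [Fintype β] in
theorem blkG_equiv (e : α ≃ β) (X : β → β → R) (z : β → R) (c : β → Fin r) :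
    blkG (fun u v => X (e u) (e v)) (fun v => z (e v)) (fun v => c (e v)) =
      (blkG X z c).submatrix e e := by
  ext u v
  simp [blkG]

theorem QG_equiv (e : α ≃ β) (p : β → Fin r → R) (X : β → β → R) (z : β → R) :
    QG p X z = QG (fun v => p (e v)) (fun u v => X (e u) (e v)) (fun v => z (e v)) := by
  unfold QG
  refine Fintype.sum_equiv (Equiv.arrowCongr e.symm (Equiv.refl _)) _ _ (fun c => ?_)
  have h1 : (Equiv.arrowCongr e.symm (Equiv.refl (Fin r))) c = fun v => c (e v) := by
    ext v; simp [Equiv.arrowCongr]
  rw [h1, blkG_equiv, Matrix.det_submatrix_equiv_self]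
  congr 1
  exact (Fintype.prod_equiv e _ _ (fun v => rfl)).symm

theorem QG_linear (p : α → Fin r → R) (X : α → α → R) (z : α → R) (u : α) :
    QG p X z = ∑ j, p u j * QG (Function.update p u (dl R j)) X z := by
  unfold QG
  simp_rw [Finset.mul_sum]
  rw [Finset.sum_comm]
  refine Finset.sum_congr rfl (fun c _ => ?_)
  simp_rw [← mul_assoc]
  rw [← Finset.sum_mul]
  congr 1
  have h2 : ∀ j, ∏ v, Function.update p u (dl R j) v (c v) =
      dl R j (c u) * ∏ v ∈ Finset.univ.erase u, p v (c v) := by
    intro j
    rw [← Finset.mul_prod_erase Finset.univ _ (Finset.mem_univ u)]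
    congr 1
    · simp
    · refine Finset.prod_congr rfl (fun v hv => ?_)
      rw [Function.update_of_ne (Finset.ne_of_mem_erase hv)]
  simp_rw [h2, ← mul_assoc]
  rw [← Finset.sum_mul, ← Finset.mul_prod_erase Finset.univ _ (Finset.mem_univ u)]
  congr 1
  simp [dl]

theorem det_updateRow_none (M : Matrix (Option α) (Option α) R) :
    (M.updateRow none (Pi.single none 1)).det = (M.submatrix some some).det := by
  have h := Matrix.det_submatrix_equiv_self (Equiv.optionEquivSumPUnit.{0} α).symm
    (M.updateRow none (Pi.single none 1))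
  rw [← h]
  have h2 : (M.updateRow none (Pi.single none 1)).submatrix
      (Equiv.optionEquivSumPUnit.{0} α).symm (Equiv.optionEquivSumPUnit.{0} α).symm =
      Matrix.fromBlocks (M.submatrix some some) (Matrix.of fun a _ => M (some a) none) 0 1 := by
    ext (a | a) (b | b) <;> simp [Matrix.updateRow_apply]
  rw [h2, Matrix.det_fromBlocks_zero₂₁]
  simp

theorem det_blkG_option (X : Option α → Option α → R) (z : Option α → R)
    (c : Option α → Fin r) :
    (blkG X z c).det = z none * (blkG (fun u v => X (some u) (some v)) (fun v => z (some v))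
      (fun v => c (some v))).det + (blkG X (Function.update z none 0) c).det := by
  set M := blkG X (Function.update z none 0) c with hM
  have h1 : blkG X z c = M.updateRow none (z none • Pi.single none 1 + M none) := by
    ext (_ | a) (_ | b) <;> simp [hM, blkG, Matrix.updateRow_apply, sub_eq_add_neg]
  have h2 : M.submatrix some some = blkG (fun u v => X (some u) (some v)) (fun v => z (some v))
      (fun v => c (some v)) := by
    ext a b
    simp [hM, blkG]
  rw [h1, Matrix.det_updateRow_add, Matrix.det_updateRow_smul, det_updateRow_none, h2,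
    Matrix.updateRow_eq_self]

theorem QG_option (p : Option α → Fin r → R) (X : Option α → Option α → R) (z : Option α → R) :
    QG p X z = z none * (∑ j, p none j) * QG (fun v => p (some v))
      (fun u v => X (some u) (some v)) (fun v => z (some v)) +
      QG p X (Function.update z none 0) := by
  unfold QG
  simp_rw [det_blkG_option X z, mul_add]
  rw [Finset.sum_add_distrib]
  congr 1
  rw [mul_assoc, Finset.sum_mul_sum, ← Finset.sum_product', Finset.mul_sum,
    Finset.univ_product_univ]
  refine Fintype.sum_equiv (Equiv.piOptionEquivProd (β := fun _ => Fin r)) _ _ (fun c => ?_)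
  rw [Fintype.prod_option]
  simp only [Equiv.piOptionEquivProd_apply]
  ring

theorem QG_sum (p : α ⊕ β → Fin r → R) (X : α ⊕ β → α ⊕ β → R) (z : α ⊕ β → R)
    (hX : ∀ a b, X (Sum.inr b) (Sum.inl a) = 0) :
    QG p X z = QG (fun v => p (Sum.inl v)) (fun u v => X (Sum.inl u) (Sum.inl v))
      (fun v => z (Sum.inl v)) * QG (fun v => p (Sum.inr v))
        (fun u v => X (Sum.inr u) (Sum.inr v)) (fun v => z (Sum.inr v)) := by
  unfold QG
  rw [Finset.sum_mul_sum, ← Finset.sum_product', Finset.univ_product_univ]
  refine Fintype.sum_equiv (Equiv.sumArrowEquivProdArrow α β (Fin r)) _ _ (fun c => ?_)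
  have h1 : blkG X z c = Matrix.fromBlocks
      (blkG (fun u v => X (Sum.inl u) (Sum.inl v)) (fun v => z (Sum.inl v))
        (fun v => c (Sum.inl v)))
      (Matrix.of fun a b => blkG X z c (Sum.inl a) (Sum.inr b)) 0
      (blkG (fun u v => X (Sum.inr u) (Sum.inr v)) (fun v => z (Sum.inr v))
        (fun v => c (Sum.inr v))) := by
    ext (a | a) (b | b) <;> simp [blkG, hX]
  rw [h1, Matrix.det_fromBlocks_zero₂₁, Fintype.prod_sum_type]
  simp only [Equiv.sumArrowEquivProdArrow_apply_fst, Equiv.sumArrowEquivProdArrow_apply_snd]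
  have e1 : ((Equiv.sumArrowEquivProdArrow α β (Fin r)) c).1 = fun v => c (Sum.inl v) := rfl
  have e2 : ((Equiv.sumArrowEquivProdArrow α β (Fin r)) c).2 = fun v => c (Sum.inr v) := rfl
  rw [e1, e2]
  ring

end Gen

end Crest.Agent.R109
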