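import Crest.Agent.R109.FDefs
import Crest.Agent.R109.QBasicAux

/-! Row 109, task A1: algebra of the mixed determinant `Q`. -/

set_option autoImplicit false

noncomputable section

namespace Crest.Agent.R109

open Polynomial
open scoped ComplexConjugate

section Ring

variable {ι : Type*} [DecidableEq ι] {r : ℕ} {R : Type*} [CommRing R]

theorem map_Q {S : Type*} [CommRing S] (f : R →+* S) (T : Finset ι) (p : ι → Fin r → R)
    (X : ι → ι → R) (z : ι → R) :
    f (Q T p X z) = Q T (fun v j => f (p v j)) (fun u v => f (X u v)) (fun v => f (z v)) := by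
  unfold Q
  rw [map_sum]
  refine Finset.sum_congr rfl (fun c _ => ?_)
  rw [map_mul, map_prod, RingHom.map_det]
  congr 2
  ext u v
  simp only [blk, RingHom.mapMatrix_apply, Matrix.map_apply, Matrix.of_apply, map_sub]
  split_ifs <;> simp

/-- `Q` only depends on the data on `T`, and only on entries `X u v` such that `u, v` can
have the same colour. -/
theorem Q_congr_supp {T : Finset ι} {p p' : ι → Fin r → R} {X X' : ι → ι → R} {z z' : ι → R}
    (hp : ∀ v ∈ T, p v = p' v)
    (hX : ∀ u ∈ T, ∀ v ∈ T, ∀ j, p u j ≠ 0 → p v j ≠ 0 → X u v = X' u v)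
    (hz : ∀ v ∈ T, z v = z' v) : Q T p X z = Q T p' X' z' := by
  unfold Q
  refine Finset.sum_congr rfl (fun c _ => ?_)
  have h1 : ∏ v : T, p' v (c v) = ∏ v : T, p v (c v) :=
    Finset.prod_congr rfl (fun v _ => by rw [hp v v.2])
  rw [h1]
  by_cases h0 : ∃ v : T, p v (c v) = 0
  · obtain ⟨v, hv⟩ := h0
    rw [Finset.prod_eq_zero (Finset.mem_univ v) hv, zero_mul, zero_mul]
  · push Not at h0
    congr 2
    ext u v
    simp only [blk, Matrix.of_apply]
    rw [hz u u.2]
    congr 1
    split_ifs with huv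
    · exact hX u u.2 v v.2 (c u) (h0 u) (huv ▸ h0 v)
    · rfl

theorem Q_congr {T : Finset ι} {p p' : ι → Fin r → R} {X X' : ι → ι → R} {z z' : ι → R}
    (hp : ∀ v ∈ T, p v = p' v) (hX : ∀ u ∈ T, ∀ v ∈ T, X u v = X' u v)
    (hz : ∀ v ∈ T, z v = z' v) : Q T p X z = Q T p' X' z' :=
  Q_congr_supp hp (fun u hu v hv _ _ _ => hX u hu v hv) hz

theorem Q_empty (p : ι → Fin r → R) (X : ι → ι → R) (z : ι → R) : Q ∅ p X z = 1 := by
  unfold Q
  simp

/-- `Q` is linear in `p u` and affine in `z u`. -/
theorem Q_insert {T : Finset ι} {u : ι} (hu : u ∉ T) (p : ι → Fin r → R) (X : ι → ι → R)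
    (z : ι → R) :
    Q (insert u T) p X z = ∑ j, p u j * (z u * Q T p X z - Bq T u j p X z) := by
  have hne : ∀ v : T, (v : ι) ≠ u := fun v h => hu (h ▸ v.2)
  have key : ∀ j, Q (insert u T) (Function.update p u (dl R j)) X z =
      z u * Q T p X z - Bq T u j p X z := by
    intro j
    unfold Bq
    rw [Q_eq_QG, Q_eq_QG, Q_eq_QG,
      QG_equiv (Finset.subtypeInsertEquivOption hu).symm,
      QG_equiv (Finset.subtypeInsertEquivOption hu).symm
        (z := fun v : (insert u T : Finset ι) => Function.update z u 0 v), QG_option,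
      sub_neg_eq_add]
    have e0 : (((Finset.subtypeInsertEquivOption hu).symm none : (insert u T : Finset ι)) : ι)
      = u := rfl
    have e1 : ∀ v : T,
        (((Finset.subtypeInsertEquivOption hu).symm (some v) : (insert u T : Finset ι)) : ι)
          = v := fun v => rfl
    congr 1
    · simp only [e0, e1, Function.update_self, Function.update_of_ne (hne _)]
      simp [dl]
    · congr 1
      funext v
      rcases v with _ | v
      · simp only [e0, Function.update_self]
      · simp only [e1, Function.update_of_ne (hne _)]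
        rw [Function.update_of_ne (Option.some_ne_none v), e1]
  simp_rw [← key]
  rw [Q_eq_QG, QG_linear _ _ _ ⟨u, Finset.mem_insert_self u T⟩]
  refine Finset.sum_congr rfl (fun j _ => ?_)
  rw [Q_eq_QG]
  congr 2
  funext v
  by_cases hv : v = ⟨u, Finset.mem_insert_self u T⟩
  · subst hv
    simp
  · rw [Function.update_of_ne hv, Function.update_of_ne (fun h => hv (Subtype.ext h))]

theorem Q_union {T₁ T₂ : Finset ι} (hd : Disjoint T₁ T₂) (p : ι → Fin r → R) (X : ι → ι → R)
    (z : ι → R) (hX : ∀ u ∈ T₁, ∀ v ∈ T₂, X u v = 0 ∧ X v u = 0) :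
    Q (T₁ ∪ T₂) p X z = Q T₁ p X z * Q T₂ p X z := by
  rw [Q_eq_QG, QG_equiv (Equiv.Finset.union T₁ T₂ hd), QG_sum]
  · rfl
  · intro a b
    exact (hX a a.2 b b.2).2

theorem Q_image {ι' : Type*} [DecidableEq ι'] {T : Finset ι} {e : ι → ι'}
    (he : Set.InjOn e T) (p : ι' → Fin r → R) (X : ι' → ι' → R) (z : ι' → R) :
    Q (T.image e) p X z =
      Q T (fun v => p (e v)) (fun u v => X (e u) (e v)) (fun v => z (e v)) := by
  let f : T → (T.image e : Finset ι') := fun v => ⟨e v, Finset.mem_image_of_mem e v.2⟩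
  have hf : Function.Bijective f := by
    constructor
    · intro a b hab
      exact Subtype.ext (he a.2 b.2 (congrArg Subtype.val hab))
    · rintro ⟨y, hy⟩
      obtain ⟨x, hx, rfl⟩ := Finset.mem_image.1 hy
      exact ⟨⟨x, hx⟩, rfl⟩
  rw [Q_eq_QG, QG_equiv (Equiv.ofBijective f hf)]
  rfl

theorem Q_scale (T : Finset ι) (p : ι → Fin r → R) (X : ι → ι → R) (z d d' : ι → R) :
    Q T p (fun u v => d u * X u v * d' v) (fun v => d v * d' v * z v) =
      (∏ v ∈ T, d v * d' v) * Q T p X z := by
  unfold Q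
  rw [Finset.mul_sum]
  refine Finset.sum_congr rfl (fun c _ => ?_)
  have h1 : blk T (fun u v => d u * X u v * d' v) (fun v => d v * d' v * z v) c =
      Matrix.diagonal (fun v : T => d v) * blk T X z c * Matrix.diagonal (fun v : T => d' v) := by
    ext u v
    simp only [blk, Matrix.of_apply, Matrix.diagonal_mul, Matrix.mul_diagonal]
    by_cases huv : u = v
    · subst huv
      simp only [if_true]
      ring
    · simp only [huv, if_false]
      split_ifs <;> ring
  rw [h1, Matrix.det_mul, Matrix.det_mul, Matrix.det_diagonal, Matrix.det_diagonal,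
    ← Finset.prod_coe_sort T (fun v => d v * d' v), Finset.prod_mul_distrib]
  ring

theorem Q_transpose (T : Finset ι) (p : ι → Fin r → R) (X : ι → ι → R) (z : ι → R) :
    Q T p (fun u v => X v u) z = Q T p X z := by
  unfold Q
  refine Finset.sum_congr rfl (fun c _ => ?_)
  rw [← Matrix.det_transpose (blk T X z c)]
  congr 2
  ext u v
  simp only [blk, Matrix.of_apply, Matrix.transpose_apply]
  by_cases huv : u = v
  · subst huv
    rfl
  · simp only [huv, Ne.symm huv, if_false, eq_comm (a := c u)]

/-- Deterministic colourings. -/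
theorem Q_dl (T : Finset ι) (c : ι → Fin r) (X : ι → ι → R) (z : ι → R) :
    Q T (fun v => dl R (c v)) X z = (blk T X z (fun v => c v)).det := by
  unfold Q
  rw [Finset.sum_eq_single (fun v : T => c v)]
  · simp [dl]
  · intro c' _ hc'
    obtain ⟨v, hv⟩ := Function.ne_iff.1 hc'
    rw [Finset.prod_eq_zero (Finset.mem_univ v) (by simp [dl, hv]), zero_mul]
  · simp

theorem Q_singleton (u : ι) (p : ι → Fin r → R) (X : ι → ι → R) (z : ι → R)
    (hp : ∑ j, p u j = 1) : Q {u} p X z = z u - X u u := by
  unfold Q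
  have h1 : ∀ c : ({u} : Finset ι) → Fin r, (blk {u} X z c).det = z u - X u u := by
    intro c
    rw [Matrix.det_unique]
    simp [blk]
  simp_rw [h1]
  rw [← Finset.sum_mul]
  have h2 : ∑ c : ({u} : Finset ι) → Fin r, ∏ v : ({u} : Finset ι), p v (c v) = 1 := by
    rw [← Fintype.piFinset_univ, ← Finset.prod_univ_sum]
    simp [hp]
  rw [h2, one_mul]

end Ring

section Cplx

variable {ι : Type*} [DecidableEq ι] {r : ℕ}

theorem isProb_unif (hr : 0 < r) : IsProb (fun _ : ι => unif r) := by
  have : (r : ℝ) ≠ 0 := by positivity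
  refine ⟨fun _ _ => by unfold unif; positivity, fun _ => ?_⟩
  simp [unif, this]

theorem IsProb.update {p : ι → Fin r → ℝ} (hp : IsProb p) (u : ι) (j : Fin r) :
    IsProb (Function.update p u (dl ℝ j)) := by
  constructor
  · intro v i
    by_cases hv : v = u
    · subst hv
      simp only [Function.update_self, dl]
      split_ifs <;> norm_num
    · rw [Function.update_of_ne hv]
      exact hp.1 v i
  · intro v
    by_cases hv : v = u
    · subst hv
      simp [dl]
    · rw [Function.update_of_ne hv]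
      exact hp.2 v

theorem isProb_dl (c : ι → Fin r) : IsProb (fun v => dl ℝ (c v)) := by
  constructor
  · intro v i
    simp only [dl]
    split_ifs <;> norm_num
  · intro v
    simp [dl]

theorem cp_update (p : ι → Fin r → ℝ) (u : ι) (j : Fin r) :
    cp (Function.update p u (dl ℝ j)) = Function.update (cp p) u (dl ℂ j) := by
  funext v i
  by_cases hv : v = u
  · subst hv
    simp only [cp, Function.update_self, dl]
    split_ifs <;> simp
  · simp only [cp, Function.update_of_ne hv]

theorem Herm.mono {S T : Finset ι} {X : ι → ι → ℂ} (h : Herm T X) (hS : S ⊆ T) : Herm S X :=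
  fun u hu v hv => h u (hS hu) v (hS hv)

theorem conj_Q {T : Finset ι} {X : ι → ι → ℂ} (hX : Herm T X) (p : ι → Fin r → ℝ)
    (z : ι → ℂ) : conj (Q T (cp p) X z) = Q T (cp p) X (fun v => conj (z v)) := by
  rw [map_Q, ← Q_transpose]
  refine Q_congr (fun v _ => ?_) (fun u hu v hv => ?_) (fun v _ => rfl)
  · funext j
    simp [cp]
  · exact (hX v hv u hu).symm

theorem Q_im_eq_zero {T : Finset ι} {X : ι → ι → ℂ} (hX : Herm T X) (p : ι → Fin r → ℝ)
    (z : ι → ℝ) : (Q T (cp p) X (fun v => (z v : ℂ))).im = 0 := by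
  rw [← Complex.conj_eq_iff_im, conj_Q hX]
  simp

theorem eval_QD (T D : Finset ι) (p : ι → Fin r → ℝ) (X : ι → ι → ℂ) (a : ι → ℂ) (w : ℂ) :
    (QD T D p X a).eval w = Q T (cp p) X (fun v => if v ∈ D then w + a v else a v) := by
  unfold QD
  rw [← Polynomial.coe_evalRingHom, map_Q]
  refine Q_congr (fun v _ => ?_) (fun u _ v _ => ?_) (fun v _ => ?_)
  · funext j
    simp [cp]
  · simp
  · split_ifs <;> simp

theorem eval_Qp (T : Finset ι) (p : ι → Fin r → ℝ) (X : ι → ι → ℂ) (h : ι → ℝ) (w : ℂ) :
    (Qp T p X h).eval w = Q T (cp p) X (fun v => w - h v) := by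
  unfold Qp
  rw [← Polynomial.coe_evalRingHom, map_Q]
  refine Q_congr (fun v _ => ?_) (fun u _ v _ => ?_) (fun v _ => ?_)
  · funext j
    simp [cp]
  · simp
  · simp

theorem Qp_eq_QD (T : Finset ι) (p : ι → Fin r → ℝ) (X : ι → ι → ℂ) (h : ι → ℝ) :
    Qp T p X h = QD T T p X (fun v => ((-h v : ℝ) : ℂ)) := by
  unfold Qp QD
  refine Q_congr (fun v _ => rfl) (fun u _ v _ => rfl) (fun v hv => ?_)
  simp [hv, sub_eq_add_neg]

theorem QD_empty (T : Finset ι) (p : ι → Fin r → ℝ) (X : ι → ι → ℂ) (a : ι → ℂ) :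
    QD T ∅ p X a = C (Q T (cp p) X a) := by
  rw [map_Q]
  unfold QD
  refine Q_congr (fun v _ => rfl) (fun u _ v _ => rfl) (fun v _ => ?_)
  simp

theorem QD_insert {T D : Finset ι} {u : ι} (huT : u ∉ T) (huD : u ∉ D) (p : ι → Fin r → ℝ)
    (X : ι → ι → ℂ) (a : ι → ℂ) :
    QD (insert u T) (insert u D) p X a =
      Polynomial.X * (C (∑ j, (p u j : ℂ)) * QD T D p X a) + QD (insert u T) D p X a := by
  unfold QD
  rw [Q_insert huT, Q_insert huT]
  have h1 : Q T (fun v j => C (p v j : ℂ)) (fun u v => C (X u v))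
      (fun v => if v ∈ insert u D then Polynomial.X + C (a v) else C (a v)) =
      Q T (fun v j => C (p v j : ℂ)) (fun u v => C (X u v))
      (fun v => if v ∈ D then Polynomial.X + C (a v) else C (a v)) := by
    refine Q_congr (fun v _ => rfl) (fun u _ v _ => rfl) (fun v hv => ?_)
    have : v ≠ u := fun h => huT (h ▸ hv)
    simp [this]
  have h2 : Function.update
      (fun v => if v ∈ insert u D then Polynomial.X + C (a v) else C (a v)) u 0 =
      Function.update (fun v => if v ∈ D then Polynomial.X + C (a v) else C (a v)) u 0 := by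
    funext v
    by_cases hv : v = u
    · subst hv
      simp
    · simp [hv]
  unfold Bq
  rw [h1, h2, map_sum, Finset.sum_mul, Finset.mul_sum, ← Finset.sum_add_distrib]
  refine Finset.sum_congr rfl (fun j _ => ?_)
  simp only [Finset.mem_insert_self, if_true, huD, if_false]
  ring

theorem QD_insert' {T D : Finset ι} {u : ι} (huD : u ∉ D) (hD : insert u D ⊆ T)
    (p : ι → Fin r → ℝ) (X : ι → ι → ℂ) (a : ι → ℂ) :
    QD T (insert u D) p X a =
      Polynomial.X * (C (∑ j, (p u j : ℂ)) * QD (T.erase u) D p X a) + QD T D p X a := by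
  have huT : u ∈ T := hD (Finset.mem_insert_self u D)
  have h := QD_insert (Finset.notMem_erase u T) huD p X a
  rwa [Finset.insert_erase huT] at h

omit [DecidableEq ι] in
theorem IsProb.sum_cplx {p : ι → Fin r → ℝ} (hp : IsProb p) (u : ι) :
    ∑ j, (p u j : ℂ) = 1 := by
  rw [← Complex.ofReal_sum, hp.2 u, Complex.ofReal_one]

theorem subset_erase_of_insert {T D : Finset ι} {u : ι} (huD : u ∉ D) (hD : insert u D ⊆ T) :
    D ⊆ T.erase u := fun v hv =>
  Finset.mem_erase.2 ⟨fun h => huD (h ▸ hv), hD (Finset.mem_insert_of_mem hv)⟩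

theorem erase_sdiff_eq (T D : Finset ι) (u : ι) : T.erase u \ D = T \ insert u D := by
  ext v
  simp only [Finset.mem_sdiff, Finset.mem_erase, Finset.mem_insert]
  tauto

theorem natDegree_QD_le {T D : Finset ι} (hD : D ⊆ T) (p : ι → Fin r → ℝ) (X : ι → ι → ℂ)
    (a : ι → ℂ) : (QD T D p X a).natDegree ≤ D.card := by
  induction D using Finset.induction_on generalizing T with
  | empty => rw [QD_empty]; simp
  | insert u D huD ih =>
    rw [QD_insert' huD hD, Finset.card_insert_of_notMem huD]
    have h1 := ih (subset_erase_of_insert huD hD)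
    have h2 := ih ((Finset.subset_insert u D).trans hD)
    refine (Polynomial.natDegree_add_le _ _).trans (max_le ?_ (by omega))
    refine Polynomial.natDegree_mul_le.trans ?_
    have h3 := Polynomial.natDegree_C_mul_le (∑ j, (p u j : ℂ)) (QD (T.erase u) D p X a)
    have h4 : (Polynomial.X : ℂ[X]).natDegree ≤ 1 := Polynomial.natDegree_X_le
    omega

theorem coeff_QD_card {T D : Finset ι} (hD : D ⊆ T) {p : ι → Fin r → ℝ} (hp : IsProb p)
    (X : ι → ι → ℂ) (a : ι → ℂ) : (QD T D p X a).coeff D.card = Q (T \ D) (cp p) X a := by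
  induction D using Finset.induction_on generalizing T with
  | empty => rw [QD_empty]; simp
  | insert u D huD ih =>
    rw [QD_insert' huD hD, Finset.card_insert_of_notMem huD, hp.sum_cplx, map_one, one_mul,
      Polynomial.coeff_add, Polynomial.coeff_X_mul, ih (subset_erase_of_insert huD hD),
      erase_sdiff_eq, Polynomial.coeff_eq_zero_of_natDegree_lt, add_zero]
    exact Nat.lt_succ_of_le (natDegree_QD_le ((Finset.subset_insert u D).trans hD) p X a)

theorem coeff_QD_card_sub_one {T D : Finset ι} (hD : D ⊆ T) (hne : D.Nonempty)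
    {p : ι → Fin r → ℝ} (hp : IsProb p) (X : ι → ι → ℂ) (a : ι → ℂ) :
    (QD T D p X a).coeff (D.card - 1) = ∑ v ∈ D, Q (insert v (T \ D)) (cp p) X a := by
  induction D using Finset.induction_on generalizing T with
  | empty => exact absurd hne Finset.not_nonempty_empty
  | insert u D huD ih =>
    have huT : u ∈ T := hD (Finset.mem_insert_self u D)
    have e1 : insert u (T \ insert u D) = T \ D := by
      ext v
      simp only [Finset.mem_sdiff, Finset.mem_insert]
      constructor
      · rintro (rfl | h)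
        · exact ⟨huT, huD⟩
        · exact ⟨h.1, fun h' => h.2 (Or.inr h')⟩
      · intro h
        by_cases hv : v = u
        · exact Or.inl hv
        · exact Or.inr ⟨h.1, fun h' => h'.elim hv h.2⟩
    rw [QD_insert' huD hD, Finset.card_insert_of_notMem huD, hp.sum_cplx, map_one, one_mul,
      Polynomial.coeff_add, Nat.add_sub_cancel,
      coeff_QD_card ((Finset.subset_insert u D).trans hD) hp, Finset.sum_insert huD, e1,
      add_comm]
    congr 1
    rcases D.eq_empty_or_nonempty with rfl | hne'
    · simp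
    · have hc : D.card = (D.card - 1) + 1 := by
        have := hne'.card_pos
        omega
      rw [hc, Polynomial.coeff_X_mul, ih (subset_erase_of_insert huD hD) hne', erase_sdiff_eq]

theorem monic_Qp (T : Finset ι) {p : ι → Fin r → ℝ} (hp : IsProb p) (X : ι → ι → ℂ)
    (h : ι → ℝ) : (Qp T p X h).Monic := by
  rw [Qp_eq_QD]
  refine Polynomial.monic_of_natDegree_le_of_coeff_eq_one T.card
    (natDegree_QD_le (Finset.Subset.refl T) p X _) ?_
  rw [coeff_QD_card (Finset.Subset.refl T) hp, Finset.sdiff_self, Q_empty]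

theorem natDegree_Qp (T : Finset ι) {p : ι → Fin r → ℝ} (hp : IsProb p) (X : ι → ι → ℂ)
    (h : ι → ℝ) : (Qp T p X h).natDegree = T.card := by
  rw [Qp_eq_QD]
  refine Polynomial.natDegree_eq_of_le_of_coeff_ne_zero
    (natDegree_QD_le (Finset.Subset.refl T) p X _) ?_
  rw [coeff_QD_card (Finset.Subset.refl T) hp, Finset.sdiff_self, Q_empty]
  exact one_ne_zero

end Cplx

end Crest.Agent.R109
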