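import Crest.Agent.R109.QZero

/-! Row 109, task A3b: real-rootedness and the Herglotz property on the boundary. -/

set_option autoImplicit false

noncomputable section

namespace Crest.Agent.R109

open Polynomial
open scoped ComplexConjugate

variable {ι : Type*} [DecidableEq ι] {r : ℕ}

namespace QH

open Filter Topology

theorem continuous_Q (T : Finset ι) (p : ι → Fin r → ℂ) (X : ι → ι → ℂ) {z : ℝ → ι → ℂ}
    (hz : ∀ v, Continuous fun ε => z ε v) : Continuous fun ε => Q T p X (z ε) := by
  unfold Q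
  refine continuous_finsetSum _ fun c _ => continuous_const.mul (Continuous.matrix_det ?_)
  refine continuous_matrix fun u v => ?_
  simp only [blk, Matrix.of_apply]
  refine Continuous.sub ?_ continuous_const
  split_ifs
  · exact hz u
  · exact continuous_const

theorem continuous_Bq (T : Finset ι) (y : ι) (j : Fin r) (p : ι → Fin r → ℂ) (X : ι → ι → ℂ)
    {z : ℝ → ι → ℂ} (hz : ∀ v, Continuous fun ε => z ε v) :
    Continuous fun ε => Bq T y j p X (z ε) := by
  unfold Bq
  refine (continuous_Q _ _ _ fun v => ?_).neg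
  by_cases h : v = y
  · subst h
    simp only [Function.update_self]
    exact continuous_const
  · simp only [Function.update_of_ne h]
    exact hz v

theorem eq_prod {P : ℂ[X]} {n : ℕ} (hn : P.natDegree ≤ n) (h0 : P.coeff n ≠ 0) :
    P.roots.card = n ∧
      P = C (P.coeff n) * (P.roots.map fun ρ => Polynomial.X - C ρ).prod := by
  have hd : P.natDegree = n := natDegree_eq_of_le_of_coeff_ne_zero hn h0
  refine ⟨by rw [IsAlgClosed.card_roots_eq_natDegree, hd], ?_⟩
  rw [← hd]
  exact (C_leadingCoeff_mul_prod_multiset_X_sub_C IsAlgClosed.card_roots_eq_natDegree).symm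

theorem pow_le_norm_prod (w : ℂ) (hw : 0 < w.im) (s : Multiset ℂ) (hs : ∀ ρ ∈ s, ρ.im ≤ 0) :
    w.im ^ s.card ≤ ‖((s.map fun ρ => Polynomial.X - C ρ).prod).eval w‖ := by
  induction s using Multiset.induction_on with
  | empty => simp
  | cons ρ s ih =>
    rw [Multiset.map_cons, Multiset.prod_cons, eval_mul, norm_mul, Multiset.card_cons, pow_succ']
    refine mul_le_mul ?_ (ih fun x hx => hs x (Multiset.mem_cons_of_mem hx)) (by positivity)
      (norm_nonneg _)
    refine le_trans ?_ (Complex.im_le_norm _)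
    have := hs ρ (Multiset.mem_cons_self _ _)
    simp only [eval_sub, eval_X, eval_C, Complex.sub_im]
    linarith

theorem norm_eval_ge {P : ℂ[X]} {n : ℕ} (hn : P.natDegree ≤ n) (h0 : P.coeff n ≠ 0)
    (hr : ∀ ρ : ℂ, 0 < ρ.im → P.eval ρ ≠ 0) (w : ℂ) (hw : 0 < w.im) :
    ‖P.coeff n‖ * w.im ^ n ≤ ‖P.eval w‖ := by
  obtain ⟨h1, h2⟩ := eq_prod hn h0
  have h3 := pow_le_norm_prod w hw P.roots fun ρ hρ =>
    not_lt.1 fun h => hr ρ h (isRoot_of_mem_roots hρ)
  rw [h1] at h3
  conv_rhs => rw [h2, eval_mul, eval_C, norm_mul]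
  exact mul_le_mul_of_nonneg_left h3 (norm_nonneg _)

theorem exists_fin (s : Multiset ℂ) (hs : ∀ ρ ∈ s, ρ.im = 0) (n : ℕ) (hn : s.card = n) :
    ∃ α : Fin n → ℝ,
      (s.map fun ρ => Polynomial.X - C ρ).prod = ∏ l, (Polynomial.X - C (α l : ℂ)) := by
  induction s using Multiset.induction_on generalizing n with
  | empty =>
    subst hn
    exact ⟨fun _ => 0, by simp⟩
  | cons ρ s ih =>
    rw [Multiset.card_cons] at hn
    subst hn
    obtain ⟨α, hα⟩ := ih (fun x hx => hs x (Multiset.mem_cons_of_mem hx)) _ rfl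
    refine ⟨Fin.cons ρ.re α, ?_⟩
    have hρ : (ρ.re : ℂ) = ρ :=
      Complex.ext (by simp) (by simp [hs ρ (Multiset.mem_cons_self _ _)])
    rw [Multiset.map_cons, Multiset.prod_cons, Fin.prod_univ_succ, hα]
    simp [hρ]

theorem le_of_pos {f g : ℝ → ℝ} (hf : ContinuousAt f 0) (hg : ContinuousAt g 0)
    (h : ∀ ε, 0 < ε → f ε ≤ g ε) : f 0 ≤ g 0 :=
  le_of_tendsto_of_tendsto (b := 𝓝[>] (0 : ℝ)) (hf.tendsto.mono_left nhdsWithin_le_nhds)
    (hg.tendsto.mono_left nhdsWithin_le_nhds) (eventually_nhdsWithin_of_forall h)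

theorem upper {T D : Finset ι} (hD : D ⊆ T) {p : ι → Fin r → ℝ} (hp : IsProb p)
    {X : ι → ι → ℂ} (hX : Herm T X) (a : ι → ℝ)
    (h0 : Q (T \ D) (cp p) X (fun v => (a v : ℂ)) ≠ 0) (w : ℂ) (hw : 0 < w.im) :
    Q T (cp p) X (fun v => if v ∈ D then w + a v else a v) ≠ 0 := by
  let b : ℝ → ι → ℂ := fun ε v => a v + ε * Complex.I
  have hb : ∀ v, Continuous fun ε => b ε v := fun v => by
    simp only [b]; fun_prop
  have hbim : ∀ ε v, (b ε v).im = ε := fun ε v => by simp [b]
  have hb0 : b 0 = fun v => (a v : ℂ) := by funext v; simp [b]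
  have key := le_of_pos (f := fun ε => ‖Q (T \ D) (cp p) X (b ε)‖ * w.im ^ D.card)
    (g := fun ε => ‖Q T (cp p) X (fun v => if v ∈ D then w + b ε v else b ε v)‖)
    ((continuous_Q _ _ _ hb).norm.mul continuous_const).continuousAt
    (continuous_Q _ _ _ fun v => by
      split_ifs
      · exact continuous_const.add (hb v)
      · exact hb v).norm.continuousAt
    fun ε hε => by
      have h1 := coeff_QD_card hD hp X (b ε)
      have h2 := norm_eval_ge (natDegree_QD_le hD p X (b ε))
        (by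
          rw [h1]
          exact Q_ne_zero_upper hp (hX.mono Finset.sdiff_subset) _ fun v _ => by
            rw [hbim]; exact hε)
        (fun ρ hρ => by
          rw [eval_QD]
          refine Q_ne_zero_upper hp hX _ fun v _ => ?_
          split_ifs
          · rw [Complex.add_im, hbim]; positivity
          · rw [hbim]; exact hε) w hw
      rwa [h1, eval_QD] at h2
  simp only [hb0] at key
  intro h
  rw [h, norm_zero] at key
  exact absurd key (not_le.2 (mul_pos (norm_pos_iff.2 h0) (pow_pos hw _)))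

/-- The root in `z y` lies in the closed lower half plane. -/
theorem div_im_nonpos {T : Finset ι} {y : ι} (hy : y ∉ T) {p : ι → Fin r → ℝ} (hp : IsProb p)
    {X : ι → ι → ℂ} (hX : Herm (insert y T) X) (j : Fin r) (z : ι → ℂ)
    (hz : ∀ v ∈ T, 0 < (z v).im) : (Bq T y j (cp p) X z / Q T (cp p) X z).im ≤ 0 := by
  refine not_lt.1 fun h => ?_
  have hq := Q_ne_zero_upper hp (hX.mono (Finset.subset_insert _ _)) z hz
  set ρ := Bq T y j (cp p) X z / Q T (cp p) X z with hρ
  refine Q_ne_zero_upper (hp.update y j) hX (Function.update z y ρ) (fun v hv => ?_) ?_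
  · by_cases hv' : v = y
    · subst hv'; rwa [Function.update_self]
    · rw [Function.update_of_ne hv']
      exact hz v ((Finset.mem_insert.1 hv).resolve_left hv')
  · have hne : ∀ v ∈ T, v ≠ y := fun v hv e => hy (e ▸ hv)
    have e1 : Q T (Function.update (cp p) y (dl ℂ j)) X (Function.update z y ρ) =
        Q T (cp p) X z :=
      Q_congr (fun v hv => Function.update_of_ne (hne v hv) _ _) (fun _ _ _ _ => rfl)
        (fun v hv => Function.update_of_ne (hne v hv) _ _)
    have e2 : Bq T y j (Function.update (cp p) y (dl ℂ j)) X (Function.update z y ρ) =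
        Bq T y j (cp p) X z := by
      simp only [Bq, Function.update_idem]
    rw [cp_update, Q_insert hy, Finset.sum_eq_single j, e1, e2]
    · simp only [Function.update_self, hρ, div_mul_cancel₀ _ hq, sub_self, mul_zero]
    · intro i _ hi
      simp [dl, hi]
    · simp

end QH

theorem QD_eval_ne_zero {T D : Finset ι} (hD : D ⊆ T) {p : ι → Fin r → ℝ} (hp : IsProb p)
    {X : ι → ι → ℂ} (hX : Herm T X) (a : ι → ℝ)
    (h0 : Q (T \ D) (cp p) X (fun v => (a v : ℂ)) ≠ 0) (w : ℂ) (hw : w.im ≠ 0) :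
    (QD T D p X (fun v => (a v : ℂ))).eval w ≠ 0 := by
  rw [eval_QD]
  rcases lt_or_gt_of_ne hw with h | h
  · intro e
    have h1 := conj_Q hX p (fun v => if v ∈ D then w + a v else a v)
    rw [e, map_zero] at h1
    refine QH.upper hD hp hX a h0 (conj w) (by simpa using h) ?_
    rw [h1]
    congr 1
    funext v
    split_ifs <;> simp
  · exact QH.upper hD hp hX a h0 w h

theorem QD_realRooted {T D : Finset ι} (hD : D ⊆ T) {p : ι → Fin r → ℝ} (hp : IsProb p)
    {X : ι → ι → ℂ} (hX : Herm T X) (a : ι → ℝ)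
    (h0 : Q (T \ D) (cp p) X (fun v => (a v : ℂ)) ≠ 0) :
    ∃ α : Fin D.card → ℝ, QD T D p X (fun v => (a v : ℂ)) =
      C (Q (T \ D) (cp p) X (fun v => (a v : ℂ))) * ∏ l, (Polynomial.X - C (α l : ℂ)) := by
  have h1 := coeff_QD_card hD hp X (fun v => (a v : ℂ))
  obtain ⟨h2, h3⟩ := QH.eq_prod (natDegree_QD_le hD p X (fun v => (a v : ℂ))) (by rwa [h1])
  obtain ⟨α, hα⟩ := QH.exists_fin _ (fun ρ hρ => by
    by_contra h
    exact QD_eval_ne_zero hD hp hX a h0 ρ h (isRoot_of_mem_roots hρ)) _ h2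
  exact ⟨α, by rw [← hα, ← h1]; exact h3⟩

theorem Qp_realRooted {T : Finset ι} {p : ι → Fin r → ℝ} (hp : IsProb p)
    {X : ι → ι → ℂ} (hX : Herm T X) (h : ι → ℝ) :
    ∃ α : Fin T.card → ℝ, Qp T p X h = ∏ l, (Polynomial.X - C (α l : ℂ)) := by
  obtain ⟨α, hα⟩ := QD_realRooted (Finset.Subset.refl T) hp hX (fun v => -h v)
    (by rw [Finset.sdiff_self, Q_empty]; exact one_ne_zero)
  refine ⟨α, ?_⟩
  rw [Qp_eq_QD, hα, Finset.sdiff_self, Q_empty, map_one, one_mul]

/-- The root in `z y` of `Q (insert y T)` lies in the closed lower half plane when the variables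
in `D` are in the upper half plane and the others are real. -/
theorem Bq_div_im_nonpos {T D : Finset ι} (hD : D ⊆ T) {y : ι} (hy : y ∉ T)
    {p : ι → Fin r → ℝ} (hp : IsProb p) {X : ι → ι → ℂ} (hX : Herm (insert y T) X) (a : ι → ℝ)
    (h0 : Q (T \ D) (cp p) X (fun v => (a v : ℂ)) ≠ 0) (j : Fin r) (w : ℂ) (hw : 0 < w.im) :
    (Bq T y j (cp p) X (fun v => if v ∈ D then w + a v else a v) /
      Q T (cp p) X (fun v => if v ∈ D then w + a v else a v)).im ≤ 0 := by
  let z : ℝ → ι → ℂ := fun ε v => (if v ∈ D then w + a v else a v) + ε * Complex.I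
  have hz : ∀ v, Continuous fun ε => z ε v := fun v => by
    simp only [z]; fun_prop
  have hz0 : z 0 = fun v => if v ∈ D then w + a v else a v := by funext v; simp [z]
  have hq := QH.upper hD hp (hX.mono (Finset.subset_insert _ _)) a h0 w hw
  have key := QH.le_of_pos (f := fun ε => (Bq T y j (cp p) X (z ε) / Q T (cp p) X (z ε)).im)
    (g := fun _ => 0)
    (Complex.continuous_im.continuousAt.comp
      ((QH.continuous_Bq _ _ _ _ _ hz).continuousAt.div (QH.continuous_Q _ _ _ hz).continuousAt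
        (by rwa [hz0])))
    continuousAt_const
    fun ε hε => QH.div_im_nonpos hy hp hX j _ fun v _ => by
      simp only [z]
      split_ifs
      · simp only [Complex.add_im, Complex.ofReal_im, Complex.mul_im, Complex.ofReal_re,
          Complex.I_im, Complex.I_re]
        linarith
      · simpa using hε
  simpa only [hz0] using key

/-- Removing a vertex `y ∉ D`: the ratio is a Herglotz function of the direction `D`. -/
theorem QD_ratio_im_nonpos {T D : Finset ι} (hD : D ⊆ T) {y : ι} (hy : y ∉ T)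
    {p : ι → Fin r → ℝ} (hp : IsProb p) {X : ι → ι → ℂ} (hX : Herm (insert y T) X) (a : ι → ℝ)
    (h0 : Q (T \ D) (cp p) X (fun v => (a v : ℂ)) ≠ 0) (w : ℂ) (hw : 0 < w.im) :
    ((QD T D p X (fun v => (a v : ℂ))).eval w /
      (QD (insert y T) D p X (fun v => (a v : ℂ))).eval w).im ≤ 0 := by
  have hq := QH.upper hD hp (hX.mono (Finset.subset_insert _ _)) a h0 w hw
  have hB := fun j => Bq_div_im_nonpos hD hy hp hX a h0 j w hw
  have hyD : y ∉ D := fun h => hy (hD h)
  rw [eval_QD, eval_QD, Q_insert hy]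
  set z : ι → ℂ := fun v => if v ∈ D then w + a v else a v with hz
  set g := Q T (cp p) X z
  have hzy : z y = a y := by simp [hz, hyD]
  have e : ∑ j, cp p y j * (z y * g - Bq T y j (cp p) X z) =
      g * ∑ j, (p y j : ℂ) * (a y - Bq T y j (cp p) X z / g) := by
    rw [Finset.mul_sum]
    refine Finset.sum_congr rfl fun j _ => ?_
    rw [hzy, cp]
    field_simp
  rw [e, div_mul_eq_div_div, div_self hq, one_div, Complex.inv_im]
  refine div_nonpos_of_nonpos_of_nonneg (neg_nonpos.2 ?_) (Complex.normSq_nonneg _)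
  rw [Complex.im_sum]
  refine Finset.sum_nonneg fun j _ => ?_
  rw [Complex.im_ofReal_mul, Complex.sub_im, Complex.ofReal_im]
  exact mul_nonneg (hp.1 y j) (sub_nonneg.2 (hB j))

end Crest.Agent.R109
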