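import Crest.Agent.R109.Joint
import Crest.Agent.R109.Moment
import Crest.Agent.R109.LemmaB
import Crest.Agent.R109.Decomp

/-! Row 109, task D9b: paving in the regular case. -/

set_option autoImplicit false
set_option linter.unusedSectionVars false

noncomputable section

namespace Crest.Agent.R109

open Filter Topology MeasureTheory
open scoped ComplexOrder ComplexConjugate Classical

universe u

variable {𝓜 : Type u} [CStarAlgebra 𝓜] [PartialOrder 𝓜] [StarOrderedRing 𝓜]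

theorem Reg.moment_mem (R : Reg 𝓜) {x p : 𝓜} (hx : IsSelfAdjoint x) (hn : ‖x‖ ≤ 3)
    (hp : IsStarProjection p) (k : ℕ) :
    0 ≤ (R.ω ((p * x * p) ^ (2 * k))).re ∧ (R.ω ((p * x * p) ^ (2 * k))).re ≤ 3 ^ (2 * k) := by
  have hy : IsSelfAdjoint (p * x * p) := by
    have := hx.conjugate p
    rwa [hp.isSelfAdjoint.star_eq] at this
  constructor
  · refine pos_re_nonneg _ ?_
    have h := star_mul_self_nonneg ((p * x * p) ^ k)
    rwa [(hy.pow k).star_eq, ← pow_add, ← two_mul] at h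
  · refine (Complex.re_le_norm _).trans ((R.norm_ω_le _).trans ?_)
    have h1 : ‖p‖ ≤ 1 := hp.norm_le _
    have h2 : ‖p * x * p‖ ≤ 3 := by
      calc ‖p * x * p‖ ≤ ‖p‖ * ‖x‖ * ‖p‖ := (norm_mul_le _ _).trans (by gcongr; exact norm_mul_le _ _)
        _ ≤ 1 * 3 * 1 := by gcongr
        _ = 3 := by norm_num
    rcases Nat.eq_zero_or_pos (2 * k) with h0 | h0
    · rw [h0, pow_zero, pow_zero]
      exact (IsStarProjection.one 𝓜).norm_le _
    · exact (norm_pow_le' _ h0).trans (by gcongr)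

theorem moment_numeric {ε : ℝ} (hε : 0 < ε) (hε1 : ε < 1) {r : ℕ}
    (hr : 400000000 / ε ^ 2 ≤ r) (k : ℕ) :
    (ε / 10) / (ε / 10) ^ (2 * k) *
      (2 * r * (11 ^ (2 * k + 1) * (1 / (((r + 1) / 2 : ℕ) : ℝ)) ^ (k + 1) * 3 ^ (2 * k))) ≤
      5 * (1 / 4) ^ k := by
  have hε2 : 0 < ε ^ 2 := by positivity
  have hr1 : (400000000 : ℝ) ≤ r := by
    refine le_trans ?_ hr
    rw [le_div_iff₀ hε2]; nlinarith
  set r' : ℕ := (r + 1) / 2 with hr'
  have h2 : (r : ℝ) ≤ 2 * r' := by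
    have : r ≤ 2 * r' := by omega
    exact_mod_cast this
  have hr'0 : (0 : ℝ) < r' := by linarith
  have hq : 33 ^ 2 * (1 / (r' : ℝ)) / (ε / 10) ^ 2 ≤ 1 / 4 := by
    rw [div_le_iff₀ hε2] at hr
    rw [div_le_iff₀ (by positivity), mul_one_div, div_le_iff₀ hr'0]
    nlinarith
  have hid : (ε / 10) / (ε / 10) ^ (2 * k) *
      (2 * r * (11 ^ (2 * k + 1) * (1 / (r' : ℝ)) ^ (k + 1) * 3 ^ (2 * k))) =
      (ε / 10) * (2 * r * (1 / (r' : ℝ)) * 11) *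
        (33 ^ 2 * (1 / (r' : ℝ)) / (ε / 10) ^ 2) ^ k := by
    rw [div_pow (33 ^ 2 * (1 / (r' : ℝ))), mul_pow (33 ^ 2), ← pow_mul, ← pow_mul,
      show (33 : ℝ) = 11 * 3 by norm_num, mul_pow 11 3, pow_succ, pow_succ]
    field_simp
  rw [hid]
  have h3 : 2 * r * (1 / (r' : ℝ)) ≤ 4 := by
    rw [mul_one_div, div_le_iff₀ hr'0]; linarith
  have h4 : (ε / 10) * (2 * r * (1 / (r' : ℝ)) * 11) ≤ 5 := by
    have : 0 ≤ 2 * r * (1 / (r' : ℝ)) := by positivity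
    nlinarith
  exact mul_le_mul h4 (pow_le_pow_left₀ (by positivity) hq k) (by positivity) (by norm_num)

theorem Reg.reg143_one (R : Reg 𝓜) {ε : ℝ} (hε : 0 < ε) (hε1 : ε < 1) {r : ℕ}
    (hr : 400000000 / ε ^ 2 ≤ r) {x : 𝓜} (hx : IsSelfAdjoint x) (hx1 : ‖x‖ ≤ 1) {κ : ℝ}
    (hκ : 0 < κ) :
    ∃ p : Fin r → 𝓜, IsPaving R.A p ∧ ∃ q, IsStarProjection q ∧ (R.ω (1 - q)).re ≤ κ ∧
      ‖q * (pinch p x - R.E x) * q‖ ≤ ε := by
  have hε2 : 0 < ε ^ 2 := by positivity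
  have hr1 : (400000000 : ℝ) ≤ r := by
    refine le_trans ?_ hr
    rw [le_div_iff₀ hε2]; nlinarith
  have hrR : (0 : ℝ) < r := by linarith
  have hr0 : 0 < r := by exact_mod_cast hrR
  have hr' : 0 < (r + 1) / 2 := by omega
  set β : ℝ := κ * ε / 60 with hβdef
  have hβ : 0 < β := by positivity
  obtain ⟨ξ, hξ, hξ1, hξ2, hξβ⟩ : ∃ ξ : ℝ, 0 < ξ ∧ ξ ≤ 1 / 2 ∧
      (4 * ξ) ^ 2 / (4 * (ε / 10)) ≤ β ∧ ξ ≤ β := by
    refine ⟨min (1 / 2) (β * (ε / 10) / 4), by positivity, min_le_left _ _, ?_, ?_⟩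
    · rw [div_le_iff₀ (by positivity)]
      have h1 := min_le_left (1 / 2 : ℝ) (β * (ε / 10) / 4)
      have h2 := min_le_right (1 / 2 : ℝ) (β * (ε / 10) / 4)
      have h3 : 0 < min (1 / 2 : ℝ) (β * (ε / 10) / 4) := by positivity
      have h4 : 0 < β * ε := by positivity
      nlinarith
    · refine (min_le_right _ _).trans ?_
      nlinarith
  obtain ⟨w, hw, hwn, hperp, hdec⟩ := R.decomp hx
  have hw3 : ‖w‖ ≤ 3 := by linarith
  obtain ⟨k, hk1, hk⟩ : ∃ k : ℕ, 1 ≤ k ∧ 5 * (1 / 4 : ℝ) ^ k ≤ β / 2 := by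
    obtain ⟨k, hk⟩ := exists_pow_lt_of_lt_one (x := β / 10) (y := (1 / 4 : ℝ)) (by positivity)
      (by norm_num)
    refine ⟨k + 1, by omega, ?_⟩
    have : 0 < (1 / 4 : ℝ) ^ k := by positivity
    rw [pow_succ]; linarith
  obtain ⟨C, hC0, hC⟩ := R.moment_bound hk1 (ρ := 3) (by norm_num)
  set c0 : ℝ := (ε / 10) / (ε / 10) ^ (2 * k) with hc0
  have hc00 : 0 < c0 := by positivity
  obtain ⟨η, hη, hηξ, hηβ⟩ : ∃ η : ℝ, 0 < η ∧ η ≤ ξ ∧ c0 * (2 * r * (C * η)) ≤ β / 2 := by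
    set A0 : ℝ := c0 * (2 * r * C) with hA0
    have hA : 0 ≤ A0 := by positivity
    refine ⟨min ξ (β / 2 / (A0 + 1)), by positivity, min_le_left _ _, ?_⟩
    have h1 := min_le_right ξ (β / 2 / (A0 + 1))
    calc c0 * (2 * r * (C * min ξ (β / 2 / (A0 + 1)))) = A0 * min ξ (β / 2 / (A0 + 1)) := by
          rw [hA0]; ring
      _ ≤ (A0 + 1) * (β / 2 / (A0 + 1)) := by gcongr; linarith
      _ = β / 2 := by field_simp
  obtain ⟨xt, hxt, hxtn, hxtw, P₀, hP₀⟩ := R.lemmaB hw hperp hη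
  have hxt3 : ‖xt‖ ≤ 3 := hxtn.trans hw3
  set g : 𝓜 → ℝ := fun p => max 0 (min (R.ω ((p * xt * p) ^ (2 * k))).re (3 ^ (2 * k))) with hg
  have hgp : ∀ p, IsStarProjection p → g p = (R.ω ((p * xt * p) ^ (2 * k))).re := fun p hp => by
    obtain ⟨h1, h2⟩ := R.moment_mem hxt hxt3 hp k
    simp only [hg]
    rw [min_eq_left h2, max_eq_right h1]
  set Bd : ℝ := 11 ^ (2 * k + 1) * (1 / (((r + 1) / 2 : ℕ) : ℝ)) ^ (k + 1) * 3 ^ (2 * k) + C * η
    with hBddef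
  have hBd : 0 < Bd := by
    have : (0 : ℝ) < ((r + 1) / 2 : ℕ) := by exact_mod_cast hr'
    positivity
  obtain ⟨V, hV0, hVs, hVi⟩ := R.exists_V hr' g (B₀ := 3 ^ (2 * k))
    (fun p => ⟨le_max_left _ _, max_le (by positivity) (min_le_right _ _)⟩) P₀ (Bd := Bd) (by
      intro κ' _ _ e he hsub
      have hcell : ∀ a b, ‖e a * xt * e b‖ ≤ η := by
        intro a b
        rcases P₀.exists_cell (hsub a) with h0 | ⟨a', ha', h1⟩
        · rw [h0]; simpa using hη.le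
        rcases P₀.exists_cell (hsub b) with h0 | ⟨b', hb', h2⟩
        · rw [h0]; simpa using hη.le
        have h3 : b' * e b = e b := by
          rw [R.comm _ (P₀.mem hb') _ (he.1 b).1, h2]
        have h4 : e a * xt * e b = e a * (a' * xt * b') * e b := by
          conv_lhs => rw [← h1, ← h3]
          simp only [mul_assoc]
        have h5 : ‖e a‖ ≤ 1 := (he.1 a).2.norm_le _
        have h6 : ‖e b‖ ≤ 1 := (he.1 b).2.norm_le _
        calc ‖e a * xt * e b‖ = ‖e a * (a' * xt * b') * e b‖ := by rw [h4]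
          _ ≤ ‖e a‖ * ‖a' * xt * b'‖ * ‖e b‖ :=
            (norm_mul_le _ _).trans (by gcongr; exact norm_mul_le _ _)
          _ ≤ 1 * η * 1 := by gcongr; exact hP₀ _ ha' _ hb'
          _ = η := by ring
      refine le_trans (le_of_eq ?_) (hC κ' e he xt hxt3 η hη.le hcell _ hr' (fun _ => ⟨0, hr'⟩))
      congr 1
      funext pos
      exact hgp _ (he.sel_mem _ _).2)
  obtain ⟨x₁, hx₁, hx₁sa, hx₁n, hx₁d⟩ := hdec ξ hξ
  have hx₀N : x₁ - R.E x₁ ∈ R.N0 := R.N0.sub_mem hx₁ (R.mem_N0_of_mem_A (R.E_mem _))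
  have hx₀sa : IsSelfAdjoint (x₁ - R.E x₁) := hx₁sa.sub (R.E_sa hx₁sa)
  have hx₀E : R.E (x₁ - R.E x₁) = 0 := by rw [R.E_sub, R.E_E, sub_self]
  have hx₀n : ‖x₁ - R.E x₁‖ ≤ 5 := by
    have h1 := norm_sub_le x₁ (R.E x₁)
    have h2 := R.norm_E_le x₁
    linarith
  obtain ⟨p, pt, hp, hpt, hVsum, x', hx'sa, hx'd, hb₁, hb₂⟩ := R.joint hε hε1 hr hx₀N hx₀sa hx₀E hx₀n
    V (fun p => by rw [hV0]; exact le_max_left _ _) hVs hBd hVi hξ
  have hmass : c0 * ∑ l, (R.ω ((pt l * xt * pt l) ^ (2 * k))).re ≤ β := by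
    have h1 : ∑ l, (R.ω ((pt l * xt * pt l) ^ (2 * k))).re = ∑ l, V [] (pt l) :=
      Finset.sum_congr rfl fun l _ => by rw [hV0, hgp _ (hpt l).2]
    have h2 := moment_numeric hε hε1 hr k
    rw [h1]
    calc c0 * ∑ l, V [] (pt l) ≤ c0 * (2 * r * Bd) := by gcongr
      _ = c0 * (2 * r * (11 ^ (2 * k + 1) * (1 / (((r + 1) / 2 : ℕ) : ℝ)) ^ (k + 1) *
            3 ^ (2 * k))) + c0 * (2 * r * (C * η)) := by rw [hBddef]; ring
      _ ≤ β := by linarith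
  have hε10 : 0 < ε / 10 := by positivity
  have hs₁ : R.BLe (pinch p xt) (ε / 10) β :=
    (R.ble_pinch_of_moment hp hpt hxt hε10 hk1).mono le_rfl hmass
  have hneg : ∀ y : 𝓜, pinch p (-y) = -pinch p y := fun y => by
    simp [pinch]
  have hs₂ : R.BLe (-pinch p xt) (ε / 10) β := by
    have h := R.ble_pinch_of_moment hp hpt hxt.neg hε10 hk1
    rw [hneg] at h
    refine h.mono le_rfl (le_trans (le_of_eq ?_) hmass)
    congr 1
    refine Finset.sum_congr rfl fun l _ => ?_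
    rw [mul_neg, neg_mul, (even_two_mul k).neg_pow]
  set err : 𝓜 := x - R.E x - xt - x' with herr
  have herrsa : IsSelfAdjoint err := ((hx.sub (R.E_sa hx)).sub hxt).sub hx'sa
  have hEw : R.E w = 0 := by simpa using hperp 1 R.inG_one
  have herrn : n2 R.ω err ≤ 4 * ξ := by
    have h1 : err = ((x - w - x₁) - R.E (x - w - x₁)) + (w - xt) + ((x₁ - R.E x₁) - x') := by
      rw [herr, R.E_sub, R.E_sub, hEw]; abel
    have h2 := n2_add_le R.ω (((x - w - x₁) - R.E (x - w - x₁)) + (w - xt)) ((x₁ - R.E x₁) - x')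
    have h3 := n2_add_le R.ω ((x - w - x₁) - R.E (x - w - x₁)) (w - xt)
    have h4 := n2_sub_le R.ω (x - w - x₁) (R.E (x - w - x₁))
    have h5 := R.n2_E_le (x - w - x₁)
    rw [h1]; linarith
  have hpe : n2 R.ω (pinch p err) ^ 2 / (4 * (ε / 10)) ≤ β := by
    refine le_trans ?_ hξ2
    have := (R.n2_pinch_le hp err).trans herrn
    have h0 := n2_nonneg R.ω (pinch p err)
    gcongr
  have he₁ : R.BLe (pinch p err) (ε / 10) β :=
    (R.ble_of_n2 (hp.pinch_sa herrsa) hε10).mono le_rfl hpe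
  have he₂ : R.BLe (-pinch p err) (ε / 10) β :=
    (R.ble_of_n2 (hp.pinch_sa herrsa).neg hε10).mono le_rfl (by rwa [n2_neg])
  have hsplit : pinch p x - R.E x = pinch p xt + pinch p x' + pinch p err := by
    rw [← pinch_add, ← pinch_add, herr, show xt + x' + (x - R.E x - xt - x') = x - R.E x by abel,
      pinch_sub, R.pinch_of_mem hp (R.E_mem x)]
  have hY₁ := (hs₁.add (hb₁.mono le_rfl hξβ)).add he₁
  have hY₂ := (hs₂.add (hb₂.mono le_rfl hξβ)).add he₂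
  rw [← neg_add, ← neg_add, ← hsplit] at hY₂
  rw [← hsplit] at hY₁
  obtain ⟨q, hq, hqω, hqn⟩ := R.exists_q ((hp.pinch_sa hx).sub (R.E_sa hx)) (by positivity) hε10
    hY₁ hY₂
  refine ⟨p, hp, q, hq, hqω.trans (le_of_eq ?_), hqn.trans (by linarith)⟩
  rw [hβdef]; field_simp; ring

theorem Reg.reg143 (R : Reg 𝓜) {ε : ℝ} (hε : 0 < ε) (hε1 : ε < 1) {r : ℕ}
    (hr : 400000000 / ε ^ 2 ≤ r) {x : 𝓜} (hx : IsSelfAdjoint x) {κ : ℝ} (hκ : 0 < κ) :
    ∃ p : Fin r → 𝓜, IsPaving R.A p ∧ ∃ q, IsStarProjection q ∧ (R.ω (1 - q)).re ≤ κ ∧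
      ‖q * (pinch p x - R.E x) * q‖ ≤ ε * ‖x‖ := by
  rcases eq_or_ne x 0 with rfl | hx0
  · obtain ⟨p, hp, q, hq, hqω, -⟩ := R.reg143_one hε hε1 hr hx (by simp) hκ
    refine ⟨p, hp, q, hq, hqω, ?_⟩
    simp [pinch, R.E_zero]
  have hn : 0 < ‖x‖ := norm_pos_iff.2 hx0
  have hsa : IsSelfAdjoint ((‖x‖⁻¹ : ℝ) • x) := IsSelfAdjoint.smul (IsSelfAdjoint.all _) hx
  obtain ⟨p, hp, q, hq, hqω, hqn⟩ := R.reg143_one hε hε1 hr hsa
    (by rw [norm_smul, norm_inv, norm_norm, inv_mul_cancel₀ hn.ne']) hκ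
  refine ⟨p, hp, q, hq, hqω, ?_⟩
  rw [pinch_real_smul, R.E_real_smul, ← smul_sub, mul_smul_comm, smul_mul_assoc, norm_smul,
    norm_inv, norm_norm, inv_mul_le_iff₀ hn] at hqn
  linarith

end Crest.Agent.R109
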