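import Crest.Agent.R109.Reg143

/-! Row 109, task D10: approximation paving in the regular case. -/

set_option autoImplicit false
set_option linter.unusedSectionVars false

noncomputable section

namespace Crest.Agent.R109

open Filter Topology MeasureTheory
open scoped ComplexOrder ComplexConjugate Classical

universe u

variable {𝓜 : Type u} [CStarAlgebra 𝓜] [PartialOrder 𝓜] [StarOrderedRing 𝓜]

theorem Reg.reg144 (R : Reg 𝓜) {ε : ℝ} (hε : 0 < ε) (hε1 : ε < 1) {r : ℕ}
    (hr : 400000000 / ε ^ 2 ≤ r) {x : 𝓜} (hx : IsSelfAdjoint x) {κ : ℝ} (hκ : 0 < κ) :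
    ∃ p : Fin r → 𝓜, IsPaving R.A p ∧ ∃ z, IsSelfAdjoint z ∧ ‖z‖ ≤ 2 * ‖x‖ ∧ n2 R.ω z ≤ κ ∧
      ‖pinch p (x - z) - R.E x‖ ≤ 3 * ε * ‖x‖ := by
  have hEA := R.E_mem x
  have hz0 : IsSelfAdjoint (x - R.E x) := hx.sub (R.E_sa hx)
  have hz0n : ‖x - R.E x‖ ≤ 2 * ‖x‖ := (norm_sub_le _ _).trans (by linarith [R.norm_E_le x])
  have hx0 := norm_nonneg x
  obtain ⟨κ', hκ', hac⟩ := R.ac (R.conj_mem _ R.ω_mem (x - R.E x)) (κ := (κ / 2) ^ 2)
    (by positivity)
  obtain ⟨p, hp, q, hq, hq1, hq2⟩ := R.reg143 hε hε1 hr hx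
    (κ := min κ' ((κ / (2 * (2 * ‖x‖ + 1))) ^ 2)) (lt_min hκ' (by positivity))
  have e1 : pinch p x - R.E x = pinch p (x - R.E x) := by
    rw [pinch_sub, R.pinch_of_mem hp hEA]
  rw [e1] at hq2
  set z0 := x - R.E x with hz0def
  set z' := pinch p z0 with hz'
  have hz's : IsSelfAdjoint z' := hp.pinch_sa hz0
  have hz'n : ‖z'‖ ≤ 2 * ‖x‖ := (hp.norm_pinch_le _).trans hz0n
  have hc : (0 : ℝ) ≤ 1 - ε / 2 := by linarith
  refine ⟨p, hp, (1 - ε / 2) • (z' - q * z' * q),
    (IsSelfAdjoint.all _).smul (hz's.sub (hz's.conjugate_self hq.isSelfAdjoint)), ?_, ?_, ?_⟩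
  · rw [norm_smul, Real.norm_of_nonneg hc]
    have h1 : ‖z' - q * z' * q‖ ≤ (2 + ε) * ‖x‖ := (norm_sub_le _ _).trans (by linarith)
    have h2 := mul_le_mul_of_nonneg_left h1 hc
    nlinarith [mul_nonneg (sq_nonneg ε) hx0]
  · have hg := hq.one_sub
    have h1 : n2 R.ω (q * z' * (1 - q)) ≤ κ / 2 := by
      have a1 := n2_mul_le R.ω (q * z') (1 - q)
      have a2 : ‖q * z'‖ ≤ 2 * ‖x‖ + 1 :=
        (norm_mul_le _ _).trans ((mul_le_of_le_one_left (norm_nonneg _) hq.norm_le).trans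
          (by linarith))
      have a3 : n2 R.ω (1 - q) ≤ κ / (2 * (2 * ‖x‖ + 1)) := by
        rw [n2_proj _ hg]
        exact Real.sqrt_le_iff.2 ⟨by positivity, hq1.trans (min_le_right _ _)⟩
      have a4 := mul_le_mul a2 a3 (n2_nonneg _ _) (by positivity)
      have a5 : (2 * ‖x‖ + 1) * (κ / (2 * (2 * ‖x‖ + 1))) = κ / 2 := by field_simp
      linarith
    have h2 : n2 R.ω ((1 - q) * z') ≤ κ / 2 := by
      refine (sq_le_sq₀ (n2_nonneg _ _) (by positivity)).1 ?_
      have a0 : pinch p (1 - q) ≤ 1 := by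
        rw [pinch_sub, R.pinch_of_mem hp R.A.one_mem]
        exact sub_le_self _ (hp.pinch_nonneg hq.nonneg)
      have a1 := hac (pinch p (1 - q)) (hp.pinch_nonneg hg.nonneg) a0
        (by rw [R.ω_pinch hp]; exact hq1.trans (min_le_left _ _))
      refine le_trans ?_ a1
      have a2 : star ((1 - q) * z') * ((1 - q) * z') = z' * (1 - q) * z' := by
        rw [star_mul, hz's.star_eq, hg.isSelfAdjoint.star_eq, mul_assoc, ← mul_assoc (1 - q),
          hg.isIdempotentElem.eq, mul_assoc]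
      rw [n2_sq, a2, ← R.ω_pinch hp, conjF_apply, hz0.star_eq]
      unfold pinch
      rw [Finset.mul_sum, Finset.sum_mul, map_sum, map_sum, Complex.re_sum, Complex.re_sum]
      refine Finset.sum_le_sum fun i _ => ?_
      have a3 : p i * (z' * (1 - q) * z') * p i =
          p i * (z0 * (p i * (1 - q) * p i) * z0) * p i := by
        calc p i * (z' * (1 - q) * z') * p i = (p i * z') * (1 - q) * (z' * p i) := by
              simp only [mul_assoc]
          _ = _ := by
              rw [hz', (hp.mul_pinch i z0).1, (hp.mul_pinch i z0).2]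
              simp only [mul_assoc]
      rw [a3]
      refine R.ω_proj_conj_le (hp.1 i).1 (hp.1 i).2 ?_
      exact hz0.conjugate_nonneg ((hp.1 i).2.isSelfAdjoint.conjugate_nonneg hg.nonneg)
    have h3 := n2_add_le R.ω ((1 - q) * z') (q * z' * (1 - q))
    rw [show (1 - q) * z' + q * z' * (1 - q) = z' - q * z' * q by noncomm_ring] at h3
    rw [n2_real_smul, abs_of_nonneg hc]
    nlinarith [n2_nonneg R.ω (z' - q * z' * q)]
  · have e2 : pinch p (x - (1 - ε / 2) • (z' - q * z' * q)) - R.E x =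
        (ε / 2) • z' + (1 - ε / 2) • pinch p (q * z' * q) := by
      have e3 : pinch p z' = z' := hp.pinch_pinch _
      rw [pinch_sub, pinch_real_smul, pinch_sub, e3, sub_right_comm, e1]
      module
    rw [e2]
    refine (norm_add_le _ _).trans ?_
    rw [norm_smul, norm_smul, Real.norm_of_nonneg hc, Real.norm_of_nonneg (by positivity)]
    have h1 := (hp.norm_pinch_le (q * z' * q)).trans hq2
    have h2 := mul_le_mul_of_nonneg_left h1 hc
    have h3 := mul_le_mul_of_nonneg_left hz'n (by positivity : 0 ≤ ε / 2)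
    nlinarith [mul_nonneg (sq_nonneg ε) hx0, mul_nonneg hε.le hx0]

end Crest.Agent.R109
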