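import Crest.Agent.R109.WExp

/-! Row 109, task D1a: basics of the regular case. -/

set_option autoImplicit false
set_option linter.unusedSectionVars false

noncomputable section

namespace Crest.Agent.R109

open Filter Topology
open scoped ComplexOrder ComplexConjugate Classical

universe u

variable {𝓜 : Type u} [CStarAlgebra 𝓜] [PartialOrder 𝓜] [StarOrderedRing 𝓜]

namespace Reg

variable (R : Reg 𝓜)

include R in
theorem exists_SP' {b : 𝓜} (hb : IsSelfAdjoint b) (c : ℝ) : ∃ e, WS.IsSP b c e := by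
  first
    | exact WS.exists_SP R.toWS hb c
    | exact WS.exists_SP hb c

theorem ω_E (y : 𝓜) : R.ω (R.E y) = R.ω y := by
  exact (R.normal_of_mem R.ω_mem).apply_E R.central y

theorem ω_pinch {κ : Type*} [Fintype κ] {p : κ → 𝓜} (hp : IsPaving R.A p) (y : 𝓜) :
    R.ω (pinch p y) = R.ω y := by
  rw [← R.ω_E, R.E_pinch hp, R.ω_E]

theorem ω_proj_conj_le {e : 𝓜} (he : e ∈ R.A) (hp : IsStarProjection e) {y : 𝓜} (hy : 0 ≤ y) :
    (R.ω (e * y * e)).re ≤ (R.ω y).re := by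
  have h1 : ∀ f ∈ R.A, IsStarProjection f → R.ω (f * y * f) = R.ω (y * f) := fun f hf hpf => by
    rw [mul_assoc, R.central f hf, mul_assoc, hpf.isIdempotentElem.eq]
  have h2 : 0 ≤ (R.ω ((1 - e) * y * (1 - e))).re := by
    refine pos_re_nonneg _ ?_
    have := star_left_conjugate_nonneg hy (1 - e)
    rwa [hp.one_sub.isSelfAdjoint.star_eq] at this
  rw [h1 _ (sub_mem R.A.one_mem he) hp.one_sub, mul_sub, mul_one, map_sub, Complex.sub_re] at h2
  rw [h1 e he hp]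
  linarith

theorem n2_le_norm' (y : 𝓜) : n2 R.ω y ≤ ‖y‖ := by
  refine (n2_le_norm R.ω y).trans ?_
  have : Real.sqrt (R.ω 1).re ≤ 1 := Real.sqrt_le_one.2 R.one_le
  exact mul_le_of_le_one_right (norm_nonneg _) this

theorem norm_ω_le (y : 𝓜) : ‖R.ω y‖ ≤ ‖y‖ := by
  exact (pos_norm_le R.ω y).trans (mul_le_of_le_one_right (norm_nonneg _) R.one_le)

theorem n2_pinch_le {κ : Type*} [Fintype κ] {p : κ → 𝓜} (hp : IsPaving R.A p) (y : 𝓜) :
    n2 R.ω (pinch p y) ≤ n2 R.ω y := by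
  refine Real.sqrt_le_sqrt ?_
  have := pos_re_mono R.ω (hp.pinch_schwarz y)
  rwa [R.ω_pinch hp] at this

theorem n2_E_le (y : 𝓜) : n2 R.ω (R.E y) ≤ n2 R.ω y := by
  refine Real.sqrt_le_sqrt ?_
  have := pos_re_mono R.ω (R.E_schwarz y)
  rwa [R.ω_E] at this

theorem n2_mul_right_A {a : 𝓜} (ha : a ∈ R.A) (y : 𝓜) : n2 R.ω (y * a) ≤ ‖a‖ * n2 R.ω y := by
  have h1 : R.ω (star (y * a) * (y * a)) = R.ω (R.E (star y * y) * (a * star a)) := by
    rw [← R.E_mul_right (mul_mem ha (star_mem ha)), R.ω_E, star_mul, mul_assoc,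
      R.central _ (star_mem ha)]
    simp only [mul_assoc]
  have hc : (‖a‖ ^ 2 : ℝ) • (1 : 𝓜) - a * star a ∈ R.A := by
    refine sub_mem ?_ (mul_mem ha (star_mem ha))
    rw [← Complex.coe_smul]
    exact R.A.smul_mem R.A.one_mem _
  have hc0 : 0 ≤ (‖a‖ ^ 2 : ℝ) • (1 : 𝓜) - a * star a := by
    rw [sub_nonneg, ← Algebra.algebraMap_eq_smul_one]
    exact CStarAlgebra.mul_star_le_algebraMap_norm_sq
  have h2 := pos_re_nonneg R.ω
    (R.mul_nonneg_A (R.E_mem (star y * y)) hc (R.E_nonneg (star_mul_self_nonneg y)) hc0)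
  rw [mul_sub, mul_smul_comm, mul_one, map_sub, Complex.sub_re, pos_real_smul, R.ω_E,
    Complex.re_ofReal_mul, ← h1, ← n2_sq, ← n2_sq, ← mul_pow, sub_nonneg] at h2
  exact (pow_le_pow_iff_left₀ (n2_nonneg _ _) (mul_nonneg (norm_nonneg _) (n2_nonneg _ _))
    two_ne_zero).1 h2

theorem eq_zero_of_n2 {y : 𝓜} (h : n2 R.ω y = 0) : y = 0 := by
  have h1 : (R.ω (star y * y)).re ≤ 0 := by rw [← n2_sq, h]; norm_num
  have h2 := R.faithful _ (star_mul_self_nonneg y)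
    (pos_eq_zero_of_re _ (star_mul_self_nonneg y) h1)
  exact (CStarRing.star_mul_self_eq_zero_iff y).1 h2

theorem eventually_n2_pinch (y : 𝓜) {δ : ℝ} (hδ : 0 < δ) :
    ∀ᶠ P in (R.U : Filter (Part R.A)), n2 R.ω (P.pinch y - R.E y) ≤ δ := by
  obtain ⟨n, i, -, hi⟩ := (R.E_wlim y).banach_saks (R := ‖y‖)
    (Eventually.of_forall fun P => R.norm_part_pinch_le P y) (P := fun _ => True)
    (Eventually.of_forall fun _ => trivial) R.ω_mem hδ
  have hev : ∀ᶠ P in (R.U : Filter (Part R.A)), ∀ k, ∀ e ∈ (i k).cells, P.Resp e :=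
    eventually_all.2 fun k => R.U_refines (i k)
  filter_upwards [hev] with P hP
  have hsum : ∀ (S : Finset (Fin (n + 1))) (z : Fin (n + 1) → 𝓜),
      P.pinch (∑ k ∈ S, z k) = ∑ k ∈ S, P.pinch (z k) := by
    intro S z
    unfold Part.pinch
    rw [Finset.sum_comm]
    refine Finset.sum_congr rfl fun b _ => ?_
    rw [Finset.mul_sum, Finset.sum_mul]
  have h1 : P.pinch (((n + 1 : ℝ))⁻¹ • ∑ k, (i k).pinch y - R.E y) = P.pinch y - R.E y := by
    rw [Part.pinch_eq, pinch_sub, pinch_real_smul, ← Part.pinch_eq, ← Part.pinch_eq, hsum,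
      R.part_pinch_of_mem P (R.E_mem y),
      Finset.sum_congr rfl fun k _ => Part.pinch_refine (hP k) y, Finset.sum_const,
      Finset.card_univ, Fintype.card_fin, ← Nat.cast_smul_eq_nsmul ℝ, smul_smul]
    push_cast
    rw [inv_mul_cancel₀ (by positivity), one_smul]
  rw [← h1, Part.pinch_eq]
  exact (R.n2_pinch_le P.paving _).trans hi

/-- Absolute continuity of the functionals of `𝓕` with respect to `ω`. -/
theorem ac {φ : 𝓜 →ₚ[ℂ] ℂ} (hφ : φ ∈ R.𝓕) {κ : ℝ} (hκ : 0 < κ) :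
    ∃ κ' : ℝ, 0 < κ' ∧ ∀ c : 𝓜, 0 ≤ c → c ≤ 1 → (R.ω c).re ≤ κ' → (φ c).re ≤ κ := by
  by_contra hcon
  push Not at hcon
  choose c hc0 hc1 hc2 hc3 using fun n : ℕ => hcon (1 / ((n : ℝ) + 1)) (by positivity)
  obtain ⟨Y, hY⟩ := R.exists_wlim (hyperfilter ℕ) c (R := 1)
    (Eventually.of_forall fun n => (CStarAlgebra.norm_le_one_iff_of_nonneg _ (hc0 n)).2 (hc1 n))
  have hY0 : 0 ≤ Y := hY.nonneg (Eventually.of_forall hc0)
  have hU : (hyperfilter ℕ : Filter ℕ) ≤ atTop := by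
    rw [← Nat.cofinite_eq_atTop]; exact hyperfilter_le_cofinite
  have h1 : (R.ω Y).re ≤ 0 :=
    le_of_tendsto_of_tendsto' ((Complex.continuous_re.tendsto _).comp (hY _ R.ω_mem))
      (tendsto_one_div_add_atTop_nhds_zero_nat.mono_left hU) hc2
  have h2 : Y = 0 := R.faithful Y hY0 (pos_eq_zero_of_re _ hY0 h1)
  have h3 : κ ≤ (φ Y).re :=
    ge_of_tendsto' ((Complex.continuous_re.tendsto _).comp (hY _ hφ)) fun n => (hc3 n).le
  rw [h2, map_zero, Complex.zero_re] at h3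
  linarith

theorem ac_n2 {φ : 𝓜 →ₚ[ℂ] ℂ} (hφ : φ ∈ R.𝓕) (ρ : ℝ) {κ : ℝ} (hκ : 0 < κ) :
    ∃ κ' : ℝ, 0 < κ' ∧ ∀ y : 𝓜, ‖y‖ ≤ ρ → n2 R.ω y ≤ κ' → n2 φ y ≤ κ := by
  set σ : ℝ := max ρ 1 with hσ
  have hσ1 : 1 ≤ σ := le_max_right _ _
  have hσ0 : 0 < σ := by linarith
  obtain ⟨κ₁, hκ₁, h⟩ := R.ac hφ (κ := κ ^ 2 / σ ^ 2) (by positivity)
  refine ⟨min κ₁ 1, lt_min hκ₁ one_pos, fun y hy hn => ?_⟩
  have hyσ : ‖y‖ ≤ σ := hy.trans (le_max_left _ _)
  have hc0 : 0 ≤ (σ ^ 2)⁻¹ • (star y * y) := smul_nonneg (by positivity) (star_mul_self_nonneg y)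
  have hc1 : (σ ^ 2)⁻¹ • (star y * y) ≤ 1 := by
    rw [← CStarAlgebra.norm_le_one_iff_of_nonneg _ hc0, norm_smul, CStarRing.norm_star_mul_self,
      Real.norm_of_nonneg (by positivity), inv_mul_le_iff₀ (by positivity), mul_one, sq]
    exact mul_le_mul hyσ hyσ (norm_nonneg _) hσ0.le
  have h1 : (σ ^ 2)⁻¹ ≤ 1 := inv_le_one_of_one_le₀ (one_le_pow₀ hσ1)
  have h2 : n2 R.ω y ^ 2 ≤ κ₁ := by
    have a1 := hn.trans (min_le_left _ _)
    have a2 := hn.trans (min_le_right _ _)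
    nlinarith [n2_nonneg R.ω y]
  have h3 := h _ hc0 hc1 (by
    rw [pos_real_smul, Complex.re_ofReal_mul, ← n2_sq]
    exact (mul_le_of_le_one_left (sq_nonneg _) h1).trans h2)
  rw [pos_real_smul, Complex.re_ofReal_mul, ← n2_sq, div_eq_inv_mul,
    mul_le_mul_iff_right₀ (by positivity)] at h3
  exact (pow_le_pow_iff_left₀ (n2_nonneg _ _) hκ.le two_ne_zero).1 h3

/-- Compressing a fixed element by a projection close to `1`. -/
theorem exists_n2_compress (y : 𝓜) {κ : ℝ} (hκ : 0 < κ) :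
    ∃ κ' : ℝ, 0 < κ' ∧ ∀ q, IsStarProjection q → (R.ω (1 - q)).re ≤ κ' →
      n2 R.ω (y - q * y * q) ≤ κ := by
  obtain ⟨κ₁, hκ₁, h⟩ := R.ac (R.conj_mem _ R.ω_mem y) (κ := (κ / 2) ^ 2) (by positivity)
  refine ⟨min κ₁ ((κ / 2 / (‖y‖ + 1)) ^ 2), lt_min hκ₁ (by positivity), fun q hq hω => ?_⟩
  have e1 : y - q * y * q = (1 - q) * y + q * y * (1 - q) := by noncomm_ring
  have h1 : n2 R.ω ((1 - q) * y) ≤ κ / 2 := by
    rw [← n2_conjF, n2_proj _ hq.one_sub]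
    exact Real.sqrt_le_iff.2 ⟨by positivity,
      h _ hq.one_sub.nonneg hq.one_sub.le_one (hω.trans (min_le_left _ _))⟩
  have h2 : n2 R.ω (q * y * (1 - q)) ≤ κ / 2 := by
    refine (n2_mul_le _ _ _).trans ?_
    have a1 : ‖q * y‖ ≤ ‖y‖ + 1 := by
      refine (norm_mul_le _ _).trans ?_
      have := hq.norm_le
      nlinarith [norm_nonneg y]
    have a2 : n2 R.ω (1 - q) ≤ κ / 2 / (‖y‖ + 1) := by
      rw [n2_proj _ hq.one_sub]
      exact Real.sqrt_le_iff.2 ⟨by positivity, hω.trans (min_le_right _ _)⟩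
    calc ‖q * y‖ * n2 R.ω (1 - q) ≤ (‖y‖ + 1) * (κ / 2 / (‖y‖ + 1)) :=
          mul_le_mul a1 a2 (n2_nonneg _ _) (by positivity)
      _ = κ / 2 := by field_simp
  rw [e1]
  linarith [n2_add_le R.ω ((1 - q) * y) (q * y * (1 - q))]

theorem eq_zero_of_ω {a : 𝓜} (ha : a ∈ R.A) (h : ∀ b ∈ R.A, R.ω (b * a) = 0) : a = 0 := by
  exact (CStarRing.star_mul_self_eq_zero_iff a).1
    (R.faithful _ (star_mul_self_nonneg a) (h _ (star_mem ha)))

theorem E_eq_of {y a : 𝓜} (ha : a ∈ R.A) (h : ∀ b ∈ R.A, R.ω (b * y) = R.ω (b * a)) :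
    R.E y = a := by
  refine sub_eq_zero.1 (R.eq_zero_of_ω (sub_mem (R.E_mem y) ha) fun b hb => ?_)
  rw [mul_sub, map_sub, ← R.E_mul_left hb, R.ω_E, h b hb, sub_self]

theorem E_faithful {y : 𝓜} (hy : 0 ≤ y) (h : R.E y = 0) : y = 0 := by
  exact R.faithful y hy (by rw [← R.ω_E, h, map_zero])

theorem nonneg_of_ω {a : 𝓜} (ha : a ∈ R.A) (hsa : IsSelfAdjoint a)
    (h : ∀ e ∈ R.A, IsStarProjection e → 0 ≤ (R.ω (e * a)).re) : 0 ≤ a := by
  obtain ⟨e, he⟩ := R.exists_SP' hsa 0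
  have heA : e ∈ R.A := he.mem_A ha
  have h1 : 0 ≤ a * e := by simpa using he.2.2.1
  have h2 : 0 ≤ -(a * (1 - e)) := by simpa using he.2.2.2
  have h3 := h (1 - e) (sub_mem R.A.one_mem heA) he.1.one_sub
  rw [R.central _ (sub_mem R.A.one_mem heA)] at h3
  have h4 := R.faithful _ h2 (pos_eq_zero_of_re _ h2 (by rw [map_neg, Complex.neg_re]; linarith))
  rw [neg_eq_zero, mul_sub, mul_one, sub_eq_zero] at h4
  rwa [← h4] at h1

/-- Positivity can be tested on any ⋆-subalgebra containing the element. -/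
theorem nonneg_of_test (S : StarSubalgebra ℂ 𝓜) {y : 𝓜} (hy : y ∈ S) (hsa : IsSelfAdjoint y)
    (h : ∀ a ∈ S, 0 ≤ (R.ω (star a * y * a)).re) : 0 ≤ y := by
  have hcl : IsClosed {a : 𝓜 | 0 ≤ (R.ω (star a * y * a)).re} :=
    isClosed_le continuous_const
      (Complex.continuous_re.comp ((pos_continuous R.ω).comp (by fun_prop)))
  have : IsClosed (S.topologicalClosure : Set 𝓜) := S.isClosed_topologicalClosure
  have hm : y⁻ ∈ S.topologicalClosure := by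
    rw [CFC.negPart_def]
    exact cfcₙ_mem (𝕜' := ℂ) _ (S.le_topologicalClosure hy)
  have h1 : 0 ≤ (R.ω (star y⁻ * y * y⁻)).re := closure_minimal (s := (S : Set 𝓜)) h hcl hm
  have hn : 0 ≤ y⁻ := CFC.negPart_nonneg y
  have h2 : star y⁻ * y * y⁻ = -(star y⁻ * y⁻ * y⁻) := by
    conv_lhs => enter [1, 2]; rw [← CFC.posPart_sub_negPart y hsa]
    rw [mul_sub, sub_mul, mul_assoc, CFC.posPart_mul_negPart, mul_zero, zero_sub]
  have h3 : 0 ≤ star y⁻ * y⁻ * y⁻ := star_left_conjugate_nonneg hn _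
  rw [h2, map_neg, Complex.neg_re] at h1
  have h4 := R.faithful _ h3 (pos_eq_zero_of_re _ h3 (by linarith))
  rw [hn.isSelfAdjoint.star_eq] at h4
  have h5 : y⁻ * y⁻ = 0 := by
    refine (CStarRing.star_mul_self_eq_zero_iff _).1 ?_
    rw [star_mul, hn.isSelfAdjoint.star_eq, ← mul_assoc, h4, zero_mul]
  have h6 : y⁻ = 0 := by
    refine (CStarRing.star_mul_self_eq_zero_iff _).1 ?_
    rw [hn.isSelfAdjoint.star_eq, h5]
  have h7 := CFC.posPart_sub_negPart y hsa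
  rw [h6, sub_zero] at h7
  rw [← h7]
  exact CFC.posPart_nonneg y

theorem BLe.add {R : Reg 𝓜} {y y' : 𝓜} {ε ε' κ κ' : ℝ} (h : R.BLe y ε κ) (h' : R.BLe y' ε' κ') :
    R.BLe (y + y') (ε + ε') (κ + κ') := by
  obtain ⟨b, hb0, hb, hy⟩ := h
  obtain ⟨b', hb0', hb', hy'⟩ := h'
  refine ⟨b + b', add_nonneg hb0 hb0', ?_, ?_⟩
  · rw [map_add, Complex.add_re]; linarith
  · refine (add_le_add hy hy').trans (le_of_eq ?_)
    rw [add_smul]; abel

theorem BLe.mono {R : Reg 𝓜} {y : 𝓜} {ε ε' κ κ' : ℝ} (h : R.BLe y ε κ) (hε : ε ≤ ε')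
    (hκ : κ ≤ κ') : R.BLe y ε' κ' := by
  obtain ⟨b, hb0, hb, hy⟩ := h
  exact ⟨b, hb0, hb.trans hκ,
    hy.trans (add_le_add_left (smul_le_smul_of_nonneg_right hε zero_le_one) _)⟩

theorem BLe.smul {R : Reg 𝓜} {y : 𝓜} {ε κ c : ℝ} (h : R.BLe y ε κ) (hc : 0 ≤ c) :
    R.BLe (c • y) (c * ε) (c * κ) := by
  obtain ⟨b, hb0, hb, hy⟩ := h
  refine ⟨c • b, smul_nonneg hc hb0, ?_, ?_⟩
  · rw [pos_real_smul, Complex.re_ofReal_mul]
    exact mul_le_mul_of_nonneg_left hb hc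
  · refine (smul_le_smul_of_nonneg_left hy hc).trans (le_of_eq ?_)
    rw [smul_add, smul_smul]

theorem ble_of_n2 {y : 𝓜} (hy : IsSelfAdjoint y) {θ : ℝ} (hθ : 0 < θ) :
    R.BLe y θ (n2 R.ω y ^ 2 / (4 * θ)) := by
  have h0 : 0 ≤ y * y := by simpa [hy.star_eq] using star_mul_self_nonneg y
  refine ⟨(4 * θ)⁻¹ • (y * y), smul_nonneg (by positivity) h0, le_of_eq ?_, le_quad hy hθ⟩
  rw [pos_real_smul, Complex.re_ofReal_mul, n2_sq, hy.star_eq, div_eq_inv_mul]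

/-- Pinching by `p ≤ pt` is controlled by the moments of the compressions by `pt`. -/
theorem ble_pinch_of_moment {r : ℕ} {p pt : Fin r → 𝓜} (hp : IsPaving R.A p)
    (hpt : ∀ l, p l * pt l = p l ∧ IsStarProjection (pt l)) {x : 𝓜} (hx : IsSelfAdjoint x)
    {ε : ℝ} (hε : 0 < ε) {k : ℕ} (hk : 1 ≤ k) :
    R.BLe (pinch p x) ε (ε / ε ^ (2 * k) * ∑ l, (R.ω ((pt l * x * pt l) ^ (2 * k))).re) := by
  have hsa : ∀ l, IsSelfAdjoint (pt l * x * pt l) := fun l => by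
    have := hx.conjugate' (pt l)
    rwa [(hpt l).2.isSelfAdjoint.star_eq] at this
  have hpos : ∀ l, 0 ≤ (pt l * x * pt l) ^ (2 * k) := fun l => by
    have := star_mul_self_nonneg ((pt l * x * pt l) ^ k)
    rwa [((hsa l).pow k).star_eq, ← pow_add, ← two_mul] at this
  have hps : ∀ l, star (p l) = p l := fun l => (hp.1 l).2.isSelfAdjoint.star_eq
  have hconj : ∀ l {a b : 𝓜}, a ≤ b → p l * a * p l ≤ p l * b * p l := fun l a b h => by
    have := star_left_conjugate_le_conjugate h (p l)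
    rwa [hps] at this
  have hc : 0 ≤ ε / ε ^ (2 * k) := by positivity
  refine ⟨(ε / ε ^ (2 * k)) • ∑ l, p l * (pt l * x * pt l) ^ (2 * k) * p l,
    smul_nonneg hc (Finset.sum_nonneg fun l _ => by simpa using hconj l (hpos l)), ?_, ?_⟩
  · rw [pos_real_smul, Complex.re_ofReal_mul, map_sum, Complex.re_sum]
    exact mul_le_mul_of_nonneg_left (Finset.sum_le_sum fun l _ =>
      R.ω_proj_conj_le (hp.1 l).1 (hp.1 l).2 (hpos l)) hc
  · have h1 : ∀ l, p l * x * p l ≤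
        ε • p l + (ε / ε ^ (2 * k)) • (p l * (pt l * x * pt l) ^ (2 * k) * p l) := fun l => by
      have h2 := hconj l (le_pow (hsa l) hε hk)
      have h3 : pt l * p l = p l := by
        have := congrArg star (hpt l).1
        rwa [star_mul, hps, (hpt l).2.isSelfAdjoint.star_eq] at this
      have h4 : p l * (pt l * x * pt l) * p l = p l * x * p l := by
        calc p l * (pt l * x * pt l) * p l = p l * pt l * x * (pt l * p l) := by
              simp only [mul_assoc]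
          _ = _ := by rw [h3, (hpt l).1]
      rwa [h4, mul_add, add_mul, mul_smul_comm, mul_smul_comm, smul_mul_assoc, smul_mul_assoc,
        mul_one, (hp.1 l).2.isIdempotentElem.eq] at h2
    refine (Finset.sum_le_sum fun l _ => h1 l).trans (le_of_eq ?_)
    rw [Finset.sum_add_distrib, ← Finset.smul_sum, ← Finset.smul_sum, hp.2.2]

theorem exists_q {y : 𝓜} (hy : IsSelfAdjoint y) {ε κ θ : ℝ} (hε : 0 ≤ ε) (hθ : 0 < θ)
    (h : R.BLe y ε κ) (h' : R.BLe (-y) ε κ) :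
    ∃ q, IsStarProjection q ∧ (R.ω (1 - q)).re ≤ 2 * κ / θ ∧ ‖q * y * q‖ ≤ ε + θ := by
  obtain ⟨b, hb0, hb, hyb⟩ := h
  obtain ⟨b', hb0', hb', hyb'⟩ := h'
  have hB : 0 ≤ b + b' := add_nonneg hb0 hb0'
  obtain ⟨e, he⟩ := R.exists_SP' hB.isSelfAdjoint θ
  have hq := he.1.one_sub
  have hqs : star (1 - e) = 1 - e := hq.isSelfAdjoint.star_eq
  have key : ∀ z : 𝓜, z ≤ ε • (1 : 𝓜) + (b + b') → (1 - e) * z * (1 - e) ≤ (ε + θ) • (1 : 𝓜) := by
    intro z hz
    have h1 := star_left_conjugate_le_conjugate hz (1 - e)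
    rw [hqs, mul_add, add_mul, mul_smul_comm, smul_mul_assoc, mul_one,
      hq.isIdempotentElem.eq] at h1
    refine h1.trans ((add_le_add_right he.conj_le _).trans ?_)
    rw [← add_smul]
    exact smul_le_smul_of_nonneg_left hq.le_one (by linarith)
  refine ⟨1 - e, hq, ?_, norm_le_of_le_of_neg_le ?_ (by linarith) (key y ?_) ?_⟩
  · have h1 := pos_re_mono R.ω (he.smul_le hB)
    rw [pos_real_smul, Complex.re_ofReal_mul, map_add, Complex.add_re] at h1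
    rw [sub_sub_cancel, le_div_iff₀ hθ]
    linarith
  · have := hy.conjugate' (1 - e)
    rwa [hqs] at this
  · exact hyb.trans (add_le_add_right (le_add_of_nonneg_right hb0') _)
  · have := key (-y) (hyb'.trans (add_le_add_right (le_add_of_nonneg_left hb0) _))
    rwa [mul_neg, neg_mul] at this

end Reg

end Crest.Agent.R109
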