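import Crest.Agent.R109.QBasic

/-! Row 109, task A9a: power sums of the roots are local polynomials. -/

set_option autoImplicit false

noncomputable section

namespace Crest.Agent.R109

namespace RP

open PowerSeries

section Lg

variable {R : Type*} [CommRing R]

/-- The logarithmic derivative `- t q' / q`. -/
def lg (q : R⟦X⟧) : R⟦X⟧ := -X * derivative R q * invOfUnit q 1

theorem mul_lg {q : R⟦X⟧} (h : constantCoeff q = 1) : q * lg q = -X * derivative R q := by
  have := mul_invOfUnit q 1 (by simpa using h)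
  unfold lg
  linear_combination (-X * derivative R q) * this

theorem lg_unique {q w : R⟦X⟧} (h : constantCoeff q = 1) (hw : q * w = -X * derivative R q) :
    lg q = w := by
  have := mul_invOfUnit q 1 (by simpa using h)
  unfold lg
  linear_combination (-invOfUnit q 1) * hw + w * this

theorem lg_mul {q₁ q₂ : R⟦X⟧} (h₁ : constantCoeff q₁ = 1) (h₂ : constantCoeff q₂ = 1) :
    lg (q₁ * q₂) = lg q₁ + lg q₂ := by
  refine lg_unique (by rw [map_mul, h₁, h₂, one_mul]) ?_
  rw [Derivation.leibniz, smul_eq_mul, smul_eq_mul]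
  linear_combination q₂ * mul_lg h₁ + q₁ * mul_lg h₂

theorem lg_one : lg (1 : R⟦X⟧) = 0 := lg_unique (by simp) (by simp)

theorem map_derivative {S : Type*} [CommRing S] (f : R →+* S) (q : R⟦X⟧) :
    map f (derivative R q) = derivative S (map f q) := by
  ext n
  simp [coeff_derivative]

theorem map_lg {S : Type*} [CommRing S] (f : R →+* S) {q : R⟦X⟧} (h : constantCoeff q = 1) :
    map f (lg q) = lg (map f q) := by
  symm
  refine lg_unique (by
    rw [← coeff_zero_eq_constantCoeff_apply, coeff_map, coeff_zero_eq_constantCoeff_apply, h,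
      map_one]) ?_
  rw [← map_mul, mul_lg h, map_mul, map_neg, map_X, map_derivative]

theorem coeff_lg_lin (ρ : R) {n : ℕ} (hn : n ≠ 0) : coeff n (lg (1 - X * C ρ)) = ρ ^ n := by
  have h1 : (1 - X * C ρ) * mk (fun n => ρ ^ n) = (1 : R⟦X⟧) := by
    ext m
    rw [sub_mul, one_mul, mul_assoc]
    cases m with
    | zero => simp
    | succ m => simp [coeff_succ_X_mul, pow_succ', coeff_one]
  have h2 : lg (1 - X * C ρ) = mk (fun n => ρ ^ n) - 1 := by
    refine lg_unique (by simp) ?_
    rw [map_sub, derivative_one, Derivation.leibniz, derivative_C, derivative_X]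
    simp only [smul_eq_mul]
    linear_combination h1
  rw [h2]
  simp [coeff_one, hn]

theorem coeff_lg_prod (s : Multiset R) {n : ℕ} (hn : n ≠ 0) :
    constantCoeff (s.map (fun ρ => (1 - X * C ρ : R⟦X⟧))).prod = 1 ∧
      coeff n (lg (s.map (fun ρ => (1 - X * C ρ : R⟦X⟧))).prod) = (s.map (fun ρ => ρ ^ n)).sum := by
  induction s using Multiset.induction_on with
  | empty => simp [lg_one]
  | cons a s ih =>
    simp only [Multiset.map_cons, Multiset.prod_cons, Multiset.sum_cons]
    refine ⟨by rw [map_mul, ih.1]; simp, ?_⟩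
    rw [lg_mul (by simp) ih.1, map_add, ih.2, coeff_lg_lin a hn]

end Lg

section Qt

variable {ι : Type*} [DecidableEq ι] {r : ℕ} {R : Type*} [CommRing R]

/-- The reversed mixed characteristic polynomial, as a power series. -/
def qt (T : Finset ι) (p : ι → Fin r → R) (A : ι → ι → R) (h : ι → R) : R⟦X⟧ :=
  Q T (fun v j => C (p v j)) (fun u v => X * C (A u v)) (fun v => 1 - X * C (h v))

/-- Universal power sums. -/
def pw (T : Finset ι) (p : ι → Fin r → R) (A : ι → ι → R) (h : ι → R) (n : ℕ) : R :=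
  if n = 0 then (T.card : R) else coeff n (lg (qt T p A h))

theorem constantCoeff_qt (T : Finset ι) {p : ι → Fin r → R} (hp : ∀ v, ∑ j, p v j = 1)
    (A : ι → ι → R) (h : ι → R) : constantCoeff (qt T p A h) = 1 := by
  unfold qt
  rw [map_Q]
  simp only [constantCoeff_C, map_mul, constantCoeff_X, zero_mul, map_sub, map_one, sub_zero]
  unfold Q
  have : ∀ c : T → Fin r, blk T (fun _ _ => (0 : R)) (fun _ => 1) c = 1 := by
    intro c
    ext u v
    simp [blk, Matrix.one_apply]
  simp only [this, Matrix.det_one, mul_one]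
  rw [← Fintype.piFinset_univ, ← Finset.prod_univ_sum (fun _ => Finset.univ) (fun (v : T) j => p v j)]
  simp [hp]

theorem map_qt {S : Type*} [CommRing S] (f : R →+* S) (T : Finset ι) (p : ι → Fin r → R)
    (A : ι → ι → R) (h : ι → R) :
    map f (qt T p A h) = qt T (fun v j => f (p v j)) (fun u v => f (A u v)) (fun v => f (h v)) := by
  unfold qt
  rw [map_Q]
  simp

theorem map_pw {S : Type*} [CommRing S] (f : R →+* S) (T : Finset ι) {p : ι → Fin r → R}
    (hp : ∀ v, ∑ j, p v j = 1) (A : ι → ι → R) (h : ι → R) (n : ℕ) :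
    f (pw T p A h n) = pw T (fun v j => f (p v j)) (fun u v => f (A u v)) (fun v => f (h v)) n := by
  unfold pw
  split_ifs
  · simp
  · rw [← coeff_map, map_lg f (constantCoeff_qt T hp A h), map_qt]

theorem pw_union {T₁ T₂ : Finset ι} (hd : Disjoint T₁ T₂) {p : ι → Fin r → R}
    (hp : ∀ v, ∑ j, p v j = 1) (A : ι → ι → R) (h : ι → R)
    (hA : ∀ u ∈ T₁, ∀ v ∈ T₂, A u v = 0 ∧ A v u = 0) (n : ℕ) :
    pw (T₁ ∪ T₂) p A h n = pw T₁ p A h n + pw T₂ p A h n := by
  unfold pw
  split_ifs
  · rw [Finset.card_union_of_disjoint hd, Nat.cast_add]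
  · have : qt (T₁ ∪ T₂) p A h = qt T₁ p A h * qt T₂ p A h := by
      unfold qt
      refine Q_union hd _ _ _ fun u hu v hv => ?_
      simp [hA u hu v hv]
    rw [this, lg_mul (constantCoeff_qt _ hp _ _) (constantCoeff_qt _ hp _ _), map_add]

omit [DecidableEq ι] in
theorem sum_cp {p : ι → Fin r → ℝ} (hp : IsProb p) (v : ι) : ∑ j, cp p v j = 1 := by
  have := hp.2 v
  simp only [cp]
  exact_mod_cast this

theorem qt_eq_prod (T : Finset ι) {p : ι → Fin r → ℝ} (hp : IsProb p) (A : ι → ι → ℂ)
    (h : ι → ℝ) :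
    qt T (cp p) A (fun v => (h v : ℂ)) =
      ((Qp T p A h).roots.map (fun ρ => (1 - X * C ρ : ℂ⟦X⟧))).prod := by
  have key : Q T (fun v j => Polynomial.C (cp p v j)) (fun u v => Polynomial.X * Polynomial.C (A u v))
      (fun v => 1 - Polynomial.X * Polynomial.C (h v : ℂ)) =
      ((Qp T p A h).roots.map (fun ρ => (1 - Polynomial.X * Polynomial.C ρ : Polynomial ℂ))).prod := by
    apply Polynomial.eq_of_infinite_eval_eq
    refine ((Set.finite_singleton (0 : ℂ)).infinite_compl).mono fun t ht => ?_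
    have ht0 : t ≠ 0 := ht
    simp only [Set.mem_ofPred_eq]
    rw [← Polynomial.coe_evalRingHom, map_Q, map_multiset_prod, Multiset.map_map]
    simp only [Polynomial.coe_evalRingHom, Polynomial.eval_C, Polynomial.eval_mul,
      Polynomial.eval_X, Polynomial.eval_sub, Polynomial.eval_one, Function.comp_def]
    have h1 := Q_scale T (cp p) A (fun v => t⁻¹ - (h v : ℂ)) (fun _ => t) (fun _ => 1)
    have h2 : (fun v => t * 1 * (t⁻¹ - (h v : ℂ))) = fun v => 1 - t * (h v : ℂ) := by
      funext v
      field_simp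
    simp only [mul_one] at h1 h2
    rw [h2, ← eval_Qp, (IsAlgClosed.splits _).eval_eq_prod_roots_of_monic (monic_Qp T hp A h),
      Finset.prod_const, ← natDegree_Qp T hp A h, ← IsAlgClosed.card_roots_eq_natDegree,
      ← Multiset.prod_replicate, ← Multiset.map_const', ← Multiset.prod_map_mul] at h1
    rw [h1]
    refine congrArg _ (Multiset.map_congr rfl fun ρ _ => ?_)
    field_simp
  have := congrArg (Polynomial.coeToPowerSeries.ringHom (R := ℂ)) key
  rw [map_Q, map_multiset_prod, Multiset.map_map] at this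
  simpa only [qt, Function.comp_def, map_mul, map_sub, map_one,
    Polynomial.coeToPowerSeries.ringHom_apply, Polynomial.coe_C, Polynomial.coe_X] using this

theorem rootPow_eq_pw (T : Finset ι) {p : ι → Fin r → ℝ} (hp : IsProb p) (A : ι → ι → ℂ)
    (h : ι → ℝ) (n : ℕ) : rootPow T p A h n = pw T (cp p) A (fun v => (h v : ℂ)) n := by
  unfold pw rootPow
  split_ifs with hn
  · subst hn
    simp [IsAlgClosed.card_roots_eq_natDegree, natDegree_Qp T hp A h]
  · rw [qt_eq_prod T hp, (coeff_lg_prod _ hn).2]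

end Qt

section Mv

open MvPolynomial

/-- Kill the variable `k`. -/
def kill (k : ℕ) : MvPolynomial ℕ ℂ →ₐ[ℂ] MvPolynomial ℕ ℂ :=
  aeval fun i => if i = k then 0 else MvPolynomial.X i

theorem X_dvd_sub_kill (k : ℕ) (f : MvPolynomial ℕ ℂ) : MvPolynomial.X k ∣ f - kill k f := by
  induction f using MvPolynomial.induction_on with
  | C a => simp [kill]
  | add f g hf hg =>
    rw [map_add, add_sub_add_comm]
    exact dvd_add hf hg
  | mul_X f i hf =>
    have h1 : MvPolynomial.X k ∣ MvPolynomial.X i - kill k (MvPolynomial.X i) := by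
      by_cases hi : i = k
      · subst hi; simp [kill]
      · simp [kill, hi]
    have : f * MvPolynomial.X i - kill k (f * MvPolynomial.X i) =
        (f - kill k f) * MvPolynomial.X i +
          kill k f * (MvPolynomial.X i - kill k (MvPolynomial.X i)) := by
      rw [map_mul]; ring
    rw [this]
    exact dvd_add (hf.mul_right _) (h1.mul_left _)

theorem prod_X_dvd (m : ℕ) (f : MvPolynomial ℕ ℂ) (hf : ∀ k < m, kill k f = 0) :
    (∏ k ∈ Finset.range m, MvPolynomial.X k) ∣ f := by
  induction m with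
  | zero => simp
  | succ m ih =>
    obtain ⟨g, rfl⟩ := ih fun k hk => hf k (by omega)
    have h1 := hf m (by omega)
    have h2 : kill m (∏ k ∈ Finset.range m, MvPolynomial.X k) =
        ∏ k ∈ Finset.range m, MvPolynomial.X k := by
      rw [map_prod]
      refine Finset.prod_congr rfl fun k hk => ?_
      have : k ≠ m := (Finset.mem_range.1 hk).ne
      simp [kill, this]
    rw [map_mul, h2, mul_eq_zero] at h1
    have h3 : kill m g = 0 :=
      h1.resolve_left (Finset.prod_ne_zero_iff.2 fun k _ => MvPolynomial.X_ne_zero k)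
    have h4 := X_dvd_sub_kill m g
    rw [h3, sub_zero] at h4
    rw [Finset.prod_range_succ]
    exact mul_dvd_mul_left _ h4

theorem eval_aeval_const (s : ℂ) (g : MvPolynomial ℕ ℂ) :
    MvPolynomial.eval (fun _ => s) g =
      Polynomial.eval s (MvPolynomial.aeval (fun _ => (Polynomial.X : Polynomial ℂ)) g) := by
  induction g using MvPolynomial.induction_on with
  | C a => simp
  | add g₁ g₂ h₁ h₂ => rw [map_add, map_add, Polynomial.eval_add, h₁, h₂]
  | mul_X g i hg => rw [map_mul, map_mul, Polynomial.eval_mul, hg]; simp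

end Mv

theorem cut_unique {ι : Type*} {U : Finset ι} {A : ι → ι → ℂ} {N : ℕ → ι → Prop}
    (hN : Layered U A N) {a b : ι} (ha : a ∈ U) (hb : b ∈ U) (hab : A a b ≠ 0 ∨ A b a ≠ 0)
    {k k' : ℕ} (hk : ¬ (N k a ↔ N k b)) (hk' : ¬ (N k' a ↔ N k' b)) : k = k' := by
  have mono : ∀ x m m', m ≤ m' → N m x → N m' x := by
    intro x m m' hm hx
    induction hm with
    | refl => exact hx
    | step _ ih => exact hN.1 _ _ ih
  have aux : ∀ k k', ¬ (N k a ↔ N k b) → k < k' → (N k' a ↔ N k' b) := by
    intro k k' hk hlt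
    have : N (k + 1) a ∧ N (k + 1) b := by
      by_cases h1 : N k a
      · exact ⟨hN.1 _ _ h1, hN.2 k a ha b hb h1 hab⟩
      · have h2 : N k b := by tauto
        exact ⟨hN.2 k b hb a ha h2 hab.symm, hN.1 _ _ h2⟩
    exact iff_of_true (mono _ _ _ hlt this.1) (mono _ _ _ hlt this.2)
  rcases lt_trichotomy k k' with h | h | h
  · exact absurd (aux k k' hk h) hk'
  · exact h
  · exact absurd (aux k' k hk' h) hk

end RP

open Polynomial
open scoped ComplexConjugate

variable {ι : Type*} [DecidableEq ι] {r : ℕ}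

theorem exists_poly_rootPow (T : Finset ι) {p : ι → Fin r → ℝ} (hp : IsProb p) (X : ι → ι → ℂ)
    (h : ι → ℝ) (n : ℕ) : ∃ P : ℂ[X], ∀ s, P.eval s = rootPow T p (sm s X) h n := by
  refine ⟨RP.pw T (fun v j => C (cp p v j)) (fun u v => Polynomial.X * C (X u v))
    (fun v => C (h v : ℂ)) n, fun s => ?_⟩
  rw [← coe_evalRingHom, RP.map_pw _ _ (fun v => by rw [← map_sum, RP.sum_cp hp, map_one]),
    RP.rootPow_eq_pw T hp]
  simp only [coe_evalRingHom, eval_C, eval_mul, eval_X]
  rfl

/-- The mixed second difference of the power sums vanishes to order `> L` in the coupling. -/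
theorem rootPow_mixed {T : Finset ι} {o v : ι} (ho : o ∉ T) (hv : v ∉ T) (hov : o ≠ v)
    {p : ι → Fin r → ℝ} (hp : IsProb p) (X : ι → ι → ℂ) (h : ι → ℝ) {N : ℕ → ι → Prop}
    (hN : Layered (insert o (insert v T)) X N) (hN0 : N 0 o) {L : ℕ} (hL : ¬ N L v) (n : ℕ) :
    ∃ P : ℂ[X], ∀ s : ℂ, rootPow (insert o (insert v T)) p (sm s X) h n -
      rootPow (insert o T) p (sm s X) h n - rootPow (insert v T) p (sm s X) h n +
      rootPow T p (sm s X) h n = s ^ (L + 1) * P.eval s := by
  classical
  have mono : ∀ x m m', m ≤ m' → N m x → N m' x := by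
    intro x m m' hm hx
    induction hm with
    | refl => exact hx
    | step _ ih => exact hN.1 _ _ ih
  let idx : ι → ι → ℕ := fun a b => Classical.epsilon fun k => ¬ (N k a ↔ N k b)
  let p' : ι → Fin r → MvPolynomial ℕ ℂ := fun v j => MvPolynomial.C (cp p v j)
  let A' : ι → ι → MvPolynomial ℕ ℂ := fun a b =>
    MvPolynomial.X (idx a b) * MvPolynomial.C (X a b)
  let h' : ι → MvPolynomial ℕ ℂ := fun v => MvPolynomial.C (h v : ℂ)
  have hp' : ∀ v, ∑ j, p' v j = 1 := fun v => by
    simp only [p']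
    rw [← map_sum, RP.sum_cp hp, map_one]
  let Δ : MvPolynomial ℕ ℂ := RP.pw (insert o (insert v T)) p' A' h' n -
    RP.pw (insert o T) p' A' h' n - RP.pw (insert v T) p' A' h' n + RP.pw T p' A' h' n
  have hkill : ∀ k < L + 1, RP.kill k Δ = 0 := by
    intro k hk
    let f : MvPolynomial ℕ ℂ →+* MvPolynomial ℕ ℂ := (RP.kill k).toRingHom
    have hfp : ∀ v, ∑ j, f (p' v j) = 1 := fun v => by rw [← map_sum, hp', map_one]
    have hz : ∀ a ∈ insert o (insert v T), ∀ b ∈ insert o (insert v T), ¬ (N k a ↔ N k b) →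
        f (A' a b) = 0 := by
      intro a ha b hb hab
      by_cases hX : X a b = 0
      · simp [A', hX]
      · have h1 : ¬ (N (idx a b) a ↔ N (idx a b) b) :=
          Classical.epsilon_spec (p := fun k => ¬ (N k a ↔ N k b)) ⟨k, hab⟩
        have h2 : idx a b = k := RP.cut_unique hN ha hb (.inl hX) h1 hab
        simp [A', f, RP.kill, h2]
    have hsplit : ∀ S ⊆ insert o (insert v T), f (RP.pw S p' A' h' n) =
        RP.pw (S.filter (N k)) (fun v j => f (p' v j)) (fun u v => f (A' u v))
          (fun v => f (h' v)) n +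
        RP.pw (S.filter (fun a => ¬ N k a)) (fun v j => f (p' v j)) (fun u v => f (A' u v))
          (fun v => f (h' v)) n := by
      intro S hS
      rw [RP.map_pw f S hp', ← RP.pw_union (Finset.disjoint_filter_filter_not S S (N k)) hfp,
        Finset.filter_union_filter_not_eq]
      intro a ha b hb
      rw [Finset.mem_filter] at ha hb
      exact ⟨hz a (hS ha.1) b (hS hb.1) (by tauto), hz b (hS hb.1) a (hS ha.1) (by tauto)⟩
    have hko : N k o := mono o 0 k (Nat.zero_le _) hN0
    have hkv : ¬ N k v := fun hh => hL (mono v k L (by omega) hh)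
    change f Δ = 0
    simp only [Δ, map_add, map_sub]
    rw [hsplit _ subset_rfl, hsplit (insert o T) (Finset.insert_subset_insert _
      (Finset.subset_insert _ _)), hsplit (insert v T) (Finset.subset_insert _ _),
      hsplit T ((Finset.subset_insert _ _).trans (Finset.subset_insert _ _))]
    simp only [Finset.filter_insert, hko, hkv, if_true, if_false, not_true, not_false_iff]
    ring
  obtain ⟨g, hg⟩ := RP.prod_X_dvd (L + 1) Δ hkill
  refine ⟨MvPolynomial.aeval (fun _ => Polynomial.X) g, fun s => ?_⟩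
  let f : MvPolynomial ℕ ℂ →+* ℂ := MvPolynomial.eval fun _ => s
  have hev : ∀ S, f (RP.pw S p' A' h' n) = rootPow S p (sm s X) h n := by
    intro S
    rw [RP.map_pw f S hp', RP.rootPow_eq_pw S hp]
    simp only [f, p', A', h', MvPolynomial.eval_C, map_mul, MvPolynomial.eval_X]
    rfl
  have h1 := congrArg f hg
  simp only [Δ, map_add, map_sub, hev, map_mul, map_prod] at h1
  rw [h1]
  congr 1
  · simp [f]
  · exact RP.eval_aeval_const s g

theorem continuous_rootPow {Ω : Type*} [TopologicalSpace Ω] (T : Finset ι)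
    {p : Ω → ι → Fin r → ℝ} (hp : ∀ χ, IsProb (p χ)) (hpc : ∀ v j, Continuous fun χ => p χ v j)
    {X : Ω → ι → ι → ℂ} (hX : ∀ u v, Continuous fun χ => X χ u v) {h : Ω → ι → ℝ}
    (hh : ∀ v, Continuous fun χ => h χ v) (n : ℕ) :
    Continuous fun χ => rootPow T (p χ) (X χ) (h χ) n := by
  let p' : ι → Fin r → C(Ω, ℂ) := fun v j =>
    ⟨fun χ => (p χ v j : ℂ), Complex.continuous_ofReal.comp (hpc v j)⟩
  let X' : ι → ι → C(Ω, ℂ) := fun u v => ⟨fun χ => X χ u v, hX u v⟩
  let h' : ι → C(Ω, ℂ) := fun v => ⟨fun χ => (h χ v : ℂ), Complex.continuous_ofReal.comp (hh v)⟩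
  have hp' : ∀ v, ∑ j, p' v j = 1 := fun v => by
    ext χ
    rw [ContinuousMap.coe_sum, Finset.sum_apply]
    exact RP.sum_cp (hp χ) v
  have : (fun χ => rootPow T (p χ) (X χ) (h χ) n) = fun χ => RP.pw T p' X' h' n χ := by
    funext χ
    have := RP.map_pw ((Pi.evalRingHom (fun _ : Ω => ℂ) χ).comp ContinuousMap.coeFnRingHom) T hp'
      X' h' n
    rw [RP.rootPow_eq_pw T (hp χ)]
    exact this.symm
  rw [this]
  exact (RP.pw T p' X' h' n).continuous

end Crest.Agent.R109
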