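import Crest.Agent.R109.SingAux

/-! Row 109, task C3, auxiliary lemmas: hierarchical random colourings. -/

set_option autoImplicit false
set_option linter.unusedSectionVars false

noncomputable section

namespace Crest.Agent.R109

open Filter Topology
open scoped ComplexOrder ComplexConjugate Classical

universe u

variable {𝓜 : Type u} [CStarAlgebra 𝓜] [PartialOrder 𝓜] [StarOrderedRing 𝓜]

namespace SingAux

section Global

variable {W : WS 𝓜} {κ : Type*} [Fintype κ] {e : κ → 𝓜} {ι : Type*} [Fintype ι]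

theorem cell_mul (he : IsPaving W.A e) (π : κ → 𝓜) (b : κ) :
    e b * ∑ b', e b' * π b' = e b * π b := by
  rw [Finset.mul_sum, Finset.sum_eq_single b]
  · rw [← mul_assoc, (he.1 b).2.isIdempotentElem.eq]
  · intro b' _ hb'
    rw [← mul_assoc, he.2.1 b b' (Ne.symm hb'), zero_mul]
  · simp

theorem mul_cell (he : IsPaving W.A e) (π : κ → 𝓜) (hπ : ∀ b, π b ∈ W.A) (b : κ) :
    (∑ b', e b' * π b') * e b = π b * e b := by
  have hm : ∑ b', e b' * π b' ∈ W.A :=
    sum_mem fun b' _ => W.A.mul_mem (he.1 b').1 (hπ b')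
  rw [W.comm _ hm _ (he.1 b).1, cell_mul he, W.comm _ (he.1 b).1 _ (hπ b)]

theorem global_paving (he : IsPaving W.A e) (π : κ → ι → 𝓜) (hπ : ∀ b, IsPaving W.A (π b)) :
    IsPaving W.A (fun i => ∑ b, e b * π b i) := by
  have hmul : ∀ i j, (∑ b, e b * π b i) * (∑ b, e b * π b j) = ∑ b, e b * (π b i * π b j) := by
    intro i j
    rw [Finset.sum_mul]
    refine Finset.sum_congr rfl fun b _ => ?_
    rw [W.comm _ (he.1 b).1 _ ((hπ b).1 i).1, mul_assoc, cell_mul he (fun b => π b j),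
      ← mul_assoc, ← W.comm _ (he.1 b).1 _ ((hπ b).1 i).1, mul_assoc]
  refine ⟨fun i => ⟨sum_mem fun b _ => W.A.mul_mem (he.1 b).1 ((hπ b).1 i).1, ?_, ?_⟩,
    fun i j hij => ?_, ?_⟩
  · show _ * _ = _
    rw [hmul]
    exact Finset.sum_congr rfl fun b _ => by rw [((hπ b).1 i).2.isIdempotentElem.eq]
  · show star _ = _
    rw [star_sum]
    refine Finset.sum_congr rfl fun b _ => ?_
    rw [star_mul, (he.1 b).2.isSelfAdjoint.star_eq, ((hπ b).1 i).2.isSelfAdjoint.star_eq,
      W.comm _ (he.1 b).1 _ ((hπ b).1 i).1]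
  · show _ * _ = _
    rw [hmul]
    exact Finset.sum_eq_zero fun b _ => by rw [(hπ b).2.1 i j hij, mul_zero]
  · rw [Finset.sum_comm]
    simp only [← Finset.mul_sum, (hπ _).2.2, mul_one]
    exact he.2.2

theorem block_pinch (he : IsPaving W.A e) (π : κ → ι → 𝓜) (hπ : ∀ b, IsPaving W.A (π b))
    (x : 𝓜) (b b' : κ) :
    e b * pinch (fun i => ∑ b, e b * π b i) x * e b' =
      e b * (∑ i, π b i * x * π b' i) * e b' := by
  unfold pinch
  rw [Finset.mul_sum, Finset.sum_mul, Finset.mul_sum, Finset.sum_mul]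
  refine Finset.sum_congr rfl fun i _ => ?_
  have h1 := cell_mul he (fun b => π b i) b
  have h2 := mul_cell he (fun b => π b i) (fun b => ((hπ b).1 i).1) b'
  calc e b * ((∑ b, e b * π b i) * x * ∑ b, e b * π b i) * e b'
      = (e b * ∑ b, e b * π b i) * x * ((∑ b, e b * π b i) * e b') := by noncomm_ring
    _ = _ := by rw [h1, h2]; noncomm_ring

/-- The second moment bound for a hierarchical random paving. -/
theorem second_moment (φ : 𝓜 →ₚ[ℂ] ℂ) (he : IsPaving W.A e) {Ξ : Type*} [Fintype Ξ]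
    [Nonempty Ξ] (π : Ξ → ι → 𝓜) (hπ : ∀ u, IsPaving W.A (π u)) (x Wm : 𝓜) (ρ : ℝ)
    (hWm : ‖Wm‖ ≤ ‖x‖) (H1 : ∀ i, ∑ u, (π u i - ρ • (1 : 𝓜)) = 0)
    (H2 : ∑ u, (pinch (π u) x - Wm) = 0)
    (H3 : ∀ b b', b ≠ b' → e b * Wm * e b' = ρ • (e b * x * e b'))
    {q : 𝓜} (hq : IsStarProjection q) {γ : ℝ} (hγ : 0 ≤ γ) (h : ∀ b, ‖q * e b * q‖ ≤ γ) :
    ∃ p : ι → 𝓜, IsPaving W.A p ∧
      n2 φ (q * (pinch p x - Wm) * q) ^ 2 ≤ 8 * γ * ‖x‖ ^ 2 * (φ 1).re := by
  set p : (κ → Ξ) → ι → 𝓜 := fun ξ i => ∑ b, e b * π (ξ b) i with hp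
  have hpp : ∀ ξ, IsPaving W.A (p ξ) := fun ξ =>
    global_paving he (fun b => π (ξ b)) (fun b => hπ _)
  set Z : κ → κ → Ξ → Ξ → 𝓜 := fun b b' u v =>
    q * (e b * ((∑ i, π u i * x * π v i) - Wm) * e b') * q with hZ
  set F : κ × κ → (κ → Ξ) → 𝓜 := fun j ξ =>
    q * (e j.1 * (pinch (p ξ) x - Wm) * e j.2) * q with hF
  have hFZ : ∀ j ξ, F j ξ = Z j.1 j.2 (ξ j.1) (ξ j.2) := by
    intro j ξ
    simp only [hF, hZ, mul_sub, sub_mul, hp]
    rw [block_pinch he (fun b => π (ξ b)) (fun b => hπ _)]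
  have hsumZ : ∀ (b b' : κ) (g : Ξ → 𝓜),
      ∑ u, q * (e b * g u * e b') * q = q * (e b * (∑ u, g u) * e b') * q := by
    intro b b' g
    simp only [Finset.mul_sum, Finset.sum_mul]
  have hdiag : ∀ b, ∑ u, Z b b u u = 0 := by
    intro b
    simp only [hZ]
    rw [hsumZ]
    have : ∑ u, ((∑ i, π u i * x * π u i) - Wm) = 0 := H2
    rw [this]; simp
  have hleft : ∀ b b' v, b ≠ b' → ∑ u, Z b b' u v = 0 := by
    intro b b' v hb
    have h1 : ∀ u, Z b b' u v =
        q * (e b * (∑ i, (π u i - ρ • (1 : 𝓜)) * x * π v i) * e b') * q := by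
      intro u
      simp only [hZ, sub_mul, Finset.sum_sub_distrib, mul_sub, H3 b b' hb]
      rw [← Finset.mul_sum, (hπ v).2.2]
      simp
    simp only [h1]
    rw [hsumZ, Finset.sum_comm]
    simp only [← Finset.sum_mul, H1]
    simp
  have hright : ∀ b b' u, b ≠ b' → ∑ v, Z b b' u v = 0 := by
    intro b b' u hb
    have h1 : ∀ v, Z b b' u v =
        q * (e b * (∑ i, π u i * x * (π v i - ρ • (1 : 𝓜))) * e b') * q := by
      intro v
      simp only [hZ, sub_mul, Finset.sum_sub_distrib, mul_sub, H3 b b' hb]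
      rw [← Finset.sum_mul, ← Finset.sum_mul, (hπ u).2.2]
      simp
    simp only [h1]
    rw [hsumZ, Finset.sum_comm]
    simp only [← Finset.mul_sum, H1]
    simp
  have hmean : ∀ (j : κ × κ) (a : κ), (a = j.1 ∨ a = j.2) → ∀ ξ,
      ∑ u, F j (Function.update ξ a u) = 0 := by
    rintro ⟨b, b'⟩ a ha ξ
    simp only [hFZ]
    by_cases hb : b = b'
    · subst hb
      obtain rfl : a = b := by simpa using ha
      simpa using hdiag a
    · rcases ha with rfl | rfl
      · simp only [Function.update_self, Function.update_of_ne (Ne.symm hb)]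
        exact hleft _ _ _ hb
      · simp only [Function.update_self, Function.update_of_ne hb]
        exact hright _ _ _ hb
  have hind : ∀ (j : κ × κ) (a : κ), a ≠ j.1 → a ≠ j.2 → ∀ ξ u,
      F j (Function.update ξ a u) = F j ξ := by
    intro j a h1 h2 ξ u
    simp only [hFZ, Function.update_of_ne (Ne.symm h1), Function.update_of_ne (Ne.symm h2)]
  have horth : ∀ j j' : κ × κ, j' ≠ j → j' ≠ Equiv.prodComm κ κ j →
      ∑ ξ, ip φ (F j ξ) (F j' ξ) = 0 := by
    rintro ⟨b, b'⟩ ⟨c, c'⟩ h1 h2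
    have key : (∃ a, (a = b ∨ a = b') ∧ a ≠ c ∧ a ≠ c') ∨
        (∃ a, (a = c ∨ a = c') ∧ a ≠ b ∧ a ≠ b') := by
      simp only [ne_eq, Prod.mk.injEq, not_and, Equiv.prodComm_apply, Prod.swap_prod_mk] at h1 h2
      by_contra hcon
      simp only [not_or, not_exists, not_and, not_not] at hcon
      obtain ⟨k1, k2⟩ := hcon
      have a1 := k1 b (Or.inl rfl)
      have a2 := k1 b' (Or.inr rfl)
      have a3 := k2 c (Or.inl rfl)
      have a4 := k2 c' (Or.inr rfl)
      by_cases hbc : b = c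
      · subst hbc
        have c1 : c' ≠ b' := h1 rfl
        have c2 : b' = b := by by_contra hh; exact c1 (a2 hh).symm
        have c3 : c' = b := by by_contra hh; exact c1 (a4 hh)
        exact c1 (c3.trans c2.symm)
      · exact h2 (a3 (Ne.symm hbc)) (a1 hbc).symm
    rcases key with ⟨a, ha, ha1, ha2⟩ | ⟨a, ha, ha1, ha2⟩
    · exact sum_ip_eq_zero φ a _ _ (hmean (b, b') a ha) (hind (c, c') a ha1 ha2)
    · simp only [fun ξ => ip_comm φ (F (b, b') ξ) (F (c, c') ξ)]
      exact sum_ip_eq_zero φ a _ _ (hmean (c, c') a ha) (hind (b, b') a ha1 ha2)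
  have hmain := sum_sq_le φ (Equiv.prodComm κ κ) F horth
  have hsum : ∀ ξ, ∑ j, F j ξ = q * (pinch (p ξ) x - Wm) * q := by
    intro ξ
    simp only [hF]
    rw [← Finset.sum_mul, ← Finset.mul_sum, Fintype.sum_prod_type]
    simp only [← Finset.mul_sum, he.2.2, mul_one, ← Finset.sum_mul, one_mul]
  have hφ1 : 0 ≤ (φ 1).re := pos_re_nonneg φ zero_le_one
  have hbd : ∀ ξ, ∑ j, n2 φ (F j ξ) ^ 2 ≤ 4 * γ * ‖x‖ ^ 2 * (φ 1).re := by
    intro ξ
    refine (sum_blocks_le φ he hq hγ h _).trans ?_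
    have h1 : ‖pinch (p ξ) x - Wm‖ ≤ 2 * ‖x‖ := by
      have := (hpp ξ).norm_pinch_le x
      have := norm_sub_le (pinch (p ξ) x) Wm
      linarith
    have h2 : ‖pinch (p ξ) x - Wm‖ ^ 2 ≤ (2 * ‖x‖) ^ 2 := pow_le_pow_left₀ (norm_nonneg _) h1 2
    calc γ * (‖pinch (p ξ) x - Wm‖ ^ 2 * (φ 1).re) ≤ γ * ((2 * ‖x‖) ^ 2 * (φ 1).re) :=
          mul_le_mul_of_nonneg_left (mul_le_mul_of_nonneg_right h2 hφ1) hγ
      _ = _ := by ring
  have hfin : ∑ ξ : κ → Ξ, n2 φ (q * (pinch (p ξ) x - Wm) * q) ^ 2 ≤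
      ∑ _ξ : κ → Ξ, 8 * γ * ‖x‖ ^ 2 * (φ 1).re := by
    simp only [hsum] at hmain
    refine hmain.trans ?_
    rw [Finset.mul_sum]
    refine Finset.sum_le_sum fun ξ _ => ?_
    have := hbd ξ
    linarith
  obtain ⟨ξ, -, hξ⟩ := Finset.exists_le_of_sum_le Finset.univ_nonempty hfin
  exact ⟨p ξ, hpp ξ, hξ⟩

end Global

section Colour

variable {T : Type*} [Fintype T] [DecidableEq T] {r : ℕ}

theorem sum_ind_sub (hr : 0 < r) (i : Fin r) :
    ∑ u : Fin r, ((if u = i then (1 : ℝ) else 0) - 1 / r) = 0 := by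
  have : (r : ℝ) ≠ 0 := by exact_mod_cast hr.ne'
  rw [Finset.sum_sub_distrib]
  simp [this]

theorem sum_colour_one (hr : 0 < r) (t : T) (i : Fin r) :
    ∑ c : T → Fin r, ((if c t = i then (1 : ℝ) else 0) - 1 / r) = 0 := by
  have h := sum_update t (fun c : T → Fin r => ((if c t = i then (1 : ℝ) else 0) - 1 / r))
  simp only [Function.update_self, sum_ind_sub hr, Finset.sum_const_zero, Fintype.card_fin,
    nsmul_eq_mul] at h
  have : (r : ℝ) ≠ 0 := by exact_mod_cast hr.ne'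
  exact (mul_eq_zero.1 h.symm).resolve_left this

theorem sum_colour_two (hr : 0 < r) {t t' : T} (h : t ≠ t') :
    ∑ c : T → Fin r, ((if c t = c t' then (1 : ℝ) else 0) - 1 / r) = 0 := by
  have h1 := sum_update t (fun c : T → Fin r => ((if c t = c t' then (1 : ℝ) else 0) - 1 / r))
  simp only [Function.update_self, Function.update_of_ne (Ne.symm h), sum_ind_sub hr,
    Finset.sum_const_zero, Fintype.card_fin, nsmul_eq_mul] at h1
  have : (r : ℝ) ≠ 0 := by exact_mod_cast hr.ne'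
  exact (mul_eq_zero.1 h1.symm).resolve_left this

variable {κ : Type*} [Fintype κ] {A : StarSubalgebra ℂ 𝓜} {e : κ → 𝓜}

theorem colour_sub (he : IsPaving A e) (c : κ → Fin r) (i : Fin r) :
    (∑ a with c a = i, e a) - (1 / r : ℝ) • (1 : 𝓜) =
      ∑ a, ((if c a = i then (1 : ℝ) else 0) - 1 / r) • e a := by
  rw [← he.2.2, Finset.smul_sum, Finset.sum_filter, ← Finset.sum_sub_distrib]
  refine Finset.sum_congr rfl fun a _ => ?_
  rw [sub_smul]
  split_ifs <;> simp

theorem pinch_colour (e : κ → 𝓜) (c : κ → Fin r) (x : 𝓜) :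
    pinch (fun l => ∑ a with c a = l, e a) x =
      ∑ a, ∑ a', (if c a = c a' then (1 : ℝ) else 0) • (e a * x * e a') := by
  simp only [pinch, Finset.sum_filter, Finset.sum_mul, Finset.mul_sum]
  rw [Finset.sum_comm]
  simp only [Finset.sum_comm (s := (Finset.univ : Finset (Fin r)))]
  rw [Finset.sum_comm]
  refine Finset.sum_congr rfl fun a _ => Finset.sum_congr rfl fun a' _ => ?_
  rw [Finset.sum_eq_single (c a)]
  · by_cases h : c a = c a'
    · simp [h]
    · simp [h, Ne.symm h]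
  · intro l _ hl
    simp [Ne.symm hl]
  · simp

theorem sum_pinch_colour (hr : 0 < r) (he : IsPaving A e) (ι : κ → T) (hι : Function.Injective ι)
    (x : 𝓜) :
    ∑ c : T → Fin r, (pinch (fun l => ∑ a with c (ι a) = l, e a) x -
      ((1 / r : ℝ) • x + (1 - 1 / r : ℝ) • pinch e x)) = 0 := by
  have hx : x = ∑ a, ∑ a', e a * x * e a' := by
    simp only [← Finset.mul_sum, he.2.2, mul_one, ← Finset.sum_mul, one_mul]
  have h1 : (1 / r : ℝ) • x + (1 - 1 / r : ℝ) • pinch e x =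
      ∑ a, ∑ a', (if a = a' then (1 : ℝ) else 1 / r) • (e a * x * e a') := by
    conv_lhs => rw [hx]
    rw [← hx]
    conv_lhs => enter [1]; rw [hx]
    simp only [pinch, Finset.smul_sum, ← Finset.sum_add_distrib]
    refine Finset.sum_congr rfl fun a _ => ?_
    have : ∀ a', (if a = a' then (1 : ℝ) else 1 / r) • (e a * x * e a') =
        (1 / r : ℝ) • (e a * x * e a') +
          (if a = a' then (1 - 1 / r : ℝ) • (e a * x * e a') else 0) := by
      intro a'
      split_ifs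
      · rw [← add_smul]; simp
      · simp
    simp only [this, Finset.sum_add_distrib]
    simp
  simp only [h1, pinch_colour e (fun a => _), ← Finset.sum_sub_distrib, ← sub_smul]
  rw [Finset.sum_comm]
  refine Finset.sum_eq_zero fun a _ => ?_
  rw [Finset.sum_comm]
  refine Finset.sum_eq_zero fun a' _ => ?_
  rw [← Finset.sum_smul]
  by_cases h : a = a'
  · subst h; simp
  · simp only [if_neg h]
    rw [sum_colour_two hr (fun h' => h (hι h')), zero_smul]

theorem sum_colour_sub (hr : 0 < r) (he : IsPaving A e) (ι : κ → T) (i : Fin r) :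
    ∑ c : T → Fin r, ((∑ a with c (ι a) = i, e a) - (1 / r : ℝ) • (1 : 𝓜)) = 0 := by
  simp only [colour_sub he (fun a => _)]
  rw [Finset.sum_comm]
  refine Finset.sum_eq_zero fun a _ => ?_
  rw [← Finset.sum_smul, sum_colour_one hr, zero_smul]

end Colour

end SingAux

end Crest.Agent.R109
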