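import Crest.Agent.R109.WExp
import Crest.Agent.R109.SingAux2

/-! Row 109, task C3: paving on the singular part. -/

set_option autoImplicit false
set_option linter.unusedSectionVars false

noncomputable section

namespace Crest.Agent.R109

open Filter Topology
open scoped ComplexOrder ComplexConjugate Classical

universe u

variable {𝓜 : Type u} [CStarAlgebra 𝓜] [PartialOrder 𝓜] [StarOrderedRing 𝓜]

namespace WS

variable (W : WS 𝓜)

open SingAux

theorem sing_sub_split (φ : 𝓜 →ₚ[ℂ] ℂ) (f q₀ q : 𝓜) :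
    (φ (f - q)).re = (φ (f - q₀)).re + (φ (q₀ - q)).re := by
  rw [← Complex.add_re, ← map_add]; congr 2; abel

theorem sing_le_trans {f q₀ q : 𝓜} (h : q * q₀ = q) (h₀ : q₀ * f = q₀) : q * f = q := by
  calc q * f = q * q₀ * f := by rw [h]
    _ = q := by rw [mul_assoc, h₀, h]

theorem sing0 {φ : 𝓜 →ₚ[ℂ] ℂ} (hφ : φ ∈ W.𝓕) {f : 𝓜} (hf : f ∈ W.A) (hfp : IsStarProjection f)
    (hs : W.Sing φ f) {γ : ℝ} (hγ : 0 < γ) :
    ∃ (q : 𝓜) (P : Part W.A), IsStarProjection q ∧ q * f = q ∧ (φ (f - q)).re < γ ∧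
      ∀ b ∈ P.cells, ‖q * b * q‖ ≤ γ := by
  set γ₀ : ℝ := γ / (1 + 4 / γ ^ 2) with hγ₀
  have hpos : 0 < 1 + 4 / γ ^ 2 := by positivity
  have hγ₀p : 0 < γ₀ := div_pos hγ hpos
  obtain ⟨q₀, hq₀, hq₀f, h1, h2⟩ := hs φ hφ γ₀ hγ₀p
  have hs0 := hq₀.isSelfAdjoint.star_eq
  have hi0 : q₀ * q₀ = q₀ := hq₀.isIdempotentElem.eq
  have hsf := hfp.isSelfAdjoint.star_eq
  have hif : f * f = f := hfp.isIdempotentElem.eq
  have hfq₀ : f * q₀ = q₀ := by
    have := congrArg star hq₀f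
    rwa [star_mul, hs0, hsf] at this
  set a := W.E q₀ with ha
  have haA : a ∈ W.A := W.E_mem q₀
  have ha0 : 0 ≤ a := W.E_nonneg hq₀.nonneg
  have ha1 : a ≤ 1 := by
    have := W.E_mono hq₀.le_one
    rwa [W.E_one] at this
  set d := f - q₀ with hd
  have hsd : star d = d := by rw [hd, star_sub, hsf, hs0]
  have hdd : d * d = d := by
    rw [hd, sub_mul, mul_sub, mul_sub, hif, hfq₀, hq₀f, hi0]; abel
  have e1 : f * a * f ≤ a := by
    have hc : f * a = a * f := W.comm _ hf _ haA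
    have h3 := star_left_conjugate_nonneg ha0 (1 - f)
    rw [star_sub, star_one, hsf] at h3
    have h4 : f * a * f = a * f := by rw [hc, mul_assoc, hif]
    have h5 : (1 - f) * a * (1 - f) = a - f * a * f := by
      calc (1 - f) * a * (1 - f) = a - a * f - f * a + f * a * f := by noncomm_ring
        _ = _ := by rw [h4, hc]; abel
    rw [h5] at h3
    exact sub_nonneg.1 h3
  have e2 : d * a * d ≤ d := by
    have h3 := star_left_conjugate_le_conjugate ha1 d
    rwa [hsd, mul_one, hdd] at h3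
  have e3 : q₀ * a * q₀ ≤ (f * a * f + f * a * f) + (d * a * d + d * a * d) := by
    have h3 := star_left_conjugate_nonneg ha0 (f + d)
    rw [star_add, hsf, hsd] at h3
    have h4 : q₀ = f - d := by rw [hd]; abel
    have h5 : (f * a * f + f * a * f) + (d * a * d + d * a * d) - q₀ * a * q₀ =
        (f + d) * a * (f + d) := by
      rw [h4]; noncomm_ring
    rw [← sub_nonneg, h5]; exact h3
  have e4 : (conjF φ q₀ a).re < 4 * γ₀ := by
    rw [conjF_apply, hs0]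
    have b1 := pos_re_mono φ e1
    have b2 := pos_re_mono φ e2
    have b3 := pos_re_mono φ e3
    simp only [map_add, Complex.add_re] at b3
    linarith
  have hlim := (Complex.continuous_re.tendsto _).comp
    (W.E_wlim q₀ (conjF φ q₀) (W.conj_mem φ hφ q₀))
  obtain ⟨P, hP⟩ := (hlim.eventually (gt_mem_nhds e4)).exists
  obtain ⟨q, hq, hqq, h3, h4⟩ := cut φ W P.cells hq₀ (fun b => b) hγ
  refine ⟨q, P, hq, sing_le_trans hqq hq₀f, ?_, h4⟩
  have h5 : ∑ b ∈ P.cells, n2 φ (q₀ * b * q₀) ^ 2 = (conjF φ q₀ (P.pinch q₀)).re := by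
    rw [conjF_apply, Part.pinch, Finset.mul_sum, Finset.sum_mul, map_sum, Complex.re_sum]
    refine Finset.sum_congr rfl fun b hb => ?_
    rw [n2_sq, star_mul, star_mul, hs0, (P.proj hb).isSelfAdjoint.star_eq]
    congr 2
    calc q₀ * (b * q₀) * (q₀ * b * q₀) = q₀ * b * (q₀ * q₀) * b * q₀ := by noncomm_ring
      _ = _ := by rw [hi0]; noncomm_ring
  have h6 : (conjF φ q₀ (P.pinch q₀)).re < 4 * γ₀ := hP
  rw [h5] at h3
  have h7 : (conjF φ q₀ (P.pinch q₀)).re / γ ^ 2 ≤ 4 * γ₀ / γ ^ 2 :=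
    div_le_div_of_nonneg_right h6.le (sq_nonneg γ)
  have h8 : γ₀ + 4 * γ₀ / γ ^ 2 = γ := by
    have : γ₀ + 4 * γ₀ / γ ^ 2 = γ₀ * (1 + 4 / γ ^ 2) := by ring
    rw [this, hγ₀, div_mul_cancel₀ _ hpos.ne']
  rw [sing_sub_split φ f q₀ q]
  linarith

theorem sing144 {φ : 𝓜 →ₚ[ℂ] ℂ} (hφ : φ ∈ W.𝓕) {f : 𝓜} (hf : f ∈ W.A)
    (hfp : IsStarProjection f) (hs : W.Sing φ f) {r : ℕ} (hr : 0 < r) {δ κ : ℝ} (hδ : 0 < δ)
    (hκ : 0 < κ) :
    ∃ p : Fin r → 𝓜, IsPaving W.A p ∧ ∃ q, IsStarProjection q ∧ q * f = q ∧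
      (φ (f - q)).re < δ ∧ ∀ i, ‖q * p i * q‖ ≤ 1 / r + κ := by
  have hφ1 : 0 ≤ (φ 1).re := pos_re_nonneg φ zero_le_one
  set M : ℝ := r * (2 * (φ 1).re) with hM
  have hM0 : 0 ≤ M := by positivity
  set γ : ℝ := δ / (1 + M / κ ^ 2) with hγdef
  have hpos : 0 < 1 + M / κ ^ 2 := by positivity
  have hγ : 0 < γ := div_pos hδ hpos
  obtain ⟨q₁, P, hq₁, hq₁f, h1, h2⟩ := W.sing0 hφ hf hfp hs hγ
  have : Nonempty (Fin r) := ⟨⟨0, hr⟩⟩
  set e : P.cells → 𝓜 := fun b => (b : 𝓜) with he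
  have hep : IsPaving W.A e := P.paving
  set y : (P.cells → Fin r) → Fin r → 𝓜 := fun c i =>
    (∑ a with c a = i, e a) - (1 / r : ℝ) • (1 : 𝓜) with hy
  have hi : ∀ i : Fin r, ∑ c, n2 φ (q₁ * y c i * q₁) ^ 2 ≤
      ∑ _c : P.cells → Fin r, γ * (2 * (φ 1).re) := by
    intro i
    set X : (P.cells → Fin r) → P.cells → ℝ := fun c a => (if c a = i then (1 : ℝ) else 0) - 1 / r
      with hX
    set F : P.cells → (P.cells → Fin r) → 𝓜 := fun a c => X c a • (q₁ * (e a * q₁)) with hF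
    have hsum : ∀ c, ∑ a, F a c = q₁ * y c i * q₁ := by
      intro c
      simp only [hy, colour_sub hep, Finset.mul_sum, Finset.sum_mul, hF, hX, mul_smul_comm,
        smul_mul_assoc, mul_assoc]
    have horth : ∀ a a', a' ≠ a → a' ≠ Equiv.refl _ a → ∑ c, ip φ (F a c) (F a' c) = 0 := by
      intro a a' haa _
      refine sum_ip_eq_zero φ a _ _ (fun c => ?_) (fun c u => ?_)
      · simp only [hF, hX, Function.update_self]
        rw [← Finset.sum_smul, sum_ind_sub hr, zero_smul]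
      · simp only [hF, hX, Function.update_of_ne haa]
    have hmain := sum_sq_le φ (Equiv.refl _) F horth
    simp only [hsum] at hmain
    refine hmain.trans ?_
    rw [Finset.mul_sum]
    refine Finset.sum_le_sum fun c _ => ?_
    have hXle : ∀ a, |X c a| ≤ 1 := by
      intro a
      have h3 : (0 : ℝ) < 1 / r := by positivity
      have h4 : (1 : ℝ) / r ≤ 1 := by
        rw [div_le_one (by exact_mod_cast hr)]; exact_mod_cast hr
      simp only [hX]
      rw [abs_le]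
      split_ifs <;> constructor <;> linarith
    have h3 : ∑ a, n2 φ (F a c) ^ 2 ≤ ∑ a, γ * n2 φ (e a * q₁) ^ 2 := by
      refine Finset.sum_le_sum fun a _ => ?_
      refine le_trans ?_ (n2_cell_sq_le φ hq₁ (hep.1 a).2 (h2 a a.2) q₁)
      simp only [hF]
      rw [n2_real_smul]
      refine pow_le_pow_left₀ (mul_nonneg (abs_nonneg _) (n2_nonneg φ _)) ?_ 2
      exact mul_le_of_le_one_left (n2_nonneg φ _) (hXle a)
    rw [← Finset.mul_sum, sum_n2_paving φ hep] at h3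
    have h4 := mul_le_mul_of_nonneg_left (n2_proj_sq_le φ hq₁) hγ.le
    linarith
  have hall : ∑ c, ∑ i, n2 φ (q₁ * y c i * q₁) ^ 2 ≤ ∑ _c : P.cells → Fin r, γ * M := by
    rw [Finset.sum_comm]
    refine (Finset.sum_le_sum fun i _ => hi i).trans (le_of_eq ?_)
    rw [Finset.sum_comm]
    refine Finset.sum_congr rfl fun c _ => ?_
    simp only [Finset.sum_const, Finset.card_univ, Fintype.card_fin, nsmul_eq_mul, hM]
    ring
  obtain ⟨c, -, hc⟩ := Finset.exists_le_of_sum_le Finset.univ_nonempty hall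
  obtain ⟨q, hq, hqq, h3, h4⟩ := cut φ W Finset.univ hq₁ (y c) hκ
  refine ⟨fun i => ∑ a with c a = i, e a, hep.colour c, q, hq, sing_le_trans hqq hq₁f, ?_, ?_⟩
  · have h7 : (∑ i, n2 φ (q₁ * y c i * q₁) ^ 2) / κ ^ 2 ≤ γ * M / κ ^ 2 :=
      div_le_div_of_nonneg_right hc (sq_nonneg κ)
    have h8 : γ + γ * M / κ ^ 2 = δ := by
      have : γ + γ * M / κ ^ 2 = γ * (1 + M / κ ^ 2) := by ring
      rw [this, hγdef, div_mul_cancel₀ _ hpos.ne']
    rw [sing_sub_split φ f q₁ q]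
    linarith
  · intro i
    have h5 := h4 i (Finset.mem_univ i)
    have h6 : q * (∑ a with c a = i, e a) * q = (1 / r : ℝ) • q + q * y c i * q := by
      simp only [hy, mul_sub, sub_mul, mul_smul_comm, smul_mul_assoc, mul_one,
        hq.isIdempotentElem.eq]
      abel
    have h7 : ‖(1 / r : ℝ) • q‖ ≤ 1 / r := by
      rw [norm_smul, Real.norm_of_nonneg (by positivity)]
      exact mul_le_of_le_one_right (by positivity) hq.norm_le
    show ‖q * (∑ a with c a = i, e a) * q‖ ≤ _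
    rw [h6]
    exact (norm_add_le _ _).trans (add_le_add h7 h5)

theorem sing143 {φ : 𝓜 →ₚ[ℂ] ℂ} (hφ : φ ∈ W.𝓕) {f : 𝓜} (hf : f ∈ W.A)
    (hfp : IsStarProjection f) (hs : W.Sing φ f) {r : ℕ} (hr : 0 < r) {x : 𝓜}
    (hx : IsSelfAdjoint x) {δ κ : ℝ} (hδ : 0 < δ) (hκ : 0 < κ) :
    ∃ p : Fin r → 𝓜, IsPaving W.A p ∧ ∃ q, IsStarProjection q ∧ q * f = q ∧
      (φ (f - q)).re < δ ∧ ‖q * (pinch p x - (1 - 1 / r : ℝ) • W.E x) * q‖ ≤ ‖x‖ / r + κ := by
  have hφ1 : 0 ≤ (φ 1).re := pos_re_nonneg φ zero_le_one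
  set M : ℝ := 16 * ‖x‖ ^ 2 * (φ 1).re + 2 with hM
  have hM0 : 0 ≤ M := by positivity
  set γ : ℝ := δ / (1 + M / κ ^ 2) with hγdef
  have hpos : 0 < 1 + M / κ ^ 2 := by positivity
  have hγ : 0 < γ := div_pos hδ hpos
  obtain ⟨q₁, P, hq₁, hq₁f, h1, h2⟩ := W.sing0 hφ hf hfp hs hγ
  have : Nonempty (Fin r) := ⟨⟨0, hr⟩⟩
  have hr0 : (0 : ℝ) < 1 / r := by positivity
  have hr1 : (1 : ℝ) / r ≤ 1 := by
    rw [div_le_one (by exact_mod_cast hr)]; exact_mod_cast hr
  set e : P.cells → 𝓜 := fun b => (b : 𝓜) with he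
  have hep : IsPaving W.A e := P.paving
  obtain ⟨n, Q, hQ, hBS⟩ := (W.E_wlim x).banach_saks (R := ‖x‖)
    (Eventually.of_forall fun P' => W.norm_part_pinch_le P' x) (W.U_refines P)
    (W.conj_mem φ hφ q₁) (Real.sqrt_pos.2 hγ)
  set Av : 𝓜 := ((n + 1 : ℝ))⁻¹ • ∑ k, (Q k).pinch x with hAv
  set Wm : 𝓜 := (1 / r : ℝ) • x + (1 - 1 / r : ℝ) • Av with hWm
  have hn : (n + 1 : ℝ) ≠ 0 := by positivity
  have hAvn : ‖Av‖ ≤ ‖x‖ := by
    rw [hAv, norm_smul, Real.norm_of_nonneg (by positivity), inv_mul_le_iff₀ (by positivity)]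
    refine (norm_sum_le _ _).trans ?_
    refine (Finset.sum_le_sum fun k _ => W.norm_part_pinch_le (Q k) x).trans ?_
    simp
  have hWmn : ‖Wm‖ ≤ ‖x‖ := by
    refine (norm_add_le _ _).trans ?_
    rw [norm_smul, norm_smul, Real.norm_of_nonneg hr0.le, Real.norm_of_nonneg (by linarith)]
    nlinarith
  let T := Σ k : Fin (n + 1), (Q k).cells
  let π : Fin (n + 1) × (T → Fin r) → Fin r → 𝓜 := fun u i =>
    ∑ a : (Q u.1).cells with u.2 ⟨u.1, a⟩ = i, (a : 𝓜)
  have hπ : ∀ u, IsPaving W.A (π u) := fun u => (Q u.1).paving.colour fun a => u.2 ⟨u.1, a⟩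
  have H1 : ∀ i, ∑ u, (π u i - (1 / r : ℝ) • (1 : 𝓜)) = 0 := by
    intro i
    rw [Fintype.sum_prod_type]
    exact Finset.sum_eq_zero fun k _ =>
      sum_colour_sub hr (Q k).paving (fun a => (⟨k, a⟩ : T)) i
  have H2 : ∑ u, (pinch (π u) x - Wm) = 0 := by
    rw [Fintype.sum_prod_type]
    have h3 : ∀ k : Fin (n + 1), ∑ c : T → Fin r, (pinch (π (k, c)) x - Wm) =
        (Fintype.card (T → Fin r) : ℝ) • ((1 - 1 / r : ℝ) • ((Q k).pinch x - Av)) := by
      intro k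
      have h4 := sum_pinch_colour hr (Q k).paving (fun a => (⟨k, a⟩ : T))
        (fun a a' h => by simpa [T] using h) x
      rw [← Part.pinch_eq] at h4
      have h5 : ∀ c : T → Fin r, pinch (π (k, c)) x - Wm =
          (pinch (π (k, c)) x - ((1 / r : ℝ) • x + (1 - 1 / r : ℝ) • (Q k).pinch x)) +
            (1 - 1 / r : ℝ) • ((Q k).pinch x - Av) := by
        intro c
        rw [hWm, smul_sub]; abel
      simp only [h5, Finset.sum_add_distrib]
      erw [h4]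
      rw [zero_add, Finset.sum_const, Finset.card_univ, Nat.cast_smul_eq_nsmul]
    simp only [h3]
    rw [← Finset.smul_sum, ← Finset.smul_sum, Finset.sum_sub_distrib]
    have h6 : ∑ _k : Fin (n + 1), Av = ∑ k, (Q k).pinch x := by
      rw [Finset.sum_const, Finset.card_univ, Fintype.card_fin, ← Nat.cast_smul_eq_nsmul ℝ, hAv,
        smul_smul]
      push_cast
      rw [mul_inv_cancel₀ hn, one_smul]
    rw [h6, sub_self, smul_zero, smul_zero]
  have H3 : ∀ b b', b ≠ b' → e b * Wm * e b' = (1 / r : ℝ) • (e b * x * e b') := by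
    intro b b' hb
    have h3 : ∀ k, e b * (Q k).pinch x * e b' = 0 := by
      intro k
      rw [Part.pinch, Finset.mul_sum, Finset.sum_mul]
      refine Finset.sum_eq_zero fun a ha => ?_
      have hc : e b * a = a * e b := W.comm _ (hep.1 b).1 _ ((Q k).mem ha)
      have h4 : e b * (a * x * a) * e b' = (a * e b) * x * (a * e b') := by
        rw [← hc]; noncomm_ring
      rw [h4]
      rcases hQ k b b.2 a ha with h5 | h5
      · rcases hQ k b' b'.2 a ha with h6 | h6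
        · have h7 : a * e b' = 0 := by
            have h5' : a * e b = a := h5
            rw [← h5', mul_assoc, hep.2.1 b b' hb, mul_zero]
          rw [h7, mul_zero]
        · have h6' : a * e b' = 0 := h6
          rw [h6', mul_zero]
      · have h5' : a * e b = 0 := h5
        rw [h5', zero_mul, zero_mul]
    have h4 : e b * Av * e b' = 0 := by
      rw [hAv, mul_smul_comm, smul_mul_assoc, Finset.mul_sum, Finset.sum_mul]
      simp only [h3, Finset.sum_const_zero, smul_zero]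
    rw [hWm, mul_add, add_mul, mul_smul_comm, smul_mul_assoc, mul_smul_comm, smul_mul_assoc, h4,
      smul_zero, add_zero]
  obtain ⟨p, hp, h3⟩ := second_moment φ hep π hπ x Wm (1 / r) hWmn H1 H2 H3 hq₁ hγ.le
    (fun b => h2 b b.2)
  set y : 𝓜 := pinch p x - (1 / r : ℝ) • x - (1 - 1 / r : ℝ) • W.E x with hy
  have h4 : n2 φ (q₁ * y * q₁) ^ 2 ≤ γ * M := by
    have a1 : q₁ * y * q₁ = q₁ * (pinch p x - Wm) * q₁ +
        (1 - 1 / r : ℝ) • (q₁ * ((Av - W.E x) * q₁)) := by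
      rw [← mul_assoc, ← smul_mul_assoc, ← mul_smul_comm, ← add_mul, ← mul_add, hy, hWm, smul_sub]
      congr 2; abel
    have a2 : n2 φ ((1 - 1 / r : ℝ) • (q₁ * ((Av - W.E x) * q₁))) ≤ Real.sqrt γ := by
      rw [n2_real_smul, abs_of_nonneg (by linarith)]
      have b1 := n2_mul_le φ q₁ ((Av - W.E x) * q₁)
      rw [← n2_conjF φ q₁ (Av - W.E x)] at b1
      have b2 := n2_nonneg (conjF φ q₁) (Av - W.E x)
      have b3 : ‖q₁‖ * n2 (conjF φ q₁) (Av - W.E x) ≤ 1 * Real.sqrt γ :=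
        mul_le_mul hq₁.norm_le hBS b2 zero_le_one
      have b4 := n2_nonneg φ (q₁ * ((Av - W.E x) * q₁))
      nlinarith
    have a3 := n2_add_le φ (q₁ * (pinch p x - Wm) * q₁)
      ((1 - 1 / r : ℝ) • (q₁ * ((Av - W.E x) * q₁)))
    rw [← a1] at a3
    have a4 := Real.sq_sqrt hγ.le
    have a5 := n2_nonneg φ (q₁ * y * q₁)
    set u := n2 φ (q₁ * (pinch p x - Wm) * q₁)
    have a6 : n2 φ (q₁ * y * q₁) ^ 2 ≤ (u + Real.sqrt γ) ^ 2 :=
      pow_le_pow_left₀ a5 (by linarith) 2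
    rw [hM]
    nlinarith [sq_nonneg (u - Real.sqrt γ)]
  obtain ⟨q, hq, hqq, h5, h6⟩ := cut φ W (Finset.univ : Finset Unit) hq₁ (fun _ => y) hκ
  refine ⟨p, hp, q, hq, sing_le_trans hqq hq₁f, ?_, ?_⟩
  · simp only [Finset.univ_unique, Finset.sum_singleton] at h5
    have h7 : n2 φ (q₁ * y * q₁) ^ 2 / κ ^ 2 ≤ γ * M / κ ^ 2 :=
      div_le_div_of_nonneg_right h4 (sq_nonneg κ)
    have h8 : γ + γ * M / κ ^ 2 = δ := by
      have : γ + γ * M / κ ^ 2 = γ * (1 + M / κ ^ 2) := by ring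
      rw [this, hγdef, div_mul_cancel₀ _ hpos.ne']
    rw [sing_sub_split φ f q₁ q]
    linarith
  · have h7 := h6 () (Finset.mem_univ _)
    have h8 : q * (pinch p x - (1 - 1 / r : ℝ) • W.E x) * q =
        (1 / r : ℝ) • (q * x * q) + q * y * q := by
      rw [← smul_mul_assoc, ← mul_smul_comm, ← add_mul, ← mul_add, hy]
      congr 2; abel
    have h9 : ‖q * x * q‖ ≤ ‖x‖ := by
      calc ‖q * x * q‖ ≤ ‖q‖ * ‖x‖ * ‖q‖ :=
            (norm_mul_le _ _).trans (mul_le_mul_of_nonneg_right (norm_mul_le _ _) (norm_nonneg _))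
        _ ≤ 1 * ‖x‖ * 1 := by
            gcongr
            · exact hq.norm_le
            · exact hq.norm_le
        _ = ‖x‖ := by ring
    have h10 : ‖(1 / r : ℝ) • (q * x * q)‖ ≤ ‖x‖ / r := by
      rw [norm_smul, Real.norm_of_nonneg hr0.le, div_eq_mul_one_div ‖x‖, mul_comm ‖x‖]
      exact mul_le_mul_of_nonneg_left h9 hr0.le
    rw [h8]
    exact (norm_add_le _ _).trans (add_le_add h10 h7)

end WS

end Crest.Agent.R109
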