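import Crest.Agent.R109.WExp

/-! Row 109, task C3, auxiliary lemmas: spectral cut-off and second moments. -/

set_option autoImplicit false
set_option linter.unusedSectionVars false

noncomputable section

namespace Crest.Agent.R109

open Filter Topology
open scoped ComplexOrder ComplexConjugate Classical

universe u

variable {𝓜 : Type u} [CStarAlgebra 𝓜] [PartialOrder 𝓜] [StarOrderedRing 𝓜]

namespace SingAux

theorem sum_update {κ Ξ V : Type*} [Fintype κ] [DecidableEq κ] [Fintype Ξ] [AddCommMonoid V]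
    (a : κ) (g : (κ → Ξ) → V) :
    ∑ ξ : κ → Ξ, ∑ u : Ξ, g (Function.update ξ a u) = Fintype.card Ξ • ∑ ξ, g ξ := by
  let e : (κ → Ξ) × Ξ ≃ (κ → Ξ) × Ξ :=
    { toFun := fun z => (Function.update z.1 a z.2, z.1 a)
      invFun := fun z => (Function.update z.1 a z.2, z.1 a)
      left_inv := fun z => by simp
      right_inv := fun z => by simp }
  have h1 : ∑ z : (κ → Ξ) × Ξ, g (e z).1 = ∑ z : (κ → Ξ) × Ξ, g z.1 :=
    Equiv.sum_comp e (fun z => g z.1)
  rw [Fintype.sum_prod_type, Fintype.sum_prod_type] at h1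
  simp only [e, Equiv.coe_fn_mk] at h1
  rw [h1, Finset.smul_sum]
  simp [Finset.card_univ]

/-- The real part of the inner product of a positive functional. -/
def ip (φ : 𝓜 →ₚ[ℂ] ℂ) (a b : 𝓜) : ℝ := (φ (star a * b)).re

variable (φ : 𝓜 →ₚ[ℂ] ℂ)

theorem ip_comm (a b : 𝓜) : ip φ a b = ip φ b a := by
  have h := pos_star φ (star a * b)
  rw [star_mul, star_star] at h
  simp only [ip, h, Complex.conj_re]

theorem ip_sum_right {α : Type*} (S : Finset α) (a : 𝓜) (b : α → 𝓜) :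
    ip φ a (∑ i ∈ S, b i) = ∑ i ∈ S, ip φ a (b i) := by
  simp only [ip, Finset.mul_sum, map_sum, Complex.re_sum]

theorem ip_sum_left {α : Type*} (S : Finset α) (a : α → 𝓜) (b : 𝓜) :
    ip φ (∑ i ∈ S, a i) b = ∑ i ∈ S, ip φ (a i) b := by
  rw [ip_comm, ip_sum_right]
  exact Finset.sum_congr rfl fun i _ => ip_comm φ _ _

theorem ip_self (a : 𝓜) : ip φ a a = n2 φ a ^ 2 := (n2_sq φ a).symm

theorem ip_le (a b : 𝓜) : ip φ a b ≤ (n2 φ a ^ 2 + n2 φ b ^ 2) / 2 := by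
  have h1 : ip φ a b ≤ n2 φ a * n2 φ b :=
    (Complex.re_le_norm _).trans (cauchy_schwarz φ a b)
  nlinarith [sq_nonneg (n2 φ a - n2 φ b)]

theorem sum_ip_eq_zero {κ Ξ : Type*} [Fintype κ] [DecidableEq κ] [Fintype Ξ] [Nonempty Ξ]
    (a : κ) (F G : (κ → Ξ) → 𝓜) (hF : ∀ ξ, ∑ u, F (Function.update ξ a u) = 0)
    (hG : ∀ ξ u, G (Function.update ξ a u) = G ξ) : ∑ ξ, ip φ (F ξ) (G ξ) = 0 := by
  have h := sum_update a (fun ξ => ip φ (F ξ) (G ξ))
  have h0 : ∀ ξ : κ → Ξ, ∑ u : Ξ, ip φ (F (Function.update ξ a u)) (G (Function.update ξ a u))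
      = 0 := by
    intro ξ
    simp only [hG]
    rw [← ip_sum_left, hF]
    simp [ip]
  simp only [h0, Finset.sum_const_zero, nsmul_eq_mul] at h
  have hc : (Fintype.card Ξ : ℝ) ≠ 0 := by exact_mod_cast Fintype.card_ne_zero
  exact (mul_eq_zero.1 h.symm).resolve_left hc

theorem sum_sq_le {J Ω : Type*} [Fintype J] [Fintype Ω] (σ : J ≃ J) (F : J → Ω → 𝓜)
    (h : ∀ j j', j' ≠ j → j' ≠ σ j → ∑ ω, ip φ (F j ω) (F j' ω) = 0) :
    ∑ ω, n2 φ (∑ j, F j ω) ^ 2 ≤ 2 * ∑ ω, ∑ j, n2 φ (F j ω) ^ 2 := by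
  set N : J → ℝ := fun j => ∑ ω, n2 φ (F j ω) ^ 2 with hN
  have hN0 : ∀ j, 0 ≤ N j := fun j => Finset.sum_nonneg fun ω _ => sq_nonneg _
  have h1 : ∑ ω, n2 φ (∑ j, F j ω) ^ 2 = ∑ j, ∑ j', ∑ ω, ip φ (F j ω) (F j' ω) := by
    have h0 : ∀ ω, n2 φ (∑ j, F j ω) ^ 2 = ∑ j, ∑ j', ip φ (F j ω) (F j' ω) := by
      intro ω
      rw [← ip_self, ip_sum_left]
      exact Finset.sum_congr rfl fun j _ => ip_sum_right φ _ _ _
    simp only [h0]
    rw [Finset.sum_comm]
    exact Finset.sum_congr rfl fun j _ => Finset.sum_comm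
  have h2 : ∀ j j', ∑ ω, ip φ (F j ω) (F j' ω) ≤
      (if j' = j then N j else 0) + (if j' = σ j then (N j + N (σ j)) / 2 else 0) := by
    intro j j'
    have hle : ∑ ω, ip φ (F j ω) (F j' ω) ≤ (N j + N j') / 2 := by
      simp only [hN, ← Finset.sum_add_distrib, Finset.sum_div]
      exact Finset.sum_le_sum fun ω _ => ip_le φ _ _
    have a1 := hN0 j
    have a2 := hN0 (σ j)
    by_cases h1 : j' = j
    · subst h1
      rw [if_pos rfl]
      split_ifs <;> linarith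
    · by_cases h2 : j' = σ j
      · rw [if_neg h1, if_pos h2, ← h2]; linarith
      · rw [if_neg h1, if_neg h2, h j j' h1 h2]; simp
  have h3 : ∑ j, N (σ j) = ∑ j, N j := Equiv.sum_comp σ N
  have h4 : ∑ ω, ∑ j, n2 φ (F j ω) ^ 2 = ∑ j, N j := Finset.sum_comm
  rw [h1, h4]
  calc ∑ j, ∑ j', ∑ ω, ip φ (F j ω) (F j' ω)
      ≤ ∑ j, ∑ j', ((if j' = j then N j else 0) +
          (if j' = σ j then (N j + N (σ j)) / 2 else 0)) :=
        Finset.sum_le_sum fun j _ => Finset.sum_le_sum fun j' _ => h2 j j'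
    _ = ∑ j, (N j + (N j + N (σ j)) / 2) := by
        refine Finset.sum_congr rfl fun j _ => ?_
        rw [Finset.sum_add_distrib]
        simp
    _ = 2 * ∑ j, N j := by
        rw [Finset.sum_add_distrib, ← Finset.sum_div, Finset.sum_add_distrib, h3]; ring

theorem sum_n2_paving {κ : Type*} [Fintype κ] {A : StarSubalgebra ℂ 𝓜} {e : κ → 𝓜}
    (he : IsPaving A e) (w : 𝓜) : ∑ b, n2 φ (e b * w) ^ 2 = n2 φ w ^ 2 := by
  have h1 : ∀ b, star (e b * w) * (e b * w) = star w * e b * w := by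
    intro b
    have hp := (he.1 b).2
    rw [star_mul, hp.isSelfAdjoint.star_eq]
    calc star w * e b * (e b * w) = star w * (e b * e b) * w := by noncomm_ring
      _ = _ := by rw [hp.isIdempotentElem.eq]
  simp only [n2_sq, h1]
  rw [← Complex.re_sum, ← map_sum, ← Finset.sum_mul, ← Finset.mul_sum, he.2.2, mul_one]

theorem norm_mul_sq {q b : 𝓜} (hq : IsStarProjection q) (hb : IsStarProjection b) :
    ‖q * b‖ ^ 2 = ‖q * b * q‖ := by
  have h := CStarRing.norm_self_mul_star (x := q * b)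
  rw [star_mul, hq.isSelfAdjoint.star_eq, hb.isSelfAdjoint.star_eq] at h
  have h2 : q * b * (b * q) = q * b * q := by
    calc q * b * (b * q) = q * (b * b) * q := by noncomm_ring
      _ = _ := by rw [hb.isIdempotentElem.eq]
  rw [← h2, h, sq]

theorem n2_proj_sq_le {q : 𝓜} (hq : IsStarProjection q) : n2 φ q ^ 2 ≤ (φ 1).re := by
  rw [n2_sq, hq.isSelfAdjoint.star_eq, hq.isIdempotentElem.eq]
  exact pos_re_mono φ hq.le_one

theorem n2_cell_sq_le {q b : 𝓜} (hq : IsStarProjection q) (hb : IsStarProjection b) {γ : ℝ}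
    (h : ‖q * b * q‖ ≤ γ) (w : 𝓜) : n2 φ (q * (b * w)) ^ 2 ≤ γ * n2 φ (b * w) ^ 2 := by
  have h1 : q * (b * w) = (q * b) * (b * w) := by
    calc q * (b * w) = q * ((b * b) * w) := by rw [hb.isIdempotentElem.eq]
      _ = _ := by noncomm_ring
  rw [h1]
  have h2 := n2_mul_le φ (q * b) (b * w)
  have h3 := norm_mul_sq hq hb
  calc n2 φ (q * b * (b * w)) ^ 2 ≤ (‖q * b‖ * n2 φ (b * w)) ^ 2 :=
        pow_le_pow_left₀ (n2_nonneg φ _) h2 2
    _ = ‖q * b * q‖ * n2 φ (b * w) ^ 2 := by rw [mul_pow, h3]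
    _ ≤ _ := mul_le_mul_of_nonneg_right h (sq_nonneg _)

/-- Block sum bound. -/
theorem sum_blocks_le {κ : Type*} [Fintype κ] {A : StarSubalgebra ℂ 𝓜} {e : κ → 𝓜}
    (he : IsPaving A e) {q : 𝓜} (hq : IsStarProjection q) {γ : ℝ} (hγ : 0 ≤ γ)
    (h : ∀ b, ‖q * e b * q‖ ≤ γ) (D : 𝓜) :
    ∑ j : κ × κ, n2 φ (q * (e j.1 * D * e j.2) * q) ^ 2 ≤ γ * (‖D‖ ^ 2 * (φ 1).re) := by
  rw [Fintype.sum_prod_type_right]
  have h1 : ∀ b', ∑ b, n2 φ (q * (e b * D * e b') * q) ^ 2 ≤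
      γ * (‖D‖ ^ 2 * n2 φ (e b' * q) ^ 2) := by
    intro b'
    calc ∑ b, n2 φ (q * (e b * D * e b') * q) ^ 2
        ≤ ∑ b, γ * n2 φ (e b * (D * (e b' * q))) ^ 2 := by
          refine Finset.sum_le_sum fun b _ => ?_
          have : q * (e b * D * e b') * q = q * (e b * (D * (e b' * q))) := by noncomm_ring
          rw [this]
          exact n2_cell_sq_le φ hq (he.1 b).2 (h b) _
      _ = γ * n2 φ (D * (e b' * q)) ^ 2 := by rw [← Finset.mul_sum, sum_n2_paving φ he]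
      _ ≤ _ := by
          refine mul_le_mul_of_nonneg_left ?_ hγ
          rw [← mul_pow]
          exact pow_le_pow_left₀ (n2_nonneg φ _) (n2_mul_le φ _ _) 2
  calc _ ≤ ∑ b', γ * (‖D‖ ^ 2 * n2 φ (e b' * q) ^ 2) := Finset.sum_le_sum fun b' _ => h1 b'
    _ = γ * (‖D‖ ^ 2 * n2 φ q ^ 2) := by
        rw [← Finset.mul_sum, ← Finset.mul_sum, sum_n2_paving φ he]
    _ ≤ _ := mul_le_mul_of_nonneg_left
        (mul_le_mul_of_nonneg_left (n2_proj_sq_le φ hq) (sq_nonneg _)) hγ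

/-- Spectral cut-off. -/
theorem cut (W : WS 𝓜) {α : Type*} (S : Finset α) {q₀ : 𝓜} (hq₀ : IsStarProjection q₀)
    (y : α → 𝓜) {κ : ℝ} (hκ : 0 < κ) :
    ∃ q, IsStarProjection q ∧ q * q₀ = q ∧
      (φ (q₀ - q)).re ≤ (∑ i ∈ S, n2 φ (q₀ * y i * q₀) ^ 2) / κ ^ 2 ∧
      ∀ i ∈ S, ‖q * y i * q‖ ≤ κ := by
  have hs0 := hq₀.isSelfAdjoint.star_eq
  have hi0 : q₀ * q₀ = q₀ := hq₀.isIdempotentElem.eq
  set t : α → 𝓜 := fun i => q₀ * y i * q₀ with ht
  set Z : 𝓜 := ∑ i ∈ S, star (t i) * t i with hZ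
  have hZ0 : 0 ≤ Z := Finset.sum_nonneg fun i _ => star_mul_self_nonneg _
  have htq : ∀ i, t i * q₀ = t i := fun i => by
    simp only [ht]; rw [mul_assoc, hi0]
  have hZr : Z * q₀ = Z := by
    rw [hZ, Finset.sum_mul]
    exact Finset.sum_congr rfl fun i _ => by rw [mul_assoc, htq]
  have hZsa : IsSelfAdjoint Z := hZ0.isSelfAdjoint
  have hZl : q₀ * Z = Z := by
    have := congrArg star hZr
    rwa [star_mul, hs0, hZsa.star_eq] at this
  obtain ⟨s, hs⟩ : ∃ s, WS.IsSP Z (κ ^ 2) s := by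
    first | exact WS.exists_SP (W := W) hZsa (κ ^ 2) | exact WS.exists_SP hZsa (κ ^ 2)
  have hc : Commute q₀ s := hs.2.1 q₀ (by rw [Commute, SemiconjBy, hZl, hZr])
  have hsp := hs.1
  have hc' : Commute q₀ (1 - s) := (Commute.one_right q₀).sub_right hc
  have hq : IsStarProjection (q₀ * (1 - s)) := hq₀.mul hsp.one_sub hc'
  have hqq : q₀ * (1 - s) * q₀ = q₀ * (1 - s) := by
    rw [mul_assoc, ← hc'.eq, ← mul_assoc, hi0]
  refine ⟨q₀ * (1 - s), hq, hqq, ?_, ?_⟩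
  · have h1 : q₀ - q₀ * (1 - s) = q₀ * s := by noncomm_ring
    have h2 : q₀ * s ≤ s := by
      have hp : IsStarProjection ((1 - q₀) * s) :=
        hq₀.one_sub.mul hsp ((Commute.one_left s).sub_left hc)
      have := hp.nonneg
      rw [sub_mul, one_mul] at this
      exact sub_nonneg.1 this
    have h3 := pos_re_mono φ (hs.smul_le hZ0)
    rw [pos_real_smul, Complex.re_ofReal_mul] at h3
    have h4 : (φ Z).re = ∑ i ∈ S, n2 φ (t i) ^ 2 := by
      simp only [hZ, map_sum, Complex.re_sum, n2_sq]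
    rw [h1, le_div_iff₀ (by positivity), ← h4]
    have h5 := pos_re_mono φ h2
    nlinarith [sq_nonneg κ]
  · intro i hi
    set q := q₀ * (1 - s) with hqdef
    have hsq := hq.isSelfAdjoint.star_eq
    have hq0q : q₀ * q = q := by rw [hqdef, ← mul_assoc, hi0]
    have h1 : q * y i * q = q * (t i * q) := by
      calc q * y i * q = (q * q₀) * y i * (q₀ * q) := by rw [hqq, hq0q]
        _ = _ := by simp only [ht]; noncomm_ring
    have h2 : star (t i) * t i ≤ Z :=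
      Finset.single_le_sum (f := fun i => star (t i) * t i)
        (fun i _ => star_mul_self_nonneg _) hi
    have h3 : star q * (star (t i) * t i) * q ≤ star q * Z * q := star_left_conjugate_le_conjugate h2 q
    have h4 : star q * Z * q ≤ (κ ^ 2) • (1 : 𝓜) := by
      have h5 := star_left_conjugate_le_conjugate hs.conj_le q₀
      have h6 : star q * Z * q = star q₀ * ((1 - s) * Z * (1 - s)) * q₀ := by
        rw [hsq, hs0, hqdef]
        calc q₀ * (1 - s) * Z * (q₀ * (1 - s)) = q₀ * (1 - s) * Z * ((1 - s) * q₀) := by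
              rw [hc'.eq]
          _ = _ := by noncomm_ring
      have h7 : star q₀ * (κ ^ 2 • (1 - s)) * q₀ = κ ^ 2 • q := by
        rw [hs0, mul_smul_comm, smul_mul_assoc, hqq]
      rw [h6]
      refine h5.trans ?_
      rw [h7]
      exact smul_le_smul_of_nonneg_left hq.le_one (sq_nonneg κ)
    have h8 : star (t i * q) * (t i * q) ≤ (κ ^ 2) • (1 : 𝓜) := by
      have : star (t i * q) * (t i * q) = star q * (star (t i) * t i) * q := by
        rw [star_mul]; noncomm_ring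
      rw [this]; exact h3.trans h4
    have h9 : ‖t i * q‖ ≤ κ := by
      have h10 : ‖star (t i * q) * (t i * q)‖ ≤ κ ^ 2 := by
        refine norm_le_of_le_of_neg_le (IsSelfAdjoint.star_mul_self _) (sq_nonneg κ) h8 ?_
        have a1 : (0 : 𝓜) ≤ (κ ^ 2) • (1 : 𝓜) := smul_nonneg (sq_nonneg κ) zero_le_one
        exact (neg_nonpos.2 (star_mul_self_nonneg _)).trans a1
      rw [CStarRing.norm_star_mul_self, ← sq] at h10
      exact (pow_le_pow_iff_left₀ (norm_nonneg _) hκ.le two_ne_zero).1 h10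
    rw [h1]
    calc ‖q * (t i * q)‖ ≤ ‖q‖ * ‖t i * q‖ := norm_mul_le _ _
      _ ≤ 1 * κ := mul_le_mul hq.norm_le h9 (norm_nonneg _) zero_le_one
      _ = κ := one_mul κ

end SingAux

end Crest.Agent.R109
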