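import Mathlib

/-! Row 109, task A4: the zeros of `γ y + θ - ∑ c k / (y - μ k)` interlace the poles. -/

set_option autoImplicit false

noncomputable section

namespace Crest.Agent.R109.StructAux

open Polynomial Filter Topology Set

variable {κ : Type*} [DecidableEq κ] {s : Finset κ} {μ c : κ → ℝ} {γ θ : ℝ}

/-- The rational function. -/
def wf (s : Finset κ) (μ c : κ → ℝ) (γ θ y : ℝ) : ℝ := γ * y + θ - ∑ k ∈ s, c k / (y - μ k)

/-- The indicator of `y < a`. -/
def ind (y a : ℝ) : ℝ := if y < a then 1 else 0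

/-- The monic polynomial with the given roots. -/
def MP (m : Multiset ℝ) : ℝ[X] := (m.map fun a => X - C a).prod

/-- The numerator of the sum of the fractions. -/
def PB (s : Finset κ) (μ c : κ → ℝ) : ℝ[X] := ∑ k ∈ s, C (c k) * ∏ l ∈ s.erase k, (X - C (μ l))

theorem eval_MP (m : Multiset ℝ) (y : ℝ) : (MP m).eval y = (m.map fun a => y - a).prod := by
  simp [MP, eval_multiset_prod]

theorem monic_MP (m : Multiset ℝ) : (MP m).Monic :=
  monic_multiset_prod_of_monic _ _ fun a _ => monic_X_sub_C a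

theorem natDegree_MP (m : Multiset ℝ) : (MP m).natDegree = m.card :=
  natDegree_multiset_prod_X_sub_C_eq_card m

theorem coeff_PB {j : ℕ} (hj : s.card ≤ j) : (PB s μ c).coeff j = 0 := by
  rw [PB, finsetSum_coeff]
  refine Finset.sum_eq_zero fun k hk => ?_
  rw [coeff_C_mul, coeff_eq_zero_of_natDegree_lt, mul_zero]
  rw [natDegree_finsetProd_X_sub_C_eq_card, Finset.card_erase_of_mem hk]
  have := Finset.card_pos.2 ⟨k, hk⟩
  omega

theorem eval_PP (hγ : 0 < γ) {y : ℝ} (hy : ∀ k ∈ s, y ≠ μ k) :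
    (C γ * MP ((-θ / γ) ::ₘ s.val.map μ) - PB s μ c).eval y =
      wf s μ c γ θ y * ∏ k ∈ s, (y - μ k) := by
  rw [eval_sub, eval_mul, eval_C, eval_MP, Multiset.map_cons, Multiset.prod_cons, Multiset.map_map,
    wf, sub_mul (γ * y + θ), Finset.sum_mul, PB, eval_finsetSum]
  congr 1
  · rw [← mul_assoc]
    congr 1
    field_simp
    ring
  · refine Finset.sum_congr rfl fun k hk => ?_
    rw [eval_mul, eval_C, eval_prod, ← Finset.mul_prod_erase s _ hk]
    have := sub_ne_zero.2 (hy k hk)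
    simp only [eval_sub, eval_X, eval_C]
    field_simp

omit [DecidableEq κ] in
theorem wf_lt (hγ : 0 < γ) (hc : ∀ k, 0 ≤ c k) {y y' : ℝ} (h : y < y')
    (hp : ∀ k ∈ s, μ k < y ∨ y' < μ k) : wf s μ c γ θ y < wf s μ c γ θ y' := by
  have h1 : ∑ k ∈ s, c k / (y' - μ k) ≤ ∑ k ∈ s, c k / (y - μ k) := by
    refine Finset.sum_le_sum fun k hk => ?_
    rcases hp k hk with h2 | h2
    · exact div_le_div_of_nonneg_left (hc k) (by linarith) (by linarith)
    · have h3 := div_le_div_of_nonneg_left (hc k) (show 0 < μ k - y' by linarith)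
        (show μ k - y' ≤ μ k - y by linarith)
      rw [← neg_sub (μ k) y', ← neg_sub (μ k) y, div_neg, div_neg]
      linarith
  have h2 := mul_lt_mul_of_pos_left h hγ
  unfold wf
  linarith

omit [DecidableEq κ] in
theorem continuousAt_wf {y : ℝ} (hy : ∀ k ∈ s, y ≠ μ k) : ContinuousAt (wf s μ c γ θ) y := by
  unfold wf
  refine ContinuousAt.sub (by fun_prop) (tendsto_finsetSum _ fun k hk => ?_)
  exact ContinuousAt.div (f := fun _ => c k) (g := fun y => y - μ k) continuousAt_const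
    (by fun_prop) (sub_ne_zero.2 (hy k hk))

theorem wf_erase {k : κ} (hk : k ∈ s) (y : ℝ) :
    wf s μ c γ θ y = wf (s.erase k) μ c γ θ y - c k * (y - μ k)⁻¹ := by
  rw [wf, wf, ← Finset.add_sum_erase s _ hk, div_eq_mul_inv]
  ring

theorem tendsto_right (hinj : ∀ k ∈ s, ∀ l ∈ s, μ k = μ l → k = l) {k : κ} (hk : k ∈ s)
    (hc : 0 < c k) : Tendsto (wf s μ c γ θ) (𝓝[>] (μ k)) atBot := by
  have h1 : ContinuousAt (wf (s.erase k) μ c γ θ) (μ k) := continuousAt_wf fun l hl h =>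
    (Finset.mem_erase.1 hl).1 (hinj k hk l (Finset.mem_erase.1 hl).2 h).symm
  have h2 : Tendsto (fun y => y - μ k) (𝓝[>] (μ k)) (𝓝[>] 0) := by
    refine tendsto_nhdsWithin_iff.2 ⟨?_, ?_⟩
    · have : Tendsto (fun y => y - μ k) (𝓝 (μ k)) (𝓝 (μ k - μ k)) :=
        (continuous_id.sub continuous_const).tendsto _
      rw [sub_self] at this
      exact this.mono_left nhdsWithin_le_nhds
    · filter_upwards [self_mem_nhdsWithin] with y hy
      exact sub_pos.2 (mem_Ioi.1 hy)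
  have h3 := (tendsto_inv_nhdsGT_zero.comp h2).const_mul_atTop hc
  have h4 := (h1.tendsto.mono_left (nhdsWithin_le_nhds (s := Ioi (μ k)))).add_atBot
    (tendsto_neg_atTop_atBot.comp h3)
  refine h4.congr fun y => ?_
  rw [wf_erase hk, sub_eq_add_neg]
  rfl

theorem tendsto_left (hinj : ∀ k ∈ s, ∀ l ∈ s, μ k = μ l → k = l) {k : κ} (hk : k ∈ s)
    (hc : 0 < c k) : Tendsto (wf s μ c γ θ) (𝓝[<] (μ k)) atTop := by
  have h1 : ContinuousAt (wf (s.erase k) μ c γ θ) (μ k) := continuousAt_wf fun l hl h =>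
    (Finset.mem_erase.1 hl).1 (hinj k hk l (Finset.mem_erase.1 hl).2 h).symm
  have h2 : Tendsto (fun y => y - μ k) (𝓝[<] (μ k)) (𝓝[<] 0) := by
    refine tendsto_nhdsWithin_iff.2 ⟨?_, ?_⟩
    · have : Tendsto (fun y => y - μ k) (𝓝 (μ k)) (𝓝 (μ k - μ k)) :=
        (continuous_id.sub continuous_const).tendsto _
      rw [sub_self] at this
      exact this.mono_left nhdsWithin_le_nhds
    · filter_upwards [self_mem_nhdsWithin] with y hy
      exact sub_neg.2 (mem_Iio.1 hy)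
  have h3 := (tendsto_inv_nhdsLT_zero.comp h2).const_mul_atBot hc
  have h4 := (h1.tendsto.mono_left (nhdsWithin_le_nhds (s := Iio (μ k)))).add_atTop
    (tendsto_neg_atBot_atTop.comp h3)
  refine h4.congr fun y => ?_
  rw [wf_erase hk, sub_eq_add_neg]
  rfl

omit [DecidableEq κ] in
theorem tendsto_top (hγ : 0 < γ) : Tendsto (wf s μ c γ θ) atTop atTop := by
  have h1 : Tendsto (fun y => ∑ k ∈ s, c k / (y - μ k)) atTop (𝓝 (∑ k ∈ s, (0 : ℝ))) :=
    tendsto_finsetSum _ fun k _ =>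
      tendsto_const_nhds.div_atTop (tendsto_atTop_add_const_right _ (-μ k) tendsto_id)
  have h2 : Tendsto (fun y => γ * y + θ) atTop atTop :=
    tendsto_atTop_add_const_right _ θ (tendsto_id.const_mul_atTop hγ)
  exact h2.atTop_add h1.neg

omit [DecidableEq κ] in
theorem tendsto_bot (hγ : 0 < γ) : Tendsto (wf s μ c γ θ) atBot atBot := by
  have h1 : Tendsto (fun y => ∑ k ∈ s, c k / (y - μ k)) atBot (𝓝 (∑ k ∈ s, (0 : ℝ))) :=
    tendsto_finsetSum _ fun k _ =>
      tendsto_const_nhds.div_atBot (tendsto_atBot_add_const_right _ (-μ k) tendsto_id)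
  have h2 : Tendsto (fun y => γ * y + θ) atBot atBot :=
    tendsto_atBot_add_const_right _ θ (tendsto_id.const_mul_atBot hγ)
  exact h2.atBot_add h1.neg

theorem root_right (hγ : 0 < γ) (hinj : ∀ k ∈ s, ∀ l ∈ s, μ k = μ l → k = l)
    (hc : ∀ k ∈ s, 0 < c k) {k : κ} (hk : k ∈ s) :
    ∃ ρ, μ k < ρ ∧ (∀ l ∈ s, μ k < μ l → ρ < μ l) ∧ wf s μ c γ θ ρ = 0 := by
  by_cases h : (s.filter fun l => μ k < μ l).Nonempty
  · obtain ⟨l, hl, hmin⟩ := Finset.exists_min_image _ μ h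
    obtain ⟨hls, hkl⟩ := Finset.mem_filter.1 hl
    have hcont : ContinuousOn (wf s μ c γ θ) (Ioo (μ k) (μ l)) := fun y hy =>
      (continuousAt_wf fun i hi h' => by
        have := hmin i (Finset.mem_filter.2 ⟨hi, h' ▸ hy.1⟩)
        linarith [hy.2]).continuousWithinAt
    obtain ⟨ρ, hρ, h0⟩ := isPreconnected_Ioo.intermediate_value_Iii
      (le_principal_iff.2 (Ioo_mem_nhdsGT hkl)) (le_principal_iff.2 (Ioo_mem_nhdsLT hkl)) hcont
      (tendsto_right hinj hk (hc k hk)) (tendsto_left hinj hls (hc l hls)) (mem_univ 0)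
    exact ⟨ρ, hρ.1, fun i hi h' => hρ.2.trans_le (hmin i (Finset.mem_filter.2 ⟨hi, h'⟩)), h0⟩
  · have hno : ∀ l ∈ s, ¬ μ k < μ l := fun l hl h' => h ⟨l, Finset.mem_filter.2 ⟨hl, h'⟩⟩
    have hcont : ContinuousOn (wf s μ c γ θ) (Ioi (μ k)) := fun y hy =>
      (continuousAt_wf fun i hi (h' : y = μ i) =>
        hno i hi (h' ▸ mem_Ioi.1 hy)).continuousWithinAt
    obtain ⟨ρ, hρ, h0⟩ := isPreconnected_Ioi.intermediate_value_Iii
      (le_principal_iff.2 self_mem_nhdsWithin) (le_principal_iff.2 (Ioi_mem_atTop _)) hcont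
      (tendsto_right hinj hk (hc k hk)) (tendsto_top hγ) (mem_univ 0)
    exact ⟨ρ, hρ, fun i hi h' => (hno i hi h').elim, h0⟩

theorem root_left (hγ : 0 < γ) (hinj : ∀ k ∈ s, ∀ l ∈ s, μ k = μ l → k = l)
    (hc : ∀ k ∈ s, 0 < c k) : ∃ ρ, (∀ l ∈ s, ρ < μ l) ∧ wf s μ c γ θ ρ = 0 := by
  rcases s.eq_empty_or_nonempty with rfl | h
  · refine ⟨-θ / γ, by simp, ?_⟩
    simp only [wf, Finset.sum_empty]
    field_simp
    ring
  · obtain ⟨l, hl, hmin⟩ := Finset.exists_min_image _ μ h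
    have hcont : ContinuousOn (wf s μ c γ θ) (Iio (μ l)) := fun y hy =>
      (continuousAt_wf fun i hi h' => by
        have := hmin i hi
        have h2 : y < μ l := hy
        linarith).continuousWithinAt
    obtain ⟨ρ, hρ, h0⟩ := isPreconnected_Iio.intermediate_value_Iii
      (le_principal_iff.2 (Iio_mem_atBot _)) (le_principal_iff.2 self_mem_nhdsWithin) hcont
      (tendsto_bot hγ) (tendsto_left hinj hl (hc l hl)) (mem_univ 0)
    exact ⟨ρ, fun i hi => lt_of_lt_of_le hρ (hmin i hi), h0⟩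

/-- The conclusion of the interlacing lemma. -/
def Key (s : Finset κ) (μ c : κ → ℝ) (γ θ : ℝ) (m : Multiset ℝ) : Prop :=
  m.card = s.card + 1 ∧ ∀ y, (∀ k ∈ s, y ≠ μ k) →
    wf s μ c γ θ y * ∏ k ∈ s, (y - μ k) = γ * (m.map fun a => y - a).prod ∧
    (y ∉ m → ind (wf s μ c γ θ y) 0 + ∑ k ∈ s, ind y (μ k) = (m.map (ind y)).sum)

omit [DecidableEq κ] in
theorem ind_wf (hγ : 0 < γ) (hc : ∀ k, 0 ≤ c k) {y ρ : ℝ} (h0 : wf s μ c γ θ ρ = 0) (hne : y ≠ ρ)
    (hp : ∀ k ∈ s, (μ k < y ∧ μ k < ρ) ∨ (y < μ k ∧ ρ < μ k)) :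
    ind (wf s μ c γ θ y) 0 = ind y ρ := by
  rcases lt_or_gt_of_ne hne with h | h
  · have := wf_lt (θ := θ) hγ hc h fun k hk => (hp k hk).imp And.left And.right
    rw [ind, ind, if_pos h, if_pos (h0 ▸ this)]
  · have := wf_lt (θ := θ) hγ hc h fun k hk => (hp k hk).imp And.right And.left
    rw [ind, ind, if_neg h.not_gt, if_neg (h0 ▸ this).not_gt]

theorem key_generic (hγ : 0 < γ) (hc0 : ∀ k, 0 ≤ c k)
    (hinj : ∀ k ∈ s, ∀ l ∈ s, μ k = μ l → k = l) (hc : ∀ k ∈ s, 0 < c k) :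
    ∃ m, Key s μ c γ θ m := by
  classical
  obtain ⟨ρ₀, hρ₀, hw₀⟩ := root_left (θ := θ) hγ hinj hc
  choose! ρ hρ1 hρ2 hρ3 using fun k (hk : k ∈ s) => root_right (θ := θ) hγ hinj hc hk
  have hnp : ∀ k ∈ s, ∀ l ∈ s, ρ k ≠ μ l := by
    intro k hk l hl h
    have h1 := hρ1 k hk
    have h2 := hρ2 k hk l hl (h ▸ h1)
    linarith
  have hnd : (ρ₀ ::ₘ s.val.map ρ).Nodup := by
    rw [Multiset.nodup_cons]
    refine ⟨fun h => ?_, Multiset.Nodup.map_on (fun k hk l hl h => ?_) s.nodup⟩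
    · obtain ⟨k, hk, h⟩ := Multiset.mem_map.1 h
      linarith [hρ₀ k hk, hρ1 k hk]
    · rcases lt_trichotomy (μ k) (μ l) with h1 | h1 | h1
      · linarith [hρ2 k hk l hl h1, hρ1 l hl]
      · exact hinj k hk l hl h1
      · linarith [hρ2 l hl k hk h1, hρ1 k hk]
  have hcard : (ρ₀ ::ₘ s.val.map ρ).card = s.card + 1 := by simp
  have hP : C γ * MP ((-θ / γ) ::ₘ s.val.map μ) - PB s μ c = C γ * MP (ρ₀ ::ₘ s.val.map ρ) := by
    refine eq_of_degree_sub_lt_of_eval_finset_eq ⟨_, hnd⟩ ?_ fun x hx => ?_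
    · change _ < ((ρ₀ ::ₘ s.val.map ρ).card : WithBot ℕ)
      rw [hcard, degree_lt_iff_coeff_zero]
      intro j hj
      rw [coeff_sub, coeff_sub, coeff_PB (by omega), coeff_C_mul, coeff_C_mul]
      have d1 : (MP ((-θ / γ) ::ₘ s.val.map μ)).natDegree = s.card + 1 := by
        rw [natDegree_MP]; simp
      have d2 : (MP (ρ₀ ::ₘ s.val.map ρ)).natDegree = s.card + 1 := by
        rw [natDegree_MP, hcard]
      rcases hj.eq_or_lt with h | h
      · have e1 := (monic_MP ((-θ / γ) ::ₘ s.val.map μ)).coeff_natDegree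
        have e2 := (monic_MP (ρ₀ ::ₘ s.val.map ρ)).coeff_natDegree
        rw [d1, h] at e1
        rw [d2, h] at e2
        rw [e1, e2]
        ring
      · rw [coeff_eq_zero_of_natDegree_lt (d1 ▸ h), coeff_eq_zero_of_natDegree_lt (d2 ▸ h)]
        ring
    · have hx' : x ∈ ρ₀ ::ₘ s.val.map ρ := hx
      have h1 : ((ρ₀ ::ₘ s.val.map ρ).map fun a => x - a).prod = 0 :=
        Multiset.prod_eq_zero (Multiset.mem_map.2 ⟨x, hx', sub_self x⟩)
      rw [eval_mul, eval_MP (ρ₀ ::ₘ s.val.map ρ), h1, mul_zero]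
      rcases Multiset.mem_cons.1 hx' with rfl | h
      · rw [eval_PP hγ fun k hk => (hρ₀ k hk).ne, hw₀, zero_mul]
      · obtain ⟨k, hk, rfl⟩ := Multiset.mem_map.1 h
        rw [eval_PP hγ (hnp k hk), hρ3 k hk, zero_mul]
  refine ⟨ρ₀ ::ₘ s.val.map ρ, hcard, fun y hy => ⟨?_, fun hm => ?_⟩⟩
  · rw [← eval_PP hγ hy, hP, eval_mul, eval_C, eval_MP]
  · rw [Multiset.map_cons, Multiset.sum_cons, Multiset.map_map]
    change _ = ind y ρ₀ + ∑ k ∈ s, ind y (ρ k)
    have hy0 : y ≠ ρ₀ := fun h => hm (h ▸ Multiset.mem_cons_self _ _)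
    have hyρ : ∀ k ∈ s, y ≠ ρ k := fun k hk h =>
      hm (Multiset.mem_cons_of_mem (Multiset.mem_map.2 ⟨k, hk, h.symm⟩))
    by_cases h : (s.filter fun l => μ l < y).Nonempty
    · obtain ⟨k, hk, hmax⟩ := Finset.exists_max_image _ μ h
      obtain ⟨hks, hky⟩ := Finset.mem_filter.1 hk
      have hle : ∀ l ∈ s, μ l < y → μ l ≤ μ k := fun l hl h' =>
        hmax l (Finset.mem_filter.2 ⟨hl, h'⟩)
      have e1 : ind y ρ₀ = 0 := if_neg (by linarith [hρ₀ k hks])
      have e2 : ind y (μ k) = 0 := if_neg hky.not_gt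
      have e3 : ind (wf s μ c γ θ y) 0 = ind y (ρ k) := by
        refine ind_wf hγ hc0 (hρ3 k hks) (hyρ k hks) fun l hl => ?_
        rcases lt_or_gt_of_ne (hy l hl) with h1 | h1
        · exact Or.inr ⟨h1, hρ2 k hks l hl (hky.trans h1)⟩
        · exact Or.inl ⟨h1, (hle l hl h1).trans_lt (hρ1 k hks)⟩
      rw [← Finset.add_sum_erase s _ hks, ← Finset.add_sum_erase s _ hks, e1, e2, e3, zero_add,
        zero_add]
      congr 1
      refine Finset.sum_congr rfl fun l hl => ?_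
      obtain ⟨hlk, hls⟩ := Finset.mem_erase.1 hl
      rcases lt_or_gt_of_ne (hy l hls) with h1 | h1
      · rw [ind, ind, if_pos h1, if_pos (h1.trans (hρ1 l hls))]
      · have h2 : μ l < μ k := lt_of_le_of_ne (hle l hls h1) fun h' => hlk (hinj l hls k hks h')
        rw [ind, ind, if_neg h1.not_gt, if_neg ((hρ2 l hls k hks h2).trans hky).not_gt]
    · have hlt : ∀ l ∈ s, y < μ l := fun l hl =>
        (lt_or_gt_of_ne (hy l hl)).resolve_right fun h' => h ⟨l, Finset.mem_filter.2 ⟨hl, h'⟩⟩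
      rw [ind_wf hγ hc0 hw₀ hy0 fun l hl => Or.inr ⟨hlt l hl, hρ₀ l hl⟩]
      congr 1
      refine Finset.sum_congr rfl fun l hl => ?_
      rw [ind, ind, if_pos (hlt l hl), if_pos ((hlt l hl).trans (hρ1 l hl))]

theorem key_zero {k : κ} (hk : k ∈ s) (h0 : c k = 0) {m : Multiset ℝ}
    (h : Key (s.erase k) μ c γ θ m) : Key s μ c γ θ (μ k ::ₘ m) := by
  refine ⟨?_, fun y hy => ?_⟩
  · rw [Multiset.card_cons, h.1, Finset.card_erase_add_one hk]
  · obtain ⟨h1, h2⟩ := h.2 y fun l hl => hy l (Finset.mem_of_mem_erase hl)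
    have hw : wf s μ c γ θ y = wf (s.erase k) μ c γ θ y := by
      rw [wf_erase hk, h0, zero_mul, sub_zero]
    refine ⟨?_, fun hm => ?_⟩
    · rw [hw, ← Finset.mul_prod_erase s _ hk, Multiset.map_cons, Multiset.prod_cons, mul_left_comm,
        h1, mul_left_comm]
    · rw [hw, ← Finset.add_sum_erase s _ hk, Multiset.map_cons, Multiset.sum_cons,
        ← h2 fun h' => hm (Multiset.mem_cons_of_mem h')]
      ring

theorem key (hγ : 0 < γ) (s : Finset κ) : ∀ c : κ → ℝ, (∀ k, 0 ≤ c k) → ∃ m, Key s μ c γ θ m := by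
  induction s using Finset.strongInduction with
  | H s ih =>
    intro c hc
    by_cases h1 : ∃ k ∈ s, c k = 0
    · obtain ⟨k, hk, h0⟩ := h1
      obtain ⟨m, hm⟩ := ih _ (Finset.erase_ssubset hk) c hc
      exact ⟨_, key_zero hk h0 hm⟩
    by_cases h2 : ∃ k ∈ s, ∃ l ∈ s, μ k = μ l ∧ k ≠ l
    · obtain ⟨k, hk, l, hl, hμ, hne⟩ := h2
      set c' : κ → ℝ := fun i => if i = k then 0 else if i = l then c k + c l else c i with hc'
      have hc'0 : ∀ i, 0 ≤ c' i := fun i => by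
        simp only [hc']
        split_ifs
        · exact le_rfl
        · exact add_nonneg (hc k) (hc l)
        · exact hc i
      obtain ⟨m, hm⟩ := ih _ (Finset.erase_ssubset hk) c' hc'0
      have hm' := key_zero hk (by simp [hc']) hm
      have hw : wf s μ c γ θ = wf s μ c' γ θ := by
        funext y
        have hl' : l ∈ s.erase k := Finset.mem_erase.2 ⟨hne.symm, hl⟩
        rw [wf_erase hk, wf_erase hl', wf_erase hk, wf_erase hl']
        have e1 : wf ((s.erase k).erase l) μ c γ θ y = wf ((s.erase k).erase l) μ c' γ θ y := by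
          unfold wf
          congr 1
          refine Finset.sum_congr rfl fun i hi => ?_
          obtain ⟨hil, hi⟩ := Finset.mem_erase.1 hi
          simp only [hc', if_neg hil, if_neg (Finset.mem_erase.1 hi).1]
        rw [e1, hμ]
        simp only [hc', if_neg hne.symm, if_true]
        ring
      refine ⟨μ k ::ₘ m, ?_⟩
      unfold Key at hm' ⊢
      rw [hw]
      exact hm'
    · refine key_generic hγ hc (fun k hk l hl h => ?_) fun k hk => ?_
      · by_contra hne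
        exact h2 ⟨k, hk, l, hl, h, hne⟩
      · exact lt_of_le_of_ne (hc k) fun h => h1 ⟨k, hk, h.symm⟩

theorem Key.poly (hγ : 0 < γ) {m : Multiset ℝ} (h : Key s μ c γ θ m) :
    C γ * MP ((-θ / γ) ::ₘ s.val.map μ) - PB s μ c = C γ * MP m := by
  classical
  refine eq_of_infinite_eval_eq _ _ (((s.image μ).finite_toSet.infinite_compl).mono fun y hy => ?_)
  have hy' : ∀ k ∈ s, y ≠ μ k := fun k hk h' =>
    hy (Finset.mem_coe.2 (Finset.mem_image.2 ⟨k, hk, h'.symm⟩))
  change _ = _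
  rw [eval_PP hγ hy', (h.2 y hy').1, eval_mul, eval_C, eval_MP]

theorem Key.sum_eq (hγ : 0 < γ) {m : Multiset ℝ} (h : Key s μ c γ θ m) :
    m.sum = -θ / γ + ∑ k ∈ s, μ k := by
  have h1 := congrArg (fun p : ℝ[X] => p.coeff s.card) (h.poly hγ)
  simp only [coeff_sub, coeff_C_mul, coeff_PB le_rfl, sub_zero] at h1
  have h2 := multiset_prod_X_sub_C_coeff_card_pred m (by rw [h.1]; omega)
  have h3 := multiset_prod_X_sub_C_coeff_card_pred ((-θ / γ) ::ₘ s.val.map μ) (by simp)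
  rw [h.1, Nat.add_sub_cancel] at h2
  rw [Multiset.card_cons, Multiset.card_map, Nat.add_sub_cancel, Multiset.sum_cons] at h3
  have h4 := mul_left_cancel₀ hγ.ne' h1
  rw [MP, MP, h2] at h4
  have h5 : -(-θ / γ + ∑ k ∈ s, μ k) = -m.sum := h3.symm.trans h4
  linarith

end Crest.Agent.R109.StructAux
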