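import Crest.Agent.R109.FDefs
import Crest.Agent.R109.StructAux

/-! Row 109, task A4: interlacing structure of `γ y + θ - ∑ c k / (y - μ k)`. -/

set_option autoImplicit false

noncomputable section

namespace Crest.Agent.R109

open Polynomial
open scoped ComplexConjugate

open MeasureTheory

namespace StructAux

theorem integral_multiset (G : ℝ → ℝ → ℝ) (hG : ∀ a, Integrable (G a)) (m : Multiset ℝ) :
    Integrable (fun y => (m.map fun a => G a y).sum) ∧
      ∫ y, (m.map fun a => G a y).sum = (m.map fun a => ∫ y, G a y).sum := by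
  induction m using Multiset.induction_on with
  | empty => simp
  | cons a m ih =>
    simp only [Multiset.map_cons, Multiset.sum_cons]
    exact ⟨(hG a).add ih.1, by rw [integral_add (hG a) ih.1, ih.2]⟩

theorem Key.integral {κ : Type*} [DecidableEq κ] {s : Finset κ} {μ c : κ → ℝ} {γ θ : ℝ}
    {m : Multiset ℝ} (h : Key s μ c γ θ m) (F : ℝ → ℝ)
    (hF : ∀ a, Integrable fun y => ind y a * F y) :
    Integrable (fun y => ind (wf s μ c γ θ y) 0 * F y) ∧
      ∫ y, ind (wf s μ c γ θ y) 0 * F y =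
        (m.map fun a => ∫ y, ind y a * F y).sum - ∑ k ∈ s, ∫ y, ind y (μ k) * F y := by
  classical
  obtain ⟨h1, h2⟩ := integral_multiset (fun a y => ind y a * F y) hF m
  have h3 : Integrable fun y => ∑ k ∈ s, ind y (μ k) * F y :=
    integrable_finsetSum _ fun k _ => hF (μ k)
  have h4 : (fun y => ind (wf s μ c γ θ y) 0 * F y) =ᵐ[volume]
      fun y => (m.map fun a => ind y a * F y).sum - ∑ k ∈ s, ind y (μ k) * F y := by
    have h5 : ∀ᵐ y : ℝ, y ∉ ((s.image μ ∪ m.toFinset : Finset ℝ) : Set ℝ) :=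
      measure_eq_zero_iff_ae_notMem.1 ((Finset.finite_toSet _).measure_zero volume)
    filter_upwards [h5] with y hy
    rw [Finset.mem_coe, Finset.mem_union, not_or, Multiset.mem_toFinset] at hy
    have h6 := (h.2 y fun k hk h' => hy.1 (Finset.mem_image.2 ⟨k, hk, h'.symm⟩)).2 hy.2
    rw [Multiset.sum_map_mul_right, ← Finset.sum_mul, ← h6]
    ring
  refine ⟨(h1.sub h3).congr h4.symm, ?_⟩
  rw [integral_congr_ae h4, integral_sub h1 h3, h2, integral_finsetSum _ fun k _ => hF (μ k)]

theorem ind_mul_exp (a : ℝ) : (fun y => ind y a * Real.exp y) = (Set.Iio a).indicator Real.exp := by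
  funext y
  by_cases h : y < a <;> simp [ind, h]

theorem integrable_ind_exp (a : ℝ) : Integrable fun y => ind y a * Real.exp y := by
  rw [ind_mul_exp, integrable_indicator_iff measurableSet_Iio]
  exact (integrableOn_exp_Iic a).mono_set Set.Iio_subset_Iic_self

theorem integral_ind_exp (a : ℝ) : ∫ y, ind y a * Real.exp y = Real.exp a := by
  rw [ind_mul_exp, integral_indicator measurableSet_Iio, ← integral_Iic_eq_integral_Iio,
    integral_exp_Iic]

theorem ind_mul_Ioi (v a : ℝ) : (fun y => ind y a * (Set.Ioi v).indicator (fun _ => (1 : ℝ)) y) =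
    (Set.Ioo v a).indicator fun _ => (1 : ℝ) := by
  funext y
  by_cases h : y < a <;> by_cases h' : v < y <;> simp [ind, h, h']

theorem integrable_ind_Ioi (v a : ℝ) :
    Integrable fun y => ind y a * (Set.Ioi v).indicator (fun _ => (1 : ℝ)) y := by
  rw [ind_mul_Ioi, integrable_indicator_iff measurableSet_Ioo]
  exact integrableOn_const (by simp)

theorem integral_ind_Ioi (v a : ℝ) :
    ∫ y, ind y a * (Set.Ioi v).indicator (fun _ => (1 : ℝ)) y = max (a - v) 0 := by
  rw [ind_mul_Ioi, integral_indicator measurableSet_Ioo]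
  simp

end StructAux

open StructAux

variable {κ : Type*} [Fintype κ] [DecidableEq κ]

theorem measurable_hsum (μ c : κ → ℝ) : Measurable (hsum μ c) := by
  unfold hsum
  fun_prop

theorem StructAux.ind_wf_exp (g : ℝ) (μ c : κ → ℝ) :
    (fun y => ind (wf Finset.univ μ c 1 (-g) y) 0 * Real.exp y) =
      {y | y - g < hsum μ c y}.indicator Real.exp := by
  funext y
  have h1 : wf Finset.univ μ c 1 (-g) y < 0 ↔ y - g < hsum μ c y := by
    unfold wf hsum
    constructor <;> intro h <;> linarith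
  by_cases h : y - g < hsum μ c y <;> simp [ind, h1, h]

theorem StructAux.measurableSet_lt_hsum (g : ℝ) (μ c : κ → ℝ) :
    MeasurableSet {y | y - g < hsum μ c y} :=
  measurableSet_lt (by fun_prop) (measurable_hsum μ c)

theorem integrableOn_Iexp (g : ℝ) (μ c : κ → ℝ) (hc : ∀ k, 0 ≤ c k) :
    IntegrableOn Real.exp {y | y - g < hsum μ c y} := by
  obtain ⟨m, hm⟩ := key (μ := μ) (θ := -g) one_pos Finset.univ c hc
  have h := (hm.integral Real.exp integrable_ind_exp).1
  rwa [ind_wf_exp, integrable_indicator_iff (measurableSet_lt_hsum g μ c)] at h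

/-- Sum of `exp` over the roots after a rank one "arrow" perturbation. -/
theorem rootsum_exp (g : ℝ) (μ c : κ → ℝ) (hc : ∀ k, 0 ≤ c k) (P : ℂ[X])
    (hP : P = (X - C (g : ℂ)) * ∏ k, (X - C (μ k : ℂ)) -
      ∑ k, C (c k : ℂ) * ∏ l ∈ Finset.univ.erase k, (X - C (μ l : ℂ))) :
    (P.roots.map Complex.exp).sum = ((∑ k, Real.exp (μ k) + Iexp g μ c : ℝ) : ℂ) := by
  obtain ⟨m, hm⟩ := key (μ := μ) (θ := -g) one_pos Finset.univ c hc
  have h := (hm.integral Real.exp integrable_ind_exp).2
  rw [ind_wf_exp, integral_indicator (measurableSet_lt_hsum g μ c)] at h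
  simp only [integral_ind_exp] at h
  have h1 := congrArg (Polynomial.map Complex.ofRealHom) (hm.poly one_pos)
  have h2 : P = ((m.map fun a : ℝ => (a : ℂ)).map fun a => X - C a).prod := by
    rw [hP]
    simpa [MP, PB, Polynomial.map_multiset_prod, Polynomial.map_sum, Polynomial.map_prod,
      Multiset.map_map] using h1
  rw [h2, roots_multiset_prod_X_sub_C, Iexp, h, Multiset.map_map, add_sub_cancel]
  rw [show (((m.map fun a => Real.exp a).sum : ℝ) : ℂ) =
    Complex.ofRealHom (m.map fun a => Real.exp a).sum from rfl, map_multiset_sum, Multiset.map_map]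
  simp

/-- Boole's identity with a slope. -/
theorem boole (μ c : κ → ℝ) (hc : ∀ k, 0 ≤ c k) (γ θ v : ℝ) (hγ : 0 < γ) (hv : 0 ≤ γ * v + θ)
    (hμ : ∀ k, v < μ k) :
    ∃ ℓ : ℝ, 0 ≤ ℓ ∧ volume {y | v < y ∧ γ * y + θ < hsum μ c y} = ENNReal.ofReal ℓ ∧
      γ * ℓ = ∑ k, c k / (μ k + θ / γ + ℓ) := by
  classical
  obtain ⟨m, hm⟩ := key (μ := μ) (θ := θ) hγ Finset.univ c hc
  set S : Set ℝ := {y | v < y ∧ γ * y + θ < hsum μ c y} with hS
  have hSm : MeasurableSet S :=
    measurableSet_Ioi.inter (measurableSet_lt (by fun_prop) (measurable_hsum μ c))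
  have hind : (fun y => ind (wf Finset.univ μ c γ θ y) 0 *
      (Set.Ioi v).indicator (fun _ => (1 : ℝ)) y) = S.indicator fun _ => (1 : ℝ) := by
    funext y
    have h1 : wf Finset.univ μ c γ θ y < 0 ↔ γ * y + θ < hsum μ c y := by
      unfold wf hsum
      constructor <;> intro h <;> linarith
    by_cases h : γ * y + θ < hsum μ c y <;> by_cases h' : v < y <;> simp [ind, h1, h, h', hS]
  obtain ⟨hI, hint⟩ := hm.integral _ (integrable_ind_Ioi v)
  rw [hind, integrable_indicator_iff hSm] at hI
  rw [hind, integral_indicator hSm] at hint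
  simp only [integral_ind_Ioi, integral_const, smul_eq_mul, mul_one,
    MeasurableSet.univ, measureReal_restrict_apply, Set.univ_inter] at hint
  have hfin : volume S ≠ ⊤ := by
    have := (integrableOn_const_iff (C := (1 : ℝ)) (by simp)).1 hI
    simpa using this.resolve_left (by simp) |>.ne
  -- exactly one root is `≤ v`
  have hev : ∀ᶠ y in nhdsWithin v (Set.Ioi v),
      (∀ k, y < μ k) ∧ (∀ a ∈ m.toFinset, v < a → y < a) ∧ v < y := by
    refine Filter.Eventually.and ?_ (Filter.Eventually.and ?_ self_mem_nhdsWithin)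
    · exact Filter.eventually_all.2 fun k =>
        mem_nhdsWithin_of_mem_nhds (Iio_mem_nhds (hμ k))
    · refine (Filter.eventually_all_finset _).2 fun a _ => ?_
      by_cases h : v < a
      · filter_upwards [mem_nhdsWithin_of_mem_nhds (Iio_mem_nhds h)] with y hy _
        exact hy
      · exact Filter.Eventually.of_forall fun y h' => (h h').elim
  obtain ⟨y, hy1, hy2, hy3⟩ := hev.exists
  have hym : y ∉ m := fun h => lt_irrefl y (hy2 y (Multiset.mem_toFinset.2 h) hy3)
  have hcount := (hm.2 y fun k _ => (hy1 k).ne).2 hym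
  have hwy : ¬ wf Finset.univ μ c γ θ y < 0 := by
    have h1 : ∑ k, c k / (y - μ k) ≤ 0 := Finset.sum_nonpos fun k _ =>
      div_nonpos_of_nonneg_of_nonpos (hc k) (by linarith [hy1 k])
    have h2 := mul_lt_mul_of_pos_left hy3 hγ
    unfold wf
    linarith
  have hsplit := Multiset.filter_add_not (fun a => v < a) m
  set m₁ := m.filter fun a => v < a with hm₁
  set m₀ := m.filter fun a => ¬ v < a with hm₀
  have c1 : (m₁.map (ind y)).sum = m₁.card := by
    rw [Multiset.map_congr rfl (g := fun _ => (1 : ℝ)) fun a ha => ?_]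
    · simp
    · obtain ⟨h1, h2⟩ := Multiset.mem_filter.1 ha
      exact if_pos (hy2 a (Multiset.mem_toFinset.2 h1) h2)
  have c0 : (m₀.map (ind y)).sum = 0 := by
    rw [Multiset.map_congr rfl (g := fun _ => (0 : ℝ)) fun a ha => ?_]
    · simp
    · obtain ⟨-, h2⟩ := Multiset.mem_filter.1 ha
      exact if_neg fun h => h2 (hy3.trans h)
  have c2 : ∑ k, ind y (μ k) = (Finset.univ : Finset κ).card := by
    simp [ind, hy1]
  rw [← hsplit, Multiset.map_add, Multiset.sum_add, c1, c0, c2, ind, if_neg hwy, zero_add,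
    add_zero] at hcount
  have hcard1 : m₁.card = (Finset.univ : Finset κ).card := by exact_mod_cast hcount.symm
  have hcard0 : m₀.card = 1 := by
    have := congrArg Multiset.card hsplit
    rw [Multiset.card_add, hm.1, hcard1] at this
    omega
  obtain ⟨ρ, hρ⟩ := Multiset.card_eq_one.1 hcard0
  have hρm : ρ ∈ m ∧ ¬ v < ρ := Multiset.mem_filter.1 (by
    change ρ ∈ m₀
    rw [hρ]
    exact Multiset.mem_singleton_self ρ)
  have hsum1 := hm.sum_eq hγ
  have s1 : (m₁.map fun a => max (a - v) 0).sum = m₁.sum - m₁.card * v := by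
    rw [Multiset.map_congr rfl (g := fun a => a - v) fun a ha => ?_]
    · rw [Multiset.sum_map_sub]; simp
    · exact max_eq_left (sub_nonneg.2 (Multiset.mem_filter.1 ha).2.le)
  have s2 : ∑ k, max (μ k - v) 0 = ∑ k, μ k - (Finset.univ : Finset κ).card * v := by
    rw [Finset.sum_congr rfl (g := fun k => μ k - v) fun k _ =>
      max_eq_left (sub_nonneg.2 (hμ k).le), Finset.sum_sub_distrib]
    simp
  rw [← hsplit, Multiset.map_add, Multiset.sum_add, s1, s2, hρ, Multiset.map_singleton,
    Multiset.sum_singleton, max_eq_right (by linarith [not_lt.1 hρm.2]), hcard1] at hint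
  rw [← hsplit, Multiset.sum_add, hρ, Multiset.sum_singleton] at hsum1
  have hℓ : volume.real S = -(θ / γ) - ρ := by
    rw [neg_div] at hsum1
    linarith
  have hρμ : ∀ k, ρ < μ k := fun k => (not_lt.1 hρm.2).trans_lt (hμ k)
  have hw0 : wf Finset.univ μ c γ θ ρ = 0 := by
    have h1 := (hm.2 ρ fun k _ => (hρμ k).ne).1
    rw [Multiset.prod_eq_zero (Multiset.mem_map.2 ⟨ρ, hρm.1, sub_self ρ⟩), mul_zero] at h1
    exact (mul_eq_zero.1 h1).resolve_right
      (Finset.prod_ne_zero_iff.2 fun k _ => (sub_neg.2 (hρμ k)).ne)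
  refine ⟨volume.real S, measureReal_nonneg, (ofReal_measureReal hfin).symm, ?_⟩
  rw [hℓ]
  have h2 : ∑ k, c k / (μ k + θ / γ + (-(θ / γ) - ρ)) = -∑ k, c k / (ρ - μ k) := by
    rw [← Finset.sum_neg_distrib]
    refine Finset.sum_congr rfl fun k _ => ?_
    rw [show μ k + θ / γ + (-(θ / γ) - ρ) = -(ρ - μ k) by ring, div_neg]
  have h3 : γ * (-(θ / γ) - ρ) = -(γ * ρ + θ) := by
    field_simp
    ring
  rw [h2, h3]
  unfold wf at hw0
  linarith

end Crest.Agent.R109
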