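import Crest.Agent.R109.NetBasic
import Crest.Agent.R109.Mobius

/-! Row 109, task B2: the mass transport principle for local allocations. -/

set_option autoImplicit false
set_option linter.unusedSectionVars false

noncomputable section

namespace Crest.Agent.R109

open MeasureTheory
open scoped ComplexConjugate

namespace Net

variable {Ω : Type*} [TopologicalSpace Ω] [CompactSpace Ω] [MeasurableSpace Ω] [BorelSpace Ω]
  {G : Type*} [DecidableEq G] [Fintype G] (N : Net Ω G)

open scoped Classical in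
theorem tr_norm_Γ (u v : List G) (χ : Ω) : ‖N.Γ u v χ‖ = if N.rel u v χ then 1 else 0 := by
  split_ifs with h
  · exact N.norm_Γ h
  · have : N.Γ u v χ = 0 := by simpa [rel] using h
    simp [this]

open scoped Classical in
theorem tr_re_Γ (u : List G) (χ : Ω) : (N.Γ u u χ).re = if N.dom u χ then 1 else 0 := by
  split_ifs with h
  · simp [N.Γ_self h]
  · have : N.Γ u u χ = 0 := by simpa [dom] using h
    simp [this]

/-- The number of words of length `≤ n` representing the vertex `w`. -/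
def trMult (n : ℕ) (χ : Ω) (w : List G) : ℝ := max 1 (∑ u ∈ words G n, ‖N.Γ u w χ‖)

omit [CompactSpace Ω] [BorelSpace Ω] in
theorem trMult_pos (n : ℕ) (χ : Ω) (w : List G) : 0 < N.trMult n χ w :=
  lt_of_lt_of_le one_pos (le_max_left _ _)

omit [CompactSpace Ω] [BorelSpace Ω] in
theorem continuous_trMult (n : ℕ) (w : List G) : Continuous fun χ => N.trMult n χ w :=
  continuous_const.max (continuous_finsetSum _ fun u _ => (N.Γ_cont u w).norm)

theorem trMult_rel (n : ℕ) {χ : Ω} {w w' : List G} (h : N.rel w w' χ) :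
    N.trMult n χ w = N.trMult n χ w' := by
  classical
  unfold trMult
  congr 1
  refine Finset.sum_congr rfl fun u _ => ?_
  rw [tr_norm_Γ, tr_norm_Γ]
  exact if_congr ⟨fun h' => N.rel_trans h' h, fun h' => N.rel_trans h' (N.rel_symm h)⟩ rfl rfl

theorem tr_sum_words_winv (n : ℕ) (f : List G → ℝ) :
    ∑ w ∈ words G n, f (winv N.inv w) = ∑ w ∈ words G n, f w := by
  refine Finset.sum_bij' (fun w _ => winv N.inv w) (fun w _ => winv N.inv w) ?_ ?_ ?_ ?_ ?_
  · intro w hw
    rw [mem_words] at hw ⊢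
    rwa [length_winv]
  · intro w hw
    rw [mem_words] at hw ⊢
    rwa [length_winv]
  · intro w _
    exact winv_winv N.inv_inv w
  · intro w _
    exact winv_winv N.inv_inv w
  · intro w _
    rfl

theorem trMult_winv (n : ℕ) {χ : Ω} {w : List G} (h : N.dom w χ) :
    N.trMult n (N.τ w χ) (winv N.inv w) = N.trMult n χ w := by
  classical
  unfold trMult
  congr 1
  rw [← N.tr_sum_words_winv n fun u => ‖N.Γ u (winv N.inv w) (N.τ w χ)‖]
  refine Finset.sum_congr rfl fun u _ => ?_
  rw [tr_norm_Γ, tr_norm_Γ]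
  refine if_congr ⟨fun h' => ?_, fun h' => N.rel_symm (N.rel_winv (N.rel_symm h'))⟩ rfl rfl
  have := N.rel_winv (N.rel_symm h')
  rw [winv_winv N.inv_inv, winv_winv N.inv_inv, N.τ_winv h] at this
  exact N.rel_symm this

theorem tr_sum_B (n : ℕ) (χ : Ω) (m : List G → ℝ) (hrel : ∀ w w', N.rel w w' χ → m w = m w') :
    ∑ w ∈ N.B n χ, m w = ∑ w ∈ words G n, (N.Γ w w χ).re * (m w / N.trMult n χ w) := by
  classical
  have e1 : ∑ w ∈ words G n, (N.Γ w w χ).re * (m w / N.trMult n χ w) =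
      ∑ w ∈ (words G n).filter (fun w => N.dom w χ), m w / N.trMult n χ w := by
    rw [Finset.sum_filter]
    refine Finset.sum_congr rfl fun w _ => ?_
    rw [tr_re_Γ]
    split_ifs <;> simp
  rw [e1, ← Finset.sum_fiberwise_of_maps_to (t := N.B n χ) (g := N.rep χ) fun w hw =>
    N.rep_mem_B (Finset.mem_filter.1 hw).2 (mem_words.1 (Finset.mem_filter.1 hw).1)]
  refine Finset.sum_congr rfl fun v hv => ?_
  have hv' := N.mem_B.1 hv
  have e2 : ((words G n).filter (fun w => N.dom w χ)).filter (fun w => N.rep χ w = v) =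
      (words G n).filter (fun w => N.rel w v χ) := by
    ext w
    simp only [Finset.mem_filter, and_assoc]
    refine and_congr_right fun _ => ⟨fun h => h.2 ▸ N.rel_rep h.1, fun h =>
      ⟨N.rel_dom_left h, N.rep_eq_of_rel hv h⟩⟩
  have e3 : ∑ u ∈ words G n, ‖N.Γ u v χ‖ = ((words G n).filter (fun w => N.rel w v χ)).card := by
    rw [Finset.card_filter]
    push_cast
    exact Finset.sum_congr rfl fun u _ => by rw [tr_norm_Γ]
  have e4 : (1 : ℝ) ≤ ((words G n).filter (fun w => N.rel w v χ)).card := by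
    have : 0 < ((words G n).filter (fun w => N.rel w v χ)).card :=
      Finset.card_pos.2 ⟨v, Finset.mem_filter.2 ⟨mem_words.2 hv'.1, N.rel_refl hv'.2.1⟩⟩
    exact_mod_cast this
  rw [e2, Finset.sum_congr rfl (g := fun _ => m v / N.trMult n χ v) fun w hw => by
    rw [hrel w v (Finset.mem_filter.1 hw).2, N.trMult_rel n (Finset.mem_filter.1 hw).2],
    Finset.sum_const, nsmul_eq_mul]
  unfold trMult
  rw [e3, max_eq_right e4, mul_div_cancel₀ _ (by linarith)]

/-- Mass transport between vertices. -/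
theorem mtp_vertex (n : ℕ) (m : Ω → List G → ℝ) (hc : ∀ w, Continuous fun χ => m χ w)
    (hrel : ∀ χ w w', N.rel w w' χ → m χ w = m χ w') :
    ∫ χ, ∑ w ∈ N.B n χ, m χ w ∂N.μ =
      ∫ χ, ∑ w ∈ N.B n χ, Real.exp (N.h w χ) * m (N.τ w χ) (winv N.inv w) ∂N.μ := by
  have := N.fin
  have hre : ∀ w, Continuous fun χ => (N.Γ w w χ).re := fun w =>
    Complex.continuous_re.comp (N.Γ_cont w w)
  have hq : ∀ w, Continuous fun χ => m χ w / N.trMult n χ w := fun w =>
    (hc w).div (N.continuous_trMult n w) fun χ => (N.trMult_pos n χ w).ne'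
  have hc' : ∀ w, Continuous fun χ => Real.exp (N.h w χ) * m (N.τ w χ) (winv N.inv w) := fun w =>
    (Real.continuous_exp.comp (N.h_cont w)).mul ((hc _).comp (N.τ_cont w))
  have e1 : ∀ χ, ∑ w ∈ N.B n χ, m χ w =
      ∑ w ∈ words G n, (N.Γ w w χ).re * (m χ w / N.trMult n χ w) := fun χ =>
    N.tr_sum_B n χ _ (hrel χ)
  have e2 : ∀ χ, ∑ w ∈ N.B n χ, Real.exp (N.h w χ) * m (N.τ w χ) (winv N.inv w) =
      ∑ w ∈ words G n, (N.Γ w w χ).re *
        (Real.exp (N.h w χ) * m (N.τ w χ) (winv N.inv w) / N.trMult n χ w) := fun χ =>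
    N.tr_sum_B n χ (fun w => Real.exp (N.h w χ) * m (N.τ w χ) (winv N.inv w)) fun w w' h => by
      rw [hrel _ _ _ (N.rel_winv h), N.h_rel w w' χ h, N.τ_rel w w' χ h]
  simp only [e1, e2]
  have i1 : ∀ w, Integrable (fun χ => (N.Γ w w χ).re * (m χ w / N.trMult n χ w)) N.μ := fun w =>
    integrable_of_continuous _ ((hre w).mul (hq w))
  have i2 : ∀ w, Integrable (fun χ => (N.Γ w w χ).re *
      (Real.exp (N.h w χ) * m (N.τ w χ) (winv N.inv w) / N.trMult n χ w)) N.μ := fun w =>
    integrable_of_continuous _ ((hre w).mul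
      ((hc' w).div (N.continuous_trMult n w) fun χ => (N.trMult_pos n χ w).ne'))
  rw [integral_finsetSum _ fun w _ => i1 w, integral_finsetSum _ fun w _ => i2 w,
    ← N.tr_sum_words_winv n fun w => ∫ χ, (N.Γ w w χ).re * (m χ w / N.trMult n χ w) ∂N.μ]
  refine Finset.sum_congr rfl fun w _ => ?_
  rw [← N.mtp w _ (hq (winv N.inv w))]
  refine integral_congr_ae (ae_of_all _ fun χ => ?_)
  by_cases hw : N.dom w χ
  · simp only [N.trMult_winv n hw]
    ring
  · simp [tr_re_Γ, hw]

/-- The Möbius transform of an allocation. -/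
def trPsi (e : Finset (List G) → List G → ℝ) (S : Finset (List G)) (o : List G) : ℝ :=
  mob (fun S' => if o ∈ S' then e S' o else 0) S

omit [Fintype G] in
theorem trPsi_notMem (e : Finset (List G) → List G → ℝ) {S : Finset (List G)} {o : List G}
    (ho : o ∉ S) : trPsi e S o = 0 := by
  unfold trPsi
  rw [mob_congr (F' := fun _ => 0) fun S' hS' => if_neg fun h => ho (hS' h)]
  simp [mob]

theorem trPsi_far {L : ℕ} {e : Ω → Finset (List G) → List G → ℝ} (hloc : N.Loc L e) {χ : Ω}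
    {S : Finset (List G)} (hS : N.Valid χ S) {o v : List G} (hv : v ∈ S)
    (hn : ¬ N.near χ o L v) : trPsi (e χ) S o = 0 := by
  by_cases ho : o ∈ S
  swap
  · exact trPsi_notMem _ ho
  have hov : o ≠ v := fun h => hn (h ▸ N.near_mono (N.near_refl (hS.1 o ho)) (Nat.zero_le L))
  refine mob_eq_zero_of_insert hv fun S' hS' => ?_
  have hvS' : v ∉ S' := fun h => Finset.notMem_erase v S (hS' h)
  by_cases ho' : o ∈ S'
  · rw [if_pos (Finset.mem_insert_of_mem ho'), if_pos ho']
    refine hloc χ S' o v (hS.mono ?_) hvS' ho' hn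
    exact Finset.insert_subset hv (hS'.trans (Finset.erase_subset _ _))
  · rw [if_neg ho', if_neg]
    simp [hov, ho']

theorem trPsi_sum {e : Ω → Finset (List G) → List G → ℝ}
    (hsum : ∀ χ T, N.Valid χ T → ∑ o ∈ T, e χ T o = 0) {χ : Ω} {S : Finset (List G)}
    (hS : N.Valid χ S) : ∑ o ∈ S, trPsi (e χ) S o = 0 := by
  unfold trPsi
  rw [← mob_sum, mob_congr (F' := fun _ => 0) fun S' hS' => ?_]
  · simp [mob]
  · rw [← Finset.sum_filter, Finset.filter_mem_eq_inter, Finset.inter_eq_right.2 hS']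
    exact hsum χ S' (hS.mono hS')

theorem trPsi_cov {e : Ω → Finset (List G) → List G → ℝ} (hcov : N.Cov e) {χ : Ω} {w : List G}
    {T : Finset (List G)} {π : List G → List G} (hw : N.dom w χ) (hT : N.Valid (N.τ w χ) T)
    (hπ : Set.InjOn π T) (hr : ∀ u ∈ T, N.rel (u ++ w) (π u) χ) {o : List G} (ho : o ∈ T)
    {S : Finset (List G)} (hS : S ⊆ T) :
    trPsi (e χ) (S.image π) (π o) = Real.exp (N.h w χ) * trPsi (e (N.τ w χ)) S o := by
  unfold trPsi
  rw [mob_image (hπ.mono (Finset.coe_subset.2 hS)), ← mob_const_mul]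
  refine mob_congr fun S' hS' => ?_
  have hS'' : S' ⊆ T := hS'.trans hS
  by_cases ho' : o ∈ S'
  · rw [if_pos (Finset.mem_image_of_mem π ho'), if_pos ho']
    exact hcov χ w S' π hw (hT.mono hS'') (hπ.mono (Finset.coe_subset.2 hS''))
      (fun u hu => hr u (hS'' hu)) o ho'
  · rw [if_neg ho', if_neg, mul_zero]
    intro h
    obtain ⟨u, hu, huo⟩ := Finset.mem_image.1 h
    exact ho' (hπ (hS'' hu) ho huo ▸ hu)

/-- The mass sent from the root to the vertex `w`. -/
def trMass (L : ℕ) (e : Ω → Finset (List G) → List G → ℝ) (χ : Ω) (w : List G) : ℝ :=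
  ∑ S ∈ (N.B L χ).powerset, (∑ u ∈ S, ‖N.Γ w u χ‖) * (trPsi (e χ) S [] / S.card)

theorem trMass_out (L : ℕ) (e : Ω → Finset (List G) → List G → ℝ) (χ : Ω) :
    ∑ w ∈ N.B L χ, N.trMass L e χ w = e χ (N.B L χ) [] := by
  classical
  unfold trMass
  rw [Finset.sum_comm]
  have h1 := sum_mob (fun S' => if [] ∈ S' then e χ S' [] else 0) (N.B L χ)
  rw [if_pos (N.nil_mem_B L χ)] at h1
  rw [← h1]
  refine Finset.sum_congr rfl fun S hS => ?_
  have hS' : S ⊆ N.B L χ := Finset.mem_powerset.1 hS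
  rw [← Finset.sum_mul, Finset.sum_comm]
  have h2 : ∀ u ∈ S, ∑ w ∈ N.B L χ, ‖N.Γ w u χ‖ = 1 := fun u hu => by
    rw [Finset.sum_eq_single_of_mem u (hS' hu)]
    · exact N.norm_Γ (N.rel_refl ((N.valid_B L χ).1 u (hS' hu)))
    · intro w hw hne
      rw [tr_norm_Γ, if_neg fun h => hne ((N.valid_B L χ).2 w hw u (hS' hu) h)]
  rw [Finset.sum_congr rfl h2, Finset.sum_const, nsmul_eq_mul, mul_one]
  by_cases h0 : [] ∈ S
  · have : (S.card : ℝ) ≠ 0 := by exact_mod_cast (Finset.card_pos.2 ⟨_, h0⟩).ne'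
    rw [mul_div_cancel₀ _ this]
    rfl
  · have := trPsi_notMem (e χ) h0
    rw [this, zero_div, mul_zero]
    exact this.symm

theorem trMass_in {L : ℕ} {e : Ω → Finset (List G) → List G → ℝ} (hcov : N.Cov e)
    (hloc : N.Loc L e) {χ : Ω} {w : List G} (hw : w ∈ N.B L χ) :
    Real.exp (N.h w χ) * N.trMass L e (N.τ w χ) (winv N.inv w) =
      ∑ S ∈ (N.B (L + L) χ).powerset,
        (if [] ∈ S then 1 else 0) * (trPsi (e χ) S w / S.card) := by
  classical
  have hw' := N.mem_B.1 hw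
  have hd : N.dom w χ := hw'.2.1
  have hT := N.valid_B L (N.τ w χ)
  set π : List G → List G := fun u => N.rep χ (u ++ w) with hπdef
  have hπ : Set.InjOn π (N.B L (N.τ w χ)) := N.reroot_injOn hd hT
  have hr : ∀ u ∈ N.B L (N.τ w χ), N.rel (u ++ w) (π u) χ := N.reroot_rel hd hT
  have hπ0 : π [] = w := N.rep_eq_of_rel hw (N.rel_refl hd)
  have hsub : (N.B L (N.τ w χ)).image π ⊆ N.B (L + L) χ :=
    (N.image_reroot_B_subset hd).trans (N.B_mono (by omega) χ)
  have hV := N.valid_B (L + L) χ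
  rw [← Finset.sum_subset (Finset.powerset_mono.2 hsub), sum_powerset_image hπ]
  · unfold trMass
    rw [Finset.mul_sum]
    refine Finset.sum_congr rfl fun S hS => ?_
    have hS' : S ⊆ N.B L (N.τ w χ) := Finset.mem_powerset.1 hS
    have hπS : Set.InjOn π S := hπ.mono (Finset.coe_subset.2 hS')
    have a1 := N.trPsi_cov hcov hd hT hπ hr (N.nil_mem_B L _) hS'
    rw [hπ0] at a1
    have a2 : ∑ u ∈ S, ‖N.Γ (winv N.inv w) u (N.τ w χ)‖ = if [] ∈ S.image π then 1 else 0 := by
      rw [← Finset.sum_ite_eq (S.image π) [] fun _ => (1 : ℝ), Finset.sum_image hπS]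
      refine Finset.sum_congr rfl fun u hu => ?_
      rw [tr_norm_Γ]
      refine if_congr ?_ rfl rfl
      rw [← N.rel_append_iff hd]
      constructor
      · intro h
        exact hV.2 _ (N.nil_mem_B _ χ) _ (hsub (Finset.mem_image_of_mem π (hS' hu)))
          (N.rel_trans (N.rel_trans (N.rel_symm (N.rel_winv_append hd)) h) (hr u (hS' hu)))
      · intro h
        exact N.rel_trans (N.rel_winv_append hd) (h ▸ N.rel_symm (hr u (hS' hu)))
    rw [a1, a2, Finset.card_image_of_injOn hπS]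
    ring
  · intro S hS hS'
    have hS1 : S ⊆ N.B (L + L) χ := Finset.mem_powerset.1 hS
    obtain ⟨v, hv, hv'⟩ := Finset.not_subset.1 (fun h => hS' (Finset.mem_powerset.2 h))
    rw [N.trPsi_far hloc (hV.mono hS1) hv fun h => hv' ((N.mem_image_reroot_B hd (hS1 hv)).2 h)]
    simp

/-- A covariant local allocation of total mass zero has density zero. -/
theorem transport (L : ℕ) (e : Ω → Finset (List G) → List G → ℝ) (hcov : N.Cov e)
    (hloc : N.Loc L e) (hc : ∀ T o, Continuous fun χ => e χ T o)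
    (hsum : ∀ χ T, N.Valid χ T → ∑ o ∈ T, e χ T o = 0) :
    ∫ χ, e χ (N.B L χ) [] ∂N.μ = 0 := by
  classical
  have hcm : ∀ w, Continuous fun χ => N.trMass L e χ w := fun w => by
    refine continuous_of_isLocallyConstant (N.isLocallyConstant_B L)
      (F := fun T χ => ∑ S ∈ T.powerset, (∑ u ∈ S, ‖N.Γ w u χ‖) * (trPsi (e χ) S [] / S.card))
      fun T => continuous_finsetSum _ fun S _ =>
        (continuous_finsetSum _ fun u _ => (N.Γ_cont w u).norm).mul (Continuous.div_const ?_ _)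
    refine continuous_mob (F := fun χ S' => if [] ∈ S' then e χ S' [] else 0) (fun S' => ?_) S
    split_ifs
    · exact hc S' []
    · exact continuous_const
  have hrel : ∀ χ w w', N.rel w w' χ → N.trMass L e χ w = N.trMass L e χ w' := fun χ w w' h => by
    unfold trMass
    refine Finset.sum_congr rfl fun S _ => ?_
    congr 1
    refine Finset.sum_congr rfl fun u _ => ?_
    rw [tr_norm_Γ, tr_norm_Γ]
    exact if_congr ⟨fun h' => N.rel_trans (N.rel_symm h) h', fun h' => N.rel_trans h h'⟩ rfl rfl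
  have key := N.mtp_vertex L (N.trMass L e) hcm hrel
  simp only [N.trMass_out] at key
  rw [key]
  refine integral_eq_zero_of_ae (ae_of_all _ fun χ => ?_)
  show ∑ w ∈ N.B L χ, Real.exp (N.h w χ) * N.trMass L e (N.τ w χ) (winv N.inv w) = (0 : ℝ)
  rw [Finset.sum_congr rfl fun w hw => N.trMass_in hcov hloc hw, Finset.sum_comm]
  refine Finset.sum_eq_zero fun S hS => ?_
  have hS1 : S ⊆ N.B (L + L) χ := Finset.mem_powerset.1 hS
  have hV := (N.valid_B (L + L) χ).mono hS1
  by_cases h0 : [] ∈ S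
  swap
  · simp [h0]
  simp only [if_pos h0, one_mul]
  rw [← Finset.sum_div]
  have a1 : ∑ w ∈ N.B L χ ∩ S, trPsi (e χ) S w = ∑ w ∈ N.B L χ, trPsi (e χ) S w :=
    Finset.sum_subset Finset.inter_subset_left fun w hw hw' =>
      trPsi_notMem _ fun h => hw' (Finset.mem_inter.2 ⟨hw, h⟩)
  have a2 : ∑ w ∈ N.B L χ ∩ S, trPsi (e χ) S w = ∑ w ∈ S, trPsi (e χ) S w :=
    Finset.sum_subset Finset.inter_subset_right fun w hw hw' =>
      N.trPsi_far hloc hV h0 fun h =>
        hw' (Finset.mem_inter.2 ⟨N.mem_B_of_near_nil (hS1 hw) (N.near_symm h), hw⟩)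
  rw [← a1, a2, N.trPsi_sum hsum hV, zero_div]

end Net

end Crest.Agent.R109
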