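import Crest.Agent.R109.WFun

/-! Row 109, task C1a: weak limits, spectral projections, partitions. -/

set_option autoImplicit false
set_option linter.unusedSectionVars false

noncomputable section

namespace Crest.Agent.R109

open Filter Topology
open scoped ComplexOrder ComplexConjugate Classical

universe u

variable {𝓜 : Type u} [CStarAlgebra 𝓜] [PartialOrder 𝓜] [StarOrderedRing 𝓜]

namespace WS

variable (W : WS 𝓜)

theorem exists_wlim {α : Type*} (U : Ultrafilter α) (y : α → 𝓜) {R : ℝ}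
    (h : ∀ᶠ i in (U : Filter α), ‖y i‖ ≤ R) : ∃ Y, W.WLim (U : Filter α) y Y := by
  obtain ⟨Y, hY⟩ := W.compact (U.map y) R h
  exact ⟨Y, fun φ hφ => hY φ hφ⟩

omit W in
/-- Polarisation. -/
theorem polarF (φ : 𝓜 →ₚ[ℂ] ℂ) (z y z' : 𝓜) :
    φ (z * y * z') = (conjF φ (star z + z') y - conjF φ (star z - z') y -
      Complex.I * conjF φ (star z + Complex.I • z') y +
      Complex.I * conjF φ (star z - Complex.I • z') y) / 4 := by
  simp only [conjF_apply, star_add, star_sub, star_star, star_smul, add_mul, mul_add, sub_mul,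
    mul_sub, smul_mul_assoc, mul_smul_comm, map_add, map_sub, map_smul, smul_eq_mul,
    Complex.star_def, Complex.conj_I]
  linear_combination ((φ (z * y * z') - φ (star z' * y * star z)) / 2) * Complex.I_sq

theorem ext_𝓕 {a b : 𝓜} (h : ∀ φ ∈ W.𝓕, φ a = φ b) : a = b := by
  have h1 : ∀ φ ∈ W.𝓕, φ (a - b) = 0 := fun φ hφ => by rw [map_sub, h φ hφ, sub_self]
  have h2 := W.sep _ (star_mul_self_nonneg (a - b)) fun φ hφ => by
    have := polarF φ (star (a - b)) (a - b) 1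
    rw [mul_one, h1 _ (W.conj_mem φ hφ _), h1 _ (W.conj_mem φ hφ _), h1 _ (W.conj_mem φ hφ _),
      h1 _ (W.conj_mem φ hφ _)] at this
    simpa using this
  exact sub_eq_zero.1 ((CStarRing.star_mul_self_eq_zero_iff _).1 h2)

theorem nonneg_of_𝓕 {y : 𝓜} (h : ∀ φ ∈ W.𝓕, 0 ≤ φ y) : 0 ≤ y := by
  have hy : IsSelfAdjoint y := W.ext_𝓕 fun φ hφ => by
    rw [pos_star, Complex.conj_eq_iff_im]
    exact ((Complex.nonneg_iff.1 (h φ hφ)).2).symm
  have hn : 0 ≤ y⁻ := CFC.negPart_nonneg y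
  have hs : star y⁻ = y⁻ := hn.star_eq
  have h3 : 0 ≤ star y⁻ * y⁻ * y⁻ := star_left_conjugate_nonneg hn _
  have h4 : star y⁻ * y * y⁻ = -(star y⁻ * y⁻ * y⁻) := by
    conv_lhs => rw [hs]; arg 1; arg 2; rw [← CFC.posPart_sub_negPart y hy]
    rw [mul_sub, CFC.negPart_mul_posPart, hs, zero_sub, neg_mul]
  have h5 := W.sep _ h3 fun φ hφ => by
    have h6 := h _ (W.conj_mem φ hφ y⁻)
    rw [conjF_apply, h4, map_neg, neg_nonneg] at h6
    exact le_antisymm h6 (φ.map_nonneg h3)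
  have h6 : star (star y⁻ * y⁻) * (star y⁻ * y⁻) = 0 := by
    rw [star_mul, star_star, ← mul_assoc, hs, mul_assoc y⁻ y⁻ y⁻]
    rw [hs, mul_assoc] at h5
    rw [h5, zero_mul]
  rw [CStarRing.star_mul_self_eq_zero_iff, CStarRing.star_mul_self_eq_zero_iff] at h6
  exact (CFC.negPart_eq_zero_iff y hy).1 h6

theorem sum_mem_𝓕 {α : Type*} (S : Finset α) (φ : α → 𝓜 →ₚ[ℂ] ℂ) (h : ∀ i ∈ S, φ i ∈ W.𝓕) :
    ∑ i ∈ S, φ i ∈ W.𝓕 :=
  Finset.sum_induction φ (· ∈ W.𝓕) (fun a b ha hb => W.add_mem a ha b hb) W.zero_mem h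

section WLim

variable {W} {α : Type*} {l : Filter α} {y y' : α → 𝓜} {Y Y' : 𝓜}

theorem WLim.mul (h : W.WLim l y Y) (z z' : 𝓜) :
    W.WLim l (fun i => z * y i * z') (z * Y * z') := by
  intro φ hφ
  simp only [polarF φ z _ z']
  exact ((((h _ (W.conj_mem φ hφ _)).sub (h _ (W.conj_mem φ hφ _))).sub
    ((h _ (W.conj_mem φ hφ _)).const_mul _)).add
    ((h _ (W.conj_mem φ hφ _)).const_mul _)).div_const _

theorem WLim.mul_left (h : W.WLim l y Y) (z : 𝓜) : W.WLim l (fun i => z * y i) (z * Y) := by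
  simpa only [mul_one] using h.mul z 1

theorem WLim.mul_right (h : W.WLim l y Y) (z : 𝓜) : W.WLim l (fun i => y i * z) (Y * z) := by
  simpa only [one_mul] using h.mul 1 z

theorem WLim.const (Y : 𝓜) : W.WLim l (fun _ => Y) Y :=
  fun _ _ => tendsto_const_nhds

theorem WLim.add (h : W.WLim l y Y) (h' : W.WLim l y' Y') :
    W.WLim l (fun i => y i + y' i) (Y + Y') := fun φ hφ => by
  simpa only [map_add] using (h φ hφ).add (h' φ hφ)

theorem WLim.sub (h : W.WLim l y Y) (h' : W.WLim l y' Y') :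
    W.WLim l (fun i => y i - y' i) (Y - Y') := fun φ hφ => by
  simpa only [map_sub] using (h φ hφ).sub (h' φ hφ)

theorem WLim.smul (h : W.WLim l y Y) (c : ℂ) : W.WLim l (fun i => c • y i) (c • Y) :=
  fun φ hφ => by simpa only [map_smul] using (h φ hφ).const_smul c

theorem WLim.star (h : W.WLim l y Y) : W.WLim l (fun i => Star.star (y i)) (Star.star Y) :=
  fun φ hφ => by
    simp only [pos_star]
    exact (Complex.continuous_conj.tendsto _).comp (h φ hφ)

theorem WLim.congr' (h : W.WLim l y Y) (h' : ∀ᶠ i in l, y i = y' i) : W.WLim l y' Y :=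
  fun φ hφ => (h φ hφ).congr' (h'.mono fun _ hi => congrArg φ hi)

theorem WLim.mono (h : W.WLim l y Y) {l' : Filter α} (hl : l' ≤ l) : W.WLim l' y Y :=
  fun φ hφ => (h φ hφ).mono_left hl

theorem WLim.of_tendsto (h : Tendsto y l (𝓝 Y)) : W.WLim l y Y :=
  fun φ _ => ((pos_continuous φ).tendsto Y).comp h

theorem WLim.unique [l.NeBot] (h : W.WLim l y Y) (h' : W.WLim l y Y') : Y = Y' :=
  W.ext_𝓕 fun φ hφ => tendsto_nhds_unique (h φ hφ) (h' φ hφ)

theorem WLim.nonneg [l.NeBot] (h : W.WLim l y Y) (h0 : ∀ᶠ i in l, 0 ≤ y i) : 0 ≤ Y :=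
  W.nonneg_of_𝓕 fun φ hφ => ge_of_tendsto (h φ hφ) (h0.mono fun _ hi => φ.map_nonneg hi)

theorem WLim.le [l.NeBot] (h : W.WLim l y Y) (h' : W.WLim l y' Y') (h0 : ∀ᶠ i in l, y i ≤ y' i) :
    Y ≤ Y' :=
  sub_nonneg.1 ((h'.sub h).nonneg (h0.mono fun _ hi => sub_nonneg.2 hi))

theorem WLim.le_const [l.NeBot] (h : W.WLim l y Y) {z : 𝓜} (h0 : ∀ᶠ i in l, y i ≤ z) :
    Y ≤ z :=
  h.le (WLim.const z) h0

theorem WLim.const_le [l.NeBot] (h : W.WLim l y Y) {z : 𝓜} (h0 : ∀ᶠ i in l, z ≤ y i) :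
    z ≤ Y :=
  (WLim.const z).le h h0

theorem WLim.n2_le' [l.NeBot] (h : W.WLim l y Y) {φ : 𝓜 →ₚ[ℂ] ℂ} (hφ : φ ∈ W.𝓕) {z : 𝓜} {c : ℝ}
    (h0 : ∀ᶠ i in l, n2 φ (y i - z) ≤ c) : n2 φ (Y - z) ≤ c := by
  obtain ⟨i₀, hi₀⟩ := h0.exists
  have hc : 0 ≤ c := (n2_nonneg _ _).trans hi₀
  have h1 := ((h.sub (WLim.const z)).mul_left (Star.star (Y - z)) φ hφ).norm
  have h2 := le_of_tendsto h1 (h0.mono fun i hi => (cauchy_schwarz φ _ _).trans
    (mul_le_mul_of_nonneg_left hi (n2_nonneg φ (Y - z))))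
  have h3 := (n2_sq φ (Y - z)).le.trans ((Complex.re_le_norm _).trans h2)
  by_contra hlt
  push Not at hlt
  nlinarith

theorem WLim.norm_le [l.NeBot] (h : W.WLim l y Y) {R : ℝ} (h0 : ∀ᶠ i in l, ‖y i‖ ≤ R) :
    ‖Y‖ ≤ R := by
  obtain ⟨i₀, hi₀⟩ := h0.exists
  have hR : 0 ≤ R := (norm_nonneg _).trans hi₀
  have h1 : Star.star Y * Y ≤ R ^ 2 • (1 : 𝓜) := by
    rw [← sub_nonneg]
    refine W.nonneg_of_𝓕 fun φ hφ => ?_
    have h2 : n2 φ (Y - 0) ≤ R * Real.sqrt (φ 1).re := h.n2_le' hφ (h0.mono fun i hi => by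
      rw [sub_zero]
      exact (n2_le_norm φ _).trans (mul_le_mul_of_nonneg_right hi (Real.sqrt_nonneg _)))
    rw [sub_zero] at h2
    have h3 := pow_le_pow_left₀ (n2_nonneg φ _) h2 2
    rw [n2_sq, mul_pow, Real.sq_sqrt (pos_re_nonneg φ zero_le_one)] at h3
    rw [Complex.nonneg_iff, map_sub, pos_real_smul, Complex.sub_re, Complex.sub_im,
      Complex.re_ofReal_mul, Complex.im_ofReal_mul, pos_im φ (IsSelfAdjoint.one _),
      pos_im φ (IsSelfAdjoint.star_mul_self Y)]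
    exact ⟨by linarith, by simp⟩
  have h2 := norm_le_of_le_of_neg_le (IsSelfAdjoint.star_mul_self Y) (sq_nonneg R) h1
    ((neg_nonpos.2 (star_mul_self_nonneg Y)).trans ((star_mul_self_nonneg Y).trans h1))
  rw [CStarRing.norm_star_mul_self, ← sq] at h2
  exact (sq_le_sq₀ (norm_nonneg _) hR).1 h2

theorem WLim.isSelfAdjoint [l.NeBot] (h : W.WLim l y Y) (h0 : ∀ᶠ i in l, IsSelfAdjoint (y i)) :
    IsSelfAdjoint Y :=
  (h.star.congr' (h0.mono fun _ hi => hi.star_eq)).unique h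

theorem WLim.intertwine [l.NeBot] (h : W.WLim l y Y) {z z' : 𝓜}
    (h0 : ∀ᶠ i in l, z * y i = y i * z') : z * Y = Y * z' :=
  ((h.mul_left z).congr' h0).unique (h.mul_right z')

theorem WLim.mem_A [l.NeBot] (h : W.WLim l y Y) (h0 : ∀ᶠ i in l, y i ∈ W.A) : Y ∈ W.A :=
  W.max Y fun a ha => h.intertwine (h0.mono fun _ hi => W.comm a ha _ hi)

theorem WLim.n2_le [l.NeBot] (h : W.WLim l y Y) {φ : 𝓜 →ₚ[ℂ] ℂ} (hφ : φ ∈ W.𝓕) {z : 𝓜} {c : ℝ}
    (h0 : ∀ᶠ i in l, n2 φ (y i - z) ≤ c) : n2 φ (Y - z) ≤ c :=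
  h.n2_le' hφ h0

/-- Banach-Saks: averages of a weakly convergent bounded family converge strongly. -/
theorem WLim.banach_saks [l.NeBot] (h : W.WLim l y Y) {R : ℝ} (hb : ∀ᶠ i in l, ‖y i‖ ≤ R)
    {P : α → Prop} (hP : ∀ᶠ i in l, P i) {φ : 𝓜 →ₚ[ℂ] ℂ} (hφ : φ ∈ W.𝓕) {δ : ℝ} (hδ : 0 < δ) :
    ∃ (n : ℕ) (i : Fin (n + 1) → α), (∀ k, P (i k)) ∧
      n2 φ (((n + 1 : ℝ))⁻¹ • ∑ k, y (i k) - Y) ≤ δ := by
  obtain ⟨C, hC⟩ : ∃ C : ℝ, C = ((R + ‖Y‖) * Real.sqrt (φ 1).re) ^ 2 + 1 := ⟨_, rfl⟩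
  have key : ∀ n : ℕ, ∃ i : Fin n → α, (∀ k, P (i k)) ∧
      n2 φ (∑ k, (y (i k) - Y)) ^ 2 ≤ n * C := by
    intro n
    induction n with
    | zero => exact ⟨Fin.elim0, fun k => k.elim0, by simp [n2_zero]⟩
    | succ n ih =>
      obtain ⟨i, hi, hS⟩ := ih
      have h1 := (Complex.continuous_re.tendsto _).comp
        ((h.sub (WLim.const Y)).mul_left (Star.star (∑ k, (y (i k) - Y))) φ hφ)
      rw [sub_self, mul_zero, map_zero, Complex.zero_re] at h1
      obtain ⟨j, hj1, hj2, hj3⟩ :=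
        (hb.and (hP.and (h1.eventually (gt_mem_nhds (show (0 : ℝ) < 1 / 2 by norm_num))))).exists
      refine ⟨Fin.cons j i, fun k => Fin.cases hj2 hi k, ?_⟩
      rw [Fin.sum_univ_succ, add_comm, n2_add_sq]
      simp only [Fin.cons_zero, Fin.cons_succ]
      have h2 : n2 φ (y j - Y) ≤ (R + ‖Y‖) * Real.sqrt (φ 1).re :=
        (n2_le_norm φ _).trans (mul_le_mul_of_nonneg_right
          ((norm_sub_le _ _).trans (add_le_add_left hj1 _)) (Real.sqrt_nonneg _))
      have h3 := pow_le_pow_left₀ (n2_nonneg φ _) h2 2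
      simp only [Function.comp_apply] at hj3
      push_cast
      linarith
  obtain ⟨n, hn⟩ := exists_nat_gt (C / δ ^ 2)
  obtain ⟨i, hi, hS⟩ := key (n + 1)
  refine ⟨n, i, hi, ?_⟩
  have hn0 : (0 : ℝ) < n + 1 := by positivity
  have e1 : ((n + 1 : ℝ))⁻¹ • ∑ k, y (i k) - Y = ((n + 1 : ℝ))⁻¹ • ∑ k, (y (i k) - Y) := by
    rw [Finset.sum_sub_distrib, smul_sub, Finset.sum_const, Finset.card_univ, Fintype.card_fin,
      ← Nat.cast_smul_eq_nsmul ℝ, smul_smul]
    push_cast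
    rw [inv_mul_cancel₀ hn0.ne', one_smul]
  rw [e1, n2_real_smul, abs_of_pos (inv_pos.2 hn0), inv_mul_le_iff₀ hn0]
  refine (sq_le_sq₀ (n2_nonneg _ _) (by positivity)).1 (hS.trans ?_)
  rw [div_lt_iff₀ (by positivity)] at hn
  push_cast
  nlinarith [mul_pos hn0 (sq_pos_of_pos hδ)]

end WLim

theorem normal_of_mem {φ : 𝓜 →ₚ[ℂ] ℂ} (hφ : φ ∈ W.𝓕) : W.Normal φ :=
  fun _ _ _ _ h => h φ hφ

theorem Normal.tendsto {W : WS 𝓜} {φ : 𝓜 →ₚ[ℂ] ℂ} (hφ : W.Normal φ) {α : Type*}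
    (U : Ultrafilter α) {y : α → 𝓜} {Y : 𝓜} {R : ℝ} (hb : ∀ᶠ i in (U : Filter α), ‖y i‖ ≤ R)
    (h : W.WLim (U : Filter α) y Y) : Tendsto (fun i => φ (y i)) (U : Filter α) (𝓝 (φ Y)) :=
  hφ (U.map y) R Y hb h

theorem Normal.add {W : WS 𝓜} {φ ψ : 𝓜 →ₚ[ℂ] ℂ} (hφ : W.Normal φ) (hψ : W.Normal ψ) :
    W.Normal (φ + ψ) := fun U R Y hb h => by
  simpa only [PositiveLinearMap.add_apply] using (hφ U R Y hb h).add (hψ U R Y hb h)

theorem Normal.conjF {W : WS 𝓜} {φ : 𝓜 →ₚ[ℂ] ℂ} (hφ : W.Normal φ) (z : 𝓜) :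
    W.Normal (R109.conjF φ z) := fun U R _ hb h =>
  hφ.tendsto U (R := ‖star z‖ * R * ‖z‖) (hb.mono fun _ hy => (norm_mul₃_le).trans
    (mul_le_mul_of_nonneg_right (mul_le_mul_of_nonneg_left hy (norm_nonneg _)) (norm_nonneg _)))
    (h.mul (star z) z)

/-- Bounded increasing nets have a least upper bound, which is a weak limit. -/
theorem exists_lub {α : Type*} [SemilatticeSup α] [Nonempty α] (y : α → 𝓜) (hy : Monotone y)
    {R : ℝ} (hb : ∀ i, ‖y i‖ ≤ R) :
    ∃ (Y : 𝓜) (U : Ultrafilter α), (U : Filter α) ≤ atTop ∧ W.WLim (U : Filter α) y Y ∧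
      IsLUB (Set.range y) Y := by
  have hU : (Ultrafilter.of (atTop : Filter α) : Filter α) ≤ atTop := Ultrafilter.of_le _
  obtain ⟨Y, hY⟩ := W.exists_wlim (Ultrafilter.of atTop) y (Eventually.of_forall hb)
  refine ⟨Y, _, hU, hY, ?_, fun z hz => hY.le_const (Eventually.of_forall fun i => hz ⟨i, rfl⟩)⟩
  rintro _ ⟨i, rfl⟩
  exact hY.const_le (((eventually_ge_atTop i).filter_mono hU).mono fun j hj => hy hj)

theorem isClosed_A : IsClosed (W.A : Set 𝓜) := by
  have : (W.A : Set 𝓜) = ⋂ a ∈ W.A, {y | a * y = y * a} := by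
    ext y
    simp only [SetLike.mem_coe, Set.mem_iInter]
    exact ⟨fun hy a ha => W.comm a ha y hy, W.max y⟩
  rw [this]
  exact isClosed_biInter fun a _ => isClosed_eq (by fun_prop) (by fun_prop)

theorem cfc_mem_A {a : 𝓜} (ha : a ∈ W.A) (f : ℝ → ℝ) : cfc f a ∈ W.A :=
  W.max _ fun b hb => (Commute.cfc_real (W.comm a ha b hb) f).eq.symm

theorem mul_nonneg_A {a b : 𝓜} (ha : a ∈ W.A) (hb : b ∈ W.A) (ha0 : 0 ≤ a) (hb0 : 0 ≤ b) :
    0 ≤ a * b :=
  Commute.mul_nonneg ha0 hb0 (W.comm a ha b hb)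

theorem proj_mul {e e' : 𝓜} (he : e ∈ W.A) (he' : e' ∈ W.A) (hp : IsStarProjection e)
    (hp' : IsStarProjection e') : IsStarProjection (e * e') :=
  hp.mul hp' (W.comm e he e' he')

include W in
theorem exists_SP {b : 𝓜} (hb : IsSelfAdjoint b) (c : ℝ) : ∃ e, IsSP b c e := by
  let f : ℕ → ℝ → ℝ := fun n t => Max.max 0 (min 1 (1 + (n + 1) * (t - c)))
  have fc : ∀ n, Continuous (f n) := fun n => by fun_prop
  have f0 : ∀ n t, 0 ≤ f n t := fun n t => le_max_left _ _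
  have f1 : ∀ n t, f n t ≤ 1 := fun n t => max_le zero_le_one (min_le_left _ _)
  have fge : ∀ n t, c ≤ t → f n t = 1 := fun n t ht => by
    have : (0 : ℝ) ≤ (n + 1) * (t - c) := mul_nonneg (by positivity) (sub_nonneg.2 ht)
    simp only [f]
    rw [min_eq_left (by linarith), max_eq_right zero_le_one]
  have flt : ∀ n t, f n t ≠ 0 → c - t ≤ 1 / (n + 1) := fun n t ht => by
    by_contra hc
    push Not at hc
    rw [div_lt_iff₀ (by positivity)] at hc
    exact ht (max_eq_left ((min_le_right _ _).trans (by linarith)))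
  have flow : ∀ n t, t ≤ c → 1 - f n t ≤ (n + 1) * (c - t) := fun n t ht => by
    have : (0 : ℝ) ≤ (n + 1) * (c - t) := mul_nonneg (by positivity) (sub_nonneg.2 ht)
    have h2 : min 1 (1 + (n + 1) * (t - c)) ≤ f n t := le_max_right _ _
    rw [min_eq_right (by linarith)] at h2
    linarith
  have hU : (Ultrafilter.of (atTop : Filter ℕ) : Filter ℕ) ≤ atTop := Ultrafilter.of_le _
  obtain ⟨e, he⟩ := W.exists_wlim (Ultrafilter.of atTop) (fun n => cfc (f n) b) (R := 1)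
    (Eventually.of_forall fun n => norm_cfc_le zero_le_one fun t _ => by
      rw [Real.norm_eq_abs, abs_of_nonneg (f0 n t)]; exact f1 n t)
  have key : ∀ (g h : ℝ → ℝ) (C : ℝ), Continuous g → Continuous h → 0 ≤ C →
      (∀ n t, |g t * f n t - h t| ≤ C * (1 / (n + 1))) → cfc g b * e = cfc h b := by
    intro g h C hg hh hC hgh
    refine (he.mul_left _).unique (WLim.of_tendsto (Tendsto.mono_left ?_ hU))
    rw [tendsto_iff_norm_sub_tendsto_zero]
    have h1 := tendsto_one_div_add_atTop_nhds_zero_nat.const_mul C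
    rw [mul_zero] at h1
    refine squeeze_zero (fun _ => norm_nonneg _) (fun n => ?_) h1
    rw [← cfc_mul g (f n) b hg.continuousOn (fc n).continuousOn,
      ← cfc_sub (fun x => g x * f n x) h b (hg.mul (fc n)).continuousOn hh.continuousOn]
    exact norm_cfc_le (by positivity) fun t _ => hgh n t
  have k1 : ∀ m, cfc (f m) b * e = e := by
    intro m
    have h1 := key (fun t => 1 - f m t) (fun _ => 0) (m + 1) (by fun_prop) (by fun_prop)
      (by positivity) fun n t => by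
        rcases le_total c t with ht | ht
        · rw [fge m t ht]; simp; positivity
        by_cases h0 : f n t = 0
        · rw [h0]; simp; positivity
        rw [sub_zero, abs_of_nonneg (mul_nonneg (sub_nonneg.2 (f1 m t)) (f0 n t))]
        exact (mul_le_of_le_one_right (sub_nonneg.2 (f1 m t)) (f1 n t)).trans
          ((flow m t ht).trans (mul_le_mul_of_nonneg_left (flt n t h0) (by positivity)))
    rw [cfc_sub _ _ b continuousOn_const (fc m).continuousOn, cfc_const_one ℝ b, cfc_const_zero,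
      sub_mul, one_mul, sub_eq_zero] at h1
    exact h1.symm
  have k2 := key (fun t => t - c) (fun t => Max.max (t - c) 0) 1 (by fun_prop) (by fun_prop)
    zero_le_one fun n t => by
      rcases le_total c t with ht | ht
      · rw [fge n t ht, max_eq_left (sub_nonneg.2 ht)]; simp; positivity
      by_cases h0 : f n t = 0
      · rw [h0, max_eq_right (sub_nonpos.2 ht)]; simp; positivity
      rw [max_eq_right (sub_nonpos.2 ht), sub_zero, abs_mul, abs_of_nonneg (f0 n t), abs_sub_comm,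
        abs_of_nonneg (sub_nonneg.2 ht), one_mul]
      exact (mul_le_of_le_one_right (sub_nonneg.2 ht) (f1 n t)).trans (flt n t h0)
  have k3 : cfc (fun t : ℝ => t - c) b ≤ cfc (fun t : ℝ => Max.max (t - c) 0) b :=
    cfc_mono (fun t _ => le_max_left _ _) (by fun_prop) (by fun_prop)
  have k4 : 0 ≤ cfc (fun t : ℝ => Max.max (t - c) 0) b := cfc_nonneg fun t _ => le_max_right _ _
  have k5 : cfc (fun t : ℝ => t - c) b = b - c • 1 := by
    rw [cfc_sub (fun t : ℝ => t) (fun _ => c) b continuousOn_id continuousOn_const, cfc_id' ℝ b, cfc_const c b,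
      Algebra.algebraMap_eq_smul_one]
  rw [← k2, k5, sub_mul, smul_mul_assoc, one_mul] at k3 k4
  refine ⟨e, ⟨?_, he.isSelfAdjoint (Eventually.of_forall fun n => IsSelfAdjoint.cfc)⟩,
    fun z hz => he.intertwine (Eventually.of_forall fun n => (hz.symm.cfc_real _).symm.eq),
    sub_nonneg.1 k4, ?_⟩
  · exact ((he.mul_right e).congr' (Eventually.of_forall k1)).unique (WLim.const e)
  · rw [← sub_nonneg] at k3 ⊢
    convert k3 using 1
    rw [smul_sub, mul_sub, mul_one]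
    abel

theorem IsSP.mem_A {W : WS 𝓜} {b e : 𝓜} {c : ℝ} (h : IsSP b c e) (hb : b ∈ W.A) : e ∈ W.A :=
  W.max e fun a ha => h.2.1 a (W.comm a ha b hb)

/-- A nonzero positive element of `A` dominates a multiple of a nonzero projection of `A`. -/
theorem exists_proj_le {a : 𝓜} (ha : a ∈ W.A) (h0 : 0 ≤ a) (hne : a ≠ 0) :
    ∃ e ∈ W.A, IsStarProjection e ∧ e ≠ 0 ∧ ∃ c : ℝ, 0 < c ∧ c • e ≤ a * e := by
  have hpos : 0 < ‖a‖ := norm_pos_iff.2 hne
  obtain ⟨e, he⟩ := W.exists_SP h0.isSelfAdjoint (‖a‖ / 2)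
  refine ⟨e, he.mem_A ha, he.1, ?_, ‖a‖ / 2, by positivity, he.2.2.1⟩
  rintro rfl
  have h1 := he.2.2.2
  rw [sub_zero, mul_one] at h1
  have h2 := norm_le_of_le_of_neg_le h0.isSelfAdjoint (by positivity) h1
    ((neg_nonpos.2 h0).trans (h0.trans h1))
  linarith

theorem induction_proj (S : Submodule ℂ 𝓜) (hS : IsClosed (S : Set 𝓜))
    (h : ∀ e ∈ W.A, IsStarProjection e → e ∈ S) : ∀ a ∈ W.A, a ∈ S := by
  have step : ∀ a ∈ W.A, IsSelfAdjoint a → ∀ r : ℝ, ‖a‖ ≤ r →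
      ∃ s ∈ S, a - s ∈ W.A ∧ IsSelfAdjoint (a - s) ∧ ‖a - s‖ ≤ r / 2 := by
    intro a ha hsa r hr
    have hr0 : 0 ≤ r := (norm_nonneg _).trans hr
    obtain ⟨e, he⟩ := W.exists_SP hsa 0
    have heA := he.mem_A ha
    have heA' : 1 - e ∈ W.A := sub_mem (one_mem _) heA
    have rA : ∀ (c : ℝ) x, x ∈ W.A → c • x ∈ W.A := fun c x hx =>
      W.A.toSubalgebra.toSubmodule.smul_of_tower_mem c hx
    have hs : IsSelfAdjoint (a - ((r / 2) • e - (r / 2) • (1 - e))) :=
      hsa.sub (((IsSelfAdjoint.all _).smul he.1.isSelfAdjoint).sub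
        ((IsSelfAdjoint.all _).smul he.1.one_sub.isSelfAdjoint))
    have hle : ∀ x : 𝓜, IsSelfAdjoint x → ‖x‖ ≤ r → 0 ≤ r • (1 : 𝓜) - x := fun x hx hxr =>
      sub_nonneg.2 ((le_norm_smul_one hx).trans (smul_le_smul_of_nonneg_right hxr zero_le_one))
    have u0 := he.2.2.1
    have v0 := he.2.2.2
    rw [zero_smul] at u0 v0
    have u1 := W.mul_nonneg_A (sub_mem (rA r _ (one_mem _)) ha) heA (hle a hsa hr) he.1.nonneg
    have v1 := W.mul_nonneg_A (sub_mem (rA r _ (one_mem _)) (neg_mem ha)) heA'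
      (hle (-a) hsa.neg (by rwa [norm_neg])) he.1.one_sub.nonneg
    refine ⟨(r / 2) • e - (r / 2) • (1 - e), sub_mem (S.smul_of_tower_mem _ (h e heA he.1))
      (S.smul_of_tower_mem _ (h _ heA' he.1.one_sub)), sub_mem ha (sub_mem (rA _ _ heA)
      (rA _ _ heA')), hs, norm_le_of_le_of_neg_le hs (by positivity) ?_ ?_⟩
    · rw [← sub_nonneg]
      convert add_nonneg u1 (neg_nonneg.2 v0) using 1
      simp only [sub_mul, mul_sub, smul_mul_assoc, one_mul, mul_one]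
      module
    · rw [← sub_nonneg]
      convert add_nonneg u0 v1 using 1
      simp only [sub_mul, mul_sub, smul_mul_assoc, one_mul, mul_one, neg_mul]
      module
  have sa : ∀ a ∈ W.A, IsSelfAdjoint a → a ∈ S := by
    intro a ha hsa
    have key : ∀ n : ℕ, ∃ s ∈ S, a - s ∈ W.A ∧ IsSelfAdjoint (a - s) ∧
        ‖a - s‖ ≤ ‖a‖ * (1 / 2) ^ n := by
      intro n
      induction n with
      | zero => exact ⟨0, S.zero_mem, by simpa using ha, by simpa using hsa, by simp⟩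
      | succ n ih =>
        obtain ⟨s, hs, h1, h2, h3⟩ := ih
        obtain ⟨s', hs', k1, k2, k3⟩ := step _ h1 h2 _ h3
        rw [sub_sub] at k1 k2 k3
        exact ⟨s + s', S.add_mem hs hs', k1, k2, k3.trans (le_of_eq (by ring))⟩
    choose s hs using key
    refine hS.mem_of_tendsto (b := atTop) (f := s) ?_ (Eventually.of_forall fun n => (hs n).1)
    rw [tendsto_iff_norm_sub_tendsto_zero]
    have h1 := (tendsto_pow_atTop_nhds_zero_of_lt_one (r := (1 / 2 : ℝ)) (by norm_num)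
      (by norm_num)).const_mul ‖a‖
    rw [mul_zero] at h1
    exact squeeze_zero (fun _ => norm_nonneg _) (fun n => by
      rw [norm_sub_rev]; exact (hs n).2.2.2) h1
  intro a ha
  have rA : ∀ (c : ℝ) x, x ∈ W.A → c • x ∈ W.A := fun c x hx =>
    W.A.toSubalgebra.toSubmodule.smul_of_tower_mem c hx
  rw [← realPart_add_I_smul_imaginaryPart a]
  refine S.add_mem (sa _ ?_ (realPart a).2) (S.smul_mem _ (sa _ ?_ (imaginaryPart a).2))
  · rw [realPart_apply_coe]
    exact rA _ _ (AddMemClass.add_mem ha (star_mem ha))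
  · rw [imaginaryPart_apply_coe]
    exact W.A.smul_mem (rA _ _ (sub_mem ha (star_mem ha))) _

theorem mem_of_commute_proj {y : 𝓜} (h : ∀ e ∈ W.A, IsStarProjection e → e * y = y * e) :
    y ∈ W.A :=
  W.max y (W.induction_proj (LinearMap.eqLocus (LinearMap.mulRight ℂ y) (LinearMap.mulLeft ℂ y))
    (isClosed_eq (f := fun x => x * y) (g := fun x => y * x) (by fun_prop) (by fun_prop)) h)

theorem exists_refine (P : Part W.A) {e : 𝓜} (he : e ∈ W.A) (hp : IsStarProjection e) :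
    ∃ P' : Part W.A, P'.Resp e ∧ ∀ e' ∈ W.A, P.Resp e' → P'.Resp e' := by
  let q : Bool → 𝓜 := fun k => if k then e else 1 - e
  have qA : ∀ k, q k ∈ W.A := fun k => by
    cases k
    exacts [sub_mem (one_mem _) he, he]
  have qp : ∀ k, IsStarProjection (q k) := fun k => by
    cases k
    exacts [hp.one_sub, hp]
  have hpav : IsPaving W.A (fun x : P.cells × Bool => (x.1 : 𝓜) * q x.2) := by
    refine ⟨fun x => ⟨mul_mem (P.mem x.1.2) (qA _),
      W.proj_mul (P.mem x.1.2) (qA _) (P.proj x.1.2) (qp _)⟩, ?_, ?_⟩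
    · rintro ⟨b, k⟩ ⟨b', k'⟩ hne
      have e1 : (b : 𝓜) * q k * (b' * q k') = b * b' * (q k * q k') := by
        rw [mul_assoc, ← mul_assoc (q k), W.comm _ (qA k) _ (P.mem b'.2)]
        simp only [mul_assoc]
      rw [e1]
      by_cases hb : b = b'
      · have hk : k ≠ k' := fun hk => hne (by rw [hb, hk])
        have : q k * q k' = 0 := by
          cases k <;> cases k'
          exacts [absurd rfl hk, hp.one_sub_mul_self, hp.mul_one_sub_self, absurd rfl hk]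
        rw [this, mul_zero]
      · rw [P.paving.2.1 b b' hb, zero_mul]
    · rw [Fintype.sum_prod_type, ← P.paving.2.2]
      refine Finset.sum_congr rfl fun b _ => ?_
      simp [q, ← mul_add]
  obtain ⟨P', hP', -⟩ := hpav.exists_part
  refine ⟨P', fun b hb => ?_, fun e' he' hr b hb => ?_⟩
  · obtain ⟨-, ⟨b, k⟩, rfl⟩ := (hP' b).1 hb
    cases k
    · right
      simp only [q, Bool.false_eq_true, if_false, mul_assoc, hp.one_sub_mul_self, mul_zero]
    · left
      simp only [q, if_true, mul_assoc, hp.isIdempotentElem.eq]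
  · obtain ⟨-, ⟨b, k⟩, rfl⟩ := (hP' b).1 hb
    simp only
    rw [mul_assoc, W.comm _ (qA k) _ he', ← mul_assoc]
    rcases hr b b.2 with h | h <;> rw [h]
    · exact Or.inl rfl
    · exact Or.inr (zero_mul _)

theorem U_resp {e : 𝓜} (he : e ∈ W.A) (hp : IsStarProjection e) :
    ∀ᶠ P in (W.U : Filter (Part W.A)), P.Resp e := by
  have hex : ∃ U : Ultrafilter (Part W.A),
      ∀ e ∈ W.A, IsStarProjection e → ∀ᶠ P in (U : Filter (Part W.A)), P.Resp e := by
    obtain ⟨U, hU⟩ := Ultrafilter.exists_ultrafilter_of_finite_inter_nonempty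
      {s : Set (Part W.A) | ∃ e ∈ W.A, IsStarProjection e ∧ s = {P | P.Resp e}} (fun T hT => by
        induction T using Finset.induction_on with
        | empty => exact ⟨Part.triv _, by simp⟩
        | insert s T _ ih =>
          rw [Finset.coe_insert, Set.insert_subset_iff] at hT
          obtain ⟨⟨e, he, hp, rfl⟩, hT⟩ := hT
          obtain ⟨P, hP⟩ := ih hT
          obtain ⟨P', h1, h2⟩ := W.exists_refine P he hp
          refine ⟨P', ?_⟩
          rw [Finset.coe_insert, Set.sInter_insert]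
          refine ⟨h1, fun s hs => ?_⟩
          obtain ⟨e', he', -, rfl⟩ := hT hs
          exact h2 e' he' (hP _ hs))
    exact ⟨U, fun e he hp => hU ⟨e, he, hp, rfl⟩⟩
  exact Classical.epsilon_spec hex e he hp

theorem U_refines (P₀ : Part W.A) :
    ∀ᶠ P in (W.U : Filter (Part W.A)), ∀ e ∈ P₀.cells, P.Resp e :=
  (Filter.eventually_all_finset _).2 fun _ he => W.U_resp (P₀.mem he) (P₀.proj he)

end WS

end Crest.Agent.R109
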