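import Crest.Agent.R109.FDefs

/-!
# Row 109: abstract von Neumann algebra layer

`WS 𝓜` is a C⋆-algebra with a maximal abelian subalgebra `A` and a separating family `𝓕` of
positive functionals for which bounded sets are (ultrafilter) compact.  `Reg 𝓜` adds a faithful
`A`-central functional `ω ∈ 𝓕`.
-/

set_option autoImplicit false

noncomputable section

namespace Crest.Agent.R109

open Filter Topology
open scoped ComplexOrder Classical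

variable {𝓜 : Type*} [CStarAlgebra 𝓜] [PartialOrder 𝓜] [StarOrderedRing 𝓜]

/-- The functional `y ↦ φ (z⋆ y z)`. -/
def conjF (φ : 𝓜 →ₚ[ℂ] ℂ) (z : 𝓜) : 𝓜 →ₚ[ℂ] ℂ :=
  PositiveLinearMap.mk₀
    { toFun := fun y => φ (star z * y * z)
      map_add' := fun a b => by rw [mul_add, add_mul, map_add]
      map_smul' := fun c a => by simp }
    (fun _ hy => φ.map_nonneg (star_left_conjugate_nonneg hy z))

theorem conjF_apply (φ : 𝓜 →ₚ[ℂ] ℂ) (z y : 𝓜) : conjF φ z y = φ (star z * y * z) := rfl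

/-- The `L²` seminorm of a positive functional. -/
def n2 (φ : 𝓜 →ₚ[ℂ] ℂ) (y : 𝓜) : ℝ := Real.sqrt (φ (star y * y)).re

/-- A partition of unity by projections of `A`, indexed by `κ`. -/
def IsPaving {κ : Type*} [Fintype κ] (A : StarSubalgebra ℂ 𝓜) (p : κ → 𝓜) : Prop :=
  (∀ i, p i ∈ A ∧ IsStarProjection (p i)) ∧ (∀ i j, i ≠ j → p i * p j = 0) ∧ ∑ i, p i = 1

/-- The pinching `∑ p i * y * p i`. -/
def pinch {κ : Type*} [Fintype κ] (p : κ → 𝓜) (y : 𝓜) : 𝓜 := ∑ i, p i * y * p i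

/-- A finite partition of unity by projections of `A`. -/
structure Part (A : StarSubalgebra ℂ 𝓜) where
  cells : Finset 𝓜
  paving : IsPaving A (fun e : cells => (e : 𝓜))

/-- Every cell is under `e` or orthogonal to `e`. -/
def Part.Resp {A : StarSubalgebra ℂ 𝓜} (P : Part A) (e : 𝓜) : Prop :=
  ∀ b ∈ P.cells, b * e = b ∨ b * e = 0

/-- The pinching along a partition. -/
def Part.pinch {A : StarSubalgebra ℂ 𝓜} (P : Part A) (y : 𝓜) : 𝓜 := ∑ b ∈ P.cells, b * y * b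

/-- The trivial partition. -/
def Part.triv (A : StarSubalgebra ℂ 𝓜) : Part A where
  cells := {1}
  paving := by
    refine ⟨fun i => ?_, fun i j hij => ?_, by simp⟩
    · obtain ⟨i, hi⟩ := i
      obtain rfl := Finset.mem_singleton.1 hi
      exact ⟨A.one_mem, IsStarProjection.one 𝓜⟩
    · exact absurd (Subtype.ext ((Finset.mem_singleton.1 i.2).trans
        (Finset.mem_singleton.1 j.2).symm)) hij

instance (A : StarSubalgebra ℂ 𝓜) : Nonempty (Ultrafilter (Part A)) := ⟨pure (Part.triv A)⟩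

variable (𝓜) in
/-- A C⋆-algebra with a maximal abelian subalgebra and a weak topology with compact balls. -/
structure WS where
  A : StarSubalgebra ℂ 𝓜
  comm : ∀ a ∈ A, ∀ b ∈ A, a * b = b * a
  max : ∀ y, (∀ a ∈ A, a * y = y * a) → y ∈ A
  𝓕 : Set (𝓜 →ₚ[ℂ] ℂ)
  zero_mem : 0 ∈ 𝓕
  add_mem : ∀ φ ∈ 𝓕, ∀ ψ ∈ 𝓕, φ + ψ ∈ 𝓕
  conj_mem : ∀ φ ∈ 𝓕, ∀ z, conjF φ z ∈ 𝓕
  sep : ∀ y, 0 ≤ y → (∀ φ ∈ 𝓕, φ y = 0) → y = 0
  compact : ∀ (U : Ultrafilter 𝓜) (R : ℝ), (∀ᶠ y in (U : Filter 𝓜), ‖y‖ ≤ R) →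
    ∃ Y, ∀ φ ∈ 𝓕, Tendsto (fun y => φ y) (U : Filter 𝓜) (𝓝 (φ Y))

namespace WS

variable (W : WS 𝓜)

/-- Weak convergence. -/
def WLim {α : Type*} (l : Filter α) (y : α → 𝓜) (Y : 𝓜) : Prop :=
  ∀ φ ∈ W.𝓕, Tendsto (fun i => φ (y i)) l (𝓝 (φ Y))

/-- Continuity of a positive functional along bounded weakly convergent ultrafilters. -/
def Normal (φ : 𝓜 →ₚ[ℂ] ℂ) : Prop :=
  ∀ (U : Ultrafilter 𝓜) (R : ℝ) (Y : 𝓜), (∀ᶠ y in (U : Filter 𝓜), ‖y‖ ≤ R) →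
    W.WLim (U : Filter 𝓜) (fun y => y) Y → Tendsto (fun y => φ y) (U : Filter 𝓜) (𝓝 (φ Y))

/-- A fixed ultrafilter of finer and finer partitions. -/
def U : Ultrafilter (Part W.A) :=
  Classical.epsilon fun U : Ultrafilter (Part W.A) =>
    ∀ e ∈ W.A, IsStarProjection e → ∀ᶠ P in (U : Filter (Part W.A)), P.Resp e

/-- The conditional expectation onto `A`: the weak limit of the pinchings along `U`. -/
def E (y : 𝓜) : 𝓜 :=
  Classical.epsilon fun Y : 𝓜 => W.WLim (W.U : Filter (Part W.A)) (fun P => P.pinch y) Y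

/-- `e` is a spectral projection of `b` at the level `c`. -/
def IsSP (b : 𝓜) (c : ℝ) (e : 𝓜) : Prop :=
  IsStarProjection e ∧ (∀ z, Commute z b → Commute z e) ∧
    c • e ≤ b * e ∧ b * (1 - e) ≤ c • (1 - e)

/-- A partial isometry normalising `A`. -/
def Norm (v : 𝓜) : Prop :=
  v * star v * v = v ∧ ∀ a ∈ W.A, star v * a * v ∈ W.A ∧ v * a * star v ∈ W.A

/-- `f` carries the singular part of `φ ∘ E`. -/
def Sing (φ : 𝓜 →ₚ[ℂ] ℂ) (f : 𝓜) : Prop :=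
  ∀ φ' ∈ W.𝓕, ∀ γ : ℝ, 0 < γ → ∃ q, IsStarProjection q ∧ q * f = q ∧ (φ' (f - q)).re < γ ∧
    (φ (W.E q)).re < γ

/-- `ω` is normal, `A`-central and faithful on the corner of `1 - f`. -/
def RegPart (ω : 𝓜 →ₚ[ℂ] ℂ) (f : 𝓜) : Prop :=
  W.Normal ω ∧ (∀ a ∈ W.A, ∀ y, ω (a * y) = ω (y * a)) ∧
    ∀ y, 0 ≤ y → (1 - f) * y * (1 - f) = y → ω y = 0 → y = 0

end WS

variable (𝓜) in
/-- The regular case: a faithful `A`-central functional in `𝓕`. -/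
structure Reg extends WS 𝓜 where
  ω : 𝓜 →ₚ[ℂ] ℂ
  ω_mem : ω ∈ 𝓕
  faithful : ∀ y, 0 ≤ y → ω y = 0 → y = 0
  central : ∀ a ∈ A, ∀ y, ω (a * y) = ω (y * a)
  one_le : (ω 1).re ≤ 1

namespace Reg

variable (R : Reg 𝓜)

/-- A normalising partial isometry with Radon-Nikodym derivatives bounded by `K`. -/
def IsG (K : ℝ) (v : 𝓜) : Prop :=
  R.Norm v ∧ ∀ a ∈ R.A, 0 ≤ a →
    (R.ω (v * a * star v)).re ≤ K * (R.ω a).re ∧ (R.ω (star v * a * v)).re ≤ K * (R.ω a).re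

/-- The groupoid of normalising partial isometries with bounded Radon-Nikodym derivatives. -/
def InG (v : 𝓜) : Prop := ∃ K : ℝ, R.IsG K v

/-- The algebraic normaliser algebra. -/
def N0 : Submodule ℂ 𝓜 := Submodule.span ℂ {y | ∃ v a, R.InG v ∧ a ∈ R.A ∧ y = v * a}

/-- `w` is orthogonal to the normaliser algebra. -/
def Perp (w : 𝓜) : Prop := ∀ u, R.InG u → R.E (star u * w) = 0

/-- `y ≤ ε` outside a positive element of mass at most `κ`. -/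
def BLe (y : 𝓜) (ε κ : ℝ) : Prop := ∃ b, 0 ≤ b ∧ (R.ω b).re ≤ κ ∧ y ≤ ε • (1 : 𝓜) + b

end Reg

/-- The product of generators along a word. -/
def vw {G : Type*} (v : G → 𝓜) (w : List G) : 𝓜 := (w.map v).prod

/-- The sum of the `e a` with `pos a = j a`. -/
def sel {κ : Type*} [Fintype κ] {r' : ℕ} (e : κ → 𝓜) (j pos : κ → Fin r') : 𝓜 :=
  ∑ a with pos a = j a, e a

/-- Uniform average over a finite type. -/
def avg {Ξ : Type*} [Fintype Ξ] (f : Ξ → ℝ) : ℝ := (∑ ξ, f ξ) / Fintype.card Ξ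

/-- `(Ω, ev, μ)` is a Gelfand picture of `A`, with `ev y = ` Gelfand transform of `E y`. -/
structure IsGel (R : Reg 𝓜) {Ω : Type*} [TopologicalSpace Ω] [MeasurableSpace Ω]
    (ev : 𝓜 → Ω → ℂ) (μ : MeasureTheory.Measure Ω) : Prop where
  fin : MeasureTheory.IsFiniteMeasure μ
  cont : ∀ y, Continuous (ev y)
  ev_E : ∀ y, ev (R.E y) = ev y
  ev_add : ∀ y y' χ, ev (y + y') χ = ev y χ + ev y' χ
  ev_smul : ∀ (c : ℂ) y χ, ev (c • y) χ = c * ev y χ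
  ev_star : ∀ y χ, ev (star y) χ = (starRingEnd ℂ) (ev y χ)
  ev_one : ∀ χ, ev 1 χ = 1
  ev_mul : ∀ a ∈ R.A, ∀ b ∈ R.A, ∀ χ, ev (a * b) χ = ev a χ * ev b χ
  ev_nonneg : ∀ y, 0 ≤ y → ∀ χ, 0 ≤ ev y χ
  surj : ∀ f : Ω → ℂ, Continuous f → ∃ a ∈ R.A, ev a = f
  nonneg_of : ∀ a ∈ R.A, (∀ χ, 0 ≤ ev a χ) → 0 ≤ a
  sep : ∀ χ χ', (∀ a ∈ R.A, ev a χ = ev a χ') → χ = χ'
  integral : ∀ y, ∫ χ, ev y χ ∂μ = R.ω y
  tau : ∀ v, R.Norm v → ∃ τ : Ω → Ω, Continuous τ ∧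
    ∀ a ∈ R.A, ∀ χ, ev (star v * v) χ ≠ 0 → ev a (τ χ) = ev (star v * a * v) χ

end Crest.Agent.R109
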