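import Crest.Agent.R109.WBasic

/-! Row 109, task C1b: the conditional expectation `E`. -/

set_option autoImplicit false
set_option linter.unusedSectionVars false

noncomputable section

namespace Crest.Agent.R109

open Filter Topology
open scoped ComplexOrder ComplexConjugate Classical

universe u

variable {𝓜 : Type u} [CStarAlgebra 𝓜] [PartialOrder 𝓜] [StarOrderedRing 𝓜]

namespace WS

variable (W : WS 𝓜)

theorem norm_part_pinch_le (P : Part W.A) (y : 𝓜) : ‖P.pinch y‖ ≤ ‖y‖ := by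
  rw [P.pinch_eq]
  exact P.paving.norm_pinch_le y

theorem E_wlim (y : 𝓜) : W.WLim (W.U : Filter (Part W.A)) (fun P => P.pinch y) (W.E y) := by
  exact Classical.epsilon_spec (W.exists_wlim W.U (fun P => P.pinch y)
    (Eventually.of_forall fun P => W.norm_part_pinch_le P y))

theorem E_mem (y : 𝓜) : W.E y ∈ W.A := by
  refine W.mem_of_commute_proj fun e he hp => (W.E_wlim y).intertwine ?_
  filter_upwards [W.U_resp he hp] with P hP
  unfold Part.pinch
  rw [Finset.mul_sum, Finset.sum_mul]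
  refine Finset.sum_congr rfl fun b hb => ?_
  have h1 : e * b = b * e := W.comm e he b (P.mem hb)
  rw [← mul_assoc, ← mul_assoc, h1, mul_assoc (b * y) b e]
  rcases hP b hb with h | h <;> simp [h]

theorem E_add (y y' : 𝓜) : W.E (y + y') = W.E y + W.E y' := by
  refine (W.E_wlim _).unique (((W.E_wlim y).add (W.E_wlim y')).congr'
    (Eventually.of_forall fun P => ?_))
  simp only [Part.pinch_eq, pinch_add]

theorem E_smul (c : ℂ) (y : 𝓜) : W.E (c • y) = c • W.E y := by
  refine (W.E_wlim _).unique (((W.E_wlim y).smul c).congr' (Eventually.of_forall fun P => ?_))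
  simp only [Part.pinch_eq, pinch_smul]

theorem E_real_smul (c : ℝ) (y : 𝓜) : W.E (c • y) = c • W.E y := by
  simpa using W.E_smul (c : ℂ) y

theorem E_zero : W.E 0 = 0 := by
  simpa using W.E_smul 0 0

theorem E_neg (y : 𝓜) : W.E (-y) = -W.E y := by
  simpa using W.E_smul (-1) y

theorem E_sub (y y' : 𝓜) : W.E (y - y') = W.E y - W.E y' := by
  rw [sub_eq_add_neg, W.E_add, W.E_neg, sub_eq_add_neg]

theorem E_sum {α : Type*} (S : Finset α) (y : α → 𝓜) :
    W.E (∑ i ∈ S, y i) = ∑ i ∈ S, W.E (y i) := by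
  induction S using Finset.cons_induction with
  | empty => simpa using W.E_zero
  | cons a S ha ih => rw [Finset.sum_cons, Finset.sum_cons, W.E_add, ih]

theorem E_star (y : 𝓜) : W.E (star y) = star (W.E y) := by
  refine (W.E_wlim _).unique ((W.E_wlim y).star.congr' (Eventually.of_forall fun P => ?_))
  simp only [Part.pinch_eq, P.paving.pinch_star]

theorem E_sa {y : 𝓜} (hy : IsSelfAdjoint y) : IsSelfAdjoint (W.E y) := by
  rw [IsSelfAdjoint, ← W.E_star, hy.star_eq]

theorem E_mul_left {a : 𝓜} (ha : a ∈ W.A) (y : 𝓜) : W.E (a * y) = a * W.E y := by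
  refine (W.E_wlim _).unique (((W.E_wlim y).mul_left a).congr' (Eventually.of_forall fun P => ?_))
  simp only [Part.pinch_eq]
  exact (P.paving.pinch_mul_left (fun i => W.comm _ (P.mem i.2) a ha) y).symm

theorem E_mul_right {a : 𝓜} (ha : a ∈ W.A) (y : 𝓜) : W.E (y * a) = W.E y * a := by
  refine (W.E_wlim _).unique (((W.E_wlim y).mul_right a).congr' (Eventually.of_forall fun P => ?_))
  simp only [Part.pinch_eq]
  exact (P.paving.pinch_mul_right (fun i => W.comm _ (P.mem i.2) a ha) y).symm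

theorem E_of_mem {a : 𝓜} (ha : a ∈ W.A) : W.E a = a := by
  refine (W.E_wlim _).unique ((WLim.const a).congr' (Eventually.of_forall fun P => ?_))
  simp only [Part.pinch_eq]
  exact (P.paving.pinch_of_commute fun i => W.comm _ (P.mem i.2) a ha).symm

theorem E_one : W.E 1 = 1 := W.E_of_mem W.A.one_mem

theorem E_E (y : 𝓜) : W.E (W.E y) = W.E y := W.E_of_mem (W.E_mem y)

theorem E_nonneg {y : 𝓜} (hy : 0 ≤ y) : 0 ≤ W.E y := by
  refine (W.E_wlim y).nonneg (Eventually.of_forall fun P => ?_)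
  rw [P.pinch_eq]
  exact P.paving.pinch_nonneg hy

theorem E_mono {y y' : 𝓜} (h : y ≤ y') : W.E y ≤ W.E y' := by
  rw [← sub_nonneg, ← W.E_sub]
  exact W.E_nonneg (sub_nonneg.2 h)

theorem norm_E_le (y : 𝓜) : ‖W.E y‖ ≤ ‖y‖ := by
  exact (W.E_wlim y).norm_le (Eventually.of_forall fun P => W.norm_part_pinch_le P y)

theorem E_schwarz (y : 𝓜) : star (W.E y) * W.E y ≤ W.E (star y * y) := by
  have h1 := W.E_nonneg (star_mul_self_nonneg (y - W.E y))
  have h2 := W.E_mem y
  have h3 : star (W.E y) ∈ W.A := star_mem h2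
  rw [star_sub, sub_mul, mul_sub, mul_sub, W.E_sub, W.E_sub, W.E_sub, W.E_mul_right h2,
    W.E_mul_left h3, W.E_mul_left h3, W.E_E, W.E_star, sub_self, sub_zero] at h1
  exact sub_nonneg.1 h1

/-- Cauchy-Schwarz for `E`. -/
theorem E_cauchy (a b : 𝓜) :
    star (W.E (star a * b)) * W.E (star a * b) ≤ ‖a‖ ^ 2 • W.E (star b * b) := by
  refine (W.E_schwarz _).trans ?_
  rw [← W.E_real_smul]
  refine W.E_mono ?_
  have h1 := CStarAlgebra.star_left_conjugate_le_norm_smul (a := b) (b := a * star a)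
    (IsSelfAdjoint.mul_star_self a)
  rw [CStarRing.norm_self_mul_star, ← sq] at h1
  simpa only [star_mul, star_star, mul_assoc] using h1

theorem E_pinch {κ : Type*} [Fintype κ] {p : κ → 𝓜} (hp : IsPaving W.A p) (y : 𝓜) :
    W.E (pinch p y) = W.E y := by
  unfold pinch
  rw [W.E_sum]
  have h1 : ∀ i, W.E (p i * y * p i) = p i * W.E y := fun i => by
    rw [W.E_mul_right (hp.1 i).1, W.E_mul_left (hp.1 i).1, mul_assoc,
      W.comm _ (W.E_mem y) _ (hp.1 i).1, ← mul_assoc, (hp.1 i).2.isIdempotentElem.eq]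
  simp only [h1]
  rw [← Finset.sum_mul, hp.2.2, one_mul]

theorem pinch_of_mem {κ : Type*} [Fintype κ] {p : κ → 𝓜} (hp : IsPaving W.A p) {a : 𝓜}
    (ha : a ∈ W.A) : pinch p a = a := by
  exact hp.pinch_of_commute fun i => W.comm _ (hp.1 i).1 a ha

theorem part_pinch_of_mem (P : Part W.A) {a : 𝓜} (ha : a ∈ W.A) : P.pinch a = a := by
  rw [P.pinch_eq]
  exact W.pinch_of_mem P.paving ha

/-- `E` as a positive linear map. -/
def Epos : 𝓜 →ₚ[ℂ] 𝓜 :=
  PositiveLinearMap.mk₀
    { toFun := W.E, map_add' := W.E_add, map_smul' := W.E_smul } (fun _ hy => W.E_nonneg hy)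

theorem Epos_apply (y : 𝓜) : W.Epos y = W.E y := rfl

/-- A normal `A`-central functional factors through `E`. -/
theorem Normal.apply_E {W : WS 𝓜} {φ : 𝓜 →ₚ[ℂ] ℂ} (hφ : W.Normal φ)
    (hc : ∀ a ∈ W.A, ∀ y, φ (a * y) = φ (y * a)) (y : 𝓜) : φ (W.E y) = φ y := by
  have h1 : ∀ P : Part W.A, φ (P.pinch y) = φ y := fun P => by
    have h2 : ∀ b ∈ P.cells, φ (b * y * b) = φ (b * y) := fun b hb => by
      rw [← hc b (P.mem hb), ← mul_assoc, (P.proj hb).isIdempotentElem.eq]
    unfold Part.pinch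
    rw [map_sum, Finset.sum_congr rfl h2, ← map_sum, ← Finset.sum_mul, P.sum_cells, one_mul]
  have h2 := hφ.tendsto W.U (Eventually.of_forall fun P => W.norm_part_pinch_le P y) (W.E_wlim y)
  simp only [h1] at h2
  exact tendsto_nhds_unique h2 tendsto_const_nhds

end WS

end Crest.Agent.R109
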