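import Crest.Agent.R109.WDefs

/-! Row 109, task C0: positive functionals, pavings, elementary operator inequalities. -/

set_option autoImplicit false
set_option linter.unusedSectionVars false

noncomputable section

namespace Crest.Agent.R109

open Filter Topology
open scoped ComplexOrder ComplexConjugate Classical

universe u

variable {𝓜 : Type u} [CStarAlgebra 𝓜] [PartialOrder 𝓜] [StarOrderedRing 𝓜]

section Functional

variable (φ : 𝓜 →ₚ[ℂ] ℂ)

theorem WFun.n2_eq (y : 𝓜) : n2 φ y = ‖φ.toPreGNS y‖ := rfl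

theorem WFun.cs (a b : 𝓜) : ‖φ (star a * b)‖ ≤ n2 φ a * n2 φ b :=
  norm_inner_le_norm (𝕜 := ℂ) (φ.toPreGNS a) (φ.toPreGNS b)

theorem WFun.mul_le (a b : 𝓜) : n2 φ (a * b) ≤ ‖a‖ * n2 φ b :=
  (φ.leftMulMapPreGNS a).le_of_opNorm_le (LinearMap.mkContinuous_norm_le _ (norm_nonneg a) _)
    (φ.toPreGNS b)

theorem WFun.n2_one : n2 φ 1 = Real.sqrt (φ 1).re := by simp [n2]

theorem pos_star (y : 𝓜) : φ (star y) = conj (φ y) := by
  exact map_star φ y

theorem pos_im {y : 𝓜} (hy : IsSelfAdjoint y) : (φ y).im = 0 := by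
  have h := pos_star φ y
  rw [hy.star_eq] at h
  exact Complex.conj_eq_iff_im.1 h.symm

theorem pos_re_nonneg {y : 𝓜} (hy : 0 ≤ y) : 0 ≤ (φ y).re := by
  exact (φ.map_nonneg hy).1

theorem pos_re_mono {y y' : 𝓜} (h : y ≤ y') : (φ y).re ≤ (φ y').re := by
  exact (OrderHomClass.mono φ h).1

theorem pos_eq_zero_of_re {y : 𝓜} (hy : 0 ≤ y) (h : (φ y).re ≤ 0) : φ y = 0 := by
  exact Complex.ext (h.antisymm (pos_re_nonneg φ hy)) (pos_im φ hy.isSelfAdjoint)

theorem pos_real_smul (c : ℝ) (y : 𝓜) : φ (c • y) = c * φ y := by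
  rw [← Complex.coe_smul, map_smul, smul_eq_mul]

theorem pos_norm_le (y : 𝓜) : ‖φ y‖ ≤ ‖y‖ * (φ 1).re := by
  have h1 := WFun.cs φ 1 y
  have h2 := WFun.mul_le φ y 1
  rw [star_one, one_mul, WFun.n2_one] at h1
  rw [mul_one, WFun.n2_one] at h2
  refine h1.trans ((mul_le_mul_of_nonneg_left h2 (Real.sqrt_nonneg _)).trans_eq ?_)
  rw [mul_left_comm, Real.mul_self_sqrt (pos_re_nonneg φ zero_le_one)]

theorem pos_continuous : Continuous φ := by
  exact map_continuous φ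

theorem n2_nonneg (y : 𝓜) : 0 ≤ n2 φ y := Real.sqrt_nonneg _

theorem n2_sq (y : 𝓜) : n2 φ y ^ 2 = (φ (star y * y)).re := by
  exact Real.sq_sqrt (pos_re_nonneg φ (star_mul_self_nonneg y))

theorem cauchy_schwarz (a b : 𝓜) : ‖φ (star a * b)‖ ≤ n2 φ a * n2 φ b := by
  exact WFun.cs φ a b

theorem n2_zero : n2 φ 0 = 0 := by
  simp [n2]

theorem n2_add_le (a b : 𝓜) : n2 φ (a + b) ≤ n2 φ a + n2 φ b := by
  exact norm_add_le (φ.toPreGNS a) (φ.toPreGNS b)

theorem n2_neg (a : 𝓜) : n2 φ (-a) = n2 φ a := by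
  simp [n2]

theorem n2_sub_le (a b : 𝓜) : n2 φ (a - b) ≤ n2 φ a + n2 φ b := by
  exact norm_sub_le (φ.toPreGNS a) (φ.toPreGNS b)

theorem n2_sub_comm (a b : 𝓜) : n2 φ (a - b) = n2 φ (b - a) := by
  exact norm_sub_rev (φ.toPreGNS a) (φ.toPreGNS b)

theorem n2_triangle (a b c : 𝓜) : n2 φ (a - c) ≤ n2 φ (a - b) + n2 φ (b - c) := by
  simpa using n2_add_le φ (a - b) (b - c)

theorem n2_smul (c : ℂ) (a : 𝓜) : n2 φ (c • a) = ‖c‖ * n2 φ a := by
  exact norm_smul c (φ.toPreGNS a)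

theorem n2_real_smul (c : ℝ) (a : 𝓜) : n2 φ (c • a) = |c| * n2 φ a := by
  rw [← Complex.coe_smul, n2_smul, Complex.norm_real, Real.norm_eq_abs]

theorem n2_sum_le {α : Type*} (S : Finset α) (y : α → 𝓜) :
    n2 φ (∑ i ∈ S, y i) ≤ ∑ i ∈ S, n2 φ (y i) := by
  rw [WFun.n2_eq, map_sum]
  exact norm_sum_le _ _

theorem n2_mul_le (a b : 𝓜) : n2 φ (a * b) ≤ ‖a‖ * n2 φ b := by
  exact WFun.mul_le φ a b

theorem n2_le_norm (y : 𝓜) : n2 φ y ≤ ‖y‖ * Real.sqrt (φ 1).re := by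
  simpa [WFun.n2_one] using n2_mul_le φ y 1

theorem n2_parallelogram (a b : 𝓜) :
    n2 φ (a + b) ^ 2 + n2 φ (a - b) ^ 2 = 2 * n2 φ a ^ 2 + 2 * n2 φ b ^ 2 := by
  have h := parallelogram_law_with_norm ℂ (φ.toPreGNS a) (φ.toPreGNS b)
  rw [← map_add, ← map_sub] at h
  simp only [WFun.n2_eq]
  linarith

theorem n2_add_sq (a b : 𝓜) :
    n2 φ (a + b) ^ 2 = n2 φ a ^ 2 + 2 * (φ (star a * b)).re + n2 φ b ^ 2 := by
  exact norm_add_sq (𝕜 := ℂ) (φ.toPreGNS a) (φ.toPreGNS b)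

theorem n2_proj {e : 𝓜} (he : IsStarProjection e) : n2 φ e = Real.sqrt (φ e).re := by
  rw [n2, he.isSelfAdjoint.star_eq, he.isIdempotentElem.eq]

theorem n2_conjF (z y : 𝓜) : n2 (conjF φ z) y = n2 φ (y * z) := by
  simp only [n2, conjF_apply, star_mul, mul_assoc]

theorem n2_le_add_left (ψ : 𝓜 →ₚ[ℂ] ℂ) (y : 𝓜) : n2 φ y ≤ n2 (φ + ψ) y := by
  refine Real.sqrt_le_sqrt ?_
  rw [PositiveLinearMap.add_apply, Complex.add_re]
  exact le_add_of_nonneg_right (pos_re_nonneg ψ (star_mul_self_nonneg y))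

theorem n2_le_add_right (ψ : 𝓜 →ₚ[ℂ] ℂ) (y : 𝓜) : n2 ψ y ≤ n2 (φ + ψ) y := by
  refine Real.sqrt_le_sqrt ?_
  rw [PositiveLinearMap.add_apply, Complex.add_re]
  exact le_add_of_nonneg_left (pos_re_nonneg φ (star_mul_self_nonneg y))

theorem continuous_n2 : Continuous (n2 φ) := by
  have := pos_continuous φ
  unfold n2
  fun_prop

end Functional

section Ineq

theorem le_quad {y : 𝓜} (hy : IsSelfAdjoint y) {κ : ℝ} (hκ : 0 < κ) :
    y ≤ κ • (1 : 𝓜) + (4 * κ)⁻¹ • (y * y) := by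
  have h := smul_nonneg (inv_nonneg.2 (by positivity : 0 ≤ 4 * κ))
    (star_mul_self_nonneg (y - (2 * κ) • (1 : 𝓜)))
  refine sub_nonneg.1 (h.trans_eq ?_)
  rw [star_sub, star_smul, star_one, hy.star_eq, star_trivial]
  simp only [sub_mul, mul_sub, smul_mul_assoc, mul_smul_comm, one_mul, mul_one, smul_sub, smul_smul]
  have h1 : (4 * κ)⁻¹ * (2 * κ) = 1 / 2 := by field_simp; norm_num
  have h2 : (4 * κ)⁻¹ * (2 * κ * (2 * κ)) = κ := by field_simp; norm_num
  rw [h1, h2]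
  module

theorem le_pow {y : 𝓜} (hy : IsSelfAdjoint y) {ε : ℝ} (hε : 0 < ε) {k : ℕ} (hk : 1 ≤ k) :
    y ≤ ε • (1 : 𝓜) + (ε / ε ^ (2 * k)) • y ^ (2 * k) := by
  have h : cfc (fun t : ℝ => t) y ≤ cfc (fun t : ℝ => ε + ε / ε ^ (2 * k) * t ^ (2 * k)) y := by
    refine cfc_mono fun t _ => ?_
    have h0 : 0 ≤ t ^ (2 * k) := by rw [pow_mul]; positivity
    rcases le_total t ε with h | h
    · exact h.trans (le_add_of_nonneg_right (by positivity))
    · have h1 : 1 ≤ t / ε := (one_le_div hε).2 h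
      have h2 : t / ε ≤ (t / ε) ^ (2 * k) := le_self_pow₀ h1 (by omega)
      rw [div_le_iff₀ hε, div_pow] at h2
      have h3 : ε / ε ^ (2 * k) * t ^ (2 * k) = t ^ (2 * k) / ε ^ (2 * k) * ε := by ring
      linarith
  rwa [cfc_id' ℝ y, cfc_const_add ε _ y, cfc_const_mul _ _ y, cfc_pow_id y (2 * k),
    Algebra.algebraMap_eq_smul_one] at h

theorem norm_le_of_le_of_neg_le {y : 𝓜} (hy : IsSelfAdjoint y) {c : ℝ} (hc : 0 ≤ c)
    (h1 : y ≤ c • (1 : 𝓜)) (h2 : -y ≤ c • (1 : 𝓜)) : ‖y‖ ≤ c := by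
  rw [← Algebra.algebraMap_eq_smul_one] at h1 h2
  rw [neg_le, ← map_neg, algebraMap_le_iff_le_spectrum hy] at h2
  rw [le_algebraMap_iff_spectrum_le hy] at h1
  rw [← cfc_id' ℝ y]
  exact norm_cfc_le hc fun t ht => abs_le.2 ⟨h2 t ht, h1 t ht⟩

theorem le_norm_smul_one {y : 𝓜} (hy : IsSelfAdjoint y) : y ≤ ‖y‖ • (1 : 𝓜) := by
  rw [← Algebra.algebraMap_eq_smul_one]
  exact hy.le_algebraMap_norm_self

theorem WFun.proj_sum {κ : Type*} (S : Finset κ) (e : κ → 𝓜)
    (he : ∀ i ∈ S, IsStarProjection (e i)) (hee : ∀ i ∈ S, ∀ j ∈ S, i ≠ j → e i * e j = 0) :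
    IsStarProjection (∑ i ∈ S, e i) := by
  refine ⟨?_, isSelfAdjoint_sum S fun i hi => (he i hi).isSelfAdjoint⟩
  rw [IsIdempotentElem, Finset.sum_mul_sum]
  refine Finset.sum_congr rfl fun i hi => ?_
  rw [Finset.sum_eq_single_of_mem i hi fun j hj hji => hee i hi j hj hji.symm,
    (he i hi).isIdempotentElem.eq]

/-- Block diagonal sums. -/
theorem norm_sum_blocks_le {κ : Type*} (S : Finset κ) (e f y : κ → 𝓜)
    (he : ∀ i ∈ S, IsStarProjection (e i)) (hf : ∀ i ∈ S, IsStarProjection (f i))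
    (hee : ∀ i ∈ S, ∀ j ∈ S, i ≠ j → e i * e j = 0)
    (hff : ∀ i ∈ S, ∀ j ∈ S, i ≠ j → f i * f j = 0) {c : ℝ} (hc : 0 ≤ c)
    (hy : ∀ i ∈ S, ‖e i * y i * f i‖ ≤ c) : ‖∑ i ∈ S, e i * y i * f i‖ ≤ c := by
  have h1 : star (∑ i ∈ S, e i * y i * f i) * ∑ i ∈ S, e i * y i * f i =
      ∑ i ∈ S, star (e i * y i * f i) * (e i * y i * f i) := by
    rw [star_sum, Finset.sum_mul_sum]
    refine Finset.sum_congr rfl fun i hi => Finset.sum_eq_single_of_mem i hi fun j hj hji => ?_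
    simp only [star_mul, (he i hi).isSelfAdjoint.star_eq, mul_assoc]
    rw [← mul_assoc (e i), hee i hi j hj hji.symm]
    simp
  have h2 : ∀ i ∈ S, star (e i * y i * f i) * (e i * y i * f i) ≤ c ^ 2 • f i := fun i hi => by
    set b := e i * y i * f i with hb
    have e1 : b * f i = b := by rw [hb, mul_assoc _ (f i), (hf i hi).isIdempotentElem.eq]
    have e2 := CStarAlgebra.star_left_conjugate_le_norm_smul (a := f i) (b := star b * b)
      (IsSelfAdjoint.star_mul_self b)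
    rw [← mul_assoc, ← star_mul, mul_assoc, e1, (hf i hi).isSelfAdjoint.star_eq,
      (hf i hi).isIdempotentElem.eq, CStarRing.norm_star_mul_self] at e2
    exact e2.trans (smul_le_smul_of_nonneg_right (by nlinarith [hy i hi, norm_nonneg b])
      (hf i hi).nonneg)
  have h3 : star (∑ i ∈ S, e i * y i * f i) * ∑ i ∈ S, e i * y i * f i ≤
      algebraMap ℝ 𝓜 (c ^ 2) := by
    rw [h1, Algebra.algebraMap_eq_smul_one]
    refine (Finset.sum_le_sum h2).trans ?_
    rw [← Finset.smul_sum]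
    exact smul_le_smul_of_nonneg_left (WFun.proj_sum S f hf hff).le_one (sq_nonneg c)
  rw [← CStarAlgebra.norm_le_iff_le_algebraMap _ (sq_nonneg c) (star_mul_self_nonneg _),
    CStarRing.norm_star_mul_self, ← sq] at h3
  exact (pow_le_pow_iff_left₀ (norm_nonneg _) hc two_ne_zero).1 h3

theorem isStarProjection_sum {κ : Type*} (S : Finset κ) (e : κ → 𝓜)
    (he : ∀ i ∈ S, IsStarProjection (e i)) (hee : ∀ i ∈ S, ∀ j ∈ S, i ≠ j → e i * e j = 0) :
    IsStarProjection (∑ i ∈ S, e i) := by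
  exact WFun.proj_sum S e he hee

theorem norm_proj_mul_proj {p q : 𝓜} (hp : IsStarProjection p) (hq : IsStarProjection q) :
    ‖p * q * p‖ = ‖q * p * q‖ := by
  have key : ∀ {p q : 𝓜}, IsStarProjection p → IsStarProjection q →
      ‖p * q * p‖ = ‖q * p‖ * ‖q * p‖ := fun {p q} hp hq => by
    rw [← CStarRing.norm_star_mul_self, star_mul, hp.isSelfAdjoint.star_eq,
      hq.isSelfAdjoint.star_eq, mul_assoc p q (q * p), ← mul_assoc q, hq.isIdempotentElem.eq,
      mul_assoc]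
  rw [key hp hq, key hq hp, ← norm_star (q * p), star_mul, hp.isSelfAdjoint.star_eq,
    hq.isSelfAdjoint.star_eq]

theorem WFun.conj_eq {b e : 𝓜} (he : IsStarProjection e) (h : Commute b e) : e * b * e = b * e := by
  rw [← h.eq, mul_assoc, he.isIdempotentElem.eq]

theorem WS.IsSP.smul_le {b e : 𝓜} {c : ℝ} (h : WS.IsSP b c e) (hb : 0 ≤ b) : c • e ≤ b := by
  refine h.2.2.1.trans (sub_nonneg.1 ?_)
  have h1 := h.1.one_sub.isSelfAdjoint.conjugate_nonneg hb
  rwa [WFun.conj_eq h.1.one_sub ((Commute.one_right b).sub_right (h.2.1 b (Commute.refl b))),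
    mul_one_sub] at h1

theorem WS.IsSP.commute {b e : 𝓜} {c : ℝ} (h : WS.IsSP b c e) : Commute b e :=
  h.2.1 b (Commute.refl b)

theorem WS.IsSP.conj_le {b e : 𝓜} {c : ℝ} (h : WS.IsSP b c e) :
    (1 - e) * b * (1 - e) ≤ c • (1 - e) := by
  rw [WFun.conj_eq h.1.one_sub ((Commute.one_right b).sub_right h.commute)]
  exact h.2.2.2

theorem WS.IsSP.le_conj {b e : 𝓜} {c : ℝ} (h : WS.IsSP b c e) : c • e ≤ e * b * e := by
  rw [WFun.conj_eq h.1 h.commute]
  exact h.2.2.1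

end Ineq

section Paving

variable {κ : Type*} [Fintype κ] {A : StarSubalgebra ℂ 𝓜} {p : κ → 𝓜}

theorem pinch_add (p : κ → 𝓜) (y y' : 𝓜) : pinch p (y + y') = pinch p y + pinch p y' := by
  simp only [pinch, mul_add, add_mul, Finset.sum_add_distrib]

theorem pinch_sub (p : κ → 𝓜) (y y' : 𝓜) : pinch p (y - y') = pinch p y - pinch p y' := by
  simp only [pinch, mul_sub, sub_mul, Finset.sum_sub_distrib]

theorem pinch_smul (p : κ → 𝓜) (c : ℂ) (y : 𝓜) : pinch p (c • y) = c • pinch p y := by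
  simp only [pinch, mul_smul_comm, smul_mul_assoc, Finset.smul_sum]

theorem pinch_real_smul (p : κ → 𝓜) (c : ℝ) (y : 𝓜) : pinch p (c • y) = c • pinch p y := by
  simp only [pinch, mul_smul_comm, smul_mul_assoc, Finset.smul_sum]

theorem IsPaving.pinch_star (hp : IsPaving A p) (y : 𝓜) :
    star (pinch p y) = pinch p (star y) := by
  rw [pinch, pinch, star_sum]
  exact Finset.sum_congr rfl fun i _ => by
    rw [star_mul, star_mul, (hp.1 i).2.isSelfAdjoint.star_eq, mul_assoc]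

theorem IsPaving.pinch_sa (hp : IsPaving A p) {y : 𝓜} (hy : IsSelfAdjoint y) :
    IsSelfAdjoint (pinch p y) := by
  rw [IsSelfAdjoint, hp.pinch_star, hy.star_eq]

theorem IsPaving.pinch_nonneg (hp : IsPaving A p) {y : 𝓜} (hy : 0 ≤ y) : 0 ≤ pinch p y := by
  exact Finset.sum_nonneg fun i _ => (hp.1 i).2.isSelfAdjoint.conjugate_nonneg hy

theorem IsPaving.norm_pinch_le_of (hp : IsPaving A p) {y : 𝓜} {c : ℝ} (hc : 0 ≤ c)
    (h : ∀ i, ‖p i * y * p i‖ ≤ c) : ‖pinch p y‖ ≤ c := by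
  exact norm_sum_blocks_le Finset.univ p p (fun _ => y) (fun i _ => (hp.1 i).2)
    (fun i _ => (hp.1 i).2) (fun i _ j _ => hp.2.1 i j) (fun i _ j _ => hp.2.1 i j) hc
    fun i _ => h i

theorem IsPaving.norm_pinch_le (hp : IsPaving A p) (y : 𝓜) : ‖pinch p y‖ ≤ ‖y‖ := by
  refine hp.norm_pinch_le_of (norm_nonneg y) fun i => ?_
  have h := (hp.1 i).2.norm_le
  exact (norm_mul_le _ _).trans ((mul_le_of_le_one_right (norm_nonneg _) h).trans
    ((norm_mul_le _ _).trans (mul_le_of_le_one_left (norm_nonneg _) h)))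

theorem IsPaving.pinch_of_commute (hp : IsPaving A p) {y : 𝓜} (h : ∀ i, p i * y = y * p i) :
    pinch p y = y := by
  have : ∀ i, p i * y * p i = y * p i := fun i => by
    rw [h, mul_assoc, (hp.1 i).2.isIdempotentElem.eq]
  simp only [pinch, this, ← Finset.mul_sum, hp.2.2, mul_one]

theorem IsPaving.mul_pinch (hp : IsPaving A p) (i : κ) (y : 𝓜) :
    p i * pinch p y = p i * y * p i ∧ pinch p y * p i = p i * y * p i := by
  constructor
  · rw [pinch, Finset.mul_sum, Finset.sum_eq_single i (fun j _ hj => by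
      rw [← mul_assoc, ← mul_assoc, hp.2.1 i j hj.symm, zero_mul, zero_mul]) (by simp),
      ← mul_assoc, ← mul_assoc, (hp.1 i).2.isIdempotentElem.eq]
  · rw [pinch, Finset.sum_mul, Finset.sum_eq_single i (fun j _ hj => by
      rw [mul_assoc, hp.2.1 j i hj, mul_zero]) (by simp), mul_assoc,
      (hp.1 i).2.isIdempotentElem.eq]

theorem IsPaving.pinch_pinch (hp : IsPaving A p) (y : 𝓜) : pinch p (pinch p y) = pinch p y := by
  exact hp.pinch_of_commute fun i => (hp.mul_pinch i y).1.trans (hp.mul_pinch i y).2.symm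

theorem IsPaving.pinch_mul_left (hp : IsPaving A p) {a : 𝓜} (h : ∀ i, p i * a = a * p i)
    (y : 𝓜) : pinch p (a * y) = a * pinch p y := by
  rw [pinch, pinch, Finset.mul_sum]
  exact Finset.sum_congr rfl fun i _ => by rw [← mul_assoc, h, mul_assoc a, mul_assoc a]

theorem IsPaving.pinch_mul_right (hp : IsPaving A p) {a : 𝓜} (h : ∀ i, p i * a = a * p i)
    (y : 𝓜) : pinch p (y * a) = pinch p y * a := by
  rw [pinch, pinch, Finset.sum_mul]
  exact Finset.sum_congr rfl fun i _ => by simp only [mul_assoc, h]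

theorem IsPaving.pinch_schwarz (hp : IsPaving A p) (y : 𝓜) :
    star (pinch p y) * pinch p y ≤ pinch p (star y * y) := by
  conv_lhs => rw [pinch, star_sum, Finset.sum_mul]
  refine Finset.sum_le_sum fun i _ => ?_
  have h := star_left_conjugate_le_conjugate (hp.1 i).2.le_one (y * p i)
  have hs := (hp.1 i).2.isSelfAdjoint.star_eq
  rw [mul_assoc (p i) y, star_mul (p i), hs, mul_assoc, ← pinch, (hp.mul_pinch i y).1,
    mul_assoc (p i) y, ← mul_assoc]
  refine h.trans_eq ?_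
  simp only [star_mul, hs, mul_assoc, one_mul]

/-- Merging the cells of a paving along a colouring. -/
theorem IsPaving.colour (hp : IsPaving A p) {κ' : Type*} [Fintype κ'] [DecidableEq κ']
    (c : κ → κ') : IsPaving A (fun l => ∑ a with c a = l, p a) := by
  refine ⟨fun l => ⟨sum_mem fun a _ => (hp.1 a).1, isStarProjection_sum _ _
    (fun a _ => (hp.1 a).2) fun a _ b _ => hp.2.1 a b⟩, fun l l' h => ?_, ?_⟩
  · rw [Finset.sum_mul_sum]
    refine Finset.sum_eq_zero fun a ha => Finset.sum_eq_zero fun b hb => hp.2.1 a b ?_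
    rintro rfl
    exact h ((Finset.mem_filter.1 ha).2.symm.trans (Finset.mem_filter.1 hb).2)
  · rw [Finset.sum_fiberwise, hp.2.2]

theorem IsPaving.sel_mem (hp : IsPaving A p) {r' : ℕ} (j pos : κ → Fin r') :
    sel p j pos ∈ A ∧ IsStarProjection (sel p j pos) := by
  exact ⟨sum_mem fun a _ => (hp.1 a).1, isStarProjection_sum _ _
    (fun a _ => (hp.1 a).2) fun a _ b _ => hp.2.1 a b⟩

theorem IsPaving.comp_equiv (hp : IsPaving A p) {κ' : Type*} [Fintype κ'] (e : κ' ≃ κ) :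
    IsPaving A (fun i => p (e i)) := by
  exact ⟨fun i => hp.1 _, fun i j h => hp.2.1 _ _ (e.injective.ne h),
    (Equiv.sum_comp e p).trans hp.2.2⟩

theorem pinch_comp_equiv (p : κ → 𝓜) {κ' : Type*} [Fintype κ'] (e : κ' ≃ κ) (y : 𝓜) :
    pinch (fun i => p (e i)) y = pinch p y := by
  exact Equiv.sum_comp e fun i => p i * y * p i

theorem Part.pinch_eq (P : Part A) (y : 𝓜) :
    P.pinch y = R109.pinch (fun e : P.cells => (e : 𝓜)) y := by
  exact (Finset.sum_coe_sort P.cells fun b => b * y * b).symm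

theorem Part.mem (P : Part A) {e : 𝓜} (he : e ∈ P.cells) : e ∈ A := (P.paving.1 ⟨e, he⟩).1

theorem Part.proj (P : Part A) {e : 𝓜} (he : e ∈ P.cells) : IsStarProjection e :=
  (P.paving.1 ⟨e, he⟩).2

theorem Part.orth (P : Part A) {e e' : 𝓜} (he : e ∈ P.cells) (he' : e' ∈ P.cells)
    (h : e ≠ e') : e * e' = 0 :=
  P.paving.2.1 ⟨e, he⟩ ⟨e', he'⟩ (fun h' => h (congrArg Subtype.val h'))

theorem Part.sum_cells (P : Part A) : ∑ e ∈ P.cells, e = 1 := by
  exact (Finset.sum_coe_sort P.cells fun b => b).symm.trans P.paving.2.2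

/-- A paving gives a partition with the same nonzero cells. -/
theorem IsPaving.exists_part (hp : IsPaving A p) :
    ∃ P : Part A, (∀ e, e ∈ P.cells ↔ e ≠ 0 ∧ ∃ i, p i = e) ∧ ∀ y, P.pinch y = pinch p y := by
  have inj : Set.InjOn p (Finset.univ.filter fun i => p i ≠ 0 : Finset κ) := fun i hi j _ h => by
    by_contra hij
    have h1 := hp.2.1 i j hij
    rw [← h, (hp.1 i).2.isIdempotentElem.eq] at h1
    exact (Finset.mem_filter.1 (Finset.mem_coe.1 hi)).2 h1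
  have key : ∀ F : 𝓜 → 𝓜, F 0 = 0 →
      ∑ e ∈ (Finset.univ.filter fun i => p i ≠ 0).image p, F e = ∑ i, F (p i) := fun F hF => by
    rw [Finset.sum_image inj, Finset.sum_filter_of_ne]
    intro i _ h h0
    exact h (by rw [h0, hF])
  refine ⟨⟨(Finset.univ.filter fun i => p i ≠ 0).image p, ?_, ?_, ?_⟩, fun e => ?_,
    fun y => key (fun b => b * y * b) (by simp)⟩
  · rintro ⟨e, he⟩
    obtain ⟨i, -, rfl⟩ := Finset.mem_image.1 he
    exact hp.1 i
  · rintro ⟨e, he⟩ ⟨e', he'⟩ h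
    obtain ⟨i, -, rfl⟩ := Finset.mem_image.1 he
    obtain ⟨j, -, rfl⟩ := Finset.mem_image.1 he'
    exact hp.2.1 i j fun hij => h (by subst hij; rfl)
  · rw [Finset.sum_coe_sort _ fun b => b, key (fun b => b) rfl, hp.2.2]
  · simp only [Finset.mem_image, Finset.mem_filter, Finset.mem_univ, true_and]
    exact ⟨fun ⟨i, h1, h2⟩ => ⟨h2 ▸ h1, i, h2⟩, fun ⟨h1, i, h2⟩ => ⟨i, h2 ▸ h1, h2⟩⟩

theorem Part.Resp.eq_sum {P : Part A} {e : 𝓜} (h : P.Resp e) :
    e = ∑ b ∈ P.cells with b * e = b, b := by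
  conv_lhs => rw [← one_mul e, ← P.sum_cells, Finset.sum_mul]
  rw [Finset.sum_filter]
  refine Finset.sum_congr rfl fun b hb => ?_
  split_ifs with h1
  · exact h1
  · exact (h b hb).resolve_left h1

/-- A nonzero element subordinate to a partition lies under one cell. -/
theorem Part.exists_cell (P : Part A) {b : 𝓜} (h : ∀ e ∈ P.cells, b * e = b ∨ b * e = 0) :
    b = 0 ∨ ∃ e ∈ P.cells, b * e = b := by
  by_contra hc
  push Not at hc
  refine hc.1 ?_
  rw [← mul_one b, ← P.sum_cells, Finset.mul_sum]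
  exact Finset.sum_eq_zero fun e he => (h e he).resolve_left (hc.2 e he)

theorem Part.pinch_refine {P P₀ : Part A} (h : ∀ e ∈ P₀.cells, P.Resp e) (y : 𝓜) :
    P.pinch (P₀.pinch y) = P.pinch y := by
  refine Finset.sum_congr rfl fun b hb => ?_
  rcases P₀.exists_cell (b := b) fun e he => h e he b hb with rfl | ⟨e, he, h1⟩
  · simp
  have h2 : e * b = b := by
    simpa [(P.proj hb).isSelfAdjoint.star_eq, (P₀.proj he).isSelfAdjoint.star_eq]
      using congrArg star h1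
  have h3 := (P₀.paving.mul_pinch ⟨e, he⟩ y).1
  rw [← Part.pinch_eq] at h3
  conv_lhs => rw [← h1, mul_assoc b e, h3]
  rw [h1, ← mul_assoc, ← mul_assoc, h1, mul_assoc _ e, h2]

end Paving

section Avg

variable {Ξ : Type*} [Fintype Ξ]

theorem exists_le_avg [Nonempty Ξ] (f : Ξ → ℝ) : ∃ ξ, f ξ ≤ avg f := by
  obtain ⟨ξ, -, h⟩ := Finset.exists_le_of_sum_le (s := Finset.univ) (f := f)
    (g := fun _ => avg f) Finset.univ_nonempty (by
      have : (Fintype.card Ξ : ℝ) ≠ 0 := by simp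
      rw [Finset.sum_const, Finset.card_univ, nsmul_eq_mul, avg, mul_div_cancel₀ _ this])
  exact ⟨ξ, h⟩

theorem avg_mono {f g : Ξ → ℝ} (h : ∀ ξ, f ξ ≤ g ξ) : avg f ≤ avg g := by
  exact div_le_div_of_nonneg_right (Finset.sum_le_sum fun ξ _ => h ξ) (Nat.cast_nonneg _)

theorem avg_const [Nonempty Ξ] (c : ℝ) : avg (fun _ : Ξ => c) = c := by
  simp [avg]

theorem avg_add (f g : Ξ → ℝ) : avg (fun ξ => f ξ + g ξ) = avg f + avg g := by
  rw [avg, avg, avg, Finset.sum_add_distrib, add_div]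

theorem avg_const_mul (c : ℝ) (f : Ξ → ℝ) : avg (fun ξ => c * f ξ) = c * avg f := by
  rw [avg, avg, ← Finset.mul_sum, mul_div_assoc]

theorem avg_sum {α : Type*} (S : Finset α) (f : α → Ξ → ℝ) :
    avg (fun ξ => ∑ i ∈ S, f i ξ) = ∑ i ∈ S, avg (f i) := by
  simp only [avg, ← Finset.sum_div, Finset.sum_comm (s := S)]

theorem avg_equiv {Ξ' : Type*} [Fintype Ξ'] (e : Ξ' ≃ Ξ) (f : Ξ → ℝ) :
    avg (fun ξ => f (e ξ)) = avg f := by
  rw [avg, avg, Equiv.sum_comp e f, Fintype.card_congr e]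

theorem avg_prod {Ξ' : Type*} [Fintype Ξ'] (f : Ξ × Ξ' → ℝ) :
    avg f = avg (fun ξ => avg (fun ξ' => f (ξ, ξ'))) := by
  simp only [avg, ← Finset.sum_div, Fintype.sum_prod_type, Fintype.card_prod, Nat.cast_mul, div_div,
    mul_comm]

theorem avg_eval {κ β : Type*} [Fintype κ] [DecidableEq κ] [Fintype β] [Nonempty β] (a : κ)
    (f : β → ℝ) : avg (fun pos : κ → β => f (pos a)) = avg f := by
  rw [← avg_equiv (Equiv.funSplitAt a β).symm, avg_prod]
  simp [avg_const]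

end Avg

end Crest.Agent.R109
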