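import Crest.Agent.R109.Corner
import Crest.Agent.R109.Dich
import Crest.Agent.R109.Sing

/-! Row 109, task C4b: the abstract paving theorems. -/

set_option autoImplicit false
set_option linter.unusedSectionVars false

noncomputable section

namespace Crest.Agent.R109

open Filter Topology MeasureTheory
open scoped ComplexOrder ComplexConjugate Classical

universe u

variable {𝓜 : Type u} [CStarAlgebra 𝓜] [PartialOrder 𝓜] [StarOrderedRing 𝓜]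

namespace MainAux

theorem two_blocks {e₁ e₂ : 𝓜} (h₁ : IsStarProjection e₁) (h₂ : IsStarProjection e₂)
    (h : e₁ * e₂ = 0) {y₁ y₂ : 𝓜} {c : ℝ} (n₁ : ‖e₁ * y₁ * e₁‖ ≤ c) (n₂ : ‖e₂ * y₂ * e₂‖ ≤ c) :
    ‖e₁ * y₁ * e₁ + e₂ * y₂ * e₂‖ ≤ c := by
  have h' : e₂ * e₁ = 0 := by
    have := congrArg star h
    rwa [star_mul, h₁.isSelfAdjoint.star_eq, h₂.isSelfAdjoint.star_eq, star_zero] at this
  have hp : ∀ i ∈ (Finset.univ : Finset (Fin 2)), IsStarProjection (![e₁, e₂] i) := by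
    intro i _
    fin_cases i
    · exact h₁
    · exact h₂
  have ho : ∀ i ∈ (Finset.univ : Finset (Fin 2)), ∀ j ∈ (Finset.univ : Finset (Fin 2)), i ≠ j →
      ![e₁, e₂] i * ![e₁, e₂] j = 0 := by
    intro i _ j _ hij
    fin_cases i <;> fin_cases j
    · exact absurd rfl hij
    · exact h
    · exact h'
    · exact absurd rfl hij
  have := norm_sum_blocks_le Finset.univ ![e₁, e₂] ![e₁, e₂] ![y₁, y₂] hp hp ho ho
    ((norm_nonneg _).trans n₁) (by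
      intro i _
      fin_cases i
      · exact n₁
      · exact n₂)
  simpa [Fin.sum_univ_two] using this

theorem swap_eq {a f b : 𝓜} (ha : IsSelfAdjoint a) (hf : IsSelfAdjoint f) (hb : IsSelfAdjoint b)
    (h : a * f = b) : f * a = b := by
  have := congrArg star h
  rwa [star_mul, ha.star_eq, hf.star_eq, hb.star_eq] at this

theorem glue (W : WS 𝓜) {f : 𝓜} (hf : f ∈ W.A) (hfp : IsStarProjection f) {κ₁ κ₂ : Type}
    [Fintype κ₁] [Fintype κ₂] {p₁ : κ₁ → 𝓜} {p₂ : κ₂ → 𝓜} (h₁ : IsPaving W.A p₁)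
    (h₂ : IsPaving W.A p₂) : ∃ p : κ₁ ⊕ κ₂ → 𝓜, IsPaving W.A p ∧
      ∀ y, pinch p y = (1 - f) * pinch p₁ y * (1 - f) + f * pinch p₂ y * f := by
  have hg : 1 - f ∈ W.A := sub_mem W.A.one_mem hf
  have hgp := hfp.one_sub
  have c₁ : ∀ i, p₁ i * (1 - f) = (1 - f) * p₁ i := fun i => W.comm _ (h₁.1 i).1 _ hg
  have c₂ : ∀ i, p₂ i * f = f * p₂ i := fun i => W.comm _ (h₂.1 i).1 _ hf
  refine ⟨Sum.elim (fun i => p₁ i * (1 - f)) (fun i => p₂ i * f), ⟨?_, ?_, ?_⟩, fun y => ?_⟩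
  · rintro (i | i)
    · exact ⟨mul_mem (h₁.1 i).1 hg, W.proj_mul (h₁.1 i).1 hg (h₁.1 i).2 hgp⟩
    · exact ⟨mul_mem (h₂.1 i).1 hf, W.proj_mul (h₂.1 i).1 hf (h₂.1 i).2 hfp⟩
  · rintro (i | i) (j | j) hij <;> simp only [Sum.elim_inl, Sum.elim_inr]
    · rw [c₁ i, mul_assoc, ← mul_assoc (p₁ i), h₁.2.1 i j fun h => hij (congrArg _ h), zero_mul,
        mul_zero]
    · rw [c₂ j, mul_assoc, ← mul_assoc (1 - f), hfp.one_sub_mul_self, zero_mul, mul_zero]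
    · rw [c₁ j, mul_assoc, ← mul_assoc f, hfp.mul_one_sub_self, zero_mul, mul_zero]
    · rw [c₂ i, mul_assoc, ← mul_assoc (p₂ i), h₂.2.1 i j fun h => hij (congrArg _ h), zero_mul,
        mul_zero]
  · simp only [Fintype.sum_sum_type, Sum.elim_inl, Sum.elim_inr, ← Finset.sum_mul, h₁.2.2, h₂.2.2]
    simp
  · simp only [pinch, Fintype.sum_sum_type, Sum.elim_inl, Sum.elim_inr, Finset.mul_sum,
      Finset.sum_mul]
    congr 1
    · refine Finset.sum_congr rfl fun i _ => ?_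
      rw [← mul_assoc, c₁ i]
      simp only [mul_assoc]
    · refine Finset.sum_congr rfl fun i _ => ?_
      rw [← mul_assoc, c₂ i]
      simp only [mul_assoc]

theorem r_pos {ε : ℝ} (hε : 0 < ε) {r : ℕ} (hr : 4 / ε ≤ r) : 0 < r ∧ (1 : ℝ) / r ≤ ε / 4 := by
  have h : (0 : ℝ) < r := lt_of_lt_of_le (by positivity) hr
  refine ⟨by exact_mod_cast h, ?_⟩
  rw [div_le_iff₀ hε] at hr
  rw [div_le_iff₀ h]
  linarith

end MainAux

open MainAux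

namespace WS

variable (W : WS 𝓜)

theorem ws143 {ε : ℝ} (hε : 0 < ε) (hε1 : ε < 1) {r₁ r₂ : ℕ} (hr₁ : 400000000 / ε ^ 2 ≤ r₁)
    (hr₂ : 4 / ε ≤ r₂) {x : 𝓜} (hx : IsSelfAdjoint x) {φ : 𝓜 →ₚ[ℂ] ℂ} (hφ : φ ∈ W.𝓕) {δ : ℝ}
    (hδ : 0 < δ) :
    ∃ p : Fin r₁ ⊕ Fin r₂ → 𝓜, IsPaving W.A p ∧ ∃ a ∈ W.A, IsSelfAdjoint a ∧ ‖a‖ ≤ ‖x‖ ∧
      ∃ q, IsStarProjection q ∧ (φ (1 - q)).re < δ ∧ ‖q * (pinch p x - a) * q‖ ≤ ε * ‖x‖ := by
  obtain ⟨f, hf, hfp, hs, ω, hω⟩ := W.dichotomy hφ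
  obtain ⟨hr, hr'⟩ := r_pos hε hr₂
  obtain ⟨p₁, hp₁, a₁, ha₁, sa₁, na₁, ea₁, q₁, hq₁, eq₁, hφ₁, n₁⟩ :=
    W.corner143 hf hfp hω hε hε1 hr₁ hx hφ (half_pos hδ)
  rcases (norm_nonneg x).eq_or_lt with h0 | h0
  · obtain rfl : x = 0 := norm_eq_zero.1 h0.symm
    obtain ⟨p₂, hp₂, -⟩ := W.sing143 hφ hf hfp hs hr hx (half_pos hδ) one_pos
    obtain ⟨p, hp, -⟩ := glue W hf hfp hp₁ hp₂
    exact ⟨p, hp, 0, W.A.zero_mem, hx, le_rfl, 1, IsStarProjection.one _, by simpa using hδ,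
      by simp [pinch]⟩
  obtain ⟨p₂, hp₂, q₂, hq₂, eq₂, hφ₂, n₂⟩ := W.sing143 hφ hf hfp hs hr hx (half_pos hδ)
    (κ := ε * ‖x‖ / 2) (by positivity)
  obtain ⟨p, hp, hpin⟩ := glue W hf hfp hp₁ hp₂
  have hE := W.E_mem x
  have hff := hfp.isIdempotentElem.eq
  have eq₁' := swap_eq hq₁.isSelfAdjoint hfp.isSelfAdjoint (IsSelfAdjoint.zero _) eq₁
  have eq₂' := swap_eq hq₂.isSelfAdjoint hfp.isSelfAdjoint hq₂.isSelfAdjoint eq₂
  have ea₁' := swap_eq sa₁ hfp.isSelfAdjoint (IsSelfAdjoint.zero _) ea₁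
  have h12 : q₁ * q₂ = 0 := by rw [← eq₂', ← mul_assoc, eq₁, zero_mul]
  have ea : (1 - f) * a₁ * (1 - f) = a₁ := by
    simp [sub_mul, mul_sub, ea₁, ea₁']
  have ht0 : (0 : ℝ) ≤ 1 / r₂ := by positivity
  have hb : (1 - 1 / r₂ : ℝ) • W.E x ∈ W.A := by
    rw [← Complex.coe_smul]
    exact W.A.smul_mem hE _
  have sb : IsSelfAdjoint ((1 - 1 / r₂ : ℝ) • W.E x) := (IsSelfAdjoint.all _).smul (W.E_sa hx)
  have nb : ‖(1 - 1 / r₂ : ℝ) • W.E x‖ ≤ ‖x‖ := by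
    rw [norm_smul, Real.norm_of_nonneg (by linarith)]
    nlinarith [W.norm_E_le x, norm_nonneg (W.E x)]
  set b := (1 - 1 / r₂ : ℝ) • W.E x
  refine ⟨p, hp, (1 - f) * a₁ * (1 - f) + f * b * f, ?_, ?_, ?_, q₁ + q₂, hq₁.add hq₂ h12, ?_, ?_⟩
  · rw [ea]
    exact W.A.add_mem ha₁ (mul_mem (mul_mem hf hb) hf)
  · rw [ea]
    exact sa₁.add (sb.conjugate_self hfp.isSelfAdjoint)
  · refine two_blocks hfp.one_sub hfp hfp.one_sub_mul_self (by rwa [ea]) ?_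
    refine (norm_mul_le _ _).trans ((mul_le_of_le_one_right (norm_nonneg _) hfp.norm_le).trans ?_)
    exact (norm_mul_le _ _).trans ((mul_le_of_le_one_left (norm_nonneg _) hfp.norm_le).trans nb)
  · rw [show 1 - (q₁ + q₂) = (1 - f - q₁) + (f - q₂) by abel, map_add, Complex.add_re]
    linarith
  · have k1 : (q₁ + q₂) * (1 - f) = q₁ := by simp [add_mul, mul_sub, eq₁, eq₂]
    have k2 : (1 - f) * (q₁ + q₂) = q₁ := by simp [mul_add, sub_mul, eq₁', eq₂']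
    have k3 : (q₁ + q₂) * f = q₂ := by simp [add_mul, eq₁, eq₂]
    have k4 : f * (q₁ + q₂) = q₂ := by simp [mul_add, eq₁', eq₂']
    have e : (q₁ + q₂) * (pinch p x - ((1 - f) * a₁ * (1 - f) + f * b * f)) * (q₁ + q₂) =
        q₁ * (pinch p₁ x - a₁) * q₁ + q₂ * (pinch p₂ x - b) * q₂ := by
      calc _ = ((q₁ + q₂) * (1 - f)) * (pinch p₁ x - a₁) * ((1 - f) * (q₁ + q₂)) +
            ((q₁ + q₂) * f) * (pinch p₂ x - b) * (f * (q₁ + q₂)) := by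
            rw [hpin]; noncomm_ring
        _ = _ := by rw [k1, k2, k3, k4]
    rw [e]
    refine two_blocks hq₁ hq₂ h12 n₁ (n₂.trans ?_)
    have := mul_le_mul_of_nonneg_left hr' h0.le
    rw [mul_one_div] at this
    nlinarith [mul_pos hε h0]

theorem ws144 {ε : ℝ} (hε : 0 < ε) (hε1 : ε < 1) {r₁ r₂ : ℕ} (hr₁ : 400000000 / ε ^ 2 ≤ r₁)
    (hr₂ : 4 / ε ≤ r₂) {x : 𝓜} (hx : IsSelfAdjoint x) {φ : 𝓜 →ₚ[ℂ] ℂ} (hφ : φ ∈ W.𝓕) {δ : ℝ}
    (hδ : 0 < δ) :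
    ∃ y, IsSelfAdjoint y ∧ ‖y‖ ≤ 3 * ‖x‖ ∧ n2 φ (y - x) < δ ∧
      ∃ p : Fin r₁ ⊕ Fin r₂ → 𝓜, IsPaving W.A p ∧ ∃ a ∈ W.A, IsSelfAdjoint a ∧ ‖a‖ ≤ ‖x‖ ∧
        ‖pinch p y - a‖ ≤ 3 * ε * ‖x‖ := by
  have hφ' := W.add_mem _ hφ _ (W.conj_mem _ hφ x)
  have hx0 := norm_nonneg x
  obtain ⟨f, hf, hfp, hs, ω, hω⟩ := W.dichotomy hφ'
  obtain ⟨hr, hr'⟩ := r_pos hε hr₂
  obtain ⟨p₁, hp₁, a₁, ha₁, sa₁, na₁, ea₁, z, sz, ez, nz, hz, n₁⟩ :=
    W.corner144 hf hfp hω hε hε1 hr₁ hx hφ (half_pos hδ)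
  have hθ : 0 < δ / (2 * (‖x‖ + 1)) := by positivity
  obtain ⟨p₂, hp₂, q, hq, eq, hφ₂, n₂⟩ := W.sing144 hφ' hf hfp hs hr (pow_pos hθ 2) (half_pos hε)
  obtain ⟨p, hp, hpin⟩ := glue W hf hfp hp₁ hp₂
  have hff := hfp.isIdempotentElem.eq
  have eq' := swap_eq hq.isSelfAdjoint hfp.isSelfAdjoint hq.isSelfAdjoint eq
  have ez' := swap_eq sz hfp.isSelfAdjoint (IsSelfAdjoint.zero _) ez
  have ea₁' := swap_eq sa₁ hfp.isSelfAdjoint (IsSelfAdjoint.zero _) ea₁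
  have hg : IsStarProjection (f - q) := hq.sub_of_mul_eq_right hfp eq'
  have hQ := hg.one_sub
  set g := f - q with hgdef
  refine ⟨(1 - g) * x * (1 - g) - z, (hx.conjugate_self hQ.isSelfAdjoint).sub sz, ?_, ?_, p, hp,
    a₁, ha₁, sa₁, na₁, ?_⟩
  · have h1 : ‖(1 - g) * x * (1 - g)‖ ≤ ‖x‖ :=
      (norm_mul_le _ _).trans ((mul_le_of_le_one_right (norm_nonneg _) hQ.norm_le).trans
        ((norm_mul_le _ _).trans (mul_le_of_le_one_left (norm_nonneg _) hQ.norm_le)))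
    exact (norm_sub_le _ _).trans (by linarith)
  · have h0 : n2 (φ + conjF φ x) g ≤ δ / (2 * (‖x‖ + 1)) := by
      rw [n2_proj _ hg]
      exact Real.sqrt_le_iff.2 ⟨hθ.le, hφ₂.le⟩
    have h1 := (n2_le_add_left φ (conjF φ x) g).trans h0
    have h2 := (n2_le_add_right φ (conjF φ x) g).trans h0
    rw [n2_conjF] at h2
    have h3 := n2_mul_le φ ((1 - g) * x) g
    have h4 : ‖(1 - g) * x‖ ≤ ‖x‖ :=
      (norm_mul_le _ _).trans (mul_le_of_le_one_left (norm_nonneg _) hQ.norm_le)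
    have h5 := mul_le_mul h4 h1 (n2_nonneg _ _) hx0
    have h6 := n2_add_le φ (g * x + (1 - g) * x * g) z
    have h7 := n2_add_le φ (g * x) ((1 - g) * x * g)
    have h8 : (‖x‖ + 1) * (δ / (2 * (‖x‖ + 1))) = δ / 2 := by field_simp
    rw [show (1 - g) * x * (1 - g) - z - x = -(g * x + (1 - g) * x * g + z) by noncomm_ring,
      n2_neg]
    linarith
  · have hg1 : 1 - f ∈ W.A := sub_mem W.A.one_mem hf
    have c₁ : ∀ i, p₁ i * (1 - f) = (1 - f) * p₁ i := fun i => W.comm _ (hp₁.1 i).1 _ hg1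
    have c₂ : ∀ i, p₂ i * f = f * p₂ i := fun i => W.comm _ (hp₂.1 i).1 _ hf
    have k1 : (1 - f) * (1 - g) = 1 - f := by simp [hgdef, sub_mul, mul_sub, hff, eq']
    have k2 : (1 - g) * (1 - f) = 1 - f :=
      swap_eq hfp.one_sub.isSelfAdjoint hQ.isSelfAdjoint hfp.one_sub.isSelfAdjoint k1
    have k3 : f * (1 - g) = q := by simp [hgdef, mul_sub, hff, eq']
    have k4 : (1 - g) * f = q := by simp [hgdef, sub_mul, hff, eq]
    have e1 : (1 - f) * pinch p₁ ((1 - g) * x * (1 - g) - z) * (1 - f) =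
        (1 - f) * pinch p₁ (x - z) * (1 - f) := by
      rw [← hp₁.pinch_mul_left c₁, ← hp₁.pinch_mul_right c₁, ← hp₁.pinch_mul_left c₁,
        ← hp₁.pinch_mul_right c₁]
      congr 1
      calc _ = ((1 - f) * (1 - g)) * x * ((1 - g) * (1 - f)) - (1 - f) * z * (1 - f) := by
            noncomm_ring
        _ = _ := by rw [k1, k2]; noncomm_ring
    have e2 : f * pinch p₂ ((1 - g) * x * (1 - g) - z) * f = pinch p₂ (q * x * q) := by
      rw [← hp₂.pinch_mul_left c₂, ← hp₂.pinch_mul_right c₂]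
      congr 1
      calc _ = (f * (1 - g)) * x * ((1 - g) * f) - f * (z * f) := by noncomm_ring
        _ = _ := by rw [k3, k4, ez, mul_zero, sub_zero]
    have ea : (1 - f) * a₁ * (1 - f) = a₁ := by
      simp [sub_mul, mul_sub, ea₁, ea₁']
    have e : pinch p ((1 - g) * x * (1 - g) - z) - a₁ =
        (1 - f) * (pinch p₁ (x - z) - a₁) * (1 - f) +
          f * pinch p₂ ((1 - g) * x * (1 - g) - z) * f := by
      rw [hpin, e1, mul_sub (1 - f), sub_mul _ ((1 - f) * a₁), ea]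
      abel
    rw [e]
    refine two_blocks hfp.one_sub hfp hfp.one_sub_mul_self n₁ ?_
    rw [e2]
    refine hp₂.norm_pinch_le_of (by positivity) fun i => ?_
    have hP := (hp₂.1 i).2
    have a1 : ‖p₂ i * q‖ * ‖p₂ i * q‖ = ‖q * p₂ i * q‖ := by
      rw [← CStarRing.norm_star_mul_self, star_mul, hq.isSelfAdjoint.star_eq,
        hP.isSelfAdjoint.star_eq, mul_assoc, ← mul_assoc (p₂ i), hP.isIdempotentElem.eq, mul_assoc]
    have a2 : ‖q * p₂ i‖ = ‖p₂ i * q‖ := by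
      rw [← norm_star, star_mul, hq.isSelfAdjoint.star_eq, hP.isSelfAdjoint.star_eq]
    have a3 : ‖p₂ i * (q * x * q) * p₂ i‖ ≤ ‖p₂ i * q‖ * ‖x‖ * ‖q * p₂ i‖ := by
      rw [show p₂ i * (q * x * q) * p₂ i = p₂ i * q * x * (q * p₂ i) by simp only [mul_assoc]]
      exact norm_mul₃_le
    rw [a2, mul_right_comm, a1] at a3
    have a4 := mul_le_mul_of_nonneg_right (n₂ i) hx0
    have a5 := mul_le_mul_of_nonneg_right hr' hx0
    nlinarith [mul_nonneg hε.le hx0]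

end WS

end Crest.Agent.R109
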